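import Mathlib.Algebra.BigOperators.Fin
import Mathlib.Analysis.Normed.Module.FiniteDimension
import Mathlib.Data.Fintype.BigOperators
import Mathlib.Data.Fintype.Pi
import Mathlib.Data.Int.Interval
import Mathlib.Data.ZMod.Basic
import Mathlib.LinearAlgebra.Dimension.Finrank
import Mathlib.Topology.Order.Lattice
import Mathlib.Topology.UniformSpace.HeineCantor
import Vale.Agent.P264.Geo.Core
import Vale.Agent.P264.MathlibUsed

set_option linter.all false

namespace AFast6682d1x14a
@[reducible] noncomputable def a0 : Module ℝ ℂ := inferInstance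
@[reducible] noncomputable def a1 : NormedSpace ℝ ℝ := inferInstance
@[reducible] noncomputable def a2 {x1 : ℕ} : Module ℝ (Fin x1 → ℂ) := inferInstance
theorem a3 : CovariantClass ℝ ℝ (Function.swap fun x1 x2 => x1 + x2) fun x1 x2 => x1 ≤ x2 := inferInstance
@[reducible] noncomputable def a4 : DistribMulAction ℝ ℂ := inferInstance
theorem a5 : ContinuousSMul ℝ ℝ := inferInstance
@[reducible] noncomputable def a6 : SMulZeroClass ℝ ℂ := inferInstance
@[reducible] def a7 : SMulZeroClass ℝ ℝ := inferInstance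
@[reducible] noncomputable def a8 : DistribSMul ℝ ℂ := inferInstance
@[reducible] noncomputable def a9 {x1 : ℕ} : NormedSpace ℝ (ℝ × P264.Geo.Cm x1) := inferInstance
@[reducible] noncomputable def a10 {x1 : ℕ} : NormedSpace ℝ (Fin x1 → ℂ) := inferInstance
@[reducible] noncomputable def a11 {x1 : ℕ} : Module ℝ (WithLp 2 ((i : Fin x1) → (fun x => ℂ) i)) := inferInstance
theorem a12 : CharZero ℝ := inferInstance
@[reducible] def a13 : DistribMulAction ℝ ℝ := inferInstance
@[reducible] noncomputable def a14 {x1 : ℕ} : Module ℝ (P264.Geo.Cm x1) := inferInstance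
theorem a15 : ContinuousAdd ℂ := inferInstance
theorem a16 : AddLeftMono ℝ := inferInstance
@[reducible] def a17 : AddMonoidWithOne ENNReal := inferInstance
theorem a18 : IsTopologicalRing ℂ := inferInstance
theorem a19 : IsSemitopologicalSemiring ℂ := inferInstance
theorem a20 : IsSemitopologicalRing ℂ := inferInstance
theorem a21 : AddRightReflectLE ℝ := inferInstance
theorem a22 : IsModuleTopology ℝ ℝ := inferInstance
@[reducible] noncomputable def a23 {x1 : ℕ} {x2 : Fin x1} : DistribMulAction ℝ ((fun a => ℂ) x2) := inferInstance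
@[reducible] noncomputable def a24 {x1 : ℕ} {x2 : Fin x1} : SemigroupAction ℝ ((fun a => ℂ) x2) := inferInstance
@[reducible] noncomputable def a25 {x1 : ℕ} {x2 : Fin x1} : MulAction ℝ ((fun a => ℂ) x2) := inferInstance
@[reducible] noncomputable def a26 : NormedSpace ℝ (ℝ × ℝ) := inferInstance
theorem a27 : OrderClosedTopology ℝ := inferInstance
@[reducible] noncomputable def a28 : MulAction ℝ ℂ := inferInstance
theorem a29 : IsTopologicalAddGroup ℂ := inferInstance
theorem a30 : SeparatelyContinuousMul ℂ := inferInstance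
theorem a31 : ContinuousConstSMul ℂ ℂ := inferInstance
theorem a32 : SMulCommClass ℝ ℝ ℂ := inferInstance
theorem a33 : IsRightCancelAdd ℝ := inferInstance
@[reducible] noncomputable def a34 {x1 : Type} [x2 : NormedAddCommGroup x1] {x3 : Type} [x4 : NormedAddCommGroup x3] [x5 : NormedSpace ℝ x1] [x6 : NormedSpace ℝ x3] : NormedSpace ℝ (x1 →L[ℝ] x3) := inferInstance
@[reducible] noncomputable def a35 {x1 : ℕ} : Module ℝ (P264.Geo.Cm x1 →L[ℝ] ℝ) := inferInstance
@[reducible] noncomputable def a36 {x1 : ℕ} : NormedSpace ℝ (P264.Geo.Cm x1 →L[ℝ] ℝ) := inferInstance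
end AFast6682d1x14a
attribute [local instance] AFast6682d1x14a.a0 AFast6682d1x14a.a1 AFast6682d1x14a.a2
  AFast6682d1x14a.a3 AFast6682d1x14a.a4 AFast6682d1x14a.a5 AFast6682d1x14a.a6 AFast6682d1x14a.a7
  AFast6682d1x14a.a8 AFast6682d1x14a.a9 AFast6682d1x14a.a10 AFast6682d1x14a.a11
  AFast6682d1x14a.a12 AFast6682d1x14a.a13 AFast6682d1x14a.a14 AFast6682d1x14a.a15
  AFast6682d1x14a.a16 AFast6682d1x14a.a17 AFast6682d1x14a.a18 AFast6682d1x14a.a19
  AFast6682d1x14a.a20 AFast6682d1x14a.a21 AFast6682d1x14a.a22 AFast6682d1x14a.a23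
  AFast6682d1x14a.a24 AFast6682d1x14a.a25 AFast6682d1x14a.a26 AFast6682d1x14a.a27
  AFast6682d1x14a.a28 AFast6682d1x14a.a29 AFast6682d1x14a.a30 AFast6682d1x14a.a31
  AFast6682d1x14a.a32 AFast6682d1x14a.a33 AFast6682d1x14a.a34 AFast6682d1x14a.a35
  AFast6682d1x14a.a36
namespace AFast6682d1x14b
theorem a0 : ContinuousSMul ℝ ℂ := inferInstance
theorem a1 {x1 : ℕ} : ContinuousSMul ℝ (Fin x1 → ℂ) := inferInstance
theorem a2 {x1 : ℕ} : ContinuousAdd (P264.Geo.Cm x1 →L[ℝ] ℝ) := inferInstance
end AFast6682d1x14b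
attribute [local instance] AFast6682d1x14b.a0 AFast6682d1x14b.a1 AFast6682d1x14b.a2
section

section

/-!
# P264 / Geo : the differential algebra of a Kähler cone

`A` = smooth functions on `ℂᵐ ∖ 0`; `d a = ∂/∂Z_a`, `db a = ∂/∂Z̄_a`; `h` = a potential of a Kähler
metric, homogeneous of degree `(1,1)`; `P a b = h^{ab̄}` (inverse of `h_{ab̄}`), `μ = det (h_{ab̄})`,
`L = log μ`. Everything in `Geo/Alg*.lean` is pure algebra (finite sums in a commutative ring).
-/

noncomputable section

namespace P264.Geo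

/-- Algebraic data of a Kähler cone. -/
structure Cone (m : ℕ) (A : Type) [CommRing A] [Algebra ℂ A] where
  d : Fin m → Derivation ℂ A A
  db : Fin m → Derivation ℂ A A
  dd : ∀ a b F, d a (d b F) = d b (d a F)
  bb : ∀ a b F, db a (db b F) = db b (db a F)
  dbc : ∀ a b F, db b (d a F) = d a (db b F)
  Z : Fin m → A
  W : Fin m → A
  dZ : ∀ a b, d a (Z b) = if a = b then 1 else 0
  bZ : ∀ a b, db a (Z b) = 0
  dW : ∀ a b, d a (W b) = 0
  bW : ∀ a b, db a (W b) = if a = b then 1 else 0
  h : A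
  P : Fin m → Fin m → A
  PH1 : ∀ a c, ∑ b, d a (db b h) * P c b = if a = c then 1 else 0
  PH2 : ∀ b e, ∑ a, d a (db b h) * P a e = if b = e then 1 else 0
  μ : A
  L : A
  dμ : ∀ a, d a μ = μ * d a L
  bμ : ∀ a, db a μ = μ * db a L
  dL : ∀ a, d a L = ∑ b, ∑ c, P b c * d a (d b (db c h))
  bL : ∀ a, db a L = ∑ b, ∑ c, P b c * db a (d b (db c h))
  Eh : ∑ a, Z a * d a h = h
  Ebh : ∑ a, W a * db a h = h

namespace Cone

variable {m : ℕ} {A : Type} [CommRing A] [Algebra ℂ A]

/-- `∂_a ∂̄_b F` -/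
def hs (C : Cone m A) (F : A) (a b : Fin m) : A := C.d a (C.db b F)

/-- the Laplacian `h^{ab̄} F_{ab̄}` -/
def lap (C : Cone m A) (F : A) : A := ∑ a, ∑ b, C.P a b * C.hs F a b

/-- the Euler derivation `Σ Z_a ∂_a` -/
def E (C : Cone m A) : Derivation ℂ A A := ∑ a, C.Z a • C.d a

/-- the conjugate Euler derivation `Σ Z̄_a ∂̄_a` -/
def Eb (C : Cone m A) : Derivation ℂ A A := ∑ a, C.W a • C.db a

/-- `T^{cē} = h^{aē} h^{cb̄} L_{ab̄}` -/
def T (C : Cone m A) (c e : Fin m) : A := ∑ a, ∑ b, C.P a e * C.P c b * C.hs C.L a b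

/-- `σ = - h Δ L` -/
def sig (C : Cone m A) : A := -(C.h * C.lap C.L)

/-- the linearisation of `σ` at `h` in the direction `f` -/
def Lin (C : Cone m A) (f : A) : A :=
  -(f * C.lap C.L) + C.h * (∑ c, ∑ e, C.T c e * C.hs f c e) - C.h * C.lap (C.lap f)

/-- `ω^a = h h^{ab̄} v_{b̄}` -/
def om (C : Cone m A) (v : A) (a : Fin m) : A := C.h * ∑ b, C.P a b * C.db b v

/-- `ω̄^c = h h^{bc̄} v_b` -/
def omb (C : Cone m A) (v : A) (c : Fin m) : A := C.h * ∑ b, C.P b c * C.d b v

/-- `Σ ∂̄_c ω^a ∂_a ω̄^c` -/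
def B2 (C : Cone m A) (v : A) : A := ∑ a, ∑ c, C.db c (C.om v a) * C.d a (C.omb v c)

/-- `⟨∂F, ∂̄G⟩ = h^{ab̄} F_a G_{b̄}` -/
def ip (C : Cone m A) (F G : A) : A := ∑ a, ∑ b, C.P a b * (C.d a F * C.db b G)

/-- A pair of functionals with the integration by parts rules of
`J0 F = ∫ κ(h) F`, `J1 F = ∫ κ'(h) F`. -/
structure Func (C : Cone m A) where
  J0 : A →ₗ[ℂ] ℂ
  J1 : A →ₗ[ℂ] ℂ
  ibp : ∀ a F, J0 (C.d a F) = -J1 (C.d a C.h * F)
  ibpb : ∀ a F, J0 (C.db a F) = -J1 (C.db a C.h * F)

end Cone

end P264.Geo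

end
end
end

section

section

/-! # P264 / Geo / Sm : the algebra of smooth complex functions on an open set -/

open scoped ContDiff
open TopologicalSpace (Opens)

noncomputable section

namespace P264.Geo

variable {V : Type} [NormedAddCommGroup V] [NormedSpace ℝ V]

open Classical in
/-- extension by zero -/
def ext (O : Opens V) (F : O → ℂ) (x : V) : ℂ := if h : x ∈ O then F ⟨x, h⟩ else 0

theorem ext_apply (O : Opens V) (F : O → ℂ) (x : V) (hx : x ∈ O) : ext O F x = F ⟨x, hx⟩ := by
  simp [ext, hx]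

theorem ext_coe (O : Opens V) (F : O → ℂ) (x : O) : ext O F x = F x := by
  simp [ext]

/-- The algebra of smooth functions `O → ℂ`. -/
def Sm (O : Opens V) : Subalgebra ℂ (O → ℂ) where
  carrier := {F | ContDiffOn ℝ ∞ (ext O F) O}
  mul_mem' := by
    intro F G hF hG
    refine ContDiffOn.congr (ContDiffOn.mul hF hG) ?_
    intro x hx
    simp [ext_apply O _ x hx]
  add_mem' := by
    intro F G hF hG
    refine ContDiffOn.congr (ContDiffOn.add hF hG) ?_
    intro x hx
    simp [ext_apply O _ x hx]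
  algebraMap_mem' := by
    intro c
    refine ContDiffOn.congr (contDiffOn_const (c := c)) ?_
    intro x hx
    simp [ext_apply O _ x hx]

namespace Sm

variable {O : Opens V}

/-- the function `V → ℂ` (zero outside `O`) -/
def fn (F : Sm O) : V → ℂ := ext O F.1

theorem fn_smooth (F : Sm O) : ContDiffOn ℝ ∞ (fn F) O := F.2

/-- restriction to `O` -/
def mk (f : V → ℂ) (hf : ContDiffOn ℝ ∞ f O) : Sm O :=
  ⟨fun x => f x, ContDiffOn.congr hf fun x hx => by simp [ext_apply O _ x hx]⟩

theorem mk_fn (f : V → ℂ) (hf : ContDiffOn ℝ ∞ f O) {x : V} (hx : x ∈ O) : (fn (mk f hf)) x = f x := by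
  simp only [fn, mk, ext_apply O _ x hx]

theorem mk_eventuallyEq (f : V → ℂ) (hf : ContDiffOn ℝ ∞ f O) {x : V} (hx : x ∈ O) :
    (fn (mk f hf)) =ᶠ[nhds x] f := by
  filter_upwards [O.isOpen.mem_nhds hx] with y hy using mk_fn f hf hy

@[ext] theorem ext' {F G : Sm O} (h : ∀ x ∈ O, (fn F) x = (fn G) x) : F = G := by
  apply Subtype.ext
  funext x
  have := h x x.2
  simpa only [fn, ext_coe] using this

theorem fn_add (F G : Sm O) {x : V} (hx : x ∈ O) : (fn (F + G)) x = (fn F) x + (fn G) x := by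
  simp only [fn, AddMemClass.coe_add, ext_apply O _ x hx, Pi.add_apply]

theorem fn_mul (F G : Sm O) {x : V} (hx : x ∈ O) : (fn (F * G)) x = (fn F) x * (fn G) x := by
  simp only [fn, MulMemClass.coe_mul, ext_apply O _ x hx, Pi.mul_apply]

theorem fn_smul (c : ℂ) (F : Sm O) {x : V} (hx : x ∈ O) : (fn (c • F)) x = c * (fn F) x := by
  simp only [fn, SetLike.val_smul, ext_apply O _ x hx, Pi.smul_apply, smul_eq_mul]

theorem fn_neg (F : Sm O) {x : V} (hx : x ∈ O) : (fn (-F)) x = -(fn F) x := by
  simp [fn, ext_apply O _ x hx]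

theorem fn_sub (F G : Sm O) {x : V} (hx : x ∈ O) : (fn (F - G)) x = (fn F) x - (fn G) x := by
  simp only [fn, AddSubgroupClass.coe_sub, ext_apply O _ x hx, Pi.sub_apply]

theorem fn_one {x : V} (hx : x ∈ O) : (fn (1 : Sm O)) x = 1 := by
  simp only [fn, OneMemClass.coe_one, ext_apply O _ x hx, Pi.one_apply]

theorem fn_zero {x : V} (hx : x ∈ O) : (fn (0 : Sm O)) x = 0 := by
  simp only [fn, ZeroMemClass.coe_zero, ext_apply O _ x hx, Pi.zero_apply]

/-- evaluation at a point of `O` -/
def ev (x : O) : Sm O →ₐ[ℂ] ℂ := (Pi.evalAlgHom ℂ (fun _ : O => ℂ) x).comp (Sm O).val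

theorem ev_apply (x : O) (F : Sm O) : ev x F = (fn F) x := by
  simp only [ev, AlgHom.coe_comp, Subalgebra.coe_val, Function.comp_apply, Pi.evalAlgHom_apply, fn, ext_coe]

theorem fn_sum {ι : Type} (s : Finset ι) (F : ι → Sm O) {x : V} (hx : x ∈ O) :
    (fn (∑ i ∈ s, F i)) x = ∑ i ∈ s, (fn (F i)) x := by
  have h := map_sum (ev (⟨x, hx⟩ : O)) F s
  rw [ev_apply] at h
  rw [h]
  exact Finset.sum_congr rfl fun i _ => ev_apply _ _

theorem fn_pow (F : Sm O) (k : ℕ) {x : V} (hx : x ∈ O) : (fn (F ^ k)) x = (fn F) x ^ k := by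
  have h := map_pow (ev (⟨x, hx⟩ : O)) F k
  rw [ev_apply, ev_apply] at h
  exact h

theorem differentiableAt (F : Sm O) {x : V} (hx : x ∈ O) : DifferentiableAt ℝ (fn F) x :=
  ((fn_smooth F).contDiffAt (O.isOpen.mem_nhds hx)).differentiableAt (by simp)

theorem fderiv_smooth (F : Sm O) (v : V) : ContDiffOn ℝ ∞ (fun x => fderiv ℝ (fn F) x v) O :=
  ((fn_smooth F).fderiv_of_isOpen O.isOpen (by simp)).clm_apply contDiffOn_const

/-- directional derivative -/
def D (v : V) : Derivation ℂ (Sm O) (Sm O) :=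
  Derivation.mk'
    { toFun := fun F => mk (fun x => fderiv ℝ (fn F) x v) (fderiv_smooth F v)
      map_add' := by
        intro F G
        apply ext'
        intro x hx
        rw [fn_add _ _ hx, mk_fn _ _ hx, mk_fn _ _ hx, mk_fn _ _ hx]
        have : (fn (F + G)) =ᶠ[nhds x] fun y => (fn F) y + (fn G) y := by
          filter_upwards [O.isOpen.mem_nhds hx] with y hy using fn_add F G hy
        rw [this.fderiv_eq, fderiv_fun_add (differentiableAt F hx) (differentiableAt G hx)]
        rfl
      map_smul' := by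
        intro c F
        apply ext'
        intro x hx
        rw [RingHom.id_apply, fn_smul _ _ hx, mk_fn _ _ hx, mk_fn _ _ hx]
        have : (fn (c • F)) =ᶠ[nhds x] fun y => c * (fn F) y := by
          filter_upwards [O.isOpen.mem_nhds hx] with y hy using fn_smul c F hy
        rw [this.fderiv_eq, fderiv_const_mul (differentiableAt F hx)]
        rfl }
    (by
      intro F G
      apply ext'
      intro x hx
      simp only [LinearMap.coe_mk, AddHom.coe_mk, smul_eq_mul]
      rw [fn_add _ _ hx, fn_mul _ _ hx, fn_mul _ _ hx, mk_fn _ _ hx, mk_fn _ _ hx, mk_fn _ _ hx]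
      have : (fn (F * G)) =ᶠ[nhds x] fun y => (fn F) y * (fn G) y := by
        filter_upwards [O.isOpen.mem_nhds hx] with y hy using fn_mul F G hy
      rw [this.fderiv_eq, fderiv_fun_mul (differentiableAt F hx) (differentiableAt G hx)]
      rfl)

theorem D_fn (v : V) (F : Sm O) {x : V} (hx : x ∈ O) : (fn (D v F)) x = fderiv ℝ (fn F) x v :=
  mk_fn _ (fderiv_smooth F v) hx

theorem D_mk (v : V) (f : V → ℂ) (hf : ContDiffOn ℝ ∞ f O) {x : V} (hx : x ∈ O) :
    (fn (D v (mk f hf))) x = fderiv ℝ f x v := by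
  rw [D_fn v _ hx, (mk_eventuallyEq f hf hx).fderiv_eq]

theorem D_comm (v w : V) (F : Sm O) : D v (D w F) = D w (D v F) := by
  apply ext'
  intro x hx
  have key : ∀ v w : V, (fn (D v (D w F))) x = fderiv ℝ (fderiv ℝ (fn F)) x v w := by
    intro v w
    have h1 : (fn (D w F)) =ᶠ[nhds x] fun y => fderiv ℝ (fn F) y w := by
      filter_upwards [O.isOpen.mem_nhds hx] with y hy using D_fn w F hy
    rw [D_fn v _ hx, h1.fderiv_eq]
    have h2 : DifferentiableAt ℝ (fderiv ℝ (fn F)) x := by
      have := ((fn_smooth F).fderiv_of_isOpen O.isOpen (m := ∞) (by simp)).contDiffAt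
        (O.isOpen.mem_nhds hx)
      exact this.differentiableAt (by simp)
    have h3 := h2.hasFDerivAt.clm_apply (hasFDerivAt_const w x)
    rw [h3.fderiv]
    simp
  rw [key, key]
  have h4 : ContDiffAt ℝ 2 (fn F) x :=
    ((fn_smooth F).contDiffAt (O.isOpen.mem_nhds hx)).of_le (WithTop.coe_le_coe.2 le_top)
  exact (h4.isSymmSndFDerivAt (by simp)).eq v w

theorem ofReal_smooth (g : V → ℝ) (hg : ContDiffOn ℝ ∞ g O) :
    ContDiffOn ℝ ∞ (fun x => ((g x : ℝ) : ℂ)) O :=
  Complex.ofRealCLM.contDiff.comp_contDiffOn hg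

/-- a real-valued smooth function as an element of `Sm O` -/
def ofR (g : V → ℝ) (hg : ContDiffOn ℝ ∞ g O) : Sm O :=
  mk (fun x => ((g x : ℝ) : ℂ)) (ofReal_smooth g hg)

theorem ofR_fn (g : V → ℝ) (hg : ContDiffOn ℝ ∞ g O) {x : V} (hx : x ∈ O) :
    (fn (ofR g hg)) x = (g x : ℂ) := mk_fn _ _ hx

theorem D_ofR (v : V) (g : V → ℝ) (hg : ContDiffOn ℝ ∞ g O) {x : V} (hx : x ∈ O) :
    (fn (D v (ofR g hg))) x = ((fderiv ℝ g x v : ℝ) : ℂ) := by
  rw [ofR, D_mk v _ _ hx]
  have h1 : DifferentiableAt ℝ g x :=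
    (hg.contDiffAt (O.isOpen.mem_nhds hx)).differentiableAt (by simp)
  have h2 := Complex.ofRealCLM.hasFDerivAt.comp x h1.hasFDerivAt
  have h3 : HasFDerivAt (fun x => ((g x : ℝ) : ℂ)) (Complex.ofRealCLM.comp (fderiv ℝ g x)) x := h2
  rw [h3.fderiv]
  simp

end Sm

end P264.Geo

end
end
end

section

section

/-! # P264 / Geo / Der : Jacobi's formula for derivations of a commutative ring -/

noncomputable section

namespace P264.Geo

variable {m : ℕ} {A : Type} [CommRing A] [Algebra ℂ A]

theorem der_prodDer {ι : Type} [DecidableEq ι] (δ : Derivation ℂ A A) (s : Finset ι) (f : ι → A) :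
    δ (∏ i ∈ s, f i) = ∑ i ∈ s, (∏ k ∈ s.erase i, f k) * δ (f i) := by
  induction s using Finset.cons_induction with
  | empty => simp only [Finset.prod_empty, Derivation.map_one_eq_zero, Finset.notMem_empty, not_false_eq_true, Finset.erase_eq_of_notMem, one_mul, Finset.sum_empty]
  | cons a s ha ih =>
    rw [Finset.prod_cons, Derivation.leibniz, smul_eq_mul, smul_eq_mul, ih, Finset.sum_cons,
      Finset.erase_cons, Finset.mul_sum, add_comm]
    congr 1
    refine Finset.sum_congr rfl fun i hi => ?_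
    have hai : a ≠ i := fun h => ha (h ▸ hi)
    rw [← mul_assoc]
    congr 1
    rw [Finset.cons_eq_insert, Finset.erase_insert_of_ne hai, Finset.prod_insert]
    exact fun h => ha (Finset.mem_of_mem_erase h)

/-- Jacobi's formula. (`Matrix.det_apply`, Leibniz rule for finite products, or induction;
`Vale/Agent/P264/Jac.lean` contains the analogue for Fréchet derivatives.) -/
theorem der_det (δ : Derivation ℂ A A) (H : Matrix (Fin m) (Fin m) A) :
    δ H.det = ∑ i, ∑ j, H.adjugate j i * δ (H i j) := by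
  rw [Finset.sum_comm]
  have h1 : ∀ j, ∑ i, H.adjugate j i * δ (H i j) =
      (H.updateCol j (fun i => δ (H i j))).det := by
    intro j
    rw [← Matrix.cramer_apply, Matrix.cramer_eq_adjugate_mulVec]
    rfl
  rw [Finset.sum_congr rfl fun j _ => h1 j, Matrix.det_apply, map_sum]
  simp only [Matrix.det_apply]
  rw [Finset.sum_comm]
  refine Finset.sum_congr rfl fun σ _ => ?_
  rw [Units.smul_def, Derivation.map_smul_of_tower, der_prodDer, Finset.smul_sum]
  refine Finset.sum_congr rfl fun j _ => ?_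
  rw [Units.smul_def, ← Finset.mul_prod_erase Finset.univ _ (Finset.mem_univ j)]
  congr 1
  rw [Matrix.updateCol_self, mul_comm]
  congr 1
  refine Finset.prod_congr rfl fun k hk => ?_
  rw [Matrix.updateCol_ne (Finset.ne_of_mem_erase hk)]

/-- Jacobi's formula with the inverse matrix. -/
theorem der_det_inv (δ : Derivation ℂ A A) (H : Matrix (Fin m) (Fin m) A) (hH : IsUnit H.det) :
    δ H.det = H.det * ∑ i, ∑ j, H⁻¹ j i * δ (H i j) := by
  rw [der_det, Finset.mul_sum]
  refine Finset.sum_congr rfl fun i _ => ?_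
  rw [Finset.mul_sum]
  refine Finset.sum_congr rfl fun j _ => ?_
  rw [Matrix.inv_def, Matrix.smul_apply, smul_eq_mul, ← mul_assoc, ← mul_assoc,
    Ring.mul_inverse_cancel _ hH, one_mul]

end P264.Geo

end
end
end

section

section

/-! # P264 / Geo / CBase : Wirtinger derivations on smooth functions on `ℂᵐ ∖ 0` -/

open scoped ContDiff ComplexOrder
open TopologicalSpace (Opens)

noncomputable section

namespace P264.Geo

/-- `ℂᵐ ∖ 0` -/
def Om (m : ℕ) : Opens (Cm m) := ⟨{Z | Z ≠ 0}, isOpen_ne⟩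

theorem mem_Om {m : ℕ} {Z : Cm m} : Z ∈ Om m ↔ Z ≠ 0 := Iff.rfl

/-- A Kähler cone potential on `ℂᵐ ∖ 0`. -/
structure IsCone (m : ℕ) (h : Cm m → ℝ) : Prop where
  smooth : ContDiffOn ℝ ∞ h (Om m)
  pos : ∀ Z, Z ≠ 0 → 0 < h Z
  homog : ∀ (c : ℂ) Z, Z ≠ 0 → c ≠ 0 → h (c • Z) = ‖c‖ ^ 2 * h Z
  posDef : ∀ Z, Z ≠ 0 → (cHess h Z).PosDef

/-- smooth functions on `ℂᵐ ∖ 0` -/
abbrev SA (m : ℕ) : Type := Sm (Om m)

variable {m : ℕ}

/-- `∂_a` on smooth functions -/
def dA (a : Fin m) : Derivation ℂ (SA m) (SA m) :=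
  (1 / 2 : ℂ) • (Sm.D (Pi.single a 1) - Complex.I • Sm.D (Pi.single a Complex.I))

/-- `∂̄_a` on smooth functions -/
def dbA (a : Fin m) : Derivation ℂ (SA m) (SA m) :=
  (1 / 2 : ℂ) • (Sm.D (Pi.single a 1) + Complex.I • Sm.D (Pi.single a Complex.I))

theorem cbase_dA_apply (a : Fin m) (F : SA m) : dA a F =
    (1 / 2 : ℂ) • (Sm.D (Pi.single a 1) F - Complex.I • Sm.D (Pi.single a Complex.I) F) := rfl

theorem cbase_dbA_apply (a : Fin m) (F : SA m) : dbA a F =
    (1 / 2 : ℂ) • (Sm.D (Pi.single a 1) F + Complex.I • Sm.D (Pi.single a Complex.I) F) := rfl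

theorem fn_dA (a : Fin m) (F : SA m) {Z : Cm m} (hZ : Z ≠ 0) :
    Sm.fn (dA a F) Z = dz a (Sm.fn F) Z := by
  have h : Z ∈ Om m := hZ
  rw [cbase_dA_apply, Sm.fn_smul _ _ h, Sm.fn_sub _ _ h, Sm.fn_smul _ _ h, Sm.D_fn _ _ h,
    Sm.D_fn _ _ h, dz]
  ring

theorem fn_dbA (a : Fin m) (F : SA m) {Z : Cm m} (hZ : Z ≠ 0) :
    Sm.fn (dbA a F) Z = dzb a (Sm.fn F) Z := by
  have h : Z ∈ Om m := hZ
  rw [cbase_dbA_apply, Sm.fn_smul _ _ h, Sm.fn_add _ _ h, Sm.fn_smul _ _ h, Sm.D_fn _ _ h,
    Sm.D_fn _ _ h, dzb]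
  ring

theorem dA_comm (a b : Fin m) (F : SA m) : dA a (dA b F) = dA b (dA a F) := by
  simp only [cbase_dA_apply, smul_sub, smul_smul, map_sub, Derivation.map_smul]
  have e : ∀ v w : Cm m, Sm.D v (Sm.D w F) = Sm.D w (Sm.D v F) := fun v w => Sm.D_comm v w F
  rw [e (Pi.single a 1) (Pi.single b 1), e (Pi.single a 1) (Pi.single b Complex.I),
    e (Pi.single a Complex.I) (Pi.single b 1), e (Pi.single a Complex.I) (Pi.single b Complex.I)]
  module

theorem dbA_comm (a b : Fin m) (F : SA m) : dbA a (dbA b F) = dbA b (dbA a F) := by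
  simp only [cbase_dbA_apply, Derivation.map_smul, map_add, smul_add, smul_smul]
  have e : ∀ v w : Cm m, Sm.D v (Sm.D w F) = Sm.D w (Sm.D v F) := fun v w => Sm.D_comm v w F
  rw [e (Pi.single a 1) (Pi.single b 1), e (Pi.single a 1) (Pi.single b Complex.I),
    e (Pi.single a Complex.I) (Pi.single b 1), e (Pi.single a Complex.I) (Pi.single b Complex.I)]
  module

theorem dbA_dA_comm (a b : Fin m) (F : SA m) : dbA b (dA a F) = dA a (dbA b F) := by
  simp only [cbase_dA_apply, cbase_dbA_apply, Derivation.map_smul, map_add, map_sub, smul_add,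
    smul_sub, smul_smul]
  have e : ∀ v w : Cm m, Sm.D v (Sm.D w F) = Sm.D w (Sm.D v F) := fun v w => Sm.D_comm v w F
  rw [e (Pi.single a 1) (Pi.single b 1), e (Pi.single a 1) (Pi.single b Complex.I),
    e (Pi.single a Complex.I) (Pi.single b 1), e (Pi.single a Complex.I) (Pi.single b Complex.I)]
  module

theorem coord_smooth (a : Fin m) : ContDiffOn ℝ ∞ (fun Z : Cm m => Z a) (Om m) :=
  (contDiff_apply ℝ ℂ a).contDiffOn

theorem coordc_smooth (a : Fin m) :
    ContDiffOn ℝ ∞ (fun Z : Cm m => (starRingEnd ℂ) (Z a)) (Om m) :=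
  (Complex.conjCLE.contDiff.comp (contDiff_apply ℝ ℂ a)).contDiffOn

/-- the coordinate function `Z_a` -/
def ZA (a : Fin m) : SA m := Sm.mk (fun Z => Z a) (coord_smooth a)

/-- the coordinate function `Z̄_a` -/
def WA (a : Fin m) : SA m := Sm.mk (fun Z => (starRingEnd ℂ) (Z a)) (coordc_smooth a)

theorem cbase_fderiv_coord (b : Fin m) (Z v : Cm m) :
    fderiv ℝ (fun Z : Cm m => Z b) Z v = v b := by
  have h : HasFDerivAt (fun Z : Cm m => Z b)
      (ContinuousLinearMap.proj (R := ℝ) (φ := fun _ : Fin m => ℂ) b) Z :=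
    (ContinuousLinearMap.proj (R := ℝ) (φ := fun _ : Fin m => ℂ) b).hasFDerivAt
  rw [h.fderiv]
  rfl

theorem cbase_fderiv_coordc (b : Fin m) (Z v : Cm m) :
    fderiv ℝ (fun Z : Cm m => (starRingEnd ℂ) (Z b)) Z v = (starRingEnd ℂ) (v b) := by
  have h : HasFDerivAt (fun Z : Cm m => (starRingEnd ℂ) (Z b))
      ((Complex.conjCLE : ℂ →L[ℝ] ℂ).comp
        (ContinuousLinearMap.proj (R := ℝ) (φ := fun _ : Fin m => ℂ) b)) Z :=
    ((Complex.conjCLE : ℂ →L[ℝ] ℂ).comp
        (ContinuousLinearMap.proj (R := ℝ) (φ := fun _ : Fin m => ℂ) b)).hasFDerivAt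
  rw [h.fderiv]
  rfl

theorem cbase_fn_ite (p : Prop) [Decidable p] {Z : Cm m} (hZ : Z ∈ Om m) :
    Sm.fn (if p then (1 : SA m) else 0) Z = if p then 1 else 0 := by
  split_ifs
  · exact Sm.fn_one hZ
  · exact Sm.fn_zero hZ

theorem dA_ZA (a b : Fin m) : dA a (ZA b) = if a = b then 1 else 0 := by
  apply Sm.ext'
  intro Z hZ
  rw [cbase_fn_ite _ hZ, cbase_dA_apply, Sm.fn_smul _ _ hZ, Sm.fn_sub _ _ hZ, Sm.fn_smul _ _ hZ,
    ZA, Sm.D_mk _ _ _ hZ, Sm.D_mk _ _ _ hZ, cbase_fderiv_coord, cbase_fderiv_coord]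
  by_cases h : a = b
  · subst h
    simp only [Pi.single_eq_same, if_true]
    linear_combination (-1 / 2 : ℂ) * Complex.I_mul_I
  · simp [h]

theorem dbA_ZA (a b : Fin m) : dbA a (ZA b) = 0 := by
  apply Sm.ext'
  intro Z hZ
  rw [Sm.fn_zero hZ, cbase_dbA_apply, Sm.fn_smul _ _ hZ, Sm.fn_add _ _ hZ, Sm.fn_smul _ _ hZ,
    ZA, Sm.D_mk _ _ _ hZ, Sm.D_mk _ _ _ hZ, cbase_fderiv_coord, cbase_fderiv_coord]
  by_cases h : a = b
  · subst h
    simp only [Pi.single_eq_same]
    linear_combination (1 / 2 : ℂ) * Complex.I_mul_I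
  · simp only [one_div, Pi.single_eq_of_ne (Ne.symm h), mul_zero, add_zero]

theorem dA_WA (a b : Fin m) : dA a (WA b) = 0 := by
  apply Sm.ext'
  intro Z hZ
  rw [Sm.fn_zero hZ, cbase_dA_apply, Sm.fn_smul _ _ hZ, Sm.fn_sub _ _ hZ, Sm.fn_smul _ _ hZ,
    WA, Sm.D_mk _ _ _ hZ, Sm.D_mk _ _ _ hZ, cbase_fderiv_coordc, cbase_fderiv_coordc]
  by_cases h : a = b
  · subst h
    simp only [Pi.single_eq_same, map_one, Complex.conj_I]
    linear_combination (1 / 2 : ℂ) * Complex.I_mul_I
  · simp only [one_div, Pi.single_eq_of_ne (Ne.symm h), map_zero, mul_zero, sub_self]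

theorem dbA_WA (a b : Fin m) : dbA a (WA b) = if a = b then 1 else 0 := by
  apply Sm.ext'
  intro Z hZ
  rw [cbase_fn_ite _ hZ, cbase_dbA_apply, Sm.fn_smul _ _ hZ, Sm.fn_add _ _ hZ, Sm.fn_smul _ _ hZ,
    WA, Sm.D_mk _ _ _ hZ, Sm.D_mk _ _ _ hZ, cbase_fderiv_coordc, cbase_fderiv_coordc]
  by_cases h : a = b
  · subst h
    simp only [Pi.single_eq_same, if_true, map_one, Complex.conj_I]
    linear_combination (-1 / 2 : ℂ) * Complex.I_mul_I
  · simp only [one_div, ne_eq, h, not_false_eq_true, Pi.single_eq_of_ne', map_zero, mul_zero, add_zero, ↓reduceIte]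

end P264.Geo

end
end
end
namespace AFast6682d1x546a
@[reducible] noncomputable def a0 {x1 : ℕ} : Sub ↥(P264.Geo.Sm (P264.Geo.Om x1)) := inferInstance
@[reducible] noncomputable def a1 {x1 : ℕ} : CommRing ↥(P264.Geo.Sm (P264.Geo.Om x1)) := inferInstance
theorem a2 {x1 : ℕ} : AddSubgroupClass (Subalgebra ℂ (↥(P264.Geo.Om x1) → ℂ)) (↥(P264.Geo.Om x1) → ℂ) := inferInstance
@[reducible] noncomputable def a3 {x1 : ℕ} : Zero ↥(P264.Geo.Sm (P264.Geo.Om x1)) := inferInstance
@[reducible] noncomputable def a4 {x1 : ℕ} : Zero (P264.Geo.SA x1) := inferInstance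
@[reducible] noncomputable def a5 {x1 : ℕ} : Sub (P264.Geo.SA x1) := inferInstance
theorem a6 {x1 : ℕ} : ZeroMemClass (Subalgebra ℂ (↥(P264.Geo.Om x1) → ℂ)) (↥(P264.Geo.Om x1) → ℂ) := inferInstance
theorem a7 {x1 : ℕ} : AddSubmonoidClass (Subalgebra ℂ (↥(P264.Geo.Om x1) → ℂ)) (↥(P264.Geo.Om x1) → ℂ) := inferInstance
@[reducible] noncomputable def a8 {x1 : ℕ} : AddCommMagma (P264.Geo.SA x1) := inferInstance
@[reducible] noncomputable def a9 {x1 : ℕ} : AddCommSemigroup (P264.Geo.SA x1) := inferInstance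
@[reducible] noncomputable def a10 {x1 : ℕ} : SMulZeroClass (P264.Geo.SA x1) (P264.Geo.SA x1) := inferInstance
@[reducible] noncomputable def a11 {x1 : ℕ} : Module ℂ (P264.Geo.SA x1) := inferInstance
end AFast6682d1x546a
attribute [local instance] AFast6682d1x546a.a0 AFast6682d1x546a.a1 AFast6682d1x546a.a2
  AFast6682d1x546a.a3 AFast6682d1x546a.a4 AFast6682d1x546a.a5 AFast6682d1x546a.a6
  AFast6682d1x546a.a7 AFast6682d1x546a.a8 AFast6682d1x546a.a9 AFast6682d1x546a.a10
  AFast6682d1x546a.a11
namespace AFast6682d1x546b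
@[reducible] noncomputable def a0 {x1 : ℕ} : SMul (P264.Geo.SA x1) (Derivation ℂ (P264.Geo.SA x1) (P264.Geo.SA x1)) := inferInstance
@[reducible] noncomputable def a1 {x1 : ℕ} : DistribMulAction (P264.Geo.SA x1) (P264.Geo.SA x1) := inferInstance
theorem a2 {x1 : ℕ} : AddHomClass (Derivation ℂ (P264.Geo.SA x1) (P264.Geo.SA x1)) (P264.Geo.SA x1) (P264.Geo.SA x1) := inferInstance
@[reducible] noncomputable def a3 {x1 : ℕ} : SMulZeroClass ℂ (P264.Geo.SA x1) := inferInstance
@[reducible] noncomputable def a4 {x1 : ℕ} : DistribSMul ℂ (P264.Geo.SA x1) := inferInstance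
theorem a5 {x1 : ℕ} : SMulCommClass (P264.Geo.SA x1) (P264.Geo.SA x1) (P264.Geo.SA x1) := inferInstance
@[reducible] noncomputable def a6 {x1 : ℕ} : SMulZeroClass ℂ ↥(P264.Geo.Sm (P264.Geo.Om x1)) := inferInstance
@[reducible] noncomputable def a7 {x1 : ℕ} : DistribSMul ℂ ↥(P264.Geo.Sm (P264.Geo.Om x1)) := inferInstance
@[reducible] noncomputable def a8 {x1 : ℕ} : Sub (Derivation ℂ ↥(P264.Geo.Sm (P264.Geo.Om x1)) ↥(P264.Geo.Sm (P264.Geo.Om x1))) := inferInstance
end AFast6682d1x546b
attribute [local instance] AFast6682d1x546b.a0 AFast6682d1x546b.a1 AFast6682d1x546b.a2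
  AFast6682d1x546b.a3 AFast6682d1x546b.a4 AFast6682d1x546b.a5 AFast6682d1x546b.a6
  AFast6682d1x546b.a7 AFast6682d1x546b.a8

section

section

/-! # P264 / Geo / ConeInst : a cone potential gives a `Cone` over the algebra of smooth functions -/

open scoped ContDiff ComplexOrder
open TopologicalSpace (Opens)

noncomputable section

namespace P264.Geo

variable {m : ℕ}

/-- the potential as an element of `SA m` -/
def hA {h : Cm m → ℝ} (hh : IsCone m h) : SA m := Sm.ofR h hh.smooth

/-- the matrix `h_{ab̄}` over `SA m` -/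
def HA {h : Cm m → ℝ} (hh : IsCone m h) : Matrix (Fin m) (Fin m) (SA m) :=
  Matrix.of fun a b => dA a (dbA b (hA hh))

theorem ci_dz_congr {f g : Cm m → ℂ} {Z : Cm m} (hfg : f =ᶠ[nhds Z] g) (a : Fin m) :
    dz a f Z = dz a g Z := by
  unfold dz
  rw [hfg.fderiv_eq]

theorem ci_dzb_congr {f g : Cm m → ℂ} {Z : Cm m} (hfg : f =ᶠ[nhds Z] g) (a : Fin m) :
    dzb a f Z = dzb a g Z := by
  unfold dzb
  rw [hfg.fderiv_eq]

theorem ci_fn_hA {h : Cm m → ℝ} (hh : IsCone m h) {Z : Cm m} (hZ : Z ≠ 0) :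
    Sm.fn (hA hh) =ᶠ[nhds Z] fun y => (h y : ℂ) := by
  filter_upwards [(Om m).isOpen.mem_nhds (mem_Om.2 hZ)] with y hy using Sm.ofR_fn h hh.smooth hy

theorem fn_HA {h : Cm m → ℝ} (hh : IsCone m h) (a b : Fin m) {Z : Cm m} (hZ : Z ≠ 0) :
    Sm.fn (HA hh a b) Z = cHess h Z a b := by
  have h1 : Sm.fn (dbA b (hA hh)) =ᶠ[nhds Z] dzb b fun y => (h y : ℂ) := by
    filter_upwards [(Om m).isOpen.mem_nhds (mem_Om.2 hZ)] with y hy
    rw [fn_dbA b (hA hh) (mem_Om.1 hy), ci_dzb_congr (ci_fn_hA hh (mem_Om.1 hy))]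
  have h2 : Sm.fn (dA a (dbA b (hA hh))) Z = dz a (dzb b fun y => (h y : ℂ)) Z := by
    rw [fn_dA a _ hZ, ci_dz_congr h1]
  exact h2

theorem fn_det_HA {h : Cm m → ℝ} (hh : IsCone m h) {Z : Cm m} (hZ : Z ≠ 0) :
    Sm.fn (HA hh).det Z = (cHess h Z).det := by
  have h1 := RingHom.map_det (Sm.ev (⟨Z, hZ⟩ : Om m)).toRingHom (HA hh)
  have h2 : (Sm.ev (⟨Z, hZ⟩ : Om m)).toRingHom (HA hh).det = Sm.fn (HA hh).det Z :=
    Sm.ev_apply _ _
  rw [← h2, h1]
  congr 1
  ext a b
  have h3 : (Sm.ev (⟨Z, hZ⟩ : Om m)).toRingHom (HA hh a b) = Sm.fn (HA hh a b) Z :=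
    Sm.ev_apply _ _
  rw [← fn_HA hh a b hZ, ← h3]
  rfl

theorem ci_det_pos {h : Cm m → ℝ} (hh : IsCone m h) {Z : Cm m} (hZ : Z ≠ 0) :
    0 < (cHess h Z).det.re ∧ ((cHess h Z).det.re : ℂ) = (cHess h Z).det := by
  have h1 := (hh.posDef Z hZ).det_pos
  rw [Complex.lt_def] at h1
  refine ⟨by simpa only [Complex.zero_re] using h1.1, ?_⟩
  apply Complex.ext
  · simp
  · simpa using h1.2

/-- A smooth function without zeros is a unit. -/
theorem isUnit_of_fn_ne (F : SA m) (hF : ∀ Z, Z ≠ 0 → Sm.fn F Z ≠ 0) : IsUnit F := by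
  have h1 : ContDiffOn ℝ ∞ (fun Z => (Sm.fn F Z)⁻¹) (Om m) :=
    (Sm.fn_smooth F).inv fun Z hZ => hF Z (mem_Om.1 hZ)
  refine IsUnit.of_mul_eq_one (Sm.mk _ h1) ?_
  apply Sm.ext'
  intro Z hZ
  rw [Sm.fn_mul _ _ hZ, Sm.mk_fn _ _ hZ, Sm.fn_one hZ]
  exact mul_inv_cancel₀ (hF Z (mem_Om.1 hZ))

theorem isUnit_det_HA {h : Cm m → ℝ} (hh : IsCone m h) : IsUnit (HA hh).det := by
  apply isUnit_of_fn_ne
  intro Z hZ
  rw [fn_det_HA hh hZ]
  exact (hh.posDef Z hZ).det_pos.ne'

theorem ci_detre_smooth {h : Cm m → ℝ} (hh : IsCone m h) :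
    ContDiffOn ℝ ∞ (fun Z => (cHess h Z).det.re) (Om m) := by
  have h1 : ContDiffOn ℝ ∞ (fun Z => (Sm.fn (HA hh).det Z).re) (Om m) :=
    Complex.reCLM.contDiff.comp_contDiffOn (Sm.fn_smooth _)
  refine h1.congr fun Z hZ => ?_
  rw [fn_det_HA hh (mem_Om.1 hZ)]

theorem logdet_smooth {h : Cm m → ℝ} (hh : IsCone m h) :
    ContDiffOn ℝ ∞ (fun Z => Real.log (cHess h Z).det.re) (Om m) :=
  (ci_detre_smooth hh).log fun Z hZ => (ci_det_pos hh (mem_Om.1 hZ)).1.ne'

theorem ci_det_eq {h : Cm m → ℝ} (hh : IsCone m h) :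
    (HA hh).det = Sm.ofR (fun Z => (cHess h Z).det.re) (ci_detre_smooth hh) := by
  apply Sm.ext'
  intro Z hZ
  rw [Sm.ofR_fn _ _ hZ, fn_det_HA hh (mem_Om.1 hZ), (ci_det_pos hh (mem_Om.1 hZ)).2]

/-- `L = log det` -/
def LA {h : Cm m → ℝ} (hh : IsCone m h) : SA m :=
  Sm.ofR (fun Z => Real.log (cHess h Z).det.re) (logdet_smooth hh)

/-- Derivatives of `L = log μ` along a constant (real) direction. -/
theorem D_LA {h : Cm m → ℝ} (hh : IsCone m h) (v : Cm m) :
    Sm.D v (HA hh).det = (HA hh).det * Sm.D v (LA hh) := by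
  apply Sm.ext'
  intro Z hZ
  have hZ' := mem_Om.1 hZ
  have hp := (ci_det_pos hh hZ').1
  rw [Sm.fn_mul _ _ hZ, LA, Sm.D_ofR v _ _ hZ, ci_det_eq, Sm.D_ofR v _ _ hZ, Sm.ofR_fn _ _ hZ]
  have h1 : DifferentiableAt ℝ (fun Z => (cHess h Z).det.re) Z :=
    ((ci_detre_smooth hh).contDiffAt ((Om m).isOpen.mem_nhds hZ)).differentiableAt (by simp)
  have h2 : fderiv ℝ (fun Z => Real.log (cHess h Z).det.re) Z
      = (cHess h Z).det.re⁻¹ • fderiv ℝ (fun Z => (cHess h Z).det.re) Z :=
    (h1.hasFDerivAt.log hp.ne').fderiv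
  rw [h2]
  simp only [_root_.smul_apply, smul_eq_mul]
  rw [← Complex.ofReal_mul, mul_inv_cancel_left₀ hp.ne']

theorem D_LA' {h : Cm m → ℝ} (hh : IsCone m h) (v : Cm m) :
    Sm.D v (LA hh) = ∑ i, ∑ j, (HA hh)⁻¹ j i * Sm.D v (HA hh i j) := by
  have h1 := der_det_inv (Sm.D v) (HA hh) (isUnit_det_HA hh)
  rw [D_LA hh v] at h1
  exact (isUnit_det_HA hh).mul_left_cancel h1

/-- Euler's relation for the real derivative -/
theorem ci_euler {h : Cm m → ℝ} (hh : IsCone m h) {Z : Cm m} (hZ : Z ≠ 0) (w : ℂ) :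
    fderiv ℝ h Z (w • Z) = 2 * w.re * h Z := by
  have hd : DifferentiableAt ℝ h Z :=
    (hh.smooth.contDiffAt ((Om m).isOpen.mem_nhds (mem_Om.2 hZ))).differentiableAt (by simp)
  have h1 : HasDerivAt (fun s : ℝ => ((1 : ℂ) + (s : ℂ) * w) • Z) (w • Z) 0 := by
    have h2 : HasDerivAt (fun s : ℝ => (1 : ℂ) + (s : ℂ) * w) w 0 := by
      have h3 := (Complex.ofRealCLM.hasDerivAt (x := (0 : ℝ))).mul_const w
      simpa only [hasDerivAt_const_add_iff, Complex.ofRealCLM_apply, Complex.ofReal_one, one_mul] using     h3.const_add 1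
    exact h2.smul_const Z
  have h0 : ((1 : ℂ) + ((0 : ℝ) : ℂ) * w) • Z = Z := by simp
  have h4 : HasDerivAt (fun s : ℝ => h (((1 : ℂ) + (s : ℂ) * w) • Z)) (fderiv ℝ h Z (w • Z)) 0 := by
    have h5 := hd.hasFDerivAt
    rw [← h0] at h5
    have h6 := h5.comp_hasDerivAt (0 : ℝ) h1
    rw [h0] at h6
    exact h6
  have h7 : HasDerivAt (fun s : ℝ => ((1 + s * w.re) ^ 2 + (s * w.im) ^ 2) * h Z)
      (2 * w.re * h Z) 0 := by
    have h8 : HasDerivAt (fun s : ℝ => (1 + s * w.re) ^ 2 + (s * w.im) ^ 2) (2 * w.re) 0 := by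
      have a1 := (((hasDerivAt_id (0 : ℝ)).mul_const w.re).const_add 1).fun_pow 2
      have a2 := ((hasDerivAt_id (0 : ℝ)).mul_const w.im).fun_pow 2
      have a3 := a1.fun_add a2
      simp only [id_eq, zero_mul, add_zero, mul_one, one_mul, Nat.cast_ofNat,
        Nat.add_one_sub_one, pow_one, mul_zero] at a3
      exact a3
    exact h8.mul_const _
  have h9 : (fun s : ℝ => h (((1 : ℂ) + (s : ℂ) * w) • Z)) =ᶠ[nhds 0]
      fun s : ℝ => ((1 + s * w.re) ^ 2 + (s * w.im) ^ 2) * h Z := by
    have c1 : Continuous fun s : ℝ => (1 : ℂ) + (s : ℂ) * w := by fun_prop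
    have c2 : ∀ᶠ s : ℝ in nhds 0, (1 : ℂ) + (s : ℂ) * w ≠ 0 :=
      c1.continuousAt.eventually_ne (by simp)
    filter_upwards [c2] with s hs
    rw [hh.homog _ Z hZ hs, ← Complex.normSq_eq_norm_sq, Complex.normSq_apply]
    simp only [Complex.add_re, Complex.one_re, Complex.mul_re, Complex.ofReal_re, Complex.ofReal_im, zero_mul, sub_zero, Complex.add_im, Complex.one_im, Complex.mul_im, add_zero, zero_add, mul_eq_mul_right_iff]
    left
    ring
  exact h4.unique (h7.congr_of_eventuallyEq h9)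

theorem ci_sum_single (Z : Cm m) (c : ℂ) : ∑ a, (Pi.single a (c * Z a) : Cm m) = c • Z := by
  ext j
  simp only [Finset.sum_apply, Pi.single_apply, Finset.sum_ite_eq, Finset.mem_univ, ↓reduceIte, Pi.smul_apply, smul_eq_mul]

theorem ci_single (L : Cm m →L[ℝ] ℝ) (a : Fin m) (w : ℂ) :
    L (Pi.single a w) = w.re * L (Pi.single a 1) + w.im * L (Pi.single a Complex.I) := by
  have : (Pi.single a w : Cm m) = w.re • (Pi.single a (1 : ℂ) : Cm m)
      + w.im • (Pi.single a Complex.I : Cm m) := by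
    ext j
    by_cases hj : j = a
    · subst hj
      simp [Complex.re_add_im]
    · simp [hj]
  rw [this, map_add, map_smul, map_smul, smul_eq_mul, smul_eq_mul]

theorem ci_euler_sum {h : Cm m → ℝ} (hh : IsCone m h) {Z : Cm m} (hZ : Z ≠ 0) (w : ℂ) :
    ∑ a, ((w * Z a).re * fderiv ℝ h Z (Pi.single a 1)
      + (w * Z a).im * fderiv ℝ h Z (Pi.single a Complex.I)) = 2 * w.re * h Z := by
  rw [← ci_euler hh hZ w, ← ci_sum_single, map_sum]
  exact Finset.sum_congr rfl fun a _ => (ci_single _ a _).symm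

theorem ci_fderiv_ofReal {h : Cm m → ℝ} (hh : IsCone m h) {Z : Cm m} (hZ : Z ≠ 0) (v : Cm m) :
    fderiv ℝ (Sm.fn (hA hh)) Z v = ((fderiv ℝ h Z v : ℝ) : ℂ) := by
  rw [← Sm.D_fn v (hA hh) (mem_Om.2 hZ)]
  exact Sm.D_ofR v h hh.smooth (mem_Om.2 hZ)

theorem euler_hA {h : Cm m → ℝ} (hh : IsCone m h) : ∑ a, ZA a * dA a (hA hh) = hA hh := by
  apply Sm.ext'
  intro Z hZ
  have hZ' := mem_Om.1 hZ
  rw [Sm.fn_sum _ _ hZ]
  have e1 := ci_euler_sum hh hZ' 1
  have e2 := ci_euler_sum hh hZ' Complex.I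
  have e3 : Sm.fn (hA hh) Z = (h Z : ℂ) := Sm.ofR_fn h hh.smooth hZ
  rw [e3]
  have e4 : ∀ a, Sm.fn (ZA a * dA a (hA hh)) Z
      = ((((1 * Z a).re * fderiv ℝ h Z (Pi.single a 1)
      + (1 * Z a).im * fderiv ℝ h Z (Pi.single a Complex.I) : ℝ) : ℂ)
      - Complex.I * (((Complex.I * Z a).re * fderiv ℝ h Z (Pi.single a 1)
      + (Complex.I * Z a).im * fderiv ℝ h Z (Pi.single a Complex.I) : ℝ) : ℂ)) / 2 := by
    intro a
    rw [Sm.fn_mul _ _ hZ, ZA, Sm.mk_fn _ _ hZ, fn_dA a _ hZ', dz, ci_fderiv_ofReal hh hZ',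
      ci_fderiv_ofReal hh hZ']
    apply Complex.ext
    · simp only [Complex.mul_re, Complex.div_ofNat_re, Complex.sub_re, Complex.ofReal_re, Complex.I_re, zero_mul, Complex.I_im, Complex.ofReal_im, mul_zero, sub_self, sub_zero, Complex.div_ofNat_im, Complex.sub_im, Complex.mul_im, one_mul, zero_add, zero_sub, Complex.ofReal_add, Complex.ofReal_mul, neg_mul, Complex.ofReal_neg, Complex.add_re, Complex.neg_re, Complex.add_im, Complex.neg_im, add_zero, neg_zero]
      ring
    · simp only [Complex.mul_im, Complex.div_ofNat_im, Complex.sub_im, Complex.ofReal_im, Complex.I_re, mul_zero, Complex.I_im, Complex.ofReal_re, one_mul, zero_add, zero_sub, Complex.div_ofNat_re, Complex.sub_re, Complex.mul_re, zero_mul, sub_self, sub_zero, Complex.ofReal_add, Complex.ofReal_mul, neg_mul, Complex.ofReal_neg, Complex.add_im, add_zero, Complex.neg_im, neg_zero, Complex.add_re, Complex.neg_re, neg_add_rev, neg_neg]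
      ring
  rw [Finset.sum_congr rfl fun a _ => e4 a, ← Finset.sum_div, Finset.sum_sub_distrib,
    ← Finset.mul_sum, ← Complex.ofReal_sum, ← Complex.ofReal_sum, e1, e2]
  simp only [Complex.one_re, mul_one, Complex.ofReal_mul, Complex.ofReal_ofNat, Complex.I_re, mul_zero, zero_mul, Complex.ofReal_zero, sub_zero, ne_eq, OfNat.ofNat_ne_zero, not_false_eq_true, mul_div_cancel_left₀]

theorem eulerb_hA {h : Cm m → ℝ} (hh : IsCone m h) : ∑ a, WA a * dbA a (hA hh) = hA hh := by
  apply Sm.ext'
  intro Z hZ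
  have hZ' := mem_Om.1 hZ
  rw [Sm.fn_sum _ _ hZ]
  have e1 := ci_euler_sum hh hZ' 1
  have e2 := ci_euler_sum hh hZ' Complex.I
  have e3 : Sm.fn (hA hh) Z = (h Z : ℂ) := Sm.ofR_fn h hh.smooth hZ
  rw [e3]
  have e4 : ∀ a, Sm.fn (WA a * dbA a (hA hh)) Z
      = ((((1 * Z a).re * fderiv ℝ h Z (Pi.single a 1)
      + (1 * Z a).im * fderiv ℝ h Z (Pi.single a Complex.I) : ℝ) : ℂ)
      + Complex.I * (((Complex.I * Z a).re * fderiv ℝ h Z (Pi.single a 1)
      + (Complex.I * Z a).im * fderiv ℝ h Z (Pi.single a Complex.I) : ℝ) : ℂ)) / 2 := by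
    intro a
    rw [Sm.fn_mul _ _ hZ, WA, Sm.mk_fn _ _ hZ, fn_dbA a _ hZ', dzb, ci_fderiv_ofReal hh hZ',
      ci_fderiv_ofReal hh hZ']
    apply Complex.ext
    · simp only [Complex.mul_re, Complex.conj_re, Complex.div_ofNat_re, Complex.add_re, Complex.ofReal_re, Complex.I_re, zero_mul, Complex.I_im, Complex.ofReal_im, mul_zero, sub_self, add_zero, Complex.conj_im, Complex.div_ofNat_im, Complex.add_im, Complex.mul_im, one_mul, zero_add, neg_mul, sub_neg_eq_add, Complex.ofReal_add, Complex.ofReal_mul, zero_sub, Complex.ofReal_neg, sub_zero, Complex.neg_re, Complex.neg_im, neg_zero]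
      ring
    · simp
      ring
  rw [Finset.sum_congr rfl fun a _ => e4 a, ← Finset.sum_div, Finset.sum_add_distrib,
    ← Finset.mul_sum, ← Complex.ofReal_sum, ← Complex.ofReal_sum, e1, e2]
  simp only [Complex.one_re, mul_one, Complex.ofReal_mul, Complex.ofReal_ofNat, Complex.I_re, mul_zero, zero_mul, Complex.ofReal_zero, add_zero, ne_eq, OfNat.ofNat_ne_zero, not_false_eq_true, mul_div_cancel_left₀]

/-- The `Cone` of a cone potential. -/
def coneOf {h : Cm m → ℝ} (hh : IsCone m h) : Cone m (SA m) where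
  d := dA
  db := dbA
  dd := dA_comm
  bb := dbA_comm
  dbc := dbA_dA_comm
  Z := ZA
  W := WA
  dZ := dA_ZA
  bZ := dbA_ZA
  dW := dA_WA
  bW := dbA_WA
  h := hA hh
  P := fun a b => (HA hh)⁻¹ b a
  PH1 := by
    intro a c
    have h1 : HA hh * (HA hh)⁻¹ = 1 := Matrix.mul_nonsing_inv _ (isUnit_det_HA hh)
    have h2 := congrFun (congrFun h1 a) c
    rw [Matrix.mul_apply] at h2
    rw [Matrix.one_apply] at h2
    simpa [HA] using h2
  PH2 := by
    intro b e
    have h1 : (HA hh)⁻¹ * HA hh = 1 := Matrix.nonsing_inv_mul _ (isUnit_det_HA hh)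
    have h2 := congrFun (congrFun h1 e) b
    rw [Matrix.mul_apply, Matrix.one_apply] at h2
    simp only [eq_comm (a := b) (b := e)]
    rw [← h2]
    refine Finset.sum_congr rfl fun a _ => ?_
    rw [mul_comm]
    rfl
  μ := (HA hh).det
  L := LA hh
  dμ := by
    intro a
    simp only [dA, Derivation.smul_apply, Derivation.sub_apply, D_LA hh]
    simp only [mul_sub, mul_smul_comm]
  bμ := by
    intro a
    simp only [dbA, Derivation.smul_apply, Derivation.add_apply, D_LA hh]
    simp only [mul_add, mul_smul_comm]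
  dL := by
    intro a
    simp only [dA, Derivation.smul_apply, Derivation.sub_apply, D_LA' hh]
    simp only [HA, Matrix.of_apply, mul_sub, mul_smul_comm, Finset.sum_sub_distrib,
      ← Finset.smul_sum]
    rfl
  bL := by
    intro a
    simp only [dbA, Derivation.smul_apply, Derivation.add_apply, D_LA' hh]
    simp only [HA, Matrix.of_apply, mul_add, mul_smul_comm, Finset.sum_add_distrib,
      ← Finset.smul_sum]
    rfl
  Eh := euler_hA hh
  Ebh := eulerb_hA hh

end P264.Geo

end
end
end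

section

section

/-! # P264 / Geo / AlgA1 : Euler relations and the derivative of the inverse matrix -/

set_option linter.all false

noncomputable section

namespace P264.Geo.Cone

variable {m : ℕ} {A : Type} [CommRing A] [Algebra ℂ A] (C : Cone m A)

theorem ga1_db (b : Fin m) : ∑ c, C.Z c * C.d c (C.db b C.h) = C.db b C.h := by
  have h1 := congrArg (C.db b) C.Eh
  rw [map_sum] at h1
  refine Eq.trans ?_ h1
  refine Finset.sum_congr rfl fun c _ => ?_
  rw [Derivation.leibniz, C.bZ, C.dbc, smul_zero, add_zero, smul_eq_mul]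

theorem ga1_d (a : Fin m) : ∑ e, C.W e * C.d a (C.db e C.h) = C.d a C.h := by
  have h1 := congrArg (C.d a) C.Ebh
  rw [map_sum] at h1
  refine Eq.trans ?_ h1
  refine Finset.sum_congr rfl fun c _ => ?_
  rw [Derivation.leibniz, C.dW, smul_zero, add_zero, smul_eq_mul]

/-- `Σ_b h_{b̄} h^{ab̄} = Z_a` (apply `db b` to the Euler relation `Eh`, contract with `P`). -/
theorem hbP (a : Fin m) : ∑ b, C.db b C.h * C.P a b = C.Z a := by
  calc ∑ b, C.db b C.h * C.P a b
      = ∑ b, ∑ c, C.Z c * (C.d c (C.db b C.h) * C.P a b) := by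
        refine Finset.sum_congr rfl fun b _ => ?_
        conv_lhs => rw [← ga1_db C b, Finset.sum_mul]
        refine Finset.sum_congr rfl fun c _ => ?_
        rw [mul_assoc]
    _ = ∑ c, C.Z c * ∑ b, C.d c (C.db b C.h) * C.P a b := by
        rw [Finset.sum_comm]
        refine Finset.sum_congr rfl fun c _ => ?_
        rw [Finset.mul_sum]
    _ = ∑ c, C.Z c * (if c = a then 1 else 0) := by
        refine Finset.sum_congr rfl fun c _ => ?_
        rw [C.PH1]
    _ = C.Z a := by simp only [mul_ite, mul_one, mul_zero, Finset.sum_ite_eq', Finset.mem_univ, ↓reduceIte]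

/-- `Σ_a h_a h^{ab̄} = Z̄_b`. -/
theorem hP (b : Fin m) : ∑ a, C.d a C.h * C.P a b = C.W b := by
  calc ∑ a, C.d a C.h * C.P a b
      = ∑ a, ∑ e, C.W e * (C.d a (C.db e C.h) * C.P a b) := by
        refine Finset.sum_congr rfl fun a _ => ?_
        conv_lhs => rw [← ga1_d C a, Finset.sum_mul]
        refine Finset.sum_congr rfl fun c _ => ?_
        rw [mul_assoc]
    _ = ∑ e, C.W e * ∑ a, C.d a (C.db e C.h) * C.P a b := by
        rw [Finset.sum_comm]
        refine Finset.sum_congr rfl fun c _ => ?_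
        rw [Finset.mul_sum]
    _ = ∑ e, C.W e * (if e = b then 1 else 0) := by
        refine Finset.sum_congr rfl fun c _ => ?_
        rw [C.PH2]
    _ = C.W b := by simp only [mul_ite, mul_one, mul_zero, Finset.sum_ite_eq', Finset.mem_univ, ↓reduceIte]

/-- `Δ h = m`. -/
theorem lap_h : C.lap C.h = (m : A) := by
  unfold lap hs
  calc ∑ a, ∑ b, C.P a b * C.d a (C.db b C.h)
      = ∑ a : Fin m, (1 : A) := by
        refine Finset.sum_congr rfl fun a _ => ?_
        have h1 := C.PH1 a a
        rw [if_pos rfl] at h1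
        rw [← h1]
        refine Finset.sum_congr rfl fun b _ => ?_
        rw [mul_comm]
    _ = (m : A) := by simp only [Finset.sum_const, Finset.card_univ, Fintype.card_fin, nsmul_eq_mul, mul_one]

theorem ga1_sum_apply {ι : Type*} (s : Finset ι) (D : ι → Derivation ℂ A A) (F : A) :
    (∑ i ∈ s, D i) F = ∑ i ∈ s, D i F := by
  classical
  induction s using Finset.induction_on with
  | empty => simp only [Finset.sum_empty, Derivation.coe_zero, Pi.zero_apply]
  | insert a s ha ih => rw [Finset.sum_insert ha, Finset.sum_insert ha, Derivation.add_apply, ih]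

theorem E_apply (F : A) : C.E F = ∑ a, C.Z a * C.d a F := by
  unfold E
  rw [ga1_sum_apply]
  refine Finset.sum_congr rfl fun a _ => ?_
  rw [Derivation.smul_apply, smul_eq_mul]

theorem Eb_apply (F : A) : C.Eb F = ∑ a, C.W a * C.db a F := by
  unfold Eb
  rw [ga1_sum_apply]
  refine Finset.sum_congr rfl fun a _ => ?_
  rw [Derivation.smul_apply, smul_eq_mul]

theorem E_d (F : A) (c : Fin m) : C.E (C.d c F) = C.d c (C.E F) - C.d c F := by
  rw [C.E_apply, C.E_apply, map_sum]
  have h1 : ∀ a, C.d c (C.Z a * C.d a F) = C.Z a * C.d a (C.d c F) +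
      C.d a F * (if c = a then 1 else 0) := by
    intro a
    rw [Derivation.leibniz, C.dZ, smul_eq_mul, smul_eq_mul, C.dd c a]
  simp_rw [h1]
  rw [Finset.sum_add_distrib]
  simp only [mul_ite, mul_one, mul_zero, Finset.sum_ite_eq, Finset.mem_univ, ↓reduceIte, add_sub_cancel_right]

theorem E_db (F : A) (c : Fin m) : C.E (C.db c F) = C.db c (C.E F) := by
  rw [C.E_apply, C.E_apply, map_sum]
  refine Finset.sum_congr rfl fun a _ => ?_
  rw [Derivation.leibniz, C.bZ, smul_zero, add_zero, smul_eq_mul, C.dbc]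

theorem Eb_d (F : A) (c : Fin m) : C.Eb (C.d c F) = C.d c (C.Eb F) := by
  rw [C.Eb_apply, C.Eb_apply, map_sum]
  refine Finset.sum_congr rfl fun a _ => ?_
  rw [Derivation.leibniz, C.dW, smul_zero, add_zero, smul_eq_mul, C.dbc]

theorem Eb_db (F : A) (c : Fin m) : C.Eb (C.db c F) = C.db c (C.Eb F) - C.db c F := by
  rw [C.Eb_apply, C.Eb_apply, map_sum]
  have h1 : ∀ a, C.db c (C.W a * C.db a F) = C.W a * C.db a (C.db c F) +
      C.db a F * (if c = a then 1 else 0) := by
    intro a
    rw [Derivation.leibniz, C.bW, smul_eq_mul, smul_eq_mul, C.bb c a]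
  simp_rw [h1]
  rw [Finset.sum_add_distrib]
  simp only [mul_ite, mul_one, mul_zero, Finset.sum_ite_eq, Finset.mem_univ, ↓reduceIte, add_sub_cancel_right]

/-- Derivative of the inverse matrix along an arbitrary derivation. -/
theorem der_P (δ : Derivation ℂ A A) (a b : Fin m) :
    δ (C.P a b) = -∑ c, ∑ e, C.P a e * C.P c b * δ (C.hs C.h c e) := by
  have h1 : ∀ c, (∑ e, C.hs C.h c e * δ (C.P a e)) + ∑ e, C.P a e * δ (C.hs C.h c e) = 0 := by
    intro c
    have h2 := congrArg δ (C.PH1 c a)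
    rw [map_sum] at h2
    have h3 : δ (if c = a then 1 else 0) = 0 := by
      by_cases hca : c = a
      · rw [if_pos hca, Derivation.map_one_eq_zero]
      · rw [if_neg hca, map_zero]
    rw [h3] at h2
    rw [← Finset.sum_add_distrib, ← h2]
    refine Finset.sum_congr rfl fun e _ => ?_
    rw [Derivation.leibniz, smul_eq_mul, smul_eq_mul]
    rfl
  have h4 : ∑ c, C.P c b * ((∑ e, C.hs C.h c e * δ (C.P a e)) +
      ∑ e, C.P a e * δ (C.hs C.h c e)) = 0 := by
    refine Finset.sum_eq_zero fun c _ => ?_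
    rw [h1, mul_zero]
  have h5 : ∑ c, C.P c b * (∑ e, C.hs C.h c e * δ (C.P a e)) = δ (C.P a b) := by
    calc ∑ c, C.P c b * (∑ e, C.hs C.h c e * δ (C.P a e))
        = ∑ c, ∑ e, δ (C.P a e) * (C.hs C.h c e * C.P c b) := by
          refine Finset.sum_congr rfl fun c _ => ?_
          rw [Finset.mul_sum]
          refine Finset.sum_congr rfl fun e _ => ?_
          ring
      _ = ∑ e, δ (C.P a e) * ∑ c, C.hs C.h c e * C.P c b := by
          rw [Finset.sum_comm]
          refine Finset.sum_congr rfl fun e _ => ?_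
          rw [Finset.mul_sum]
      _ = ∑ e, δ (C.P a e) * (if e = b then 1 else 0) := by
          refine Finset.sum_congr rfl fun e _ => ?_
          exact congrArg _ (C.PH2 e b)
      _ = δ (C.P a b) := by simp only [mul_ite, mul_one, mul_zero, Finset.sum_ite_eq', Finset.mem_univ, ↓reduceIte]
  have h6 : ∑ c, C.P c b * ∑ e, C.P a e * δ (C.hs C.h c e) =
      ∑ c, ∑ e, C.P a e * C.P c b * δ (C.hs C.h c e) := by
    refine Finset.sum_congr rfl fun c _ => ?_
    rw [Finset.mul_sum]
    refine Finset.sum_congr rfl fun e _ => ?_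
    ring
  simp_rw [mul_add] at h4
  rw [Finset.sum_add_distrib, h5, h6] at h4
  exact eq_neg_of_add_eq_zero_left h4

end P264.Geo.Cone

end
end
end

section

section

/-! # P264 / Geo / AlgA : degrees of homogeneity -/

noncomputable section

namespace P264.Geo.Cone

variable {m : ℕ} {A : Type} [CommRing A] [Algebra ℂ A] (C : Cone m A)

theorem algA_E_h : C.E C.h = C.h := by
  rw [E_apply, C.Eh]

theorem algA_Eb_h : C.Eb C.h = C.h := by
  rw [Eb_apply, C.Ebh]

theorem algA_E_hs (F : A) (a b : Fin m) :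
    C.E (C.hs F a b) = C.hs (C.E F) a b - C.hs F a b := by
  unfold hs
  rw [E_d, E_db]

theorem algA_Eb_hs (F : A) (a b : Fin m) :
    C.Eb (C.hs F a b) = C.hs (C.Eb F) a b - C.hs F a b := by
  unfold hs
  rw [Eb_d, Eb_db, map_sub]

theorem algA_lap_zero : C.lap (0 : A) = 0 := by
  simp only [lap, hs, map_zero, mul_zero, Finset.sum_const_zero]

theorem E_hsh (a b : Fin m) : C.E (C.hs C.h a b) = 0 := by
  rw [algA_E_hs, algA_E_h, sub_self]

theorem Eb_hsh (a b : Fin m) : C.Eb (C.hs C.h a b) = 0 := by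
  rw [algA_Eb_hs, algA_Eb_h, sub_self]

theorem E_P (a b : Fin m) : C.E (C.P a b) = 0 := by
  rw [der_P]
  simp only [E_hsh, mul_zero, Finset.sum_const_zero, neg_zero]

theorem Eb_P (a b : Fin m) : C.Eb (C.P a b) = 0 := by
  rw [der_P]
  simp only [Eb_hsh, mul_zero, Finset.sum_const_zero, neg_zero]

theorem E_L : C.E C.L = 0 := by
  have h1 : ∀ b c, ∑ a, C.Z a * C.d a (C.d b (C.db c C.h)) = 0 := by
    intro b c
    have h2 := C.E_hsh b c
    rw [E_apply] at h2
    exact h2
  rw [E_apply]
  calc ∑ a, C.Z a * C.d a C.L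
      = ∑ a, ∑ b, ∑ c, C.P b c * (C.Z a * C.d a (C.d b (C.db c C.h))) := by
        refine Finset.sum_congr rfl fun a _ => ?_
        rw [C.dL, Finset.mul_sum]
        refine Finset.sum_congr rfl fun b _ => ?_
        rw [Finset.mul_sum]
        refine Finset.sum_congr rfl fun c _ => ?_
        ring
    _ = ∑ b, ∑ c, C.P b c * ∑ a, C.Z a * C.d a (C.d b (C.db c C.h)) := by
        rw [Finset.sum_comm]
        refine Finset.sum_congr rfl fun b _ => ?_
        rw [Finset.sum_comm]
        refine Finset.sum_congr rfl fun c _ => ?_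
        rw [Finset.mul_sum]
    _ = 0 := by simp only [h1, mul_zero, Finset.sum_const_zero]

theorem Eb_L : C.Eb C.L = 0 := by
  have h1 : ∀ b c, ∑ a, C.W a * C.db a (C.d b (C.db c C.h)) = 0 := by
    intro b c
    have h2 := C.Eb_hsh b c
    rw [Eb_apply] at h2
    exact h2
  rw [Eb_apply]
  calc ∑ a, C.W a * C.db a C.L
      = ∑ a, ∑ b, ∑ c, C.P b c * (C.W a * C.db a (C.d b (C.db c C.h))) := by
        refine Finset.sum_congr rfl fun a _ => ?_
        rw [C.bL, Finset.mul_sum]
        refine Finset.sum_congr rfl fun b _ => ?_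
        rw [Finset.mul_sum]
        refine Finset.sum_congr rfl fun c _ => ?_
        ring
    _ = ∑ b, ∑ c, C.P b c * ∑ a, C.W a * C.db a (C.d b (C.db c C.h)) := by
        rw [Finset.sum_comm]
        refine Finset.sum_congr rfl fun b _ => ?_
        rw [Finset.sum_comm]
        refine Finset.sum_congr rfl fun c _ => ?_
        rw [Finset.mul_sum]
    _ = 0 := by simp only [h1, mul_zero, Finset.sum_const_zero]

theorem E_μ : C.E C.μ = 0 := by
  have h1 := C.E_L
  rw [E_apply] at h1 ⊢
  calc ∑ a, C.Z a * C.d a C.μ = C.μ * ∑ a, C.Z a * C.d a C.L := by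
        rw [Finset.mul_sum]
        refine Finset.sum_congr rfl fun a _ => ?_
        rw [C.dμ]
        ring
    _ = 0 := by rw [h1, mul_zero]

/-- `Δ` lowers the bidegree by `(1,1)`. -/
theorem E_lap (F : A) : C.E (C.lap F) = C.lap (C.E F) - C.lap F := by
  unfold lap
  rw [map_sum, ← Finset.sum_sub_distrib]
  refine Finset.sum_congr rfl fun a _ => ?_
  rw [map_sum, ← Finset.sum_sub_distrib]
  refine Finset.sum_congr rfl fun b _ => ?_
  rw [Derivation.leibniz, E_P, algA_E_hs, smul_eq_mul, smul_eq_mul]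
  ring

theorem Eb_lap (F : A) : C.Eb (C.lap F) = C.lap (C.Eb F) - C.lap F := by
  unfold lap
  rw [map_sum, ← Finset.sum_sub_distrib]
  refine Finset.sum_congr rfl fun a _ => ?_
  rw [map_sum, ← Finset.sum_sub_distrib]
  refine Finset.sum_congr rfl fun b _ => ?_
  rw [Derivation.leibniz, Eb_P, algA_Eb_hs, smul_eq_mul, smul_eq_mul]
  ring

/-- `h Δ` preserves degree `0`. -/
theorem E_hlap (F : A) (hF : C.E F = 0) : C.E (C.h * C.lap F) = 0 := by
  rw [Derivation.leibniz, E_lap, hF, algA_lap_zero, algA_E_h, smul_eq_mul, smul_eq_mul]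
  ring

theorem Eb_hlap (F : A) (hF : C.Eb F = 0) : C.Eb (C.h * C.lap F) = 0 := by
  rw [Derivation.leibniz, Eb_lap, hF, algA_lap_zero, algA_Eb_h, smul_eq_mul, smul_eq_mul]
  ring

theorem E_sig : C.E C.sig = 0 := by
  unfold sig
  rw [map_neg, E_hlap _ _ C.E_L, neg_zero]

theorem Eb_sig : C.Eb C.sig = 0 := by
  unfold sig
  rw [map_neg, Eb_hlap _ _ C.Eb_L, neg_zero]

/-- `Σ_a Z_a F_{ab̄} = 0` if `E F = 0`. -/
theorem Z_hs (F : A) (hF : C.E F = 0) (b : Fin m) : ∑ a, C.Z a * C.hs F a b = 0 := by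
  have h1 := C.E_db F b
  rw [hF, map_zero, E_apply] at h1
  exact h1

/-- `Σ_b Z̄_b F_{ab̄} = 0` if `Ē F = 0`. -/
theorem W_hs (F : A) (hF : C.Eb F = 0) (a : Fin m) : ∑ b, C.W b * C.hs F a b = 0 := by
  have h1 := C.Eb_d F a
  rw [hF, map_zero, Eb_apply] at h1
  rw [← h1]
  refine Finset.sum_congr rfl fun b _ => ?_
  rw [hs, C.dbc]

end P264.Geo.Cone

end
end
end

section

section

/-! # P264 / Geo / AlgX : derivative of `σ` along an infinitesimal isometry -/

noncomputable section

namespace P264.Geo.Cone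

variable {m : ℕ} {A : Type} [CommRing A] [Algebra ℂ A] (C : Cone m A)

/-- the matrix `F_{ab̄}` -/
def algxH (F : A) : Matrix (Fin m) (Fin m) A := Matrix.of fun a b => C.hs F a b

/-- the inverse matrix of `h_{ab̄}` -/
def algxQ : Matrix (Fin m) (Fin m) A := Matrix.of fun b a => C.P a b

theorem algx_QH : C.algxQ * C.algxH C.h = 1 := by
  ext e b
  rw [Matrix.mul_apply, Matrix.one_apply]
  have h := C.PH2 b e
  simp only [algxQ, algxH, Matrix.of_apply, hs]
  rw [Finset.sum_congr rfl (fun a _ => mul_comm (C.P a e) (C.d a (C.db b C.h))), h]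
  simp only [eq_comm]

theorem algx_HQ : C.algxH C.h * C.algxQ = 1 := by
  ext a c
  rw [Matrix.mul_apply, Matrix.one_apply]
  exact C.PH1 a c

theorem algx_lap (F : A) : C.lap F = Matrix.trace (C.algxQ * C.algxH F) := by
  simp only [lap, Matrix.trace, Matrix.diag, algxQ, algxH, Matrix.mul_apply, Matrix.of_apply]
  rw [Finset.sum_comm]

theorem algx_T (F : A) : ∑ c, ∑ e, C.T c e * C.hs F c e =
    Matrix.trace (C.algxQ * C.algxH C.L * C.algxQ * C.algxH F) := by
  simp only [T, Matrix.trace, Matrix.diag, Matrix.mul_apply, algxQ, algxH, Matrix.of_apply,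
    Finset.sum_mul]
  rw [Finset.sum_comm]
  apply Finset.sum_congr rfl
  intro e _
  apply Finset.sum_congr rfl
  intro c _
  rw [Finset.sum_comm]
  apply Finset.sum_congr rfl
  intro b _
  apply Finset.sum_congr rfl
  intro a _
  ring

theorem algx_map_mul (X : Derivation ℂ A A) (U V : Matrix (Fin m) (Fin m) A) :
    (U * V).map X = U.map X * V + U * V.map X := by
  ext a b
  simp only [Matrix.map_apply, Matrix.mul_apply, Matrix.add_apply, map_sum, Derivation.leibniz,
    smul_eq_mul, ← Finset.sum_add_distrib]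
  apply Finset.sum_congr rfl
  intro c _
  ring

theorem algx_map_trace (X : Derivation ℂ A A) (U : Matrix (Fin m) (Fin m) A) :
    X (Matrix.trace U) = Matrix.trace (U.map X) := by
  simp only [Matrix.trace, Matrix.diag, map_sum, Matrix.map_apply]

theorem algx_map_one (X : Derivation ℂ A A) :
    (1 : Matrix (Fin m) (Fin m) A).map X = 0 := by
  ext a b
  rw [Matrix.map_apply, Matrix.one_apply, Matrix.zero_apply]
  split_ifs
  · exact Derivation.map_one_eq_zero X
  · exact map_zero X

/-- the constant matrix -/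
def algxN (A : Type) [CommRing A] [Algebra ℂ A] (M : Matrix (Fin m) (Fin m) ℂ) :
    Matrix (Fin m) (Fin m) A := Matrix.of fun a c => algebraMap ℂ A (M c a)

theorem algx_map_H (X : Derivation ℂ A A) (M : Matrix (Fin m) (Fin m) ℂ)
    (hXd : ∀ a F, X (C.d a F) = C.d a (X F) - ∑ c, M c a • C.d c F)
    (hXdb : ∀ b F, X (C.db b F) = C.db b (X F) + ∑ c, M b c • C.db c F) (F : A) :
    (C.algxH F).map X = C.algxH (X F) + C.algxH F * algxN A M - algxN A M * C.algxH F := by
  ext a b
  simp only [algxH, hs, Matrix.map_apply, Matrix.of_apply, algxN, Matrix.sub_apply, Matrix.add_apply, Matrix.mul_apply]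
  rw [hXd, hXdb, map_add, map_sum]
  congr 1
  · congr 1
    apply Finset.sum_congr rfl
    intro c _
    rw [Derivation.map_smul, Algebra.smul_def, mul_comm]
  · apply Finset.sum_congr rfl
    intro c _
    rw [Algebra.smul_def]

theorem algx_map_Q (X : Derivation ℂ A A) (M : Matrix (Fin m) (Fin m) ℂ)
    (hXd : ∀ a F, X (C.d a F) = C.d a (X F) - ∑ c, M c a • C.d c F)
    (hXdb : ∀ b F, X (C.db b F) = C.db b (X F) + ∑ c, M b c • C.db c F) :
    C.algxQ.map X = -(C.algxQ * C.algxH (X C.h) * C.algxQ) - algxN A M * C.algxQ +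
      C.algxQ * algxN A M := by
  have h1 := congrArg (fun U => U.map X) C.algx_QH
  rw [algx_map_mul, algx_map_one, C.algx_map_H X M hXd hXdb] at h1
  have h2 := congrArg (fun U => U * C.algxQ) h1
  rw [add_mul, zero_mul, mul_assoc, C.algx_HQ, mul_one] at h2
  have h3 : C.algxQ * (C.algxH (X C.h) + C.algxH C.h * algxN A M - algxN A M * C.algxH C.h) *
      C.algxQ = C.algxQ * C.algxH (X C.h) * C.algxQ + algxN A M * C.algxQ -
        C.algxQ * algxN A M := by
    rw [mul_sub, mul_add, ← mul_assoc C.algxQ (C.algxH C.h), C.algx_QH, one_mul, sub_mul,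
      add_mul]
    congr 1
    rw [mul_assoc, mul_assoc, C.algx_HQ, mul_one]
  rw [h3] at h2
  rw [eq_neg_of_add_eq_zero_left h2]
  abel

theorem algx_lap_X (X : Derivation ℂ A A) (M : Matrix (Fin m) (Fin m) ℂ)
    (hXd : ∀ a F, X (C.d a F) = C.d a (X F) - ∑ c, M c a • C.d c F)
    (hXdb : ∀ b F, X (C.db b F) = C.db b (X F) + ∑ c, M b c • C.db c F) (F : A) :
    X (C.lap F) = C.lap (X F) -
      Matrix.trace (C.algxQ * C.algxH (X C.h) * C.algxQ * C.algxH F) := by
  rw [algx_lap, algx_map_trace, algx_map_mul, C.algx_map_Q X M hXd hXdb,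
    C.algx_map_H X M hXd hXdb, algx_lap]
  have h1 : (-(C.algxQ * C.algxH (X C.h) * C.algxQ) - algxN A M * C.algxQ +
      C.algxQ * algxN A M) * C.algxH F + C.algxQ * (C.algxH (X F) + C.algxH F * algxN A M -
      algxN A M * C.algxH F) = C.algxQ * C.algxH (X F) -
      C.algxQ * C.algxH (X C.h) * C.algxQ * C.algxH F +
      ((C.algxQ * C.algxH F) * algxN A M - algxN A M * (C.algxQ * C.algxH F)) := by
    noncomm_ring
  rw [h1, Matrix.trace_add, Matrix.trace_sub, Matrix.trace_sub,
    Matrix.trace_mul_comm (C.algxQ * C.algxH F) (algxN A M), sub_self, add_zero]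

/-- Let `X` be a derivation with `[X, ∂_a] = - Σ_c M_{ca} ∂_c` and `[X, ∂̄_b] = Σ_c M_{bc} ∂̄_c`
(a linear skew-Hermitian vector field). Then `X σ` is the linearisation of `σ` in the direction
`X h`. Steps (all sums finite):
`X h_{ab̄} = (X h)_{ab̄} - Σ_c M_{ca} h_{cb̄} + Σ_c M_{bc} h_{ac̄}`, the same for `L`;
`X L = Δ(X h)`; `X P_{ab}` from `der_P`; the `M`-terms cancel in `X (Δ L)`. -/
theorem X_sig (X : Derivation ℂ A A) (M : Matrix (Fin m) (Fin m) ℂ)
    (hXd : ∀ a F, X (C.d a F) = C.d a (X F) - ∑ c, M c a • C.d c F)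
    (hXdb : ∀ b F, X (C.db b F) = C.db b (X F) + ∑ c, M b c • C.db c F)
    (hXL : X C.L = ∑ a, ∑ b, C.P a b * X (C.hs C.h a b)) :
    X C.sig = C.Lin (X C.h) := by
  have hL : X C.L = C.lap (X C.h) := by
    have h1 : X C.L = Matrix.trace (C.algxQ * (C.algxH C.h).map X) := by
      rw [hXL]
      simp only [Matrix.trace, Matrix.diag, Matrix.mul_apply, algxQ, algxH, Matrix.of_apply,
        Matrix.map_apply]
      rw [Finset.sum_comm]
    rw [h1, C.algx_map_H X M hXd hXdb, algx_lap, mul_sub, mul_add, Matrix.trace_sub,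
      Matrix.trace_add, ← mul_assoc C.algxQ (C.algxH C.h), C.algx_QH, one_mul,
      Matrix.trace_mul_comm C.algxQ (algxN A M * C.algxH C.h), mul_assoc, C.algx_HQ, mul_one,
      add_sub_cancel_right]
  have hlapL := C.algx_lap_X X M hXd hXdb C.L
  rw [hL] at hlapL
  have hT : Matrix.trace (C.algxQ * C.algxH (X C.h) * C.algxQ * C.algxH C.L) =
      ∑ c, ∑ e, C.T c e * C.hs (X C.h) c e := by
    rw [algx_T, mul_assoc (C.algxQ * C.algxH (X C.h)), Matrix.trace_mul_comm]
    simp only [mul_assoc]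
  rw [hT] at hlapL
  unfold sig Lin
  rw [map_neg, Derivation.leibniz, hlapL]
  simp only [smul_eq_mul]
  ring

end P264.Geo.Cone

end
end
end

section

section

/-! # P264 / Geo / XDer1 : linear skew-Hermitian vector fields as derivations -/

open scoped ContDiff ComplexOrder
open TopologicalSpace (Opens)
open MeasureTheory Set

noncomputable section

namespace P264.Geo

variable {m : ℕ}

/-- The derivation `F ↦ dF(M Z)`, for a skew-Hermitian matrix `M`:
`Σ_a (M Z)_a ∂_a + Σ_b conj((M Z)_b) ∂̄_b`, `conj (M Z)_b = - Σ_c M_{cb} Z̄_c`. -/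
def XA (M : Matrix (Fin m) (Fin m) ℂ) : Derivation ℂ (SA m) (SA m) :=
  (∑ a, (∑ b, M a b • ZA b) • dA a) - ∑ b, (∑ c, M c b • WA c) • dbA b

theorem XD1_sum (D : Fin m → Derivation ℂ (SA m) (SA m)) (s : Finset (Fin m)) (F : SA m) :
    (∑ a ∈ s, D a) F = ∑ a ∈ s, D a F := by
  classical
  induction s using Finset.induction_on with
  | empty => rfl
  | insert a s ha ih =>
    rw [Finset.sum_insert ha, Finset.sum_insert ha, Derivation.add_apply, ih]

theorem XD1_apply (M : Matrix (Fin m) (Fin m) ℂ) (F : SA m) :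
    XA M F = (∑ a, (∑ b, M a b • ZA b) * dA a F) - ∑ b, (∑ c, M c b • WA c) * dbA b F := by
  unfold XA
  rw [Derivation.sub_apply, XD1_sum, XD1_sum]
  rfl

/-- a vector of `ℂᵐ` as a real combination of `e_a` and `i e_a` -/
theorem XD1_vec (v : Cm m) : v = ∑ a, ((v a).re • (Pi.single a (1 : ℂ) : Cm m) +
    (v a).im • (Pi.single a Complex.I : Cm m)) := by
  funext i
  rw [Finset.sum_apply, Finset.sum_eq_single i]
  · simp only [Pi.add_apply, Pi.smul_apply, Pi.single_eq_same, Complex.real_smul, mul_one]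
    exact (Complex.re_add_im (v i)).symm
  · intro b _ hb
    simp [Pi.single_eq_of_ne (Ne.symm hb)]
  · intro hi
    exact absurd (Finset.mem_univ i) hi

theorem XD1_fderiv (f : Cm m → ℂ) (Z v : Cm m) : fderiv ℝ f Z v =
    ∑ a, (v a * dz a f Z + (starRingEnd ℂ) (v a) * dzb a f Z) := by
  conv_lhs => rw [XD1_vec v]
  rw [map_sum]
  refine Finset.sum_congr rfl fun a _ => ?_
  rw [map_add, map_smul, map_smul, Complex.real_smul, Complex.real_smul, dz, dzb]
  have h1 : v a = (v a).re + (v a).im * Complex.I := (Complex.re_add_im (v a)).symm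
  have h2 : (starRingEnd ℂ) (v a) = (v a).re - (v a).im * Complex.I := by
    apply Complex.ext <;> simp
  rw [h2]
  conv_rhs => rw [h1]
  simp only [Complex.add_re, Complex.ofReal_re, Complex.mul_re, Complex.I_re, mul_zero,
    Complex.ofReal_im, Complex.I_im, mul_one, sub_self, add_zero, Complex.add_im, Complex.mul_im,
    zero_add]
  linear_combination ((v a).im : ℂ) * (fderiv ℝ f Z (Pi.single a Complex.I)) * (Complex.I_mul_I)

theorem fn_XA (M : Matrix (Fin m) (Fin m) ℂ) (hM : M.conjTranspose = -M) (F : SA m) {Z : Cm m}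
    (hZ : Z ≠ 0) : Sm.fn (XA M F) Z = fderiv ℝ (Sm.fn F) Z (M.mulVec Z) := by
  have hZ' : Z ∈ Om m := hZ
  rw [XD1_fderiv, Finset.sum_add_distrib, XD1_apply, Sm.fn_sub _ _ hZ', Sm.fn_sum _ _ hZ',
    Sm.fn_sum _ _ hZ', sub_eq_add_neg, ← Finset.sum_neg_distrib]
  congr 1
  · refine Finset.sum_congr rfl fun a _ => ?_
    rw [Sm.fn_mul _ _ hZ', fn_dA a F hZ, Sm.fn_sum _ _ hZ']
    congr 1
    rw [Matrix.mulVec, dotProduct]
    refine Finset.sum_congr rfl fun b _ => ?_
    rw [Sm.fn_smul _ _ hZ', ZA, Sm.mk_fn _ _ hZ']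
  · refine Finset.sum_congr rfl fun b _ => ?_
    rw [Sm.fn_mul _ _ hZ', fn_dbA b F hZ, Sm.fn_sum _ _ hZ', ← neg_mul]
    congr 1
    rw [Matrix.mulVec, dotProduct, map_sum, ← Finset.sum_neg_distrib]
    refine Finset.sum_congr rfl fun c _ => ?_
    rw [Sm.fn_smul _ _ hZ', WA, Sm.mk_fn _ _ hZ', map_mul]
    have h1 := congrFun (congrFun hM c) b
    rw [Matrix.conjTranspose_apply, Matrix.neg_apply] at h1
    have h2 : (starRingEnd ℂ) (M b c) = - M c b := h1
    rw [h2, neg_mul]

theorem XA_dA (M : Matrix (Fin m) (Fin m) ℂ) (a : Fin m) (F : SA m) :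
    XA M (dA a F) = dA a (XA M F) - ∑ c, M c a • dA c F := by
  rw [XD1_apply, XD1_apply, map_sub, map_sum, map_sum]
  simp only [Derivation.leibniz, smul_eq_mul, map_sum, Derivation.map_smul, dA_ZA, dA_WA, smul_zero, Finset.sum_const_zero, mul_zero, add_zero]
  rw [Finset.sum_add_distrib]
  have h1 : ∀ e : Fin m, dA e F * ∑ b, M e b • (if a = b then (1 : SA m) else 0) =
      M e a • dA e F := by
    intro e
    rw [Finset.sum_eq_single a]
    · rw [if_pos rfl, mul_smul_comm, mul_one]
    · intro b _ hb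
      rw [if_neg (Ne.symm hb), smul_zero]
    · intro h
      exact absurd (Finset.mem_univ a) h
  simp only [h1]
  have h2 : ∀ e : Fin m, dA a (dA e F) = dA e (dA a F) := fun e => dA_comm a e F
  have h3 : ∀ e : Fin m, dA a (dbA e F) = dbA e (dA a F) := fun e => (dbA_dA_comm a e F).symm
  simp only [h2, h3]
  ring

theorem XA_dbA (M : Matrix (Fin m) (Fin m) ℂ) (b : Fin m) (F : SA m) :
    XA M (dbA b F) = dbA b (XA M F) + ∑ c, M b c • dbA c F := by
  rw [XD1_apply, XD1_apply, map_sub, map_sum, map_sum]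
  simp only [Derivation.leibniz, smul_eq_mul, map_sum, Derivation.map_smul, dbA_ZA, smul_zero, Finset.sum_const_zero, mul_zero, add_zero, dbA_WA]
  rw [Finset.sum_add_distrib]
  have h1 : ∀ e : Fin m, dbA e F * ∑ c, M c e • (if b = c then (1 : SA m) else 0) =
      M b e • dbA e F := by
    intro e
    rw [Finset.sum_eq_single b]
    · rw [if_pos rfl, mul_smul_comm, mul_one]
    · intro c _ hc
      rw [if_neg (Ne.symm hc), smul_zero]
    · intro h
      exact absurd (Finset.mem_univ b) h
  simp only [h1]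
  have h2 : ∀ e : Fin m, dbA b (dbA e F) = dbA e (dbA b F) := fun e => dbA_comm b e F
  have h3 : ∀ e : Fin m, dbA b (dA e F) = dA e (dbA b F) := fun e => dbA_dA_comm e b F
  simp only [h3, h2]
  ring

theorem XD1_LA (M : Matrix (Fin m) (Fin m) ℂ) (P H : Fin m → Fin m → SA m) (L : SA m)
    (hd : ∀ a, dA a L = ∑ b, ∑ c, P b c * dA a (H b c))
    (hb : ∀ a, dbA a L = ∑ b, ∑ c, P b c * dbA a (H b c)) :
    XA M L = ∑ a, ∑ b, P a b * XA M (H a b) := by
  rw [XD1_apply]
  simp only [XD1_apply]
  generalize hf : (fun a => ∑ b, M a b • ZA b) = f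
  generalize hg : (fun b => ∑ c, M c b • WA c) = g
  have hf' : ∀ a, ∑ b, M a b • ZA b = f a := fun a => congrFun hf a
  have hg' : ∀ b, ∑ c, M c b • WA c = g b := fun b => congrFun hg b
  simp only [hf', hg', hd, hb]
  simp only [Finset.mul_sum, mul_sub, Finset.sum_sub_distrib]
  congr 1
  · rw [Finset.sum_comm]
    refine Finset.sum_congr rfl fun a _ => ?_
    rw [Finset.sum_comm]
    refine Finset.sum_congr rfl fun b _ => ?_
    refine Finset.sum_congr rfl fun c _ => ?_
    rw [mul_left_comm]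
  · rw [Finset.sum_comm]
    refine Finset.sum_congr rfl fun a _ => ?_
    rw [Finset.sum_comm]
    refine Finset.sum_congr rfl fun b _ => ?_
    refine Finset.sum_congr rfl fun c _ => ?_
    rw [mul_left_comm]

theorem XA_LA {h : Cm m → ℝ} (hh : IsCone m h) (M : Matrix (Fin m) (Fin m) ℂ) :
    XA M (LA hh) = ∑ a, ∑ b, (coneOf hh).P a b * XA M ((coneOf hh).hs (coneOf hh).h a b) :=
  XD1_LA M (coneOf hh).P ((coneOf hh).hs (coneOf hh).h) (LA hh) (coneOf hh).dL (coneOf hh).bL

theorem XA_sig {h : Cm m → ℝ} (hh : IsCone m h) (M : Matrix (Fin m) (Fin m) ℂ) :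
    XA M (coneOf hh).sig = (coneOf hh).Lin (XA M (hA hh)) :=
  (coneOf hh).X_sig (XA M) M (XA_dA M) (XA_dbA M) (XA_LA hh M)

end P264.Geo

end
end
end

section

section

/-! # P264 / Geo / XDer : the function `v = h⁻¹ X h` -/

open scoped ContDiff ComplexOrder
open TopologicalSpace (Opens)
open MeasureTheory Set

noncomputable section

namespace P264.Geo

variable {m : ℕ}

/-- `h⁻¹ X h` as a real function. -/
def vR (M : Matrix (Fin m) (Fin m) ℂ) (h : Cm m → ℝ) (Z : Cm m) : ℝ :=
  fderiv ℝ h Z (M.mulVec Z) / h Z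

theorem xder_mulVec_smooth (M : Matrix (Fin m) (Fin m) ℂ) :
    ContDiff ℝ ∞ (fun Z : Cm m => M.mulVec Z) := by
  rw [contDiff_pi]
  intro i
  simp only [Matrix.mulVec, dotProduct]
  refine ContDiff.sum fun j _ => ?_
  exact contDiff_const.mul (contDiff_apply ℝ ℂ j)

theorem vR_smooth {h : Cm m → ℝ} (hh : IsCone m h) (M : Matrix (Fin m) (Fin m) ℂ) :
    ContDiffOn ℝ ∞ (vR M h) (Om m) := by
  have h1 : ContDiffOn ℝ ∞ (fderiv ℝ h) (Om m) :=
    hh.smooth.fderiv_of_isOpen (Om m).isOpen (by simp)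
  have h2 : ContDiffOn ℝ ∞ (fun Z => fderiv ℝ h Z (M.mulVec Z)) (Om m) :=
    h1.clm_apply (xder_mulVec_smooth M).contDiffOn
  exact h2.div hh.smooth fun Z hZ => (hh.pos Z hZ).ne'

/-- `h⁻¹ X h` as an element of `SA m` -/
def vA {h : Cm m → ℝ} (hh : IsCone m h) (M : Matrix (Fin m) (Fin m) ℂ) : SA m :=
  Sm.ofR (vR M h) (vR_smooth hh M)

theorem hA_mul_vA {h : Cm m → ℝ} (hh : IsCone m h) (M : Matrix (Fin m) (Fin m) ℂ)
    (hM : M.conjTranspose = -M) : hA hh * vA hh M = XA M (hA hh) := by
  apply Sm.ext'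
  intro Z hZ
  have hZ' : Z ≠ 0 := hZ
  rw [Sm.fn_mul _ _ hZ, fn_XA M hM _ hZ', hA, vA, Sm.ofR_fn _ _ hZ, Sm.ofR_fn _ _ hZ,
    ← Sm.D_fn _ _ hZ, Sm.D_ofR _ _ _ hZ, vR]
  have h0 : (h Z : ℂ) ≠ 0 := by exact_mod_cast (hh.pos Z hZ').ne'
  push_cast
  field_simp

theorem xder_sum_apply {ι : Type} (s : Finset ι) (f : ι → Derivation ℂ (SA m) (SA m)) (F : SA m) :
    (∑ i ∈ s, f i) F = ∑ i ∈ s, f i F := by
  have h := map_sum (Derivation.coeFnAddMonoidHom (R := ℂ) (A := SA m) (M := SA m)) f s
  have h2 := congrFun h F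
  rw [Finset.sum_apply] at h2
  exact h2

theorem xder_XA_ZA (M : Matrix (Fin m) (Fin m) ℂ) (a : Fin m) :
    XA M (ZA a) = ∑ b, M a b • ZA b := by
  simp only [XA, Derivation.sub_apply, xder_sum_apply, Derivation.smul_apply,
    dA_ZA, dbA_ZA, smul_eq_mul, mul_zero, Finset.sum_const_zero, sub_zero, mul_ite, mul_one,
    Finset.sum_ite_eq', Finset.mem_univ, if_true]

theorem xder_XA_WA (M : Matrix (Fin m) (Fin m) ℂ) (b : Fin m) :
    XA M (WA b) = -∑ c, M c b • WA c := by
  simp only [XA, Derivation.sub_apply, xder_sum_apply, Derivation.smul_apply,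
    dA_WA, dbA_WA, smul_eq_mul, mul_zero, Finset.sum_const_zero, zero_sub, mul_ite, mul_one,
    Finset.sum_ite_eq', Finset.mem_univ, if_true]

theorem xder_E_apply {h : Cm m → ℝ} (hh : IsCone m h) (F : SA m) :
    (coneOf hh).E F = ∑ a, ZA a * dA a F := by
  simp only [Cone.E, xder_sum_apply, Derivation.smul_apply, smul_eq_mul]
  rfl

theorem xder_Eb_apply {h : Cm m → ℝ} (hh : IsCone m h) (F : SA m) :
    (coneOf hh).Eb F = ∑ a, WA a * dbA a F := by
  simp only [Cone.Eb, xder_sum_apply, Derivation.smul_apply, smul_eq_mul]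
  rfl

theorem xder_comm_E {h : Cm m → ℝ} (hh : IsCone m h) (M : Matrix (Fin m) (Fin m) ℂ) (F : SA m) :
    XA M ((coneOf hh).E F) = (coneOf hh).E (XA M F) := by
  rw [xder_E_apply, xder_E_apply, map_sum]
  have h1 : ∀ a, XA M (ZA a * dA a F) =
      ZA a * dA a (XA M F) - (∑ c, M c a • (ZA a * dA c F)) + ∑ b, M a b • (ZA b * dA a F) := by
    intro a
    rw [Derivation.leibniz, XA_dA, xder_XA_ZA, smul_eq_mul, smul_eq_mul, mul_sub, Finset.mul_sum,
      Finset.mul_sum]
    congr 1
    · congr 1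
      exact Finset.sum_congr rfl fun c _ => by rw [mul_smul_comm]
    · exact Finset.sum_congr rfl fun b _ => by rw [mul_smul_comm, mul_comm]
  simp only [h1, Finset.sum_add_distrib, Finset.sum_sub_distrib]
  rw [Finset.sum_comm (f := fun a b => M a b • (ZA b * dA a F))]
  ring

theorem xder_comm_Eb {h : Cm m → ℝ} (hh : IsCone m h) (M : Matrix (Fin m) (Fin m) ℂ) (F : SA m) :
    XA M ((coneOf hh).Eb F) = (coneOf hh).Eb (XA M F) := by
  rw [xder_Eb_apply, xder_Eb_apply, map_sum]
  have h1 : ∀ a, XA M (WA a * dbA a F) =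
      WA a * dbA a (XA M F) + (∑ c, M a c • (WA a * dbA c F)) - ∑ b, M b a • (WA b * dbA a F) := by
    intro a
    have e1 : (dbA a F) * -(∑ c, M c a • WA c) = -∑ b, M b a • (WA b * dbA a F) := by
      have e2 : ∀ u w : SA m, u * -w = -(w * u) := fun u w => by ring
      rw [e2, Finset.sum_mul]
      congr 1
      exact Finset.sum_congr rfl fun b _ => by rw [smul_mul_assoc]
    have e3 : WA a * (∑ c, M a c • dbA c F) = ∑ c, M a c • (WA a * dbA c F) := by
      rw [Finset.mul_sum]
      exact Finset.sum_congr rfl fun c _ => by rw [mul_smul_comm]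
    rw [Derivation.leibniz, XA_dbA, xder_XA_WA, smul_eq_mul, smul_eq_mul, mul_add, e1, e3,
      ← sub_eq_add_neg]
  simp only [h1, Finset.sum_add_distrib, Finset.sum_sub_distrib]
  rw [Finset.sum_comm (f := fun a b => M b a • (WA b * dbA a F))]
  ring

theorem xder_unit {h : Cm m → ℝ} (hh : IsCone m h) : IsUnit (hA hh) := by
  apply isUnit_of_fn_ne
  intro Z hZ
  rw [hA, Sm.ofR_fn _ _ hZ]
  exact_mod_cast (hh.pos Z hZ).ne'

/-- `v` has degree `0`. -/
theorem E_vA {h : Cm m → ℝ} (hh : IsCone m h) (M : Matrix (Fin m) (Fin m) ℂ)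
    (hM : M.conjTranspose = -M) : (coneOf hh).E (vA hh M) = 0 := by
  have h1 : (coneOf hh).E (hA hh) = hA hh := by rw [xder_E_apply]; exact euler_hA hh
  have h2 : (coneOf hh).E (hA hh * vA hh M) = XA M (hA hh) := by
    rw [hA_mul_vA hh M hM, ← xder_comm_E, h1]
  rw [Derivation.leibniz, h1, smul_eq_mul, smul_eq_mul, ← hA_mul_vA hh M hM, mul_comm (vA hh M),
    add_eq_right] at h2
  exact (xder_unit hh).mul_right_eq_zero.1 h2

theorem Eb_vA {h : Cm m → ℝ} (hh : IsCone m h) (M : Matrix (Fin m) (Fin m) ℂ)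
    (hM : M.conjTranspose = -M) : (coneOf hh).Eb (vA hh M) = 0 := by
  have h1 : (coneOf hh).Eb (hA hh) = hA hh := by rw [xder_Eb_apply]; exact eulerb_hA hh
  have h2 : (coneOf hh).Eb (hA hh * vA hh M) = XA M (hA hh) := by
    rw [hA_mul_vA hh M hM, ← xder_comm_Eb, h1]
  rw [Derivation.leibniz, h1, smul_eq_mul, smul_eq_mul, ← hA_mul_vA hh M hM, mul_comm (vA hh M),
    add_eq_right] at h2
  exact (xder_unit hh).mul_right_eq_zero.1 h2

/-- `σ = - h tr(H⁻¹ ∂∂̄ log det H)` as a real function. -/
def sigR (h : Cm m → ℝ) (Z : Cm m) : ℝ :=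
  -(h Z * (((cHess h Z)⁻¹ * cHess (fun Y => Real.log (cHess h Y).det.re) Z).trace).re)

theorem xder_dz_congr {f g : Cm m → ℂ} {Z : Cm m} (a : Fin m) (hfg : f =ᶠ[nhds Z] g) :
    dz a f Z = dz a g Z := by
  simp only [dz, hfg.fderiv_eq]

theorem xder_dzb_congr {f g : Cm m → ℂ} {Z : Cm m} (a : Fin m) (hfg : f =ᶠ[nhds Z] g) :
    dzb a f Z = dzb a g Z := by
  simp only [dzb, hfg.fderiv_eq]

theorem xder_fn_hess (g : Cm m → ℝ) (hg : ContDiffOn ℝ ∞ g (Om m)) (a b : Fin m) {Z : Cm m}
    (hZ : Z ≠ 0) : Sm.fn (dA a (dbA b (Sm.ofR g hg))) Z = cHess g Z a b := by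
  rw [fn_dA _ _ hZ]
  simp only [cHess, Matrix.of_apply]
  apply xder_dz_congr
  filter_upwards [(Om m).isOpen.mem_nhds hZ] with Y hY
  rw [fn_dbA _ _ hY]
  apply xder_dzb_congr
  filter_upwards [(Om m).isOpen.mem_nhds hY] with X hX
  rw [Sm.ofR_fn _ _ hX]

theorem xder_D_ofR (v : Cm m) (g : Cm m → ℝ) (hg : ContDiffOn ℝ ∞ g (Om m)) :
    ∃ hg', Sm.D v (Sm.ofR g hg) = Sm.ofR (fun Z => fderiv ℝ g Z v) hg' := by
  refine ⟨(hg.fderiv_of_isOpen (Om m).isOpen (by simp)).clm_apply contDiffOn_const, ?_⟩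
  apply Sm.ext'
  intro Z hZ
  rw [Sm.D_ofR _ _ _ hZ, Sm.ofR_fn _ _ hZ]

theorem xder_conj_DD (v w : Cm m) (g : Cm m → ℝ) (hg : ContDiffOn ℝ ∞ g (Om m)) {Z : Cm m}
    (hZ : Z ≠ 0) :
    (starRingEnd ℂ) (Sm.fn (Sm.D v (Sm.D w (Sm.ofR g hg))) Z) =
      Sm.fn (Sm.D w (Sm.D v (Sm.ofR g hg))) Z := by
  rw [Sm.D_comm w v]
  obtain ⟨h1, h2⟩ := xder_D_ofR w g hg
  rw [h2, Sm.D_ofR _ _ _ hZ, Complex.conj_ofReal]

theorem xder_hess_expand (F : SA m) (a b : Fin m) {Z : Cm m} (hZ : Z ≠ 0) :
    Sm.fn (dA a (dbA b F)) Z =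
      (1 / 4 : ℂ) * (Sm.fn (Sm.D (Pi.single a 1) (Sm.D (Pi.single b 1) F)) Z
        + Complex.I * Sm.fn (Sm.D (Pi.single a 1) (Sm.D (Pi.single b Complex.I) F)) Z
        - Complex.I * Sm.fn (Sm.D (Pi.single a Complex.I) (Sm.D (Pi.single b 1) F)) Z
        + Sm.fn (Sm.D (Pi.single a Complex.I) (Sm.D (Pi.single b Complex.I) F)) Z) := by
  have hZ' : Z ∈ Om m := hZ
  simp only [dA, dbA, Derivation.smul_apply, Derivation.add_apply, Derivation.map_smul, map_add, Derivation.sub_apply]
  simp only [Sm.fn_smul _ _ hZ', Sm.fn_sub _ _ hZ', Sm.fn_add _ _ hZ']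
  linear_combination (-(1 / 4 : ℂ)) * Sm.fn (Sm.D (Pi.single a Complex.I)
    (Sm.D (Pi.single b Complex.I) F)) Z * Complex.I_sq

theorem xder_hermitian (g : Cm m → ℝ) (hg : ContDiffOn ℝ ∞ g (Om m)) {Z : Cm m}
    (hZ : Z ≠ 0) : (cHess g Z).IsHermitian := by
  ext a b
  rw [Matrix.conjTranspose_apply, ← xder_fn_hess g hg _ _ hZ, ← xder_fn_hess g hg _ _ hZ,
    xder_hess_expand _ _ _ hZ, xder_hess_expand _ _ _ hZ, ← starRingEnd_apply]
  simp only [map_mul, map_add, map_sub, xder_conj_DD _ _ g hg hZ, Complex.conj_I, map_div₀,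
    map_one, map_ofNat]
  ring

theorem xder_trace_real {A B : Matrix (Fin m) (Fin m) ℂ} (hA : A.IsHermitian)
    (hB : B.IsHermitian) : (((A⁻¹ * B).trace.re : ℝ) : ℂ) = (A⁻¹ * B).trace := by
  rw [← Complex.conj_eq_iff_re]
  have h1 : (starRingEnd ℂ) (A⁻¹ * B).trace = ((A⁻¹ * B).conjTranspose).trace := by
    rw [Matrix.trace_conjTranspose]
    rfl
  rw [h1, Matrix.conjTranspose_mul, hB.eq, hA.inv.eq, Matrix.trace_mul_comm]

theorem xder_fn_inv {h : Cm m → ℝ} (hh : IsCone m h) (a b : Fin m) {Z : Cm m} (hZ : Z ≠ 0) :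
    Sm.fn ((HA hh)⁻¹ a b) Z = (cHess h Z)⁻¹ a b := by
  have h1 : (HA hh)⁻¹ * HA hh = 1 := Matrix.nonsing_inv_mul _ (isUnit_det_HA hh)
  have h2 : ((HA hh)⁻¹).map (Sm.ev (⟨Z, hZ⟩ : Om m)) * (HA hh).map (Sm.ev (⟨Z, hZ⟩ : Om m)) = 1 := by
    rw [← Matrix.map_mul, h1, Matrix.map_one _ (map_zero _) (map_one _)]
  have h3 : (HA hh).map (Sm.ev (⟨Z, hZ⟩ : Om m)) = cHess h Z := by
    ext i j
    rw [Matrix.map_apply, Sm.ev_apply, fn_HA hh i j hZ]
  rw [h3] at h2
  rw [Matrix.inv_eq_left_inv h2, Matrix.map_apply, Sm.ev_apply]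

theorem fn_sig {h : Cm m → ℝ} (hh : IsCone m h) {Z : Cm m} (hZ : Z ≠ 0) :
    Sm.fn (coneOf hh).sig Z = (sigR h Z : ℂ) := by
  have hZ' : Z ∈ Om m := hZ
  have e1 : (coneOf hh).sig =
      -(hA hh * ∑ a, ∑ b, (HA hh)⁻¹ b a * dA a (dbA b (LA hh))) := rfl
  rw [e1, Sm.fn_neg _ hZ', Sm.fn_mul _ _ hZ', Sm.fn_sum _ _ hZ', hA, Sm.ofR_fn _ _ hZ', sigR]
  rw [Complex.ofReal_neg, Complex.ofReal_mul, xder_trace_real
    (xder_hermitian h hh.smooth hZ) (xder_hermitian _ (logdet_smooth hh) hZ), Matrix.trace]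
  congr 2
  simp only [Matrix.diag_apply, Matrix.mul_apply]
  rw [Finset.sum_comm]
  refine Finset.sum_congr rfl fun a _ => ?_
  rw [Sm.fn_sum _ _ hZ']
  refine Finset.sum_congr rfl fun b _ => ?_
  rw [Sm.fn_mul _ _ hZ', xder_fn_inv hh _ _ hZ, LA, xder_fn_hess _ _ _ _ hZ]

end P264.Geo

end
end
end

section

section

/-!
# P264 / Prof / Poly : integer polynomials as coefficient lists (helper608)

A tiny verified library used for kernel-checked piecewise polynomial data:
`ev l v` is the real value of `∑ l_k v^k`.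
-/

namespace P264.Prof

/-- Horner evaluation of an integer polynomial (lowest order first) at a real number. -/
noncomputable def ev : List ℤ → ℝ → ℝ
  | [], _ => 0
  | a :: l, v => (a : ℝ) + v * ev l v

/-- Horner evaluation at an integer. -/
def evI : List ℤ → ℤ → ℤ
  | [], _ => 0
  | a :: l, v => a + v * evI l v

/-- sum -/
def padd : List ℤ → List ℤ → List ℤ
  | [], l => l
  | a :: l, [] => a :: l
  | a :: l, b :: m => (a + b) :: padd l m

/-- integer multiple -/
def psmul (s : ℤ) : List ℤ → List ℤ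
  | [] => []
  | a :: l => s * a :: psmul s l

/-- product -/
def pmul : List ℤ → List ℤ → List ℤ
  | [], _ => []
  | a :: l, m => padd (psmul a m) (0 :: pmul l m)

/-- formal derivative -/
def pder : List ℤ → List ℤ
  | [] => []
  | _ :: l => padd l (0 :: pder l)

/-- iterated formal derivative -/
def pderk : ℕ → List ℤ → List ℤ
  | 0, l => l
  | k + 1, l => pder (pderk k l)

/-- sum of the absolute values of the coefficients -/
def sabs : List ℤ → ℕ
  | [] => 0
  | a :: l => a.natAbs + sabs l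

@[simp] theorem ev_nil (v : ℝ) : ev [] v = 0 := rfl
@[simp] theorem ev_cons (a : ℤ) (l : List ℤ) (v : ℝ) : ev (a :: l) v = (a : ℝ) + v * ev l v := rfl

theorem ev_intCast (l : List ℤ) (v : ℤ) : ev l (v : ℝ) = (evI l v : ℝ) := by
  induction l with
  | nil => simp only [ev_nil, evI, Int.cast_zero]
  | cons a l ih => simp [evI, ih]

theorem ev_padd (l m : List ℤ) (v : ℝ) : ev (padd l m) v = ev l v + ev m v := by
  induction l generalizing m with
  | nil => simp only [padd, ev_nil, zero_add]
  | cons a l ih =>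
    cases m with
    | nil => simp [padd]
    | cons b m => simp only [padd, ev_cons, ih]; push_cast; ring

theorem ev_psmul (s : ℤ) (l : List ℤ) (v : ℝ) : ev (psmul s l) v = (s : ℝ) * ev l v := by
  induction l with
  | nil => simp only [psmul, ev_nil, mul_zero]
  | cons a l ih => simp only [psmul, ev_cons, ih]; push_cast; ring

theorem ev_pmul (l m : List ℤ) (v : ℝ) : ev (pmul l m) v = ev l v * ev m v := by
  induction l with
  | nil => simp only [pmul, ev_nil, zero_mul]
  | cons a l ih =>
    simp only [pmul, ev_padd, ev_psmul, ev_cons, ih]; push_cast; ring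

theorem hasDerivAt_ev (l : List ℤ) (v : ℝ) : HasDerivAt (ev l) (ev (pder l) v) v := by
  induction l with
  | nil =>
    have h0 : ev [] = fun _ : ℝ => (0 : ℝ) := by funext x; rfl
    rw [h0]; exact hasDerivAt_const v (0 : ℝ)
  | cons a l ih =>
    have h : HasDerivAt (fun x : ℝ => (a : ℝ) + x * ev l x) (1 * ev l v + v * ev (pder l) v) v := by
      have := ((hasDerivAt_id v).mul ih).const_add (a : ℝ)
      simpa using this
    have e : ev (pder (a :: l)) v = 1 * ev l v + v * ev (pder l) v := by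
      simp [pder, ev_padd]
    rw [e]; exact h

theorem continuous_ev (l : List ℤ) : Continuous (ev l) :=
  continuous_iff_continuousAt.2 fun v => (hasDerivAt_ev l v).continuousAt

theorem abs_ev_le (l : List ℤ) {v : ℝ} (hv : |v| ≤ 1) : |ev l v| ≤ (sabs l : ℝ) := by
  induction l with
  | nil => simp [sabs]
  | cons a l ih =>
    have h1 : |(a : ℝ) + v * ev l v| ≤ |(a : ℝ)| + |v| * |ev l v| := by
      refine (abs_add_le _ _).trans ?_
      rw [abs_mul]
    have h2 : |v| * |ev l v| ≤ 1 * (sabs l : ℝ) :=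
      mul_le_mul hv ih (abs_nonneg _) (by norm_num)
    have h3 : |(a : ℝ)| = (a.natAbs : ℝ) := by
      rw [← Int.cast_abs]; simp only [Int.cast_abs, Nat.cast_natAbs]
    simp only [ev_cons, sabs]
    push_cast
    linarith only [h3, h1, h2]

/-! ### linear time derivative -/

/-- `k a_0, (k+1) a_1, …` -/
def pdF (k : ℕ) : List ℤ → List ℤ
  | [] => []
  | a :: l => Int.mul (Int.ofNat k) a :: pdF (Nat.succ k) l

/-- derivative, linear time -/
def pdL : List ℤ → List ℤ
  | [] => []
  | _ :: l => pdF 1 l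

theorem ev_pdF (k : ℕ) (l : List ℤ) (v : ℝ) :
    ev (pdF k l) v = k * ev l v + v * ev (pder l) v := by
  induction l generalizing k with
  | nil => simp only [pdF, ev_nil, mul_zero, pder, add_zero]
  | cons a l ih =>
    simp only [pdF, ev_cons, ih, pder, ev_padd]
    have : ((Int.mul (Int.ofNat k) a : ℤ) : ℝ) = (k : ℝ) * a := by
      show (((k : ℤ) * a : ℤ) : ℝ) = _
      push_cast
      ring
    rw [this]
    push_cast
    ring

theorem ev_pdL (l : List ℤ) (v : ℝ) : ev (pdL l) v = ev (pder l) v := by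
  cases l with
  | nil => simp [pdL, pder]
  | cons a l =>
    simp only [pdL, ev_pdF, pder, ev_padd, ev_cons]
    push_cast
    ring

/-- iterated derivative list, linear time -/
def pdk : ℕ → List ℤ → List ℤ
  | 0, l => l
  | k + 1, l => pdL (pdk k l)

theorem ev_pder_congr {l m : List ℤ} (h : ∀ v, ev l v = ev m v) (v : ℝ) :
    ev (pder l) v = ev (pder m) v := by
  have h1 := hasDerivAt_ev l v
  rw [show ev l = ev m from funext h] at h1
  exact h1.unique (hasDerivAt_ev m v)

theorem ev_pdk (k : ℕ) (l : List ℤ) (v : ℝ) : ev (pdk k l) v = ev (pderk k l) v := by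
  induction k generalizing v with
  | zero => rfl
  | succ k ih =>
    rw [pdk, ev_pdL, pderk]
    exact ev_pder_congr ih v

theorem evI_pdk (k : ℕ) (l : List ℤ) (v : ℤ) : evI (pdk k l) v = evI (pderk k l) v := by
  have h := ev_pdk k l (v : ℝ)
  rw [ev_intCast, ev_intCast] at h
  exact_mod_cast h

end P264.Prof
end
end

section

section

/-!
# P264 / Prof / Bern : Bernstein range bounds for integer polynomials (helper608)

`evH β x y = ∑ β_i x^i y^(n-i)` (`n = length β - 1`).
-/

namespace P264.Prof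

/-- homogeneous evaluation -/
noncomputable def evH : List ℤ → ℝ → ℝ → ℝ
  | [], _, _ => 0
  | b :: l, x, y => (b : ℝ) * y ^ l.length + x * evH l x y

/-- the binomial row, `(x+y)^n` -/
def binrow : ℕ → List ℤ
  | 0 => [1]
  | n + 1 => padd (0 :: binrow n) (binrow n ++ [0])

theorem length_padd (l m : List ℤ) : (padd l m).length = max l.length m.length := by
  induction l generalizing m with
  | nil => simp only [padd, List.length_nil, zero_le, sup_of_le_right]
  | cons a l ih =>
    cases m with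
    | nil => simp only [padd, List.length_cons, List.length_nil, le_add_iff_nonneg_left, zero_le, sup_of_le_left, Nat.add_left_cancel_iff]
    | cons b m => simp only [padd, List.length_cons, ih, Nat.add_max_add_right, Nat.add_left_cancel_iff]

theorem length_psmul (s : ℤ) (l : List ℤ) : (psmul s l).length = l.length := by
  induction l with
  | nil => rfl
  | cons a l ih => simp [psmul, ih]

theorem evH_padd (l m : List ℤ) (h : l.length = m.length) (x y : ℝ) :
    evH (padd l m) x y = evH l x y + evH m x y := by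
  induction l generalizing m with
  | nil =>
    cases m with
    | nil => simp only [padd, evH, add_zero]
    | cons b m => simp at h
  | cons a l ih =>
    cases m with
    | nil => simp at h
    | cons b m =>
      have h' : l.length = m.length := by simpa using h
      simp only [padd, evH, ih m h', length_padd, h', max_self]
      push_cast; ring

theorem evH_psmul (s : ℤ) (l : List ℤ) (x y : ℝ) : evH (psmul s l) x y = s * evH l x y := by
  induction l with
  | nil => simp [psmul, evH]
  | cons a l ih => simp only [psmul, evH, ih, length_psmul]; push_cast; ring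

theorem evH_append_zero (l : List ℤ) (x y : ℝ) : evH (l ++ [0]) x y = y * evH l x y := by
  induction l with
  | nil => simp [evH]
  | cons a l ih => simp only [List.cons_append, evH, ih, List.length_append, List.length_cons,
      List.length_nil]; ring

theorem evH_cons_zero (l : List ℤ) (x y : ℝ) : evH (0 :: l) x y = x * evH l x y := by
  simp [evH]

theorem length_binrow (n : ℕ) : (binrow n).length = n + 1 := by
  induction n with
  | zero => rfl
  | succ n ih => simp only [binrow, length_padd, List.length_cons, ih, List.length_append, List.length_nil, zero_add, max_self, Nat.add_left_cancel_iff]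

theorem evH_binrow (n : ℕ) (x y : ℝ) : evH (binrow n) x y = (x + y) ^ n := by
  induction n with
  | zero => simp only [binrow, evH, Int.cast_one, List.length_nil, pow_zero, mul_one, mul_zero, add_zero]
  | succ n ih =>
    rw [binrow, evH_padd _ _ (by simp [length_binrow]), evH_cons_zero, evH_append_zero, ih,
      pow_succ]
    ring

/-- Homogenisation on `[-1,1]`: `evH (homS l) (1+v) (1-v) = 2^(n) ev l v`, `n = length l - 1`. -/
def homS : List ℤ → List ℤ
  | [] => []
  | [c] => [c]
  | c :: l => padd (psmul c (binrow l.length))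
      (padd (0 :: homS l) (psmul (-1) (homS l ++ [0])))

/-- Homogenisation on `[0,1]`: `evH (homU l) u (1-u) = ev l u`. -/
def homU : List ℤ → List ℤ
  | [] => []
  | c :: l => padd (psmul c (binrow l.length)) (0 :: homU l)

theorem length_homU (l : List ℤ) : (homU l).length = l.length := by
  induction l with
  | nil => rfl
  | cons c l ih => simp only [homU, length_padd, length_psmul, length_binrow, List.length_cons, ih, max_self, Nat.add_left_cancel_iff]

theorem evH_homU (l : List ℤ) (u : ℝ) : evH (homU l) u (1 - u) = ev l u := by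
  induction l with
  | nil => simp [homU, evH]
  | cons c l ih =>
    rw [homU, evH_padd, evH_psmul, evH_binrow, evH_cons_zero, ih]
    · simp
    · simp [length_psmul, length_binrow, length_homU]

/-- `|β_i| q ≤ p c_i` for all `i` -/
def domB (p q : ℤ) : List ℤ → List ℤ → Bool
  | [], [] => true
  | b :: l, c :: m => decide (|b| * q ≤ p * c) && domB p q l m
  | _, _ => false

theorem abs_evH_le_of_domB {p q : ℤ} (hq : 0 < q) (l m : List ℤ) (h : domB p q l m = true)
    {x y : ℝ} (hx : 0 ≤ x) (hy : 0 ≤ y) : |evH l x y| ≤ (p : ℝ) / q * evH m x y := by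
  have hq' : (0 : ℝ) < q := by exact_mod_cast hq
  induction l generalizing m with
  | nil =>
    cases m with
    | nil => simp [evH]
    | cons c m => simp only [domB, Bool.false_eq_true] at h
  | cons b l ih =>
    cases m with
    | nil => simp [domB] at h
    | cons c m =>
      simp only [domB, Bool.and_eq_true, decide_eq_true_eq] at h
      obtain ⟨h1, h2⟩ := h
      have hlen : ∀ (l m : List ℤ), domB p q l m = true → l.length = m.length := by
        intro l
        induction l with
        | nil => intro m hm; cases m with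
          | nil => rfl
          | cons _ _ => simp [domB] at hm
        | cons a l ihl => intro m hm; cases m with
          | nil => simp [domB] at hm
          | cons a' m =>
            simp only [domB, Bool.and_eq_true] at hm
            simp [ihl m hm.2]
      have hl := hlen l m h2
      have hb : |(b : ℝ)| ≤ (p : ℝ) / q * c := by
        rw [div_mul_eq_mul_div, le_div_iff₀ hq']
        exact_mod_cast h1
      have hyp : 0 ≤ y ^ m.length := pow_nonneg hy _
      simp only [evH, hl]
      calc |(b : ℝ) * y ^ m.length + x * evH l x y|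
          ≤ |(b : ℝ) * y ^ m.length| + |x * evH l x y| := abs_add_le _ _
        _ = |(b : ℝ)| * y ^ m.length + x * |evH l x y| := by
            rw [abs_mul, abs_mul, abs_of_nonneg hyp, abs_of_nonneg hx]
        _ ≤ (p : ℝ) / q * c * y ^ m.length + x * ((p : ℝ) / q * evH m x y) := by
            have := ih m h2
            (clear * - hb hy this hx; gcongr)
        _ = _ := by ring

/-- Bernstein bound on `[0,1]` : `|ev l u| ≤ p/q`. -/
def bernU (p q : ℤ) (l : List ℤ) : Bool :=
  domB p q (homU l) (binrow (l.length - 1))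

theorem abs_ev_le_of_bernU {p q : ℤ} (hq : 0 < q) (c : ℤ) (l : List ℤ)
    (h : bernU p q (c :: l) = true) {u : ℝ} (h0 : 0 ≤ u) (h1 : u ≤ 1) :
    |ev (c :: l) u| ≤ (p : ℝ) / q := by
  have h2 := abs_evH_le_of_domB (p := p) (q := q) hq
    (homU (c :: l)) (binrow l.length) (by simpa only [bernU, List.length_cons, add_tsub_cancel_right] using h)
    (x := u) (y := 1 - u) h0 (by linarith only [h1])
  rw [evH_homU, evH_binrow] at h2
  have e : (u + (1 - u)) ^ l.length = 1 := by
    have : u + (1 - u) = 1 := by ring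
    rw [this, one_pow]
  rwa [e, mul_one] at h2

end P264.Prof
end
end

section

section

/-!
# P264 / Prof / Piece : piecewise polynomial functions with a tail in `1/y²` (helper608)

`pw M T cells k y` is the `k`-th derivative of the piecewise function given by the list of cells
(first cell used for all `16 y < right end`), followed by the tail `T k y`.
-/

namespace P264.Prof

/-- A cell: `y = (C + H v)/16`, `v ∈ [-1,1]`, value `ev c v / 2^M`. -/
structure Cell where
  C : ℤ
  H : ℤ
  c : List ℤ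

/-- `k`-th derivative of the cell polynomial. -/
noncomputable def Cell.val (M : ℕ) (s : Cell) (k : ℕ) (y : ℝ) : ℝ :=
  (16 / (s.H : ℝ)) ^ k * ev (pderk k s.c) ((16 * y - s.C) / s.H) / 2 ^ M

theorem Cell.hasDerivAt (M : ℕ) (s : Cell) (hH : 0 < s.H) (k : ℕ) (y : ℝ) :
    HasDerivAt (s.val M k) (s.val M (k + 1) y) y := by
  have hH' : (s.H : ℝ) ≠ 0 := by exact_mod_cast hH.ne'
  have h1 : HasDerivAt (fun y : ℝ => (16 * y - s.C) / s.H) (16 / (s.H : ℝ)) y := by
    have := (((hasDerivAt_id y).const_mul (16 : ℝ)).sub_const (s.C : ℝ)).div_const (s.H : ℝ)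
    simpa only [id_eq, mul_one] using this
  have h2 := (hasDerivAt_ev (pderk k s.c) ((16 * y - s.C) / s.H)).comp y h1
  have h3 := (h2.const_mul ((16 / (s.H : ℝ)) ^ k)).div_const ((2 : ℝ) ^ M)
  have e : s.val M (k + 1) y = (16 / (s.H : ℝ)) ^ k *
      (ev (pder (pderk k s.c)) ((16 * y - s.C) / s.H) * (16 / (s.H : ℝ))) / 2 ^ M := by
    simp only [Cell.val, pderk]; ring
  rw [e]; exact h3

/-- one step of the derivative of `ev A ((Y/y)^2) / y^k` -/
def ptail (k : ℕ) (A : List ℤ) : List ℤ :=
  psmul (-1) (padd (psmul k A) (psmul 2 (0 :: pder A)))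

/-- coefficient lists of the derivatives of the tail -/
def tlist (b : List ℤ) : ℕ → List ℤ
  | 0 => b
  | k + 1 => ptail k (tlist b k)

/-- the tail: `k`-th derivative of `∑ b_j (Y/y)^(2j) / 2^B`. -/
noncomputable def tval (B : ℕ) (Y : ℤ) (b : List ℤ) (k : ℕ) (y : ℝ) : ℝ :=
  ev (tlist b k) (((Y : ℝ) / y) ^ 2) / (2 ^ B * y ^ k)

theorem tval_hasDerivAt (B : ℕ) (Y : ℤ) (b : List ℤ) (k : ℕ) {y : ℝ} (hy : 0 < y) :
    HasDerivAt (tval B Y b k) (tval B Y b (k + 1) y) y := by
  have hy' : y ≠ 0 := hy.ne'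
  have h1 : HasDerivAt (fun y : ℝ => ((Y : ℝ) / y) ^ 2) (-2 * ((Y : ℝ) / y) ^ 2 / y) y := by
    have h0 : HasDerivAt (fun y : ℝ => (Y : ℝ) / y) (-(Y : ℝ) / y ^ 2) y := by
      have := (hasDerivAt_inv hy').const_mul (Y : ℝ)
      refine this.congr_deriv ?_ |>.congr_of_eventuallyEq ?_
      · field_simp
      · exact Filter.Eventually.of_forall fun z => by simp [div_eq_mul_inv]
    have := h0.pow 2
    refine this.congr_deriv ?_
    norm_num
    (clear * - hy'; field_simp)
  have h2 := (hasDerivAt_ev (tlist b k) (((Y : ℝ) / y) ^ 2)).comp y h1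
  have h3 : HasDerivAt (fun y : ℝ => (2 : ℝ) ^ B * y ^ k) ((2 : ℝ) ^ B * (k * y ^ (k - 1))) y := by
    simpa only using (hasDerivAt_pow k y).const_mul ((2 : ℝ) ^ B)
  have hne : (2 : ℝ) ^ B * y ^ k ≠ 0 := by positivity
  have h4 := h2.div h3 hne
  have e : tval B Y b (k + 1) y =
      (ev (pder (tlist b k)) (((Y : ℝ) / y) ^ 2) * (-2 * ((Y : ℝ) / y) ^ 2 / y) *
        ((2 : ℝ) ^ B * y ^ k) - (ev (tlist b k) (((Y : ℝ) / y) ^ 2)) *
        ((2 : ℝ) ^ B * (k * y ^ (k - 1)))) / ((2 : ℝ) ^ B * y ^ k) ^ 2 := by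
    have hk : (k : ℝ) * y ^ (k - 1) = k * y ^ k / y := by
      rcases k with _ | k
      · simp only [CharP.cast_eq_zero, zero_tsub, pow_zero, mul_one, zero_div]
      · simp only [Nat.add_sub_cancel]; rw [pow_succ]; field_simp
    rw [hk]
    simp only [tval, tlist, ptail, ev_psmul, ev_padd, ev_cons]
    push_cast
    field_simp
    ring
  rw [e]
  exact h4

/-- piecewise function and its formal derivatives -/
noncomputable def pw (M : ℕ) (T : ℕ → ℝ → ℝ) : List Cell → ℕ → ℝ → ℝ
  | [], k, y => T k y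
  | s :: l, k, y => if 16 * y < ((s.C + s.H : ℤ) : ℝ) then s.val M k y else pw M T l k y

/-- gluing two functions with derivatives at a point where the values and derivatives match -/
theorem hasDerivAt_glue {f g f' g' : ℝ → ℝ} {r : ℝ} {P : ℝ → Prop} [DecidablePred P]
    (hP : ∀ y, P y ↔ y < r)
    (hf : ∀ y, 0 < y → HasDerivAt f (f' y) y) (hg : ∀ y, 0 < y → HasDerivAt g (g' y) y)
    (h0 : f r = g r) (h1 : f' r = g' r) (y : ℝ) (hy : 0 < y) :
    HasDerivAt (fun y => if P y then f y else g y) (if P y then f' y else g' y) y := by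
  rcases lt_trichotomy y r with h | h | h
  · rw [if_pos ((hP y).2 h)]
    refine (hf y hy).congr_of_eventuallyEq ?_
    filter_upwards [Iio_mem_nhds h] with z hz
    rw [if_pos ((hP z).2 hz)]
  · subst h
    rw [if_neg (fun hh => lt_irrefl _ ((hP y).1 hh))]
    have hl : HasDerivWithinAt (fun z => if P z then f z else g z) (g' y) (Set.Iic y) y := by
      rw [← h1]
      refine ((hf y hy).hasDerivWithinAt).congr (fun z hz => ?_) ?_
      · rcases eq_or_lt_of_le (Set.mem_Iic.1 hz) with h | h
        · subst h; rw [if_neg (fun hh => lt_irrefl _ ((hP z).1 hh)), h0]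
        · rw [if_pos ((hP z).2 h)]
      · rw [if_neg (fun hh => lt_irrefl _ ((hP y).1 hh)), h0]
    have hr : HasDerivWithinAt (fun z => if P z then f z else g z) (g' y) (Set.Ici y) y := by
      refine ((hg y hy).hasDerivWithinAt).congr (fun z hz => ?_) ?_
      · rw [if_neg (fun hh => absurd ((hP z).1 hh) (not_lt.2 hz))]
      · rw [if_neg (fun hh => lt_irrefl _ ((hP y).1 hh))]
    have := hl.union hr
    rw [Set.Iic_union_Ici] at this
    exact hasDerivWithinAt_univ.1 this
  · rw [if_neg (fun hh => absurd ((hP y).1 hh) (not_lt.2 h.le))]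
    refine (hg y hy).congr_of_eventuallyEq ?_
    filter_upwards [Ioi_mem_nhds h] with z hz
    rw [if_neg (fun hh => absurd ((hP z).1 hh) (not_lt.2 (le_of_lt hz)))]

/-- matching conditions (orders `0..K`) of the cells and of the tail -/
def Match (M K : ℕ) (T : ℕ → ℝ → ℝ) : List Cell → Prop
  | [] => True
  | s :: l => 0 < s.H ∧ (∀ k ≤ K, s.val M k (((s.C + s.H : ℤ) : ℝ) / 16) =
      pw M T l k (((s.C + s.H : ℤ) : ℝ) / 16)) ∧ Match M K T l

theorem pw_hasDerivAt {M K : ℕ} {T : ℕ → ℝ → ℝ}
    (hT : ∀ k y, 0 < y → HasDerivAt (T k) (T (k + 1) y) y) (l : List Cell) (hl : Match M K T l)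
    (k : ℕ) (hk : k < K) (y : ℝ) (hy : 0 < y) :
    HasDerivAt (pw M T l k) (pw M T l (k + 1) y) y := by
  induction l generalizing y with
  | nil => exact hT k y hy
  | cons s l ih =>
    obtain ⟨hH, hm, hl'⟩ := hl
    have key := hasDerivAt_glue (P := fun y : ℝ => 16 * y < ((s.C + s.H : ℤ) : ℝ))
      (r := ((s.C + s.H : ℤ) : ℝ) / 16)
      (fun y => by constructor <;> intro h <;> linarith only [h])
      (fun y _ => s.hasDerivAt M hH k y) (fun y hy => ih hl' y hy)
      (hm k hk.le) (hm (k + 1) hk) y hy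
    exact key

theorem pw_continuousAt {M K : ℕ} {T : ℕ → ℝ → ℝ}
    (hT : ∀ k y, 0 < y → ContinuousAt (T k) y) (l : List Cell) (hl : Match M K T l)
    (k : ℕ) (hk : k ≤ K) (y : ℝ) (hy : 0 < y) :
    ContinuousAt (pw M T l k) y := by
  induction l generalizing y with
  | nil => exact hT k y hy
  | cons s l ih =>
    obtain ⟨hH, hm, hl'⟩ := hl
    have hf := (s.hasDerivAt M hH k y).continuousAt
    have hg := ih hl' y hy
    have h0 := hm k hk
    rcases lt_trichotomy y (((s.C + s.H : ℤ) : ℝ) / 16) with h | h | h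
    · refine hf.congr ?_
      filter_upwards [Iio_mem_nhds h] with z hz
      rw [pw, if_pos]; have := Set.mem_Iio.1 hz; linarith only [this]
    · have hval : pw M T (s :: l) k y = pw M T l k y := by
        rw [pw, if_neg]; rw [h]; push Not; linarith only []
      have hsv : s.val M k y = pw M T l k y := by rw [h]; exact h0
      rw [Metric.continuousAt_iff] at hf hg ⊢
      intro ε hε
      obtain ⟨d1, hd1, h1⟩ := hf ε hε
      obtain ⟨d2, hd2, h2⟩ := hg ε hε
      refine ⟨min d1 d2, lt_min hd1 hd2, fun z hz => ?_⟩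
      rw [hval]
      by_cases hc : 16 * z < ((s.C + s.H : ℤ) : ℝ)
      · rw [pw, if_pos hc, ← hsv]; exact h1 (lt_of_lt_of_le hz (min_le_left _ _))
      · rw [pw, if_neg hc]; exact h2 (lt_of_lt_of_le hz (min_le_right _ _))
    · refine hg.congr ?_
      filter_upwards [Ioi_mem_nhds h] with z hz
      rw [pw, if_neg]; have := Set.mem_Ioi.1 hz; push Not; linarith only [this]

/-- the cells are contiguous, starting at `r/16` -/
def Chain : List Cell → ℤ → Prop
  | [], _ => True
  | s :: l, r => s.C - s.H = r ∧ 0 < s.H ∧ Chain l (s.C + s.H)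

/-- right end of the last cell -/
def rend : List Cell → ℤ → ℤ
  | [], r => r
  | s :: l, _ => rend l (s.C + s.H)

theorem pw_forall {M : ℕ} {T : ℕ → ℝ → ℝ} (φ : ℝ → (ℕ → ℝ) → Prop) (l : List Cell) (r : ℤ)
    (hch : Chain l r)
    (hcell : ∀ s ∈ l, ∀ y : ℝ, |(16 * y - s.C) / s.H| ≤ 1 → φ y (fun k => s.val M k y))
    (htail : ∀ y : ℝ, ((rend l r : ℤ) : ℝ) ≤ 16 * y → φ y (fun k => T k y))
    (y : ℝ) (hy : (r : ℝ) ≤ 16 * y) : φ y (fun k => pw M T l k y) := by
  induction l generalizing r with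
  | nil => exact htail y hy
  | cons s l ih =>
    obtain ⟨h1, h2, h3⟩ := hch
    by_cases hc : 16 * y < ((s.C + s.H : ℤ) : ℝ)
    · have e : (fun k => pw M T (s :: l) k y) = (fun k => s.val M k y) := by
        funext k; rw [pw, if_pos hc]
      rw [e]
      apply hcell s (by simp)
      have hH : (0 : ℝ) < s.H := by exact_mod_cast h2
      rw [abs_le]
      push_cast at hc
      have hr : (r : ℝ) = s.C - s.H := by rw [← h1]; push_cast; ring
      rw [hr] at hy
      constructor
      · rw [le_div_iff₀ hH]; linarith only [hy]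
      · rw [div_le_iff₀ hH]; linarith
    · have e : (fun k => pw M T (s :: l) k y) = (fun k => pw M T l k y) := by
        funext k; rw [pw, if_neg hc]
      rw [e]
      exact ih (s.C + s.H) h3 (fun s' hs' => hcell s' (by simp [hs'])) htail
        (by push Not at hc; exact hc)

theorem le_rend (l : List Cell) (r : ℤ) (h : Chain l r) : r ≤ rend l r := by
  induction l generalizing r with
  | nil => exact le_rfl
  | cons s l ih =>
    obtain ⟨h1, h2, h3⟩ := h
    have := ih _ h3
    simp only [rend]; omega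

theorem pw_eq_tail {M : ℕ} {T : ℕ → ℝ → ℝ} (l : List Cell) (r : ℤ) (h : Chain l r) (k : ℕ)
    (y : ℝ) (hy : ((rend l r : ℤ) : ℝ) ≤ 16 * y) : pw M T l k y = T k y := by
  induction l generalizing r with
  | nil => rfl
  | cons s l ih =>
    obtain ⟨h1, h2, h3⟩ := h
    have hle : ((s.C + s.H : ℤ) : ℝ) ≤ 16 * y := by
      refine le_trans ?_ hy
      exact_mod_cast le_rend _ _ h3
    rw [pw, if_neg (not_lt.2 hle)]
    exact ih _ h3 hy

end P264.Prof
end
end

section

section

/-!
# P264 / Prof / Check : boolean checkers (matching, contiguity, cellwise bounds) (helper608)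
-/

namespace P264.Prof

/-! ## matching -/

/-- matching of two neighbouring cells at order `k` -/
def matchCell (s s' : Cell) (k : ℕ) : Bool :=
  decide (s'.H ^ k * evI (pdk k s.c) 1 = s.H ^ k * evI (pdk k s'.c) (-1))

/-- matching of the last cell with the tail at order `k` -/
def matchTail (M B : ℕ) (Y : ℤ) (b : List ℤ) (s : Cell) (k : ℕ) : Bool :=
  decide (16 ^ k * evI (pdk k s.c) 1 * 2 ^ B * Y ^ k = evI (tlist b k) 1 * s.H ^ k * 2 ^ M)

/-- all matching conditions up to order `K` -/
def matchB (M B : ℕ) (Y : ℤ) (b : List ℤ) (K : ℕ) : List Cell → Bool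
  | [] => true
  | [s] => decide (0 < s.H) && decide (s.C + s.H = 16 * Y) &&
      (List.range (K + 1)).all (fun k => matchTail M B Y b s k)
  | s :: s' :: l => decide (0 < s.H) && decide (s'.C - s'.H = s.C + s.H) &&
      (List.range (K + 1)).all (fun k => matchCell s s' k) && matchB M B Y b K (s' :: l)

theorem matchB_pos {M B : ℕ} {Y : ℤ} {b : List ℤ} {K : ℕ} {s : Cell} {l : List Cell}
    (h : matchB M B Y b K (s :: l) = true) : 0 < s.H := by
  cases l with
  | nil => simp only [matchB, Bool.and_eq_true, decide_eq_true_eq] at h; exact h.1.1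
  | cons s' l => simp only [matchB, Bool.and_eq_true, decide_eq_true_eq] at h; exact h.1.1.1

theorem match_of_matchB {M B : ℕ} {Y : ℤ} (hY : 0 < Y) {b : List ℤ} {K : ℕ} (l : List Cell)
    (h : matchB M B Y b K l = true) : Match M K (tval B Y b) l := by
  induction l with
  | nil => trivial
  | cons s l ih =>
    cases l with
    | nil =>
      simp only [matchB, matchTail, Bool.and_eq_true, decide_eq_true_eq, List.all_eq_true, List.mem_range] at h
      obtain ⟨⟨hH, hC⟩, hk⟩ := h
      refine ⟨hH, fun k hkK => ?_, trivial⟩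
      have hk' := hk k (by omega)
      rw [evI_pdk] at hk'
      have hH' : (s.H : ℝ) ≠ 0 := by exact_mod_cast hH.ne'
      have hY' : (Y : ℝ) ≠ 0 := by exact_mod_cast hY.ne'
      have e1 : ((16 : ℝ) * (((s.C + s.H : ℤ) : ℝ) / 16) - s.C) / s.H = ((1 : ℤ) : ℝ) := by
        push_cast; field_simp; ring
      have e2 : ((s.C + s.H : ℤ) : ℝ) / 16 = (Y : ℝ) := by rw [hC]; push_cast; ring
      have e3 : (((Y : ℝ) / (Y : ℝ)) ^ 2) = ((1 : ℤ) : ℝ) := by rw [div_self hY']; norm_num
      simp only [Cell.val, pw, e1, tval]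
      rw [e2, e3, ev_intCast, ev_intCast]
      have hc : ((16 : ℝ) ^ k * (evI (pderk k s.c) 1 : ℝ) * 2 ^ B * (Y : ℝ) ^ k) =
          (evI (tlist b k) 1 : ℝ) * (s.H : ℝ) ^ k * 2 ^ M := by exact_mod_cast hk'
      rw [div_pow, div_eq_div_iff (by positivity) (by positivity)]
      field_simp
      linarith only [hc]
    | cons s' l =>
      have hpos' : 0 < s'.H := by
        simp only [matchB, Bool.and_eq_true] at h; exact matchB_pos h.2
      simp only [matchB, Bool.and_eq_true, decide_eq_true_eq, List.all_eq_true, List.mem_range,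
        matchCell] at h
      obtain ⟨⟨⟨hH, hC⟩, hk⟩, hrest⟩ := h
      refine ⟨hH, fun k hkK => ?_, ih hrest⟩
      have hk' := hk k (by omega)
      rw [evI_pdk, evI_pdk] at hk'
      have hH' : (s.H : ℝ) ≠ 0 := by exact_mod_cast hH.ne'
      have hH2 : (s'.H : ℝ) ≠ 0 := by exact_mod_cast hpos'.ne'
      have hH2' : (0 : ℝ) < (s'.H : ℝ) := by exact_mod_cast hpos'
      have e1 : ((16 : ℝ) * (((s.C + s.H : ℤ) : ℝ) / 16) - s.C) / s.H = ((1 : ℤ) : ℝ) := by
        push_cast; field_simp; ring
      have hC' : ((s.C + s.H : ℤ) : ℝ) = (s'.C : ℝ) - s'.H := by rw [← hC]; push_cast; ring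
      have e2 : ((16 : ℝ) * (((s.C + s.H : ℤ) : ℝ) / 16) - s'.C) / s'.H = ((-1 : ℤ) : ℝ) := by
        rw [hC']; push_cast; field_simp; ring
      have hlt : (16 : ℝ) * (((s.C + s.H : ℤ) : ℝ) / 16) < ((s'.C + s'.H : ℤ) : ℝ) := by
        rw [hC']; push_cast; linarith only [hH2']
      simp only [pw, if_pos hlt, Cell.val]
      rw [e1, e2, ev_intCast, ev_intCast]
      have hc : ((s'.H : ℝ) ^ k * (evI (pderk k s.c) 1 : ℝ)) =
          (s.H : ℝ) ^ k * (evI (pderk k s'.c) (-1) : ℝ) := by exact_mod_cast hk'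
      rw [div_pow, div_pow]
      congr 1
      rw [div_mul_eq_mul_div, div_mul_eq_mul_div, div_eq_div_iff (by positivity) (by positivity)]
      calc (16 : ℝ) ^ k * (evI (pderk k s.c) 1 : ℝ) * (s'.H : ℝ) ^ k
          = 16 ^ k * ((s'.H : ℝ) ^ k * (evI (pderk k s.c) 1 : ℝ)) := by ring
        _ = 16 ^ k * (evI (pderk k s'.c) (-1) : ℝ) * (s.H : ℝ) ^ k := by rw [hc]; ring

/-! ## contiguity -/

def chainB : List Cell → ℤ → Bool
  | [], _ => true
  | s :: l, r => decide (s.C - s.H = r) && decide (0 < s.H) && chainB l (s.C + s.H)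

theorem chain_of_chainB (l : List Cell) (r : ℤ) (h : chainB l r = true) : Chain l r := by
  induction l generalizing r with
  | nil => trivial
  | cons s l ih =>
    simp only [chainB, Bool.and_eq_true, decide_eq_true_eq] at h
    exact ⟨h.1.1, h.1.2, ih _ h.2⟩

/-! ## the operator `Π(D)(R-1)` and the residual on a cell (`n = 8`) -/

/-- `y = ev (yP s) v / 16` on the cell -/
def yP (s : Cell) : List ℤ := [s.C, s.H]

theorem ev_yP (s : Cell) (hH : 0 < s.H) (y : ℝ) :
    ev (yP s) ((16 * y - s.C) / s.H) = 16 * y := by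
  have hH' : (s.H : ℝ) ≠ 0 := by exact_mod_cast hH.ne'
  simp only [yP, ev_cons, ev_nil]
  field_simp
  ring

/-- `P(D)(f-1)` for `n = 8`: `y⁴f'''' + 18y³f''' + 56y²f'' - 112 y f' + 112 (f-1)`. -/
noncomputable def Gop (y : ℝ) (F : ℕ → ℝ) : ℝ :=
  y ^ 4 * F 4 + 18 * y ^ 3 * F 3 + 56 * y ^ 2 * F 2 - 112 * y * F 1 + 112 * (F 0 - 1)

/-- `y² ·` residual: `-(1/2) y³ f' - f² P(D)(f-1)`. -/
noncomputable def resy2 (y : ℝ) (F : ℕ → ℝ) : ℝ :=
  -(1 / 2) * y ^ 3 * F 1 - (F 0) ^ 2 * Gop y F

/-- powers -/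
def ppow (l : List ℤ) : ℕ → List ℤ
  | 0 => [1]
  | k + 1 => pmul l (ppow l k)

theorem ev_ppow (l : List ℤ) (k : ℕ) (v : ℝ) : ev (ppow l k) v = ev l v ^ k := by
  induction k with
  | zero => simp only [ppow, ev_cons, Int.cast_one, ev_nil, mul_zero, add_zero, pow_zero]
  | succ k ih => rw [ppow, ev_pmul, ih, pow_succ]; ring

/-- `y^k R^{(k)} · H^4 2^M` as an integer polynomial -/
def ydP (s : Cell) (k : ℕ) : List ℤ :=
  psmul (s.H ^ (4 - k)) (pmul (ppow (yP s) k) (pderk k s.c))

theorem ev_ydP (M : ℕ) (s : Cell) (hH : 0 < s.H) (k : ℕ) (hk : k ≤ 4) (y : ℝ) :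
    ev (ydP s k) ((16 * y - s.C) / s.H) = y ^ k * s.val M k y * ((s.H : ℝ) ^ 4 * 2 ^ M) := by
  have hH' : (s.H : ℝ) ≠ 0 := by exact_mod_cast hH.ne'
  rw [ydP, ev_psmul, ev_pmul, ev_ppow, ev_yP s hH, Cell.val]
  have h4 : (s.H : ℝ) ^ 4 = (s.H : ℝ) ^ (4 - k) * (s.H : ℝ) ^ k := by
    rw [← pow_add]; congr 1; omega
  rw [h4]
  push_cast
  rw [div_pow, mul_pow]
  (clear * - hH; field_simp)

/-- numerator of `P(D)(R-1)`, over `H^4 2^M` -/
def GP (M : ℕ) (s : Cell) : List ℤ :=
  padd (ydP s 4) (padd (psmul 18 (ydP s 3)) (padd (psmul 56 (ydP s 2))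
    (padd (psmul (-112) (ydP s 1)) (padd (psmul 112 (ydP s 0)) [-112 * s.H ^ 4 * 2 ^ M]))))

theorem ev_GP (M : ℕ) (s : Cell) (hH : 0 < s.H) (y : ℝ) :
    ev (GP M s) ((16 * y - s.C) / s.H) =
      Gop y (fun k => s.val M k y) * ((s.H : ℝ) ^ 4 * 2 ^ M) := by
  simp only [GP, ev_padd, ev_psmul, ev_ydP M s hH _ (by norm_num : 4 ≤ 4),
    ev_ydP M s hH _ (by norm_num : 3 ≤ 4), ev_ydP M s hH _ (by norm_num : 2 ≤ 4),
    ev_ydP M s hH _ (by norm_num : 1 ≤ 4), ev_ydP M s hH _ (by norm_num : 0 ≤ 4), ev_cons,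
    ev_nil, Gop]
  push_cast
  ring

/-- numerator of `-y² eps`, over `2^(9+3M) H^4` :
`(16y)² · (y R') H⁴2^M · 2^(2M) + 2^9 c² · G`. -/
def resP (M : ℕ) (s : Cell) : List ℤ :=
  padd (psmul (2 ^ (2 * M)) (pmul (ppow (yP s) 2) (ydP s 1)))
    (psmul (2 ^ 9) (pmul (pmul s.c s.c) (GP M s)))

theorem ev_resP (M : ℕ) (s : Cell) (hH : 0 < s.H) (y : ℝ) :
    ev (resP M s) ((16 * y - s.C) / s.H) =
      -resy2 y (fun k => s.val M k y) * (2 ^ (9 + 3 * M) * (s.H : ℝ) ^ 4) := by
  have h0 : ev s.c ((16 * y - s.C) / s.H) = s.val M 0 y * 2 ^ M := by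
    simp only [Cell.val, pow_zero, pderk, one_mul, isUnit_iff_ne_zero, ne_eq, pow_eq_zero_iff', OfNat.ofNat_ne_zero, false_and, not_false_eq_true, IsUnit.div_mul_cancel]
  rw [resP, ev_padd, ev_psmul, ev_psmul, ev_pmul, ev_pmul, ev_pmul, ev_ppow, ev_yP s hH,
    ev_ydP M s hH 1 (by norm_num), ev_GP M s hH, h0, resy2]
  push_cast
  have e1 : (2 : ℝ) ^ (2 * M) = (2 ^ M) ^ 2 := by rw [← pow_mul]; ring_nf
  have e2 : (2 : ℝ) ^ (9 + 3 * M) = 2 ^ 9 * (2 ^ M) ^ 3 := by
    rw [pow_add, ← pow_mul]; ring_nf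
  rw [e1, e2]
  ring

end P264.Prof
end
end

section

section

/-!
# P264 / B / Far / BlockCover : covering lemma (D2)
-/

open MeasureTheory Set Filter Real

namespace P264.B

private lemma third_le {g : ℝ → ℝ} (hg : Continuous g) (hg0 : ∀ u, 0 ≤ g u) (b : ℝ) :
    ∫ u in (b - 1 / 3)..(b + 1 / 3), g u ≤ 1603 / 1000 *
      ∫ u in (-1 : ℝ)..1, (1 - u ^ 2) ^ 4 * g (b + u) := by
  have hgc : Continuous fun u => g (b + u) := hg.comp (continuous_const.add continuous_id)
  have hwc : Continuous fun u : ℝ => (1 - u ^ 2) ^ 4 * g (b + u) := by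
    refine Continuous.mul ?_ hgc
    fun_prop
  have e : ∫ u in (b - 1 / 3)..(b + 1 / 3), g u = ∫ u in (-(1 / 3) : ℝ)..(1 / 3), g (b + u) := by
    rw [intervalIntegral.integral_comp_add_left (fun u => g u) b]
    rfl
  have e1 : ∫ u in (-(1 / 3) : ℝ)..(1 / 3), g (b + u)
      ≤ ∫ u in (-(1 / 3) : ℝ)..(1 / 3), 1603 / 1000 * ((1 - u ^ 2) ^ 4 * g (b + u)) := by
    refine intervalIntegral.integral_mono_on (by norm_num) (hgc.intervalIntegrable _ _)
      ((hwc.const_mul _).intervalIntegrable _ _) ?_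
    intro u hu
    have hu2 : u ^ 2 ≤ 1 / 9 := by
      have := abs_le.2 ⟨hu.1, hu.2⟩
      calc u ^ 2 = |u| ^ 2 := (sq_abs u).symm
        _ ≤ (1 / 3) ^ 2 := by (clear * - this; gcongr)
        _ = 1 / 9 := by norm_num
    have h4 : (8 / 9 : ℝ) ^ 4 ≤ (1 - u ^ 2) ^ 4 := by
      gcongr
      linarith only [hu2]
    have h5 : (1 : ℝ) ≤ 1603 / 1000 * (1 - u ^ 2) ^ 4 := by
      refine le_trans ?_ (mul_le_mul_of_nonneg_left h4 (by norm_num))
      norm_num
    calc g (b + u) = 1 * g (b + u) := (one_mul _).symm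
      _ ≤ (1603 / 1000 * (1 - u ^ 2) ^ 4) * g (b + u) :=
        mul_le_mul_of_nonneg_right h5 (hg0 _)
      _ = 1603 / 1000 * ((1 - u ^ 2) ^ 4 * g (b + u)) := by ring
  have e2 : ∫ u in (-(1 / 3) : ℝ)..(1 / 3), (1 - u ^ 2) ^ 4 * g (b + u)
      ≤ ∫ u in (-1 : ℝ)..1, (1 - u ^ 2) ^ 4 * g (b + u) := by
    refine intervalIntegral.integral_mono_interval (by norm_num) (by norm_num) (by norm_num)
      ?_ (hwc.intervalIntegrable _ _)
    exact Filter.Eventually.of_forall fun u => mul_nonneg (by (clear * -; positivity)) (hg0 _)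
  rw [e]
  refine e1.trans ?_
  rw [intervalIntegral.integral_const_mul]
  exact mul_le_mul_of_nonneg_left e2 (by norm_num)

/-- (D2) Covering: the unweighted energy of a block by three weighted ones. -/
theorem block_cover {g : ℝ → ℝ} (hg : Continuous g) (hg0 : ∀ u, 0 ≤ g u) (a : ℝ) :
    ∫ u in (-1 : ℝ)..1, g (a + u) ≤ 1603 / 1000 *
      ((∫ u in (-1 : ℝ)..1, (1 - u ^ 2) ^ 4 * g (a - 2 / 3 + u))
        + (∫ u in (-1 : ℝ)..1, (1 - u ^ 2) ^ 4 * g (a + u))
        + ∫ u in (-1 : ℝ)..1, (1 - u ^ 2) ^ 4 * g (a + 2 / 3 + u)) := by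
  have h0 : ∫ u in (-1 : ℝ)..1, g (a + u) = ∫ u in (a + -1)..(a + 1), g u :=
    intervalIntegral.integral_comp_add_left (fun u => g u) a
  have hi : ∀ x y : ℝ, IntervalIntegrable g volume x y := fun x y => hg.intervalIntegrable x y
  have h1 := third_le hg hg0 (a - 2 / 3)
  have h2 := third_le hg hg0 a
  have h3 := third_le hg hg0 (a + 2 / 3)
  rw [show a - 2 / 3 - 1 / 3 = a + -1 by ring, show a - 2 / 3 + 1 / 3 = a - 1 / 3 by ring] at h1
  rw [show a + 2 / 3 - 1 / 3 = a + 1 / 3 by ring, show a + 2 / 3 + 1 / 3 = a + 1 by ring] at h3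
  have hs : ∫ u in (a + -1)..(a + 1), g u
      = (∫ u in (a + -1)..(a - 1 / 3), g u) + (∫ u in (a - 1 / 3)..(a + 1 / 3), g u)
        + ∫ u in (a + 1 / 3)..(a + 1), g u := by
    rw [intervalIntegral.integral_add_adjacent_intervals (hi _ _) (hi _ _),
      intervalIntegral.integral_add_adjacent_intervals (hi _ _) (hi _ _)]
  rw [h0, hs]
  linarith

end P264.B
end
end

section

section

/-!
# P264 / LC / YDefs : format of the data of the linear certificate (helper919)

One `YC` per cell of the storage matrix: `y = (C + H v)/16`, `|v| ≤ 1`.  `par`, `lm`, `s` : the cell is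
the part `v_par = (v + s)/2^lm` of the cell number `par` of the profile (`cells8`, numbered from `0`).
`N` packs `21` polynomials (order `(0,0),(1,0),(1,1),(2,0),…,(5,5)`) with `n` coefficients of `w` bits
each (shifted by `2^(w-1)`); values are divided by `2^24`.
-/

namespace P264.LC

open P264.Prof

structure YC where
  C : ℤ
  H : ℤ
  par : ℕ
  lm : ℕ
  s : ℤ
  n : ℕ
  w : ℕ
  N : ℕ

/-- unpack `n` coefficients of `w` bits -/
def unp (w : ℕ) : ℕ → ℕ → List ℤ
  | 0, _ => []
  | n + 1, N => (((N % 2 ^ w : ℕ) : ℤ) - 2 ^ (w - 1)) :: unp w n (N >>> w)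

/-- polynomial number `t` -/
def YC.poly (d : YC) (t : ℕ) : List ℤ := unp d.w d.n (d.N >>> (d.w * d.n * t))

/-- position of the entry `(i,j)` -/
def pos (i j : Fin 6) : ℕ :=
  if j ≤ i then (i : ℕ) * (i + 1) / 2 + j else (j : ℕ) * (j + 1) / 2 + i

/-- cell of the entry `(i,j)` -/
def YC.cell (d : YC) (t : ℕ) : Cell := ⟨d.C, d.H, d.poly t⟩

end P264.LC
end
end

section

section

/-!
# P264 / LC / YData2 : storage matrix of the linear certificate (data, helper919)
-/

namespace P264.LC

def ydata2 : List YC := [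
  ⟨101, 1, 26, 0, 0, 10, 56, 0x8000000000280b7fffffffe92b4180000001eabe9c7fffffe953a831800000410f51f680000e604bef9d7ffe5f42579754801e2643bb7be08124bbdd8eb279c34fe0dcdbfe8f800000000010bf7fffffffee5e2a800000018814c37fffffed495b45800000445bd36480000bd248d0f87ffec7d5681152800e80bd3164487d00413fd7ae4f3ae817fe91a8a07ffffffffffffe8000000000000d800000000000cb7fffffffffe2628000000001f0727fffffffecf3b07fffffff3d14588000000b09de2c7ffffe143abca580001587e6e021800000000000457ffffffffffe417fffffffffe59b800000000403797fffffffbc407880000002362b8e8000001311fbd77ffffe651b620a80004a7cda711a7ffe23aa6362ff7ffffffffffbd180000000001cc0800000000171cd7fffffffc4214680000003f033c97fffffdf97f1d17fffff6bf9e5a2800019a331e7da7ffb0d028f56238011d0450f300f800000000032de7ffffffffef02c7fffffffe7c0bf800000031e33f87fffffcf79bbf58000018b069c828000072c204da87ffde8a64a8000803db1788816d97fc0d471695175800000000000f17ffffffff26495800000013a28da7ffffff0ac987d8000003ad70436800007e7e05cac7ffefb598bb4f68013cc615489ab81ac84a55ffd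b6db9de178a844487ffffffffffffe8000000000000b800000000000957fffffffffe82f80000000018f2e7ffffffff4cb62800000004ff42e8000001c32d6b67fffff74a86912800017d18780e5800000000000397ffffffffffe7d7fffffffffec9280000000031f9a7fffffffcb1e8a80000001e758587ffffffdcd4ab07ffffc5d5e1cc9800012fd533c517ffd5165e309887ffffffffffca3800000000018bb8000000000f24a7fffffffd29f8b80000003498dae7fffffde4552997fffffaa6b31b2800036041ddacf7fff5f4e24e3a7802ada7526851e800000000029f07ffffffffee12e7ffffffff04e5380000002aac97f7fffffd26c0e22800001402c91ca8000113aeba2057ffdc0061180c880055c035b38c57de7affe950f0c80000000000000800000000000008000000000000080000000000000800000000000027ffffffffffff9800000000006cd8000000000d5a8800000000bd8e780000000ed63f58000000000000080000000000000800000000000007fffffffffffff7fffffffffffcf800000000005517fffffffffc57b7ffffffffd530f7fffffffa82fa17ffffff39de1f680000000000000800000000000007ffffffffffffc80000000000009800000000002ec7fffffffffb90b8000000003875080000000055cc680000002add70780000090b02c55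800000000000007ffffffffffffc8000000000002d7ffffffffffffb7fffffffffd510800000000396017fffffffd51eaa800000002f71c1800000026f152d7ffffa8a4c74bf80000000000000800000000000017ffffffffffff88000000000000f800000000006e67fffffffff61d18000000007b6fe7fffffffe77fed80000000100fbf80000132e90f45800000000000007ffffffffffff58000000000007e7ffffffffffed17fffffffffa49a800000000900867fffffff79860e80000003343cc78000002e270b2d7ffff1acf1385e7ffffffffffff9800000000000837ffffffffff9e680000000000855800000000541677fffffff7c64d080000006f3576a7ffffff0ad54767ffffb009b22a18000890c36dc617ffffffffffff98000000000009c7ffffffffff89580000000001b6980000000047e257fffffff746e1d8000000945805e7fffffce48d53e7ffffb00fd03828000b9200227df800000000000607ffffffffff86f800000000060bb7ffffffffebeb77fffffffb6ce7980000008732b497fffff8bf9a641800000563818828000599bb9b43e7ff9000e0c31c67ffffffffffb3a8000000000645b7ffffffffae6c98000000008d1a380000004f195147fffff85ddeed6800004e3d33d3980001589a34c8d7ffb2496f347cb80445e9cd21ae6⟩,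
  ⟨103, 1, 27, 0, 0, 10, 56, 0x800000000099767ffffffff281e980000000bdadec7ffffffb32770f7fffffacc360e880000d543814077ffed1daec69828015be59124b72818b9e67312c6dc605d51430a5b0800000000076ff7ffffffff538a0800000009b3b957ffffffbb540167fffffc75dfa4980000b7dd211e57fff2845ac3245800852d25f32af7d2d263b17f5d435199dd3496782800000000000007ffffffffffffb800000000000d97fffffffffef188000000000d8fe7ffffffffa61697ffffffee1afea8000000530dc687ffffe35641163800011d572c4e48000000000000a800000000000a67fffffffffe2dd800000000254287fffffffe26526800000006091e08000001c6e9cbe7ffffefae5b65a8000452a8917c97ffeb2ecf2e5267fffffffffff5f7ffffffffff6f48000000001b4e97fffffffdcd00e80000001b31aca7ffffffacc84af7ffffee47b92e4800014288b56827ffb69a30c71ea80084aa02056998000000000059f800000000098267fffffffe9138380000001b1d1477fffffec40d4ec800000442b76f080000da92e80397ffe2c35f6b7438035ce83997431803426b6fef10680000000005c1a7ffffffff75eea800000007fa8897ffffffc5b11fa7fffffd34cac6a800007ba959a6f7fff3c87e96fc6800e75176048af81f0842dce6e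c7df3e79a8b543f6800000000000007ffffffffffffc800000000000ac7ffffffffff1fc8000000000ab4c7fffffffff8bc6800000002741048000001d6dc5617fffffe838a75a8000172d9c496f800000000000098000000000007a7fffffffffe92f8000000001d46f7fffffffe8f9a88000000079047f800000068799417ffffc700b6ad6800004870154fc7ffd68dd02bbf57fffffffffff777ffffffffff9fd800000000140a17fffffffe425ff800000018e9f797ffffff5cac9367fffff0638d8ad800031b88512f68000300b2fd9b5802a6cb7fb928b800000000006e5800000000057587fffffffedd93e800000019e86aa7fffffec44f1448000000459db37800015a083e3b17ffe397f07a6767ffd4687661a677dea00e73c9d4a800000000000008000000000000080000000000000800000000000008000000000000180000000000008800000000006d38000000000fe4d800000000f80c48000000108a28f800000000000008000000000000080000000000000800000000000017fffffffffffd5800000000003787fffffffffe8737ffffffffc64487fffffff9b58727ffffff2e2083980000000000000800000000000007fffffffffffff7fffffffffffef800000000002907fffffffffd5718000000001c3db8000000014cbe880000002e5ae39800000963976c9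800000000000007fffffffffffff8000000000000b8000000000011f7fffffffffdde680000000020a1b7fffffffeb60e97fffffff77289b800000018fded97ffffa8ec56f6b80000000000000800000000000007fffffffffffff7fffffffffffd7800000000005e77fffffffffa3f78000000003d53480000000091a3c7ffffffff904c280000132dbe080800000000000007ffffffffffffd800000000000128000000000023d7fffffffffb0be80000000058a077fffffffb357e980000000c8cab880000035ad9aed7ffff21260f7717ffffffffffffd800000000000287ffffffffffee57fffffffffdf558000000004655c7fffffffae2e8480000003a3c4518000000faa4c417ffffb07e7071680007f002b29337ffffffffffffc800000000000337ffffffffffec87fffffffffe695800000000434127fffffffa1ea8480000005a142ca7ffffffa4597857ffffa996151918000ae9d25e0328000000000002d7ffffffffffd8480000000001539800000000179337fffffffbc69098000000598f18e7fffffc3fecd0b7ffffe519f31ea8000567b7054aa7ff9b17c12bcbf7ffffffffffdbb800000000024f57ffffffffedc057fffffffe42453800000044514cf7fffffb5500a52800001d55ac631800028f64d2f387ffba7b1ca4d7a803b1e0bf707ca⟩,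
  ⟨105, 1, 28, 0, 0, 10, 56, 0x8000000000517a7ffffffffadb5880000000302e6280000001172ed17fffff9e25b549800009910f3adf7fff2dc74f6302800fcc7a29373581d5fc13b6ac6dc96b64195104b18000000000411b7ffffffffbcbb88000000029109d800000009814b27fffffb75cda93800008c792c8a77fff79bdbbb386800443db9085e07d45b080db1ccf2f8f27ba48c771800000000000007ffffffffffffb8000000000007c7ffffffffff86b80000000004b437fffffffffb9797ffffffecdc5577ffffffe2a26767ffffe3c40764a80000e4bc93bf77ffffffffffffc800000000000b67fffffffffef13800000000111697ffffffff6175e7fffffffa7a0938000001c0d02fd7fffffa7324a1e8000426fb04bf57fff3a13edd751800000000000397ffffffffff531800000000102c77fffffffefebcc800000008970da800000053c07357ffffeec50d17280000d71cb7cf07ffbacc4fd7dec7fff6587732ac27ffffffffffc77800000000088847ffffffff3ccd380000000b6fd0c7ffffffa1acf887fffffcdc9f36580000d957bffde7ffe7fc3a41788802f26c2ad737b8098e40bd7e6cc800000000034257ffffffffc8caa800000002342d2800000006e46377fffffc506bf608000058c3986737fff71fba67275800a897b3b25ca822216494805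8ce353b002bb56cc800000000000007ffffffffffffc800000000000657ffffffffff97b8000000000340f80000000039d978000000036fc128000001e7871568000005fe463b98000177509acbf7ffffffffffffd800000000000907ffffffffff2a38000000000d6567ffffffff872877fffffffea166780000007ad95c37ffffc9cdec5ab7ffff69eb296e47ffd63e489b026800000000000277ffffffffff8188000000000c32e7ffffffff25a9a800000009ca3768000000014de5d7ffffee3fb409380002b4e6adf2c8000ea5b0b0cd0802b8b6a59c4997ffffffffffece80000000006ac87ffffffff4eb8080000000c766cc7ffffffa43b6ec7fffff8d7e9e628000138b1f02ea7ffeb6d69a76547ff72b82796b1e7dde1f2349f5708000000000000080000000000000800000000000008000000000000080000000000001800000000000138000000000073f800000000128558000000013cd2f800000012bd483800000000000008000000000000080000000000000800000000000017fffffffffffe3800000000002137ffffffffffe467ffffffffc1e097fffffff8c31927ffffff209c0528000000000000080000000000000800000000000007fffffffffffef800000000001b67fffffffffead18000000000ca9a800000001c21c8800000034979ce8000009c63c64a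800000000000008000000000000080000000000002800000000000fe7fffffffffeb2b8000000000f98b7ffffffff7163e7fffffff22cece7ffffffeac86da7ffffa8f397fe08000000000000080000000000000800000000000017fffffffffffd7800000000003e17fffffffffd4c68000000001c5c8800000001927f88000000041a288800001330bee03800000000000007fffffffffffff7ffffffffffff5800000000002397fffffffffcd138000000002ffd57fffffffd4c0707fffffff6b3c2a80000035d324557ffff27ec965a67fffffffffffff80000000000007800000000000377fffffffffe1538000000002d6a37fffffffd235de80000001afd1278000001f1507c77ffffb69495fde80007567279bf97fffffffffffff80000000000007800000000000797fffffffffe47a8000000002df117fffffffc559198000000347512480000014718f287ffffabb7fe38e8000a3e0a757ad8000000000000d7fffffffffff6e7fffffffffff588000000001a5da7fffffffd054d880000003579f167fffffe73aa7a47ffffd5c51b6d280004d911079ff7ffa562ae871c27fffffffffff2580000000000bd980000000001d227fffffffe2f7bb80000002dea1d87fffffd903541c8000001814e44f80002e2fcd7d7b7ffc5974c25f4780331bc9e3b960⟩,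
  ⟨107, 1, 29, 0, 0, 10, 56, 0x80000000001e4d7ffffffffe93838000000000df74800000022a4bcc7fffffb437330e80000622a8431b7fff6bffb48b6b800ba790cee487820c67f59f38fbcd508992e3b3c6800000000018c97ffffffffecba18000000001eb9a800000018ddeda7fffffc659c21c80000632f778907fffb54132db778001db31faaea67d5177be906aee2a27e9b3bd2e35800000000000007ffffffffffffd800000000000397ffffffffffd3380000000001099800000000155587ffffffed382d27ffffff707b5407ffffe2698192080000ab36440a87ffffffffffffc800000000000697ffffffffff80b800000000068ec7ffffffffe78eb7fffffff74f47580000018482b7e80000044f7490f8000424fa30d5e7fffbe69f92c758000000000003e7ffffffffff99880000000007a0a7ffffffffa02ce800000000c809580000007c57e217fffff238ddb278000079791a13e7ffbd667f62ec17ff6ec9c833c1c7ffffffffffd10800000000046657ffffffffacef3800000003e457d7fffffff7445ff7fffffb2488ce880000b72a6ee807ffecb465664df8029c12a41437780f19993af49c4800000000014537ffffffffefa238000000002bafe800000014b90d07fffffd120aac180000372b2737f7fff95a45a43558007a8c7de87688246339faa51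aee7bde3ee000d7d800000000000007ffffffffffffe800000000000307ffffffffffd6a8000000000005580000000047c818000000058b951800000202434ed800000dcd9ae21800018b0ab02837ffffffffffffd800000000000547ffffffffff9c7800000000051ac7ffffffffeff4a7fffffffc46afa800000063c8ea87ffffcc72fb35b7fffe969c2a9277ffd43d0b5b5748000000000002d7ffffffffffb438000000000603f7ffffffffa174a800000002cb2a880000003b6a40a7ffffef60c5b39800024ce37fa5f80018a6f08281b802e048bc86e747ffffffffffe31800000000043157ffffffffa6c7a800000004de97f8000000072ed737fffff77d5e1a380000f77a5b28e7fff2031c0deff7ff2e1ca60c5987dc7e6288ace0a80000000000000800000000000008000000000000080000000000000800000000000018000000000001a800000000007f4800000000155ce8000000018c80980000001584b70800000000000008000000000000080000000000000800000000000017fffffffffffee8000000000012880000000000aef7ffffffffc3d4e7fffffff7ccf0a7ffffff112ab9a8000000000000080000000000000800000000000007ffffffffffff4800000000001037ffffffffff83f80000000005b84800000001f5e9280000003c156d3800000a36c7585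80000000000000800000000000007fffffffffffff800000000000a47ffffffffff50580000000005ea67ffffffffc35737ffffffeff1a5b7ffffffae634ee7ffffa88e3b73c8000000000000080000000000000800000000000017fffffffffffe4800000000002417ffffffffff2f98000000000ef818000000020cf8480000000b739d580000133ffc00180000000000000800000000000007ffffffffffff3800000000001817fffffffffe39480000000017a287fffffffe612d97ffffffea1c65380000031cabfee7ffff2e6ecc9fc800000000000007fffffffffffff8000000000006d7fffffffffeb738000000001a2527fffffffe8261e80000000a1410280000025b0d83a7ffffbf4ef112f80006cc103cdfc800000000000007ffffffffffffc8000000000009e7fffffffffeceb8000000001c55b7fffffffdc391b80000001d4f275800000236b1f647ffffb2e1b0d80800099c052b932800000000000037fffffffffffee7ffffffffffa9d80000000013c517fffffffe1cb2580000001d6ccfe7ffffffb7fd3e67ffffd0a80e5f58000423659f8e47ffae62811862f7fffffffffffa6800000000002d880000000006e207fffffffeab2e580000001ae239c7fffffef6f21307fffff41ce352180002be409392f7ffd0f45d06050802c861837a6f7⟩,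
  ⟨109, 1, 30, 0, 0, 10, 56, 0x800000000008c37fffffffffd3e77ffffffff6494f80000001d5b9057fffffccc5db08800003ab1421727fff92923403098008ad22014a0b8234c47827ae76d193b0fa3c961c800000000007617fffffffffd41a7ffffffff8ac19800000015544b87fffffd8297ef68000044de2dcca7fffdecd39d10f80009eefa3f6357d5619199ca55024d04c6077c9c8800000000000007fffffffffffff800000000000177fffffffffff487ffffffffffd548000000001866b7ffffffedf6fec7ffffff01fd98d7ffffdf4cf2a7d800006d3662dc97ffffffffffffe800000000000327ffffffffffcb580000000001e3e800000000161de7fffffff77210b80000013e57595800000c97537bb80004475490909800044d692e315800000000000247ffffffffffced800000000031467ffffffffe74e27fffffffe341d880000007484eb87fffff60d2c49080000326cb440c7ffbeb69bb2ac27feeb163c4baa77ffffffffffe8c80000000001edc7ffffffffe1d32800000000e7cda80000001106d1b7fffffb6b933ef8000090c3471cc7fff08afaee3bf80256de756119c81409fb70664438000000000063d7fffffffffd5b67ffffffffaa7298000000129a9377fffffe04d6722800001eb4ab73d7fffaab694d14c80056ff518380b82603b1dec08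2dec65cd12402238800000000000007fffffffffffff800000000000147fffffffffff297fffffffffed5680000000040fa3800000007b669480000022a255c08000016221375a80001aedfc401d7ffffffffffffe800000000000287ffffffffffd7f800000000017e5800000000144657fffffffc8069f800000045f838a7ffffce6f3cd187fffdcc9c99b747ffd09ef16cbc28000000000001a7ffffffffffdb380000000002b3b7ffffffffdbbe07ffffffffe83dc800000046a9bb17fffff17c16a3e80001ef4ee2fcd800211b17166c38031a492cdb0f37ffffffffffeb6800000000022cc7ffffffffd7c968000000013926d800000028d4bb27fffff892053d580000b6dbbe1d37fff709aebe15f7ff00b7d0358487daa9dde0da230800000000000008000000000000080000000000000800000000000008000000000000180000000000020800000000008de8000000001882e800000001e822d800000018f7414800000000000008000000000000080000000000000800000000000007ffffffffffff480000000000095800000000011b97ffffffffc958f7fffffff6e67427fffffeffda6c38000000000000080000000000000800000000000007ffffffffffff88000000000008d7fffffffffffe380000000003f238000000021101d80000004426bb7800000ab6f1b13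80000000000000800000000000007ffffffffffffe8000000000005c7ffffffffffaf4800000000011ac7ffffffffdcf827ffffffeee5abb7ffffff6bdfa9e7ffffa7a92e8958000000000000080000000000000800000000000017fffffffffffef80000000000132800000000003bb8000000000d1498000000025cf198000000144b0be80000135f85e7180000000000000800000000000007ffffffffffff7800000000000e17ffffffffff1ab8000000000ab007fffffffee4a227ffffffe2215808000002b422e1f7ffff3444e6ac8800000000000007fffffffffffff800000000000657ffffffffff3de8000000000e1497ffffffff45c248000000018471c80000027acd8057ffffc90ba69a08000654561171a800000000000007ffffffffffffc8000000000006f7ffffffffff45a80000000010f6d7fffffffea165e80000000f2e9cc8000002b8b7aef7ffffbcdca7054800090b6d4a8df800000000000018000000000000a7ffffffffffa458000000000d14d7fffffffee06ef80000000ea466a8000000632cf847ffffd13477b2b8000365ca53eec7ffb5eb4b984a97fffffffffffdf7fffffffffff598000000000709e7ffffffff290ae80000000df5a1e7ffffffbe10d4f7ffffef46d80378000265534edf57ffdb450e90a5780274d6a15a7c4⟩,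
  ⟨111, 1, 31, 0, 0, 10, 56, 0x80000000000187800000000024077ffffffff6c2f3800000014b7bed7fffffdf8491568000020df993947fffa8f97fc901800666352881328252be89d9223fd61cb7bea5f974800000000001688000000000194d7ffffffff8b0c880000000e9fa197fffffe5a32aeb800003071c96967ffffbc7650565800033c53469727d5784b2e4325d1f7e30f0f65fd7800000000000007fffffffffffff80000000000008800000000000157ffffffffffa50800000000154b77ffffffeeaef707fffffe97fc4b97ffffda7f76099800002749755b97fffffffffffff800000000000167ffffffffffed4800000000001048000000002003d7fffffff892c238000000fe2afdb800001348492188000487943b9a08000d17dc9e0b0800000000000117ffffffffffeb28000000000102c80000000001e877fffffffdc810080000005f6bcd67fffff95f997198000001083a2317ffbf16dfaabe57fe690499e79c97fffffffffff6980000000000d6c7fffffffff74377ffffffffecbc4800000014cfc967fffffc32609be800006f2379bc27fff3878c60aba8021f46ccc47008187e2367b89388000000000014f800000000011507ffffffffa5f2b80000000d8aa787fffffec5e0155800000edd5e7517fffb5caa5c6d98003956c09f13182722fd83c43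cff13973dd17569b800000000000007fffffffffffff800000000000077fffffffffffd47fffffffffe7f180000000033362800000009895a980000025e1c0cc800001f2eef87b80001e40e1b21b7fffffffffffff800000000000107fffffffffff258000000000020e8000000001c9447fffffffd81f1c80000002dcb5447ffffcfc675a877fffd09386e5ec7ffcb73e23003d8000000000000c7ffffffffffeff8000000000125b7fffffffff541d7fffffffee3c3780000003fa95657fffff39c0ecf7800019eb41dec88002832da81a6a80363ccd7144ec7fffffffffff3280000000000f877ffffffffefbb57ffffffffb917180000002d0a9ef7fffffa4e4678f800008243004017fffaae0e226e37fee49085704447d88cb990c0b67800000000000008000000000000080000000000000800000000000008000000000000080000000000025800000000009f38000000001c08c8000000025117980000001d2e229800000000000008000000000000080000000000000800000000000007ffffffffffff980000000000038800000000014d07ffffffffd0aa17fffffff61a17f7fffffeecd61458000000000000080000000000000800000000000007ffffffffffffb80000000000043800000000003d580000000004fe88000000022ad9180000004c9c4c8800000b47a3a04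80000000000000800000000000007ffffffffffffd8000000000002f7ffffffffffe267ffffffffff1007ffffffffdc5317ffffffee19a107ffffff25e012c7ffffa63b753ab8000000000000080000000000000800000000000007ffffffffffff68000000000009080000000000c3e80000000011573800000002b618f80000001e687fc800001391fe4aa80000000000000800000000000007ffffffffffffa800000000000797ffffffffff9978000000000474a7ffffffff1de6c7ffffffdc41a5980000023077a8a7ffff392d68677800000000000007fffffffffffff800000000000537ffffffffff950800000000073077ffffffffacb527fffffffd7c18e800000276364847ffffd2f5ac7fe80005f05aaa54b800000000000007ffffffffffffe800000000000437ffffffffff9258000000000a2cf7ffffffff261a080000000679aa98000002f7a01937ffffc84eae7d280008906ef61b580000000000000800000000000107ffffffffffb18800000000082367ffffffff5df478000000060e2f18000000b2b62017ffffd4985233a80002b0c6220197ffbbff94efb427ffffffffffffc7ffffffffffe3c800000000059977ffffffff85f4480000000633a6080000001f38b577ffffeeef746ad80001fe747cabe7ffe40d386562f802346db020572⟩,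
  ⟨113, 1, 32, 0, 0, 10, 56, 0x7fffffffffff9b80000000002a037ffffffff9647c80000000dc37177fffffec4d6f598000010d6ce8217fffb51210a24c8004845691943d82687b9226a2eddad932918b2a6f7fffffffffffc5800000000020df7ffffffffaac1a800000009108e07fffffee6912738000022ed41cfa80001064d0e7a280005ba82f86f57d587a6a23c7b41a2e1503da281c800000000000008000000000000080000000000002800000000000577ffffffffffd2c800000000127a07ffffffef4cd4c7fffffe31fb1467ffffd412298be7ffffd61f1439980000000000000800000000000097fffffffffffb57ffffffffff7b78000000001c7ae7fffffff9c70568000000c7aabaa800001894f488c80004dfbbad751800167ba4ba24c800000000000077fffffffffff82800000000002cd8000000000943e7fffffffe16a4b80000004a7da387fffffc052406e7ffffe18a63ea07ffbed6baabf807fde7072798ab97fffffffffffcb800000000006747ffffffffff14b7ffffffffb2747800000012251977fffffcf75a8848000053dcb28bd7fff5cd7744ade801f2275a34d8e81c8e0e06261b37fffffffffffe1800000000018c37ffffffffbd448800000009397d67ffffff4d2c908800000567d81eb7fffbaa3af73f98001e91241932d827d23393cbb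1bf629e42f725df08000000000000080000000000000800000000000028000000000000a7fffffffffe76e80000000023e2480000000ae5edd80000029ba751180000291fbd095800022c33b7fdb80000000000000800000000000067fffffffffffca7ffffffffffb628000000001b0bd7fffffffe9ce4680000001e4ffbc7ffffd0a65956f7fffc4a310036a7ffc4c6b6f3426800000000000067fffffffffff99800000000007547ffffffffffd457fffffffeabe358000000330f2417fffff568588328000159f40fcf78002e2091bbf49803ba4e11e83287fffffffffff888000000000056f7fffffffffa7567ffffffff41d5c80000002641a9b7fffffbf32f82b800005b770cc897fffd40a517d857fed4bb7124b1c7d6444f593288f80000000000000800000000000008000000000000080000000000000800000000000008000000000002a80000000000b2d8000000001ffda800000002c8fd08000000224593f800000000000008000000000000080000000000000800000000000007ffffffffffffb7ffffffffffffc8000000000158d7ffffffffd8aa77fffffff56ca9d7fffffed8577e88000000000000080000000000000800000000000007ffffffffffffd800000000000188000000000058c800000000076898000000024fa188000000558c663800000be9b3dbb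80000000000000800000000000007ffffffffffffd800000000000167fffffffffffb67fffffffffe7277ffffffffd1b877ffffffed262dc7fffffedc7526c7ffffa43e6c6f78000000000000080000000000000800000000000007ffffffffffffa8000000000003380000000000fd28000000001883380000000332c4880000002a2bd1a8000013da3f9d880000000000000800000000000007ffffffffffffd8000000000003d7ffffffffffdb180000000001e547ffffffff359267ffffffd74634880000019758bc57ffff3cf889bda800000000000007fffffffffffff8000000000003f7ffffffffffc76800000000037977ffffffffdffeb7fffffffbc7ca7800000261362e87ffffdca7e3ecb80005a00655f56800000000000007fffffffffffff800000000000267ffffffffffbf5800000000063097ffffffff762cf8000000010537480000030cddd8e7ffffd46288b9d800082d122e98780000000000000800000000000107ffffffffffc3c80000000004d957ffffffffaa6ef800000001581c48000000ce53d847ffffd92e2e92c800020c1cb2aa77ffc0b966b32ed800000000000087ffffffffffe4180000000003e2a7ffffffffc148e800000001fc7ce800000045e52be7fffff09fd8abd800019c898542d7ffeb3fc87d76280203fc0c9983b⟩,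
  ⟨115, 1, 33, 0, 0, 10, 56, 0x7fffffffffff4780000000001f1d7ffffffffbb4778000000090b6c47ffffff4ba93558000007586519a7fffbae5dbe0118002d69b975731827725e541a2aadfb9f235096bb27fffffffffff89800000000019b87ffffffffc87918000000053fcdf7ffffff3ad22cf8000019ba4869f80001f6bbb29508000ed64aaf4847d5aee83fb2f4614e11c7b83d437800000000000008000000000000080000000000000800000000000628000000000019f800000000121317ffffffefdd2ba7fffffdcf7ab607ffffcc13f53257ffff7686dda9980000000000000800000000000038000000000000b7ffffffffff65c800000000157c67fffffffac1c8b800000099fd3d6800001cb600d2d800054aacdffc080020a34d1a89c800000000000027fffffffffffd97ffffffffffe38800000000094f77fffffffe8a047800000039a14a77fffffe129962f7ffffd0150cfe27ffbe35dfd9b2f7fd641f5cafae47ffffffffffff080000000000383800000000018957ffffffffb541f80000000e7aad97fffffd9a5ebb5800003e3c259e87fff78135d746b801ccefebaeb068204c0323e8c527fffffffffff9f800000000013177ffffffffd39a4800000006368b27ffffffa892fce800000052a51837fffbbec539a2a80004e06170c8a82818ee7d272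a5fb29a82d878bf0800000000000008000000000000080000000000000800000000000127fffffffffe82880000000014baf80000000bc81208000002dfedf3e800003415236c180002893b0bf068000000000000080000000000002800000000000007ffffffffffa3480000000016f5d7ffffffff9741e8000000173a7497ffffd1430d2707fffb8e11eed397ffbc9e91f0a0b800000000000027fffffffffffdb8000000000029480000000003de77fffffffec648c800000026222dc7fffff6cc684bb800011ec625c03800330f3e510688041ba54efbbec7fffffffffffbf800000000000d17fffffffffede47ffffffff3b38d80000001cec4df7fffffd4311beb80000408ea73ce7ffff0f769cde57fecd9160410c37d3e568521330d80000000000000800000000000008000000000000080000000000000800000000000008000000000002e80000000000c8e800000000246fa80000000351ab48000000285d45a800000000000008000000000000080000000000000800000000000007ffffffffffffd7fffffffffffd6800000000014c87ffffffffe0a3f7fffffff4df5f97fffffec29e3598000000000000080000000000000800000000000007ffffffffffffe7fffffffffffff800000000005f28000000000a52980000000284b9b80000005f2f446800000c9e4c243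80000000000000800000000000007ffffffffffffd80000000000009800000000000687fffffffffe80b7ffffffffc53c07ffffffebeaccb7fffffe8eb03197ffffa1aa641158000000000000080000000000000800000000000007ffffffffffffd80000000000000800000000010bc80000000020bda800000003de4f18000000383d79e80000143c3693a80000000000000800000000000007ffffffffffffe8000000000001c7fffffffffffae8000000000125d7ffffffff40e427ffffffd2ac7d58000000eb27d8a7ffff3f7e1b176800000000000007fffffffffffff8000000000002c7ffffffffffe31800000000018927fffffffff82677fffffffb357d1800000245ce7af7ffffe5f70c7388000562b7981678000000000000080000000000000800000000000167ffffffffffd9280000000003d2c7ffffffffa73c87fffffffd8a901800000307c9bdc7ffffe092c6f0e80007e20afb033800000000000008000000000000d7ffffffffffd5880000000002c657ffffffffd72807fffffffef38998000000ce59a567ffffde0db95a6800017a94ed6717ffc43cd75dcc68000000000000a7ffffffffffeb08000000000270d7ffffffffe3a257ffffffffedf9780000004e332ae7fffff2fdd56a880001474261a427fff1029ee50b8801e077524e25d⟩,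
  ⟨117, 1, 34, 0, 0, 10, 57, 0x1fffffffffffef5000000000013e87ffffffffea46d40000000181d971fffffff497190b0000002285ce5a7fffde9086fd5c40004ffeb5b51b604fe9d5501c46964b175aea638e67fffffffffffd1c000000000046e5fffffffffbc1b5000000002d6eee7ffffffb5166624000004c2d2467a00005512fb2ce50001cceee1f1537eb0267bb3199723e6f0add1f6ee600000000000001000000000000007fffffffffffffc0000000000015e00000000000c03000000000147b97fffffff83ac913ffffff5c1a5215fffff85251a3a6fffff056cc236a800000000000004000000000000060000000000004efffffffffff7e5800000000075f3bfffffffedd798e0000000e6112dd000001fda42fae80002e20d9fa504000aebff5b60fe00000000000002fffffffffffffa7ffffffffffe9a40000000001c9c5ffffffffddb3f500000002d0d6147ffffffd55d76b3fffff25fd1fdc9fff7acbb295916ffcdfbf72faebb7ffffffffffffe40000000000081600000000003f9efffffffffc5e3f800000005aee28bffffff86c02a9e000005a4cc78e2ffff8c15b6baed800d6cb98b55d4408f16d45c82af5ffffffffffff5900000000000c377fffffffff192e4000000010f7a7dfffffffcce8ebaffffffe31705af7fffddb9d138723fffad2b5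2cd97a04ff2a947e6841802bdd3379d32c80000000000000400000000000002000000000000010000000000000f7ffffffffff47b4000000000185c60000000186606b00000032819bff8000020122e8a0c0000bf5119dbee000000000000010000000000000080000000000005bffffffffffea7a0000000002577f0000000006762480000000ba9790bfffff472dd179dffff5a85d67c52fffb300781311980000000000000bffffffffffffda00000000000127000000000051f17ffffffff7f072400000006bae795fffffef9e529ab00000eac5be8078001b902896c90401217de0db41b1ffffffffffffc2ffffffffffff21800000000003f83ffffffffd6e57e000000028c0e5cffffffe380ed0980000175a1b59240000165b191581ffd990d889fe50fd17ea4ffe96b0800000000000004000000000000020000000000000100000000000000800000000000004000000000000ce00000000001c2b000000000296cf800000001f699cc0000000be63442000000000000010000000000000080000000000000400000000000001fffffffffffffcffffffffffffbf80000000000989bfffffffffa08a9fffffffe8e2470ffffffeabe9b8c8000000000000040000000000000200000000000000ffffffffffffff7ffffffffffff840000000000165e0000000001a75d0000000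02cb795800000034e4ebb400000359c5849600000000000001000000000000007fffffffffffff40000000000000e00000000000154ffffffffffed6a7ffffffffdd3efbfffffffa9a284dffffffc76d9288fffff9e758277d8000000000000040000000000000200000000000000fffffffffffffe7ffffffffffff2c000000000040a20000000005200f000000004bbaf7800000024b077340000052f50584600000000000001000000000000007fffffffffffffc0000000000002e00000000000115000000000014157ffffffffa516fbfffffff3934e9600000005a11a06fffff409935fe2800000000000004000000000000020000000000003affffffffffff1b8000000000047d400000000008c99ffffffff64a24b000000228b67987fffff76a1a711400014de590ffe6000000000000010000000000000080000000000006bfffffffffffa0e00000000004c76fffffffffc5b727fffffffda3f134000000bc71e875fffffd914d67db00007af36e970380000000000000400000000000025fffffffffffc85000000000018367fffffffff81ac3ffffffff78f68200000018221c98fffffe2c02e266800007e25c82a43fff1ac256a53fe00000000000010ffffffffffff2580000000000b423fffffffffd7af5ffffffffe2703b0000000489257d7fffffaaf4703b40000401ba69f9dfffeb1a7a5aad7001c736631ef74⟩,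
  ⟨119, 1, 35, 0, 0, 10, 57, 0x1ffffffffffff4100000000000bc27fffffffff20b7c00000001075aa9fffffffc17a068fffffffd6baad27fffdec3f2115bbfffec22488625205025ddd79a90169b2fd80167a5e7fffffffffffddc00000000002f15fffffffffd933d0000000016873e7ffffffc16f01fc0000036eb08aba000065618ef2110002e5f11c9a437eb4d13671b29122993da5e22380200000000000001000000000000007fffffffffffffc000000000001160000000000135d000000000196d77fffffff895d73bffffff454e4e8dfffff6f38cd0c4ffffe7fd88332b8000000000000040000000000000200000000000058fffffffffffa3a80000000004c293fffffffefb64b60000000a17071b000002223a82a780003242dd4bdac000deebb94981200000000000001000000000000057ffffffffffebcc00000000013165ffffffffe69c85000000023d1dba8000000762e8fa3fffff2da5ac2e5fff791a5054866ffc59b128c504d7fffffffffffffc0000000000046a0000000000378afffffffffd5de2800000004853ba3ffffffa01efc9e000003f47a379affff9a62496e3a800c94098316a8c09c14d4a36530dffffffffffff91000000000006fa7fffffffff6496400000000bc844600000002221e66ffffffe13f5c477fffdd39a2d805bfff459a2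f4bd6e04ee5afc3ab3998523b428ae46c980000000000000400000000000002000000000000010000000000000e7ffffffffff4d1bfffffffffdfa560000000185578b0000003716bb1e8000026abbc51540000e2a3d512de000000000000010000000000000080000000000004bffffffffffecc60000000001dd9f0000000010f84a80000000ea56e3bfffff499ab5829ffff4390df4edafffa7f0c69fb5d800000000000003fffffffffffffdffffffffffff810000000000535e7ffffffff9e6b5c000000048454fdffffff102f30e700000bbdb10b818001d361769c46c013de8d174f6e9ffffffffffffe6fffffffffffed380000000000804bffffffffe0bf6e00000001b2cc5effffffee025b138000011a121283c0000532c3175a1ffd9fd3a0f1440fcf1a73c08390d800000000000004000000000000020000000000000100000000000000800000000000004000000000000e200000000001f850000000002f0408000000024eeff40000000e080aa2000000000000010000000000000080000000000000400000000000001fffffffffffffeffffffffffffb48000000000086cbfffffffffbb861fffffffe83ee60ffffffe9475cfa8000000000000040000000000000200000000000000ffffffffffffff7ffffffffffff440000000000132e0000000001fad50000000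0322e1180000003ad0a9a40000039191bc3e00000000000001000000000000007fffffffffffff40000000000000200000000000170fffffffffff4407ffffffffd97123fffffffa2bc319ffffffbc35652efffff9a93c0d338000000000000040000000000000200000000000000ffffffffffffff7fffffffffffec400000000003b4600000000061839000000005c94c480000002f2db19400000559127a4a00000000000001000000000000008000000000000040000000000000e000000000001ad00000000001b507ffffffffaafa4bfffffff28af3bdffffffebbc6aaafffff4026e35448000000000000040000000000000200000000000024ffffffffffff95800000000000bc400000000014f05ffffffff68b07300000020bea4757fffffb9e9a54bc0001476eb87afe0000000000000100000000000000800000000000043fffffffffffc5600000000003038fffffffffd8d817fffffffce3fd9c000000b42abfb5ffffff0249bee90000793e9bfe3880000000000000400000000000019fffffffffffddd00000000000c4d7fffffffffebc9bffffffff63b89200000015d0781afffffe7103a62b800004808cf6f73fff20e84a909320000000000000affffffffffff7f800000000005ef3ffffffffffb411ffffffffdada2300000003dd75697fffffbbce16f5c000031c8aedf89ffff23051a2b8b001b601f5ec21a⟩,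
  ⟨121, 1, 36, 0, 0, 10, 57, 0x1ffffffffffff99000000000006897fffffffff67fcc00000000b6c7fa000000014282e0fffffff795b01b7fffdea55d22a93fff8845ed3c9c604f9a563392e7f6eb209690fbb5d7fffffffffffee400000000001f69fffffffffec829000000000a105c7ffffffc74809c4000002466a6dda000070c21c44fb0004284e807c8b7ebbd9c6be6d1da1515d606365d7e00000000000001000000000000007fffffffffffff4000000000000ba000000000018b7000000000205f17fffffff908e0ebffffff2fb56df9fffff5685716e0ffffde2f13dd298000000000000040000000000000200000000000050fffffffffffc92800000000030353ffffffff0e47ea000000062d6e290000023a8e4e0c800036a19a95c740011359e7e59ba00000000000001000000000000087fffffffffff0bc0000000000b46dffffffffec3b9700000001cd728b8000000f6eb1113fffff504f7fe89fff7794408b924ffbd202a6868467fffffffffffffc000000000001fa0000000000290cfffffffffe1f70800000003afc963ffffffb4894b860000029f2e0efcffffa42b611e4c800bd341b03119c0a846d96704ef5ffffffffffffab000000000003ac7fffffffff8e06c000000008291c200000005d65c12fffffff5bcf1587fffdce1720d63bffedcae3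437f9204d0824dd30bfb8a043aa3564dcb8000000000000040000000000000200000000000003000000000000137ffffffffff5343fffffffffa8a32000000017656990000003b93b0ba800002dd6db256400010cd927144a000000000000010000000000000080000000000001bffffffffffee2200000000016ef700000000194f25800000013f8ab73fffff4cd13b53dffff2cf4f3e3fefff9b746c68fdd80000000000000400000000000005fffffffffffed700000000004d347ffffffffbcb25c00000002e919e9ffffff1ed78b0900000905d62de18001e81daeb631c015bcc0961583dfffffffffffff8ffffffffffff0f800000000008d0bffffffffe970160000000111f8d8fffffff4d66d8d800000e0cf2148c00008244567959ffdad473030e48fccc083cd6b64f800000000000004000000000000020000000000000100000000000000800000000000004000000000000f60000000000232900000000035430800000002b319d40000001088050600000000000001000000000000008000000000000040000000000000200000000000000ffffffffffffb4800000000007383fffffffffd2fd1fffffffe7ce042ffffffe7c785b78000000000000040000000000000200000000000001000000000000007ffffffffffff1c00000000000efe00000000023f610000000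038899180000004179ff14000003cfa61a5600000000000001000000000000007fffffffffffffbfffffffffffffe0000000000015efffffffffffb337ffffffffd76103fffffff9b48f11ffffffb016bf46fffff95f7601258000000000000040000000000000200000000000001000000000000007fffffffffffe9c000000000034460000000006f7bb0000000070339a80000003bf33a3c0000058e6e9a620000000000000100000000000000800000000000003fffffffffffffe000000000001b90000000000245c7ffffffffb2ea53fffffff1973ba1ffffffcfdaa33cfffff3e0625f7b8000000000000040000000000000200000000000014ffffffffffffd37fffffffffff1b4000000000134d9ffffffff6decc10000001f00a78e7ffffff9a64c7b40001450fdd4f8e000000000000010000000000000080000000000002bfffffffffffdc200000000001ecefffffffffe4f847fffffffc616c8c000000aa06ca0a00000060bc6303000078f1d01f0e80000000000000400000000000011fffffffffffec70000000000057c80000000001f0c3ffffffff66591e000000135f49d0fffffeaec875c8800001a192321a3fff23ef0ec61ca00000000000006ffffffffffffb9800000000002c240000000000a6b5ffffffffdc5f3900000003258bc07fffffc9d17b89c0000265b2a0e4dffff7ab8dc2f2b001ab0e58da39e⟩,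
  ⟨123, 1, 37, 0, 0, 10, 57, 0x1ffffffffffffb1000000000003727fffffffff8e9bc000000007d9d8200000004d7515d0000000764b9057fffde9d5cbb7c3fff241a188d2c604e46bad1f777973a21d194ca41f7fffffffffffee400000000001539ffffffffff972900000000048e327ffffffc9d8ae7c00000132171662000077aee7e7bb0005860c2e6f657ec584ab72d3a4a011d246007757a00000000000001000000000000007fffffffffffff40000000000005a00000000001beb00000000028a747fffffff99a98c3ffffff1ba25911fffff3b3660a4cffffd2c04b380f8000000000000040000000000000200000000000042fffffffffffe90800000000022283ffffffff1b115e0000000281a04100000247884efd80003b2586f19ac0014c3b4f6707200000000000001000000000000087fffffffffff5cc00000000005b79ffffffffef58ed000000017343f980000015eaf33b3fffff88aff8825fff766a0266f1effb48f85f96e787fffffffffffffc0000000000006200000000001a6efffffffffea45480000000316d3cbffffffc567ec32000001940f34caffffaa676234ae800b2259e9778a40b3c09dc36e4f1ffffffffffffed000000000001bf7fffffffffa2a640000000055c54e000000085ae44f00000019a7c6b27fffdcfc0ac3773ffe73566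e4c27a04a581c9e8f44d8ec055ac7cffed80000000000000400000000000002000000000000030000000000001c7ffffffffff5b7bfffffffff73d660000000159d7c30000003fcf436f80000358dee763400013e804097fe0000000000000100000000000000800000000000003ffffffffffee6e000000000104bd000000001f54c980000001b17f41bfffff5134b3779ffff16d1c22290fff8d91e70faab80000000000000400000000000005fffffffffffe8f000000000043f07ffffffffd7fc7400000001de4365ffffff2838c459000006717930d38001f790520558c017ad059d1154600000000000002ffffffffffff6b800000000008973fffffffff044aa000000009fdafcfffffff900a349800000bd3aeb6440000a8d2dd2919ffdc00a5a95f32fca76c5e4c7bee80000000000000400000000000002000000000000010000000000000080000000000000400000000000106000000000027150000000003c37a8000000032475040000001372a3ae00000000000001000000000000008000000000000040000000000000200000000000002ffffffffffffba80000000000611bfffffffffe6e49fffffffe788792ffffffe64204918000000000000040000000000000200000000000001000000000000007ffffffffffff0c00000000000a46000000000272030000000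03f985c800000048fa889400000414cd898600000000000001000000000000007fffffffffffffbfffffffffffffe00000000000143000000000001b57ffffffffd70103fffffff939ba05ffffffa305380afffff90918791c8000000000000040000000000000200000000000001000000000000007fffffffffffe8c00000000002d4e0000000007baff000000008646d280000004b54c684000005d1d7b8d60000000000000100000000000000800000000000003fffffffffffff60000000000019300000000002c4a7ffffffffbd025bfffffff0be9bbdffffffb22b6e62fffff3a1898791800000000000004000000000000020000000000000afffffffffffff57ffffffffffe7640000000000db9dffffffff72210f0000001d511de380000035f5f58dc000146913de792000000000000010000000000000080000000000001bfffffffffffeb200000000001454fffffffffecd0d7fffffffc0614dc0000009e9a3ae2000001a98af7fb000079f8db7c568000000000000040000000000000dffffffffffff5d000000000001ba8000000000336cbffffffff73bfa600000011115e62fffffee563ef9d7fffff36e5c3453fff2452314ae5e00000000000004ffffffffffffdb800000000000fd40000000000f415ffffffffe168ff000000027f75997fffffd51311b9400001d4afab539ffffbe0501bda3001a4ec6d67919⟩,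
  ⟨125, 1, 38, 0, 0, 10, 57, 0x1fffffffffffff1000000000001cb7fffffffffa27640000000050d58e000000073e59cd000000260a9b077fffdef43bc49e3ffec055c118d2e04c2affa265ec37876b508ece9ff7ffffffffffff7400000000000dda000000000021010000000003b3dc7ffffffcb46ebc400000027072d0e00007a5ecc19fb0006f22bc5d5407ed1fb8bb098da1edd55a8bcfdc0a00000000000001000000000000007fffffffffffff3ffffffffffffee00000000001ca9000000000318cc7fffffffa4eecfbffffff0977b9a1fffff1d825f4e4ffffc589189e4280000000000000400000000000002000000000000350000000000003180000000001e773ffffffff24ba9dffffffff013b8500000249c2f39380003fb8927481c00189a9fd51ca200000000000001000000000000077fffffffffffa1c00000000002389fffffffff0c67d00000001241df68000001b175af43fffffd28277f19fff75c29edfbbeffabf025fd84377fffffffffffffbffffffffffff6a00000000000e0cfffffffffef988800000002a607bbffffffd3b45552000000c703a4c0ffffade1b48acc800a7b0973329b40be8ebb889926a00000000000009000000000000d67fffffffffac59c000000002f56ca00000009e823c900000047af4e937fffddbc238807bffe0b3c9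906e1a046d64fdb9c7c1934adec32240b580000000000000400000000000002000000000000030000000000002b7ffffffffff6913fffffffff42706000000013089f700000043a1ec8a800003dc64c07ec000178202a6e7e00000000000001000000000000007fffffffffffffbffffffffffee4600000000009b150000000023757a8000000237eb3cbfffff570eb7789ffff0151c3ba52fff7e5209b5d5480000000000000400000000000001fffffffffffe6d000000000039547ffffffffef82d40000000152ab09ffffff2e7368eb000003f406b7cf800201f2b887d14019aa315b7398a00000000000004ffffffffffffbb8000000000081abfffffffff560420000000051786efffffffb4e8ffd800000a65b8822c0000ca04431c09ffdd7432f4c0f6fc842143988d848000000000000040000000000000200000000000001000000000000008000000000000040000000000011600000000002b4500000000043eef800000003a47a1400000016d5d20200000000000001000000000000008000000000000040000000000000200000000000004ffffffffffffca80000000000519bffffffffff7949fffffffe7676dcffffffe4b957518000000000000040000000000000200000000000001000000000000007ffffffffffff040000000000054e0000000002912f0000000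047221980000005165367c00000461e94c720000000000000100000000000000800000000000003fffffffffffffa0000000000011b0000000000078d7ffffffffd82d23fffffff8c021ddffffff94fe7d7cfffff8a52e9b038000000000000040000000000000200000000000001000000000000007fffffffffffe94000000000025ea00000000086101000000009e782580000005d9b8754000006260f585e0000000000000100000000000000800000000000003fffffffffffff600000000000145000000000033977ffffffffc90e3bfffffff00740d5ffffff92eb424afffff3443372d18000000000000040000000000000200000000000005000000000000067ffffffffffe73c0000000000589dffffffff747aa30000001bab88888000006ef172f0400014bbcdd226e0000000000000100000000000000800000000000013ffffffffffff4e00000000000e6affffffffff22607fffffffbc49fa40000009244f94a000002da8ad70f00007c3cf4c6b980000000000000400000000000009ffffffffffffb8ffffffffffffc58000000000372f3ffffffff84adb60000000f01d604ffffff156fc17c7ffffd32c14271bfff227f0366a2e00000000000002ffffffffffffee8000000000001240000000000f4b1ffffffffe73cc700000001f52aa47fffffddf29b0e40000161c276f5dfffff1253721e1001a278e21b39d⟩,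
  ⟨127, 1, 39, 0, 0, 10, 57, 0x1fffffffffffffb0000000000010a7fffffffffad294000000002a799a00000008adf8a10000004e39347f7fffdfda5f743a3ffe5e63682dfbe0494945f6fe1437d235c7c21edbc7ffffffffffffbc0000000000087a000000000078eb0000000005e8b07ffffffcd011183ffffff2362133e000078f0c417e900086026d51cc87ee14e959852ba1db6bdb18bbfc3600000000000001000000000000007fffffffffffff3ffffffffffff8a00000000001afb0000000003a4e27fffffffb26cf63fffffef99f8fa9ffffefdad14890ffffb665388ed5800000000000004000000000000020000000000002500000000000165800000000023503ffffffff2eae81fffffffba785c100000241b6263d80004445b877d1c001cbaa7a94d4e00000000000001000000000000067fffffffffffd84000000000006a9fffffffff1390d00000000d964a38000001f11a531c000002a0aa3271fff75bd2ee83c2ffa34b3ad8d6af7fffffffffffffbfffffffffffeea00000000000494ffffffffff2bbc8000000024e083bffffffe00f18860000002f1d2a30ffffaf468c7ff98009d87d98cec040c8b843fea081a0000000000000b0000000000009f7fffffffffb1d64000000000c060e0000000a990d810000007b4a8b907fffdf40f0c4b83ffda6848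a9688a042874eb609ab79796d868beb94880000000000000400000000000002000000000000030000000000003d7ffffffffff7cdbfffffffff1631600000000fb7d4100000046e6bbd08000046707f278c0001ba32d70e2e0000000000000100000000000000800000000000003ffffffffffee2e0000000000305500000000257fc780000002ca8a163fffff5e905f145fffeeca71f05f0fff6dc09096517800000000000003fffffffffffffdfffffffffffe5900000000002e0180000000002e7ac00000001327ad5ffffff335d605b00000186dfbb168002076b2d3aad401baf47d3c5f2e00000000000006fffffffffffff48000000000078cbfffffffff92142000000001d8a20fffffffc5a8f28800000960402b6c0000e79c966d6dffdf265600bb1cfc626999e83ddc8000000000000040000000000000200000000000001000000000000008000000000000040000000000012200000000002fad0000000004c74980000000434ba4c0000001ac1009a00000000000001000000000000008000000000000040000000000000200000000000006ffffffffffffe28000000000046f400000000005ca5fffffffe76521effffffe32f95f58000000000000040000000000000200000000000001000000000000007ffffffffffff040000000000005200000000029c5f0000000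04eeb6780000005ac5b50c000004b7e9fc0e0000000000000100000000000000800000000000003fffffffffffffa000000000000f100000000000ca27ffffffffdab733fffffff84c2705ffffff860980e6fffff832c5f1648000000000000040000000000000200000000000001000000000000007fffffffffffeac00000000001eda0000000008ea5500000000b8703080000007305c24c0000068e1ab9520000000000000100000000000000800000000000003fffffffffffff2000000000000eb000000000039397ffffffffd6b22bffffffef768795ffffff726237aefffff2c6f2519f80000000000000400000000000002000000000000010000000000000f7ffffffffffebbbffffffffffe21dffffffff74e7b90000001a0a121e800000a4a6d800c0001545df8782a000000000000010000000000000080000000000000bffffffffffffb600000000000b7effffffffff62227fffffffb957d2c00000085482b8a000003f22f856700007fa57c391780000000000000400000000000005ffffffffffffeefffffffffffedc800000000032ab3ffffffff955a0a0000000d365e86ffffff3fb35cf67ffffb88ca10873fff1ed5be5a28e00000000000000fffffffffffff77fffffffffffa3c0000000000d639ffffffffeca691000000018734df7fffffe4e255bfc00001066fc5ffa00001770eb871d001a2ccc7f9c00⟩,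
  ⟨129, 1, 40, 0, 0, 10, 57, 0x200000000000003000000000000ea7fffffffffb49cc0000000007e75200000009437c1f0000007b6b41df7fffe16cafbb713ffe0020bb9ff02045a7010b7fbdf819bda28d4890b7ffffffffffffbc000000000003be0000000000a8c10000000009f4b87ffffffcff0337bfffffe2b1ab09600007388dd2c5d0009c3d5aef8847ef375468c90ae1ca0e44f8704dda00000000000001000000000000007fffffffffffff3ffffffffffff2a000000000016fb000000000422d07fffffffc202ff3fffffeec822c09ffffedc076496cffffa5350c2bc580000000000000400000000000002000000000000150000000000022b80000000002e073ffffffff3b12bdfffffff87a550f0000022fdc83f8800048b8e1bc5d4002122cc1b51460000000000000100000000000005800000000000013fffffffffffe99fffffffff14007000000008fa72a80000021e3b419c000008bc4629f9fff767194e74caff9aabac3603627fffffffffffffbfffffffffffeb9fffffffffffdf8ffffffffff456680000000203d10bffffffead74cb1ffffffc565ab86ffffaf2a8962fa800937237e112140d240199137d9600000000000013000000000000ce7fffffffffb7683ffffffffeaffc20000000a7ce459000000b05400a47fffe1985d3704bffd47956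594ec203d743ceb3b1c39b97b20a81753580000000000000400000000000002000000000000030000000000004f7ffffffffff9753ffffffffef121a00000000bc3b9b000000497ca2eb800004f78af663c00020520880526000000000000010000000000000080000000000001bffffffffffee8dffffffffffc63d00000000257b22800000036109d73fffff67d1c5925fffed9088cd30efff5bec830df50800000000000003fffffffffffffdfffffffffffe4f0000000000224580000000011f66400000001687bd1ffffff387a349affffff286cbb7980020817edc9a2c01db76e764404a0000000000000700000000000016800000000006f13fffffffffbe2f5fffffffffd05befffffffc963e6d800000881b9751c0001026be7a525ffe110cd6bf730fc4280b3da82408000000000000040000000000000200000000000001000000000000008000000000000040000000000012e0000000000344900000000055d2b800000004d6dc9c0000001f453c5e00000000000001000000000000008000000000000040000000000000200000000000007000000000000008000000000042d400000000012965fffffffe77da44ffffffe1a68a168000000000000040000000000000200000000000001000000000000007ffffffffffff13fffffffffffb7a000000000293d90000000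056b88d80000006520389400000517c8228e0000000000000100000000000000800000000000003fffffffffffffa000000000000c3000000000010e17ffffffffde6c3bfffffff7e19809ffffff763564fefffff7b0f7291c8000000000000040000000000000200000000000001000000000000007fffffffffffecc0000000000183a0000000009588100000000d3db0a80000008bc703c40000070d37fbee0000000000000100000000000000800000000000003fffffffffffff20000000000008900000000003d117ffffffffe57f8bffffffef109511ffffff50e1ee2afffff228a5644380000000000000400000000000001ffffffffffffff000000000000147fffffffffff2c3ffffffffff86b5ffffffff73b9b100000018675eda800000d718de20c0001604052839e000000000000010000000000000080000000000000bfffffffffffff200000000000a7cffffffffff98757fffffffb74ea8c00000077d463d6000004ef5c5b6d00008418803d00800000000000004000000000000060000000000000cfffffffffffe8c80000000002aadbffffffffa3fdde0000000ba9e3bcffffff64f519df7ffffa2e38af663fff19ab0a97afa00000000000000fffffffffffffc7fffffffffff79c0000000000aee1fffffffff1370900000001323cc17fffffea4d9f53400000bd8c9a7fe000033856369e3001a5309d79b98⟩,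
  ⟨131, 1, 41, 0, 0, 10, 57, 0x20000000000000d0000000000011c7fffffffffbc8ebffffffffe897ea00000009133f09000000a99262bd7fffe3b6fbfd513ffda7a8066b51e0414da49f4af0185d46b5b6215317ffffffffffffdbffffffffffffb20000000000b61b000000000ed4b47ffffffd49309ebfffffd459f3f4e00006a6297f857000b119c8144377f084f4ca511a21b9e8ef054acc8200000000000001000000000000007fffffffffffffbfffffffffffede00000000001115000000000487a67fffffffd361dcbfffffee27d5125ffffeb8eeabf70ffff91de685fe480000000000000400000000000002000000000000070000000000027d80000000003c6f3ffffffff4c0dddfffffff586dfab00000214cd9e9780004cff05cd48c0025d0d387f4e200000000000001000000000000048000000000001d4000000000005a1fffffffff146b70000000045e63a800000238ec5c5400000f439ddef1fff77f0bd9fd7aff921da81445cc7fffffffffffffbfffffffffffebdfffffffffff9dcffffffffff4ee9800000001bfe01bfffffff43e0db5ffffff8401a228ffffae0f3dfd1d8008947dec224e40db2619cdc2cfa000000000000150000000000013a7fffffffffbfb93ffffffffccedae00000009a2dd3d000000e2ee9e1e7fffe4c04e6e63bffcf0e7b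d64446037ab25f12c5e19f419460d8743380000000000000400000000000002000000000000030000000000005d7ffffffffffb72bffffffffed54420000000074d2b30000004b47f6868000058c7349bec0002593bb039460000000000000100000000000000800000000000043ffffffffffefcdffffffffff60c30000000023359c80000003f3274abfffff72d23e001fffec6ae3ac6eafff48e863d0598800000000000003fffffffffffffdfffffffffffe53000000000016698000000001c956c00000001deb3f9ffffff3ef6e0c4fffffcdb1fc476800204183db8a1c01fbde8c778f9e000000000000050000000000002680000000000643bfffffffffdeba5ffffffffeac95efffffffc550a7e8000007a1067a6400011aa42a6abdffe32e4da73ad2fc249c37e01b7980000000000000400000000000002000000000000010000000000000080000000000000400000000000136000000000039090000000006011a8000000058c9aec000000247542fa000000000000010000000000000080000000000000400000000000002000000000000090000000000001f8000000000046ac0000000001f589fffffffe7af73cffffffe01fd0e48000000000000040000000000000200000000000001000000000000007ffffffffffff2bfffffffffff6fe000000000278a10000000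05e4fbf80000007071974c000005827cca3a0000000000000100000000000000800000000000003fffffffffffffa00000000000095000000000014397ffffffffe3145bfffffff783a359ffffff65984bccfffff71eedac128000000000000040000000000000200000000000001000000000000007fffffffffffeec0000000000129e0000000009add900000000f06a518000000a808af7c000007a6d3a9920000000000000100000000000000800000000000003fffffffffffff20000000000002500000000003e657fffffffff4fb8bffffffeed834e9ffffff2ec2f864fffff168813df880000000000000400000000000001ffffffffffffff000000000000167fffffffffffa23ffffffffff60a5ffffffff7176e700000016bf547f8000010640b56ac00016f2f89c6fe00000000000001000000000000008000000000000040000000000001600000000000a92ffffffffffccc77fffffffb618f540000006a12d68a000005d14d43ad0000897b201547800000000000004000000000000060000000000001afffffffffffe91800000000021eabffffffffaff82e0000000a52b9b8ffffff85e40b8a7ffff919bd526b3fff134988d686600000000000000fffffffffffffe7fffffffffff72c000000000088a1fffffffff4db5500000000f1c0f07fffffee8f8a72c000008318c2da60000476db398f7001a911f205b8a⟩,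
  ⟨133, 1, 42, 0, 0, 10, 57, 0x200000000000013000000000001827fffffffffc6fb3ffffffffcd45ce00000008328fef000000d505452b7fffe6b5a289593ffd571f73a43b603c4aeca08612189c206be1ea73f7ffffffffffff33fffffffffffc520000000000a6470000000013a6807ffffffdb0db713fffffc7befce8200005ddae86743000c3ec298004d7f1fa5f0aabd661ab257573de595600000000000001000000000000007fffffffffffffbfffffffffffea20000000000095b0000000004ca547fffffffe612983fffffedbdc0f25ffffe94cae85d2ffff7c4d50068480000000000000400000000000001fffffffffffff90000000000027e80000000004b3abffffffff6071adfffffff2de7ee9000001f150f5088000510678ae4a4002ac15e290e4a00000000000001000000000000028000000000002e400000000001669fffffffff19768fffffffffce74e8000002413db84c000015ff6d743dfff7a44abd7718ff89ae33ebc7b67fffffffffffffbfffffffffffee1fffffffffff7ccffffffffff4f508000000017d8da3fffffffc563e71ffffff6598ca1cffffac658d955d8007ef01e11289c0e36820ec2b2e600000000000005000000000001bd7fffffffffcbcf3ffffffffb3536e0000000820f9670000010f984eb47fffe8a7e051843ffca4d74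cfe1f20313ef0f22c127a289b0065007fe8000000000000040000000000000200000000000001000000000000677ffffffffffdcdbffffffffec447a0000000027c5cd0000004c33eb708000062415b842c0002b6bd8280460000000000000100000000000000800000000000063fffffffffff1d5ffffffffff0511000000001f74928000000479062c3fffff7f78601adfffeb5ceb4f6a0fff34ca2f7aa6480000000000000400000000000001fffffffffffe6500000000000adb80000000022cc8c000000027ef791ffffff47a7ddacfffffaa46d41df8001fb93734978c021be1d186bcaa000000000000050000000000002a800000000005823ffffffffff6a89ffffffffe313fafffffffbd46a588000006a701070c000130184adcc1ffe579870ae726fc08ec8e9946c58000000000000040000000000000200000000000001000000000000008000000000000040000000000013e00000000003de70000000006b37c80000000657bd540000002a659362000000000000010000000000000080000000000000400000000000002000000000000090000000000004a8000000000053b40000000002da89fffffffe7fc0ceffffffde9d06d18000000000000040000000000000200000000000001000000000000007ffffffffffff4bfffffffffff30200000000024c670000000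0657b4580000007cafa9ac000005f8fa49da0000000000000100000000000000800000000000003fffffffffffffa0000000000005d000000000016977ffffffffe873e3fffffff734c9a9ffffff544e0884fffff67bedfbc78000000000000040000000000000200000000000001000000000000017ffffffffffff2400000000000d3a0000000009ed41000000010dd8338000000c7eadcb40000085e7ef2b20000000000000100000000000000800000000000003fffffffffffff1ffffffffffffb500000000003e9b80000000004a543ffffffeecea69dffffff0c61fe62fffff0861550bd80000000000000400000000000001ffffffffffffff000000000000148000000000002d3ffffffffff466dffffffff6eb9ff000000150fb0c1800001321119ab4000180f697491a00000000000001000000000000008000000000000040000000000001e00000000000b25000000000002f77fffffffb5b779c0000005c2afe36000006978e25cf00008fb1df359f8000000000000040000000000000600000000000020fffffffffffec1800000000019d7bffffffffb94aea00000009261752ffffffa30ff3757ffff843478d0f3fff0bf32eef1a600000000000000ffffffffffffff7fffffffffff7cc00000000006761fffffffff7a7e100000000c151017ffffff1f1054e4000005409faf9a000054c4db136b001adfb5caa874⟩,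
  ⟨135, 1, 43, 0, 0, 10, 57, 0x20000000000000b000000000001e07fffffffffd4773ffffffffb72a5600000006bcebc9000000fa934a367fffea574361cbbffd108d336fd7e036b0c838c39dd8d5aa0a9a412d67ffffffffffffabfffffffffff9a600000000007def0000000017b0bc7ffffffe336ea0bfffffbd6f97a0600004e731dffcb000d41dcb853567f392e453ce50119de963dab1b51a0000000000000100000000000000800000000000003fffffffffffe8a000000000000e30000000004e44e7ffffffff97e16bfffffed8cffde5ffffe700bf1fc6ffff647488ea2680000000000000400000000000001ffffffffffffef000000000002188000000000593ebffffffff7ab331fffffff093d547000001c66284ce800054bf5181874002fefff03d9be000000000000010000000000000180000000000034c00000000002c4dfffffffff25e6cffffffffb696ff80000023798cd1c00001cb914f0ddfff7d708146388ff816abe3ded107fffffffffffffbffffffffffff11fffffffffff754ffffffffff4c288000000013a8a4400000003218001ffffff64f7feb4ffffaa8e9b9060800745f64f724140eb02ebbc133d600000000000023000000000002287fffffffffdb7ebffffffff9fce820000000616e8810000013354d9457fffed3121e74abffc65790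a04f3a02a46fc5136d41a566887edf0b5c80000000000000400000000000002000000000000010000000000006a8000000000003abffffffffebf4b1ffffffffd7f6d90000004c33d69d800006bca5686e400031dc35b925a0000000000000100000000000000800000000000083fffffffffff4e5fffffffffeb9250000000019a02680000004eb83dbbfffff8d94e8a6dfffea69bf573d6fff1fab2a8845c80000000000000400000000000001fffffffffffe8d0000000000001680000000024cf8c0000000333aca5ffffff5309cefcfffff88bc2b99b8001eebdf2a1aec023b39f432ce2a0000000000000300000000000027800000000004ae400000000007eb5ffffffffe30d2cfffffffb4186d7800000589bec4040001426aa08bcdffe7ec98978564fbef9c9062ce178000000000000040000000000000200000000000001000000000000008000000000000040000000000013e000000000042d7000000000774958000000073a16e4000000312c7a8e000000000000010000000000000080000000000000400000000000002000000000000090000000000006f800000000006aac0000000003f599fffffffe86857affffffdd1ffadf8000000000000040000000000000200000000000001000000000000007ffffffffffff6bffffffffffefb20000000002118b0000000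06c0b82800000089c9ed640000067c2592f20000000000000100000000000000800000000000003fffffffffffffa0000000000002b000000000017f07ffffffffee4a33fffffff6f6d111ffffff4276b784fffff5c75ab09d8000000000000040000000000000200000000000001000000000000017ffffffffffff4c0000000000096a000000000a1a6f000000012be7b08000000eb85712400000937e6ee060000000000000100000000000000800000000000003fffffffffffff1ffffffffffff5100000000003bcc80000000013f6e3ffffffeef3b9e5fffffeea1cb672ffffef814e7c2a80000000000000400000000000001ffffffffffffff000000000000128000000000009bbffffffffff6f5dffffffff6c248b0000001357dcb38000015a79f064c0001955f84843200000000000001000000000000008000000000000040000000000001600000000000bbb00000000003c347fffffffb634d340000004e45915a00000741facc23000096a0f4b49b8000000000000040000000000000200000000000020ffffffffffff068000000000132dbffffffffc04d260000000819f938ffffffbce90bb97ffff7a3c6897f3fff03e2675cb7600000000000000ffffffffffffff7fffffffffff8dc00000000004c19fffffffff9be93000000009d0a2e7ffffff4aa4163c000002e171f67600005cd12868d3001b38e5eb6130⟩,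
  ⟨137, 1, 44, 0, 0, 10, 57, 0x1ffffffffffffff000000000002207fffffffffe47e3ffffffffa78cee00000004d591c900000117a897da7fffee7ee890ab3ffcd5b1583c05a03094f2a073d2190956b84e9ccb67fffffffffffffbfffffffffff83200000000004501000000001a62087ffffffeca6dc33fffffb5e37f4ce00003ccdc22735000e1336dfb16a7f548c2d1615851925508e713893a0000000000000100000000000000800000000000003fffffffffffe89fffffffffff7f10000000004d249800000000cfa2c3fffffed96c6525ffffe4b25f8a60ffff4a4dfe245c80000000000000400000000000001ffffffffffffe70000000000017b8000000000640c3ffffffff981195ffffffeeb7eaed0000019536b0748000581bd8ddb140035575b863356000000000000010000000000000080000000000032400000000004305fffffffff3ad2effffffff757b0c80000021cf82c740000233c00dccdfff8170a7dfe98ff7960b1925f35800000000000003ffffffffffff41fffffffffff7faffffffffff4a06800000000f66cc4000000089ac439ffffff7ce215acffffa8dbe9824780069954d41eb3c0f1f2d9ef93ad5ffffffffffffe90000000000025b7fffffffffede03ffffffff93cbb200000003adb8110000014bde7b7e7ffff2338e8a32bffc34778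3084fe022de6b40e4cf5a7d0367747ff5180000000000000400000000000001ffffffffffffff00000000000066800000000002b1bffffffffec6a91ffffffff8873ad0000004b4400308000075445075c400038e4d2ee0f20000000000000100000000000000800000000000093fffffffffff88dfffffffffe80f10000000012c0658000000544bd253fffff9ce43172dfffe9940bc4b94fff09a782a3ee580000000000000400000000000005fffffffffffec8fffffffffff6ad8000000002305ec00000003e8baf1ffffff61459d60fffff6998482788001dddc1ba9ac40259a3f5abdaf60000000000000300000000000021800000000003d1400000000013a99ffffffffe86e46fffffffabcdec2800000448fb3cfc0001512f071addffea80d2af6130fbd8d0cfae259780000000000000400000000000002000000000000010000000000000080000000000000400000000000142000000000047cf0000000008448c80000000835813400000038e21bfe000000000000010000000000000080000000000000400000000000002000000000000090000000000009a800000000008bfc000000000564e9fffffffe8fcf4affffffdbaae81e8000000000000040000000000000200000000000001000000000000007ffffffffffff9bffffffffffed2a0000000001caf50000000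071d8c7800000097aa67240000070cd043220000000000000100000000000000800000000000003fffffffffffff9fffffffffffff50000000000183f7fffffffff455a3fffffff6cabbe1ffffff30353e30fffff500b8047d8000000000000040000000000000200000000000001000000000000017ffffffffffff8c00000000000666000000000a3983000000014a6897800000112e97e1400000a36cd0c4e0000000000000100000000000000800000000000003fffffffffffff1fffffffffffeef00000000003791800000000227003ffffffef4598b1fffffec84eca9affffee5a76953380000000000000400000000000001ffffffffffffff0000000000000e800000000001013ffffffffffaab1ffffffff6a47e50000001199428f8000017f6c009140001ac335b1ee200000000000001000000000000008000000000000040000000000000600000000000c01000000000077b57fffffffb79c2ec000000408d70e6000007d0c2944500009e2c9cdf4e800000000000004000000000000020000000000001effffffffffff4f80000000000e30bffffffffc57c4e0000000726112cffffffd3c3ee057ffff734ed69f13ffefb4af25cdae00000000000000ffffffffffffff7fffffffffffa0400000000003699fffffffffb43350000000081ba127ffffff6e542c74000000f89ac21200006099612167001b97ec9ad074⟩,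
  ⟨139, 1, 45, 0, 0, 10, 57, 0x20000000000000b000000000002297ffffffffff5c3bffffffff9f461e00000002a642ed0000012a72de527ffff306c4ecb13ffca7e70e0e28202a1046bb2a513936b0f753fda11800000000000013fffffffffff7b2000000000003b5000000001b63567fffffff6ca1fcbfffffb16aa29ae000029a69c395f000ead2d03194f7f7156263d0eea1888280cb1ea412000000000000010000000000000080000000000000bfffffffffffea9ffffffffffef7900000000049459800000001fd5a73fffffedda3c209ffffe268d8bebaffff2ddae642f380000000000000400000000000001ffffffffffffe3000000000000ac80000000006a98bffffffffb8bac1ffffffed582a310000015f2e53c080005b10edfe584003af151e47f6a00000000000000ffffffffffffff80000000000028c00000000005721fffffffff57de6ffffffff3c346a8000001f2fda73c0000295786a585fff863b3079c58ff719d0ba04ccf800000000000003ffffffffffff6dfffffffffff95cffffffffff4c0e800000000b23a9c0000000cbeadd5ffffffa806ab3effffa78f22f13a8005e9aa42e93440f8349114d848a0000000000000100000000000254800000000000e3bffffffff9003de0000000114fb7100000157cead9c7ffff77f3e2360bffc12f7c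3f809e01b2334411c0b7a9c09cce5f997d80000000000000400000000000001ffffffffffffff0000000000005a800000000004f23ffffffffed9e95ffffffff3c49770000004969e726800007e91909ea40004083d1052ce000000000000010000000000000080000000000009bfffffffffffca5fffffffffe609b000000000ad5a580000005805402bfffffad13a87adfffe8dde5c0994ffef2ddc890a4c80000000000000400000000000009ffffffffffff12ffffffffffef1d8000000001e0a3c000000048c91e5ffffff72388ad4fffff4d61dab4e8001c943438b5440276e1a4b9fb12000000000000010000000000001a800000000002f4c0000000001ab59fffffffff14e86fffffffa5c8d078000002eb3b750c00015c03610359ffed2eb40f2000fbc4a6c4cae3d48000000000000040000000000000200000000000001000000000000008000000000000040000000000013e00000000004cc90000000009236e8000000094bd90400000041a076be00000000000001000000000000008000000000000040000000000000200000000000009000000000000c180000000000b794000000000747b9fffffffe9c660cffffffda40b2678000000000000040000000000000200000000000001000000000000007ffffffffffffc3ffffffffffeb8200000000017bf90000000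076c4d08000000a636b8f4000007abb3b2320000000000000100000000000000800000000000003fffffffffffff9ffffffffffffc50000000000178e7fffffffffa5463fffffff6b0c605ffffff1dadc030fffff427add6f18000000000000040000000000000200000000000001000000000000017ffffffffffffcc000000000004c2000000000a4f2d0000000169374a80000013e22d05c00000b5f010b5e0000000000000100000000000000800000000000003fffffffffffff5fffffffffffe9f0000000000313f8000000002f98cbffffffefc10929fffffea74ed59cffffed1230cf6080000000000000400000000000001ffffffffffffff0000000000000a80000000000147400000000000af1ffffffff69a0730000000fd6c1fd800001a0dc5c6cc0001c53a4f8bca0000000000000100000000000000800000000000003ffffffffffffea00000000000bc70000000000b3627fffffffb9f2bfc000000332f1baa000008446c6bad0000a6396ee2ae800000000000004000000000000020000000000001affffffffffff9380000000000addbffffffffc95f3a000000064420eaffffffe7df57fb7ffff6f1019f30bffef25a901b7f200000000000000ffffffffffffff7fffffffffffb2400000000002635fffffffffc569b000000006cda7e7ffffff8c0a14f3ffffff7175a9f6000060f49976dd001bf8f4bdda00⟩,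
  ⟨141, 1, 46, 0, 0, 10, 57, 0x1fffffffffffffb00000000000207800000000006c43ffffffff9e9252000000005c133b00000131fa73b97ffff7c371c8bbbffc880ed82ef760233ddde91964195d5d589a09b287fffffffffffff3fffffffffff839ffffffffffc2cf000000001a969a800000000f73dc3fffffb022d9aaa000015c751226b000f0c665d4e367f8f19aaf5dfca18085015b87fada000000000000010000000000000080000000000000bfffffffffffeddffffffffffe7c900000000042df3800000003166f73fffffee547d8edffffe02b37bb3affff0f23a8456b80000000000000400000000000001ffffffffffffe0ffffffffffffd780000000006c303ffffffffd990ddffffffec7c9b3f00000125cc49f980005d965666a9c0040b7251f3c6e00000000000000ffffffffffffff8000000000001ac000000000065f1fffffffff7b86affffffff0d17198000001bbeb988400002ee0d6d131fff8bc06f40e34ff6a2bfc4cf46c800000000000003ffffffffffff95fffffffffffb1affffffffff54298000000006fead40000000f918139ffffffe1159702ffffa6d9fae51c800537f6ce3bc240fdc57fe6d68d9fffffffffffff700000000000212800000000012dbbffffffff946d91fffffffe7e5f6500000156b402347ffffce0952c9fbffc01889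dd095a013350388c0a81ab338d09d1230980000000000000400000000000001ffffffffffffff0000000000004a800000000006ee3ffffffffef7c3dfffffffef64a9f00000046b3e7138000087959dcb1400048b57e331aa0000000000000100000000000000800000000000094000000000000a9fffffffffe57730000000002da3e800000059bc1c83fffffbdc5e07c5fffe848b19188cffedb6e4b93d7c80000000000000400000000000009ffffffffffff68ffffffffffe9c780000000016a13c00000005111429ffffff85803708fffff3492e210d8001b158ea4482c0292baa8ee0c4200000000000001000000000000148000000000022440000000001db41fffffffffc0a42fffffffa2dd6e580000017b69506c000162a0446019ffefee0fba411cfbb3340c70b6a38000000000000040000000000000200000000000001000000000000008000000000000040000000000013e000000000051bb000000000a113180000000a7efb5c0000004b8366e200000000000001000000000000008000000000000040000000000000200000000000009000000000000ea80000000000ecf40000000009bbfdfffffffead4f08ffffffd8e5244f8000000000000040000000000000200000000000001000000000000007fffffffffffff3ffffffffffeac2000000000128290000000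07abbbf8000000b55160e4000008596d2c360000000000000100000000000000800000000000003fffffffffffff9ffffffffffff97000000000015f18000000000008f3fffffff6a86bc1ffffff0b04173afffff33c08262b80000000000000400000000000002000000000000010000000000000180000000000000c0000000000040a000000000a604700000001883f1480000016d39ae2400000cb45c8af60000000000000100000000000000800000000000003fffffffffffff9fffffffffffe5d00000000002a208000000003b0ba3fffffff06174d1fffffe876b997cffffeba973462a80000000000000400000000000001ffffffffffffff0000000000000580000000000179c00000000006be9ffffffff6a88e10000000e149983800001bec74433c0001e03c1d3a6e0000000000000100000000000000800000000000003ffffffffffffd200000000000af30000000000ec6e7fffffffbd33bf4000000265725ea0000089dd8a3110000aeacb586cf8000000000000040000000000000200000000000016ffffffffffffcc80000000000904bffffffffcc746a000000056ff96efffffff96a6bce7ffff6d2b571c9bffee9397f3ae8200000000000001000000000000007fffffffffffc2c00000000001a25fffffffffd1519000000005c7e337ffffffa521578bfffffe3c3c3e1a00005e95c1b92f001c58ed6c4e9b⟩,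
  ⟨143, 1, 47, 0, 0, 10, 57, 0x20000000000000b000000000001af800000000015bfbffffffffa4ea0dfffffffe233c010000012e28cf277ffffc876d7a283ffc7682fbe8cc601c3a0d60618f397d1c3ac2c00d580000000000001bfffffffffff9a1ffffffffff89a700000000181b5f80000000a85249bfffffb1f48144e000001fa4bcfa1000f2feb9a4f537fad5fe508667497a686f326c4866000000000000010000000000000080000000000000bffffffffffff25ffffffffffe1db0000000003a563800000004117a33fffffef00c4225ffffde000e408efffeee377f938680000000000000400000000000001ffffffffffffe2fffffffffffefa800000000068863fffffffffb6a41ffffffec273707000000eaa0804480005fa6edc861c0046a1ad1c4f6600000000000000ffffffffffffff8000000000000a400000000006df1fffffffffa37e6fffffffee9dbe480000017a87470c000033b4b71399fff91ebd3ac7d2ff63189056dc6c7fffffffffffffbffffffffffffb1fffffffffffceeffffffffff62ce80000000031e5240000001122a02a00000022e53f6cffffa6de629c708004858e39926ac102a441bc2282e00000000000005000000000001a2800000000021e33ffffffffa019f1fffffffc18a69700000149104caa800002241dc44abffc001d5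3ccdfe00b34074fa053bac26d9220ed2ea80000000000000400000000000001fffffffffffffd00000000000035800000000008653fffffffff1e439fffffffeb8e401000000433844828000090364bfa4400051747230eb6000000000000010000000000000080000000000008400000000000481fffffffffe67ecfffffffffa8a8c80000005965ba7bfffffce9942d41fffe7d5136fa8effec37a5fea71680000000000000400000000000009ffffffffffffc0ffffffffffe6d18000000000da974000000056c4529ffffff9a89e28cfffff1f8e1fece80019690740f0c402acfd74dc6356000000000000010000000000000f80000000000169c0000000001d54e00000000073ccefffffffa366ddf800000006c70804000164e302ad1dfff2b64d70563cfba485da958f468000000000000040000000000000200000000000001000000000000008000000000000040000000000013a000000000056a5000000000b0dc080000000bd0c31400000056a8a49a0000000000000100000000000000800000000000004000000000000020000000000000700000000000108800000000012b4c000000000cde4dfffffffec3ca2cffffffd79d2b4580000000000000400000000000002000000000000010000000000000080000000000001bffffffffffeae20000000000d31d0000000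07db4848000000c4db0df4000009167b76f60000000000000100000000000000800000000000003fffffffffffffdffffffffffff750000000000138d800000000053c73fffffff6b07a11fffffef85a62eefffff23db60a3f800000000000004000000000000020000000000000100000000000001800000000000044000000000004e6000000000a71d100000001a7796e8000001a034aa4400000e3ac071320000000000000100000000000000800000000000003fffffffffffffdfffffffffffe350000000000213c8000000004478dbfffffff12146d9fffffe68e99eb6ffffea217de57b80000000000000400000000000001ffffffffffffff0000000000000080000000000182c0000000000eb05ffffffff6d39e30000000c57c3d6800001d932482140001fd008c121a0000000000000100000000000000800000000000003ffffffffffffba0000000000098f00000000011fe87fffffffc14ec1c0000001a3029a2000008de3f16c70000b76cc7fe998000000000000040000000000000200000000000012fffffffffffff88000000000085dbffffffffcf273200000004a741fd000000088a93427ffff6d50ecad33ffee00adc1445200000000000001000000000000007fffffffffffd0c00000000001199fffffffffd9637000000004f396d7ffffffba8adb03fffffd4c929d1600005a13dd2abf001cb56a264ad9⟩,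
  ⟨146, 2, 48, 0, 0, 10, 57, 0x1ffffffffffe0f90000000000f38d8000000012f038bffffffee3f52a5ffffff683c0d490000114f280bb380001adc939e95bff1d9eaa46b2da0232bb17c7df3f99f7826321fd68800000000008183fffffffffcc55dffffffffa7a237000000047b1fd98000002ce82d1c3ffffb9d1d781f9ffff301536a1cd003be32280fb3b7fb578e824c909974cb0f86fa3fee00000000000000ffffffffffffff80000000000062bffffffffffe8d1fffffffffb8859000000002ab5dc80000002a0f67d3fffffc14aca029ffffb5dd152784fffeb8e283f74a80000000000000c000000000000ddfffffffffff588ffffffffff7ca9800000000b521ec0000000290eb5dffffff64b9779500000247970be38000c3c27133354004fb623c5a21a00000000000016fffffffffffe9d7ffffffffff8a44000000001b0469ffffffffc3321affffffecd17cf280000085f5beb2c0000e59d126015fff385c7b04536ff593fa5e257347fffffffffffd0bffffffffffc869ffffffffffa50affffffffe0ff217fffffffc4fdcdc0000011605d12a0000045cccaaaafffea199ed662d8006f7feef91fc4108a4d901ab101ffffffffffdc270000000000bdc080000000182c943ffffffeeec8911ffffff25d47d4300001203fc2e9380004b580688bd3ff069edd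05e535ffea77489bebefaca497919782df80000000000000400000000000005fffffffffffe590000000000048180000000013548bffffffff62cc79fffffff3865873000000f33195458000138779d6d1c0005f8c349e8d9fffffffffffffeffffffffffffbf800000000002b5c00000000023b5dffffffffd49666fffffffef81e628000002a9e9b34bfffff9d0482ea5fffcecc4c1096affe9edd8a2f9c87ffffffffffff940000000000066200000000001a96fffffffff9ac3e7ffffffffe727ec00000059ca1fb9fffffdded74f72ffffc1eb5fd2208002d431072d6dc02d10e5537045a0000000000010b00000000000b13800000000046c6c000000005faa0a00000002cb8be6ffffffaa83c6dc7ffffef679a8774000580dd48fe3dffedc0a59c9dcafb93b8945bc2fe8000000000000040000000000000200000000000001000000000000007fffffffffffffc0000000000136e0000000002ef9f0000000032906f80000001c11d8240000006a0261c20000000000000100000000000000800000000000003fffffffffffff60000000000008d000000000013248000000000cb75c000000004c35c1fffffffde6651cffffffd5e4179080000000000000400000000000001ffffffffffffff00000000000015800000000000a73fffffffffec8ba0000000002c4690000000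2014be48000001b968c55400000a4f97593200000000000001000000000000028000000000000cbffffffffffff49ffffffffffe9c70000000000ee448000000005dd113ffffffdb5d3321fffffdb93d7c20fffff09d62475c80000000000000400000000000001ffffffffffffff0000000000001e80000000000124400000000007f420000000054b7fd000000075b190f8000003e810148c000010e8d23416000000000000010000000000000080000000000004c00000000000045ffffffffffc4450000000001398b8000000027358a3ffffffc9b6d7e5fffffc7c69ced4ffffe79e57fb1080000000000000400000000000009ffffffffffff6efffffffffffe5680000000002cd7c00000000195469fffffffba5b6f3000000274a75b4800003f4d2db5a400022afaf9570600000000000001000000000000007ffffffffffff43ffffffffffe87a0000000000d3510000000015d0387ffffffe4684e94000000264fdd1600001226bbfd5d0000c4e83906f980000000000000c0000000000003e00000000000585000000000007df80000000011b243fffffffd32874e0000001c7082ff0000006be637467fffee1722b9323ffed26c6b405a5ffffffffffffeaffffffffffffbf7ffffffffff0a8c00000000027999ffffffffc1f52b00000003f0226a7fffffea8d0f1cbfffff14832dce20000a0c7e23469001d35a1c787ed⟩,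
  ⟨150, 2, 49, 0, 0, 10, 57, 0x1ffffffffffe55effffffffffe5e18000000016386ebfffffff78feb5dffffff18f3391500000d7aaca7da800058f49dc1603ff28b7d9da09f6007720079fff699b4a945c65f9dd800000000006b34000000000117c1ffffffff9fb07300000001e04f968000004015e05c3ffffcb425eb669fffe383da484930037ee193cf4318029c642e50960173cf9faa6e7dbe00000000000000fffffffffffffc8000000000004fc000000000010a5fffffffffb777d0000000013d182800000031e20bebfffffca0065365ffffae8dde9d5efffe6b00b7f7197fffffffffffffc000000000000f1fffffffffffd02ffffffffff4da0800000000799b2c0000000588ef19ffffff7550f6c90000008baeab0e8000c68d6125afc005c0d43aec53a0000000000001effffffffffff5e7fffffffffed344000000001505f60000000055f182ffffffed1f7b7680000038e23f3240000f77c4191f1fff5654b297638ff4db234f3422d7fffffffffffe13ffffffffffd87600000000009e7cffffffffeea6e27fffffff322587c000000ea2895360000086c6f40a2fffeb4f41c2d9080044c83a17f93410e43df1c022a9ffffffffffe498ffffffffff96ce800000001946bb3fffffffa14e8e9fffffee09d71e300000cf8083ef7800089c37e9bea3ff1aea8a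cbc6b1fe0a0c9bedcd91ab9b74dc3bedb480000000000000400000000000015fffffffffffebcfffffffffffa128000000001300a3ffffffffc44445fffffff1d5094f000000cad8dc43800015465ce16cc00073f9dcb28ee00000000000002ffffffffffffbf8000000000009bc0000000002f3bdffffffffe4872cfffffffe4650f08000002500c235c0000015254c9f1fffce81477b48affe6d7048921887ffffffffffff7c0000000000029600000000004d74fffffffffb2e387fffffffdc4708c00000053ba0081ffffff3d729202ffffbd9beb0eaa80025308a8c516c02fa539dfe20260000000000009f000000000008ca7ffffffffff0ea4000000003073e600000004862e1effffffbd5fd40f7ffffdc3604e5ec0005311a4d12a9fff87c3a959380fb86e459c0d4098000000000000040000000000000200000000000001000000000000008000000000000140000000000137a00000000033d43000000003bd3b2800000022f5ad44000000896d711e0000000000000100000000000000800000000000003fffffffffffff6000000000000410000000000153880000000011ca9c0000000079d6e9fffffffea9e75cffffffd424a41280000000000000400000000000001ffffffffffffff0000000000000a800000000001053ffffffffff0d6dfffffffffe66e30000000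202c7c68000001f9ccfbdc00000c292e69a2000000000000010000000000000180000000000009400000000000029ffffffffffe89b00000000007bb98000000008b326bffffffdcc1e4cdfffffd7145dfbeffffee326844fe80000000000000400000000000001ffffffffffffff0000000000000f800000000001b140000000000f1f600000000578b8d000000085d0b7f8000004e37bd8d40000154be88c3a0000000000000100000000000000800000000000034000000000001ddffffffffffcae500000000001d798000000029d86fbffffffd161e9d9fffffc176d8b5cffffe3e6fbe2ed80000000000000400000000000009ffffffffffffbafffffffffffd1080000000001ebbc00000000251421fffffffc2400390000001aed52e380000436cb598d400026c78e9981e000000000000010000000000000180000000000004bffffffffffe6d600000000003d1700000000187d2c7ffffffea41b5dbffffffdc2407fe00001226419b4f0000d71b15e4b980000000000000c000000000000220000000000025900000000000a7580000000015980bfffffffd95059600000011f9174b000000b122214d7fffef39676e10bffec109299f88dfffffffffffff4ffffffffffffd67ffffffffff81fc00000000016e9dffffffffccc30d00000002d5d18a7ffffff806f05ebffffee97b2a81e0000803c15a51f001dc695ed41f9⟩,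
  ⟨154, 2, 50, 0, 0, 10, 57, 0x1fffffffffff322ffffffffff310e8000000012385fc000000009db94dffffff026009ad000008a83fa4188000855fc9d3ad3ff3ddd3348891dfedc517fdde65b9af0c450bd2b63800000000002e140000000003d2ddffffffffb4ed0cffffffff7ba19c80000043de52093ffffe040a8c9b5fffd8ee066b9dd003183b4c0e03980938cc95e73f7179cb5f0422397600000000000000fffffffffffffb8000000000002ac00000000002b7dfffffffffc32a6fffffffffeb73b8000000341f84ebfffffd3a5b2b39ffffa867235720fffe166174d7147fffffffffffffc000000000000aa0000000000037cffffffffff50f6800000000362a9c000000073bd711ffffff8f4a6c8affffff10e6470a8000c61cee47bbc00687689277612000000000000190000000000003f7fffffffffe9f3c000000000bcaf200000000b929f8ffffffefdc7e247ffffff234955f40000fb5a4ab8ddfff75a582c3134ff44116315fca37ffffffffffff4bffffffffffdf960000000000de00fffffffffbce5b7ffffffef2178140000009d8cbf7a00000b8277ccfefffed327825afa8001d313933733c1114e9f9274f15fffffffffff572fffffffffeea428000000012da30c00000003eebd7dfffffedc14e603000007370c234c8000b228bb76303ff38e50f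41e401fc5c9901155631a8c9c57f4bca5480000000000000400000000000015ffffffffffff62fffffffffff3738000000000f6b34000000001b5c71fffffff19a4c7d0000009fa88eeb800016b0fb10d7c00089fcbe4d07600000000000004ffffffffffffd67ffffffffffee740000000002d0d9fffffffff61f14fffffffdea69c98000001d450d9b40000078e979e69fffcf1336fe914ffe3c29e411ccb7ffffffffffffa3fffffffffffeb200000000005a12fffffffffd8d9d7fffffffc64a16c00000044c1081200000070b3f09cffffbd3030fcc78001cd3ae95d2ec031b56d1c9d56600000000000039000000000007bd7fffffffffd75cbfffffffffff3fa0000000515f4c6ffffffd5ef1ab97ffffce9123d28c0004afba742116000263e33d39cafb846a05d00ae980000000000000400000000000002000000000000010000000000000080000000000002c0000000000140200000000038c070000000046011680000002b1083fc000000b055664e0000000000000100000000000000800000000000003fffffffffffffa00000000000003000000000015ed8000000001735ec00000000b74be1ffffffffd853c4ffffffd35b83df80000000000000400000000000001fffffffffffffeffffffffffffff8000000000011fbffffffffff64d5fffffffffb48a90000000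1f8f755800000239a1e3b400000e4300341e000000000000010000000000000180000000000005c000000000000c5ffffffffffebc500000000000e348000000009c1d5bffffffde83b7b5fffffd2c830edeffffeb8101893480000000000000400000000000001ffffffffffffff00000000000001800000000001e6c00000000018342000000005c7021000000096a73758000005ffccad3c00001ababeb25e0000000000000100000000000000800000000000014000000000002b5ffffffffffd8eaffffffffff36c2800000002869d6bffffffd92688b1fffffbc20196b2ffffdfd267893a80000000000000400000000000009fffffffffffff2fffffffffffcd980000000000c354000000002b9b49fffffffcc741df0000001047be1480000461ae9b04c0002b15920e4a20000000000000100000000000000800000000000103ffffffffffeb89ffffffffffb16b0000000018457a7fffffff068a543ffffffa427325a000011a377e7870000e9094754de800000000000004000000000000160000000000007b0000000000054280000000018c60bfffffffe0a292600000009322a55000000d96daa3e7ffff0c85b36f0bffeb103579a605fffffffffffffaffffffffffffe57ffffffffffc53c00000000014865ffffffffd47fed00000001e854998000000176428f3ffffee0a47e61600005c92aa847f001e3514607ded⟩,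
  ⟨158, 2, 51, 0, 0, 10, 57, 0x2000000000000b4fffffffffefdb2800000000a994dc00000006fa6c49ffffff1ad6fdf7000003e15a1a4a80009e49a70f2bbff5981b73d7bf1fd72e95e0097959913c3c5b4a4d77fffffffffff63c00000000046685ffffffffd746d6fffffffde3b1f08000003b831b273fffff467b43509fffd39127edac700299b6d486b3580eed6bbb66ec9985f39c09edefea00000000000000fffffffffffffc80000000000005c0000000000359dfffffffffd5ca0ffffffffee843c800000031a7c5bbfffffdd4099ba5ffffa376c71dfefffdbc36c457557fffffffffffffc000000000000420000000000070cffffffffff77ea7fffffffffb5e8400000007ad3bd1ffffffad7ea57cfffffdeba4899a8000c30a552c2e40074c2d18308960000000000000b000000000000cf7fffffffffed8340000000002bc8e00000000e3fe8afffffff3fc22687fffffb99eb6cec0000f333d6a979fff94aab6e23eeff3c6542d7a56c80000000000005bffffffffffe6b60000000000a53700000000056eb97ffffffef7b497c0000004875a0ba00000d4dd54e44fffef8b55d98657fff9e0ad60896c11200e99e08b6600000000000420fffffffffed2b980000000096cb140000000a24d88dffffff0863a513000001e2af01888000c411a74e703ff5c5000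15c881faf13f40cc52c1a46ac79e11b18b80000000000000400000000000011fffffffffffffefffffffffff1608000000000a36fc000000005bc441fffffff29143ab00000075a96ed5800017c5d0b36f4000a13f26303a200000000000002fffffffffffff27ffffffffffe09400000000021c9e0000000004fde6fffffffde12c8980000014c3702b400000c3fede5adfffd05462a03faffe0bd12d06fa07ffffffffffffdbfffffffffffc6a0000000000495cffffffffffd6237fffffffbeae4dc000000312c11de0000015d57d096ffffbff8e9f967800149ed9e46b940334089eef64a1ffffffffffffed000000000006267fffffffffe1c53ffffffffdcfdc600000004a5461cffffffeea2f3e27ffffc72f6c181400040ecee7699e000b261c3d012cfb8b49e4b4495680000000000000400000000000002000000000000010000000000000080000000000004c000000000015160000000003de0900000000511f188000000347ff70c000000dfffff060000000000000100000000000000800000000000003fffffffffffffdffffffffffffdd000000000015aa8000000001cacc4000000010523de000000019207b2ffffffd403b8218000000000000040000000000000200000000000000fffffffffffff8800000000001033ffffffffffbb65fffffffff98c1d0000000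1e7dfb3800000277bd33bc0000109bdd827e000000000000010000000000000080000000000002c00000000000109fffffffffff174ffffffffffb73c8000000009434b3ffffffe051a341fffffceb5c6d22ffffe88ca41c2680000000000000400000000000001fffffffffffffefffffffffffff7800000000001d1c000000000219060000000063aac50000000a8a05d180000073eda69140000215713b1f600000000000001000000000000007fffffffffffffc000000000002c5ffffffffffe98afffffffffe9ebe8000000023f9183ffffffe05949b9fffffb7ba51b74ffffdb700771238000000000000040000000000000600000000000016fffffffffffd6c7ffffffffffaf74000000002c6d31fffffffd791cdb00000007a788cb8000047944c6b5c0002f847bcea46000000000000010000000000000080000000000013bfffffffffff391ffffffffff4dc70000000015af377fffffff631a113ffffff7e384106000010c2f1d2a10000fa42cd4b3080000000000000400000000000011ffffffffffffaefffffffffffd9c800000000195ba3fffffffe88e82a00000002575db5000000ea3cf33c7ffff28f7351ebbffea2ac75e49b9fffffffffffffefffffffffffff27ffffffffffe66400000000016391ffffffffdc69910000000121ce89800000077d3ea13ffffeeed8637c60000395a562175001e7fe497283f⟩,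
  ⟨162, 2, 52, 0, 0, 10, 57, 0x20000000000086cffffffffff2bd480000000030cf0400000009e8ecd5ffffff4f29d9c4ffffffe30eec0c8000a57ab671da3ff781c1c08b739fc444e3597cad995ea43b1b426277ffffffffffd82c0000000003718dfffffffff76908fffffffd3bacae8000002c703dfec000004bfd63251fffd2cf5e65d350021241c8892f881399c2b4b198d1974dcf7f7b205600000000000000fffffffffffffe7fffffffffffec4000000000031e9fffffffffe9808ffffffffe4712280000002be58483fffffe60fe9fd9ffff9faeb3c538fffd5db1fe3f667fffffffffffffbffffffffffffee000000000007a4fffffffffface07ffffffffd2507400000007252779ffffffcb670916fffffd218814588000be0886f2f640080cd830f6985ffffffffffffff000000000000f07ffffffffff45a3fffffffffc17aa00000000defcc6fffffff8743b597fffff92884b3040000e20fc7fbbdfffb2127b1a4d2ff369e0a240ac58000000000000e3ffffffffffefbe00000000004571000000000a7c597fffffff299154bfffffffcd1c31a00000dd3229938ffff21b29f110d7ffdb830b35afa4110a52ffb137a200000000000b5cffffffffff1ea68000000001036440000000c56bd61ffffff4daf63d8fffffdb46d348c8000c2cbc38be6bff8137b7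9273adf9ced1e1c5bf3f9ec4a75524b8a38000000000000040000000000000a00000000000064fffffffffff2de80000000004ef7400000000816895fffffff4546e250000004fdc60e28000188a740c32c000b96d96a85ca00000000000003000000000000077ffffffffffdf740000000001365e000000000eed14fffffffe15c5268000000ca1013fc00000f5e0222f5fffd2125471bc2ffddcfc3a2615e80000000000000bfffffffffffc0a00000000002bb9000000000172bf7fffffffc2f07c40000001d2c4a72000001f994cc7effffc50f599a438000cea7cf078b40344bfae7bc339ffffffffffffc7000000000003de7ffffffffff7a43ffffffffcc5c060000000398ee6b000000036b89ac7ffffc58d70bccc0003609d1e7406001296566b50b4fb9a453170ac2380000000000000400000000000002000000000000010000000000000080000000000005c000000000016a600000000043557000000005d3a9680000003f62d7d400000119d11df6000000000000010000000000000080000000000000400000000000001ffffffffffffcf000000000014db80000000021ff040000000163320600000003f7b43effffffd6b8e8aa8000000000000040000000000000200000000000000fffffffffffff4800000000000c640000000000034dfffffffff90fdb0000000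1d3819e8000002b377209c00001331ae2356000000000000010000000000000080000000000000c00000000000105fffffffffff7caffffffffff7eb48000000007a4adbffffffe1eaea51fffffcada6004affffe558e0fe378000000000000040000000000000200000000000000fffffffffffff18000000000018a400000000029ffe000000006d24030000000bc2b4f38000008a35a402c00002944ec7b8e00000000000001000000000000007ffffffffffffec00000000000249fffffffffff8c8fffffffffe56b1800000001dcadc3ffffffe6881c21fffffb42b81a8effffd6ce2e18c38000000000000040000000000000200000000000022fffffffffffe5e7fffffffffee5dc0000000028a4b1fffffffe2487250000000117ddb680000481ae58bc400034030d2e9f200000000000000ffffffffffffff800000000000113fffffffffffbbdffffffffff1c2b0000000011a3857fffffffb2120b3ffffff6875609e00000fa727309500010a7b781c058000000000000040000000000000dffffffffffff8cfffffffffff74880000000017371bffffffff036d65fffffffd73a899000000e972c1c47ffff4659483f33ffe96271f9a70e00000000000000ffffffffffffff7fffffffffff4cc00000000016e29ffffffffe4e7890000000084c30d8000000abc22d0bfffff0acb8d212000018dab4eadd001ea8b4407770⟩,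
  ⟨166, 2, 53, 0, 0, 10, 57, 0x2000000000009dcffffffffff81c17ffffffffdb9e2c00000009fb17ddffffff8c0077ecfffffd06d80d7380009ee8bb1ee8bff96b332730c59fb5352b70e16e791b0f9731860ce7ffffffffffd47c0000000001eef6000000000d0026fffffffd5237d48000001bce4cfd400001005dceaddfffd583e69215d0018e0a5bddbc981738b1cbc006c9accd18ff1b67fa00000000000000ffffffffffffff7fffffffffffe1400000000002655ffffffffffa240ffffffffe01fb48000000245bd8abfffffed9a56715ffff9ced1f6a58fffcfbebc9c214800000000000003ffffffffffffc600000000000640ffffffffffde447ffffffffbcf5cc0000000600fdcdffffffe5d60da6fffffcac8983e88000b7c95daa464008c7d4993e5c1fffffffffffff9000000000000c27ffffffffffb333fffffffff889ba00000000bb607afffffffc7f02977fffff7caaa16fc0000cb3bc55cedfffccf21cc2f36ff3299ff0c9fdd8000000000000f3fffffffffff8ddfffffffffff5ff000000000b97bd7fffffff6d6a7bbffffffc43ae27a00000d4e1f68e8ffff4a9d21dadd7ffc24c3ac7002410d8cd68732cb600000000000b80ffffffffff895c7ffffffffba258c0000000b7b9731ffffff9653aa5efffffaf0a885038000b39c78c3bb3ffa47db2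633a11f8f50188ad54939820ae92189c96800000000000004000000000000020000000000008afffffffffff64280000000000a0c4000000008ec9cdfffffff67c03470000003007c48a8000190943aeb4c000d23cc110c6a00000000000001000000000000127ffffffffffe64c000000000067be00000000139c36fffffffe6ed88b80000005a2ac1140000110ec24fa5fffd41ca09de46ffdb00f35a8b6c800000000000023fffffffffffcea00000000000f2d00000000023d587fffffffce64e740000000bc2126a0000024a3df88cffffcb868647ac80005f15792bddc034e1c51a260a5ffffffffffffc30000000000018780000000000990bffffffffcb4e760000000259b089000000124d41c37ffffc865f7ec040002b49c17539e0018aa2003a5ccfbb0021f6ee3e080000000000000400000000000002000000000000010000000000000080000000000006c0000000000188600000000049391000000006a660980000004bd9f0140000015f4c6466000000000000010000000000000080000000000000400000000000005ffffffffffffd500000000001401800000000271a1400000001d0e53e00000007293deeffffffdc3718be8000000000000040000000000000200000000000000fffffffffffff48000000000007f400000000003619fffffffff989ff0000000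1bf35958000002ec9eb6e400001601ef4a4200000000000001000000000000007fffffffffffffc000000000000d1fffffffffffd54ffffffffff640f80000000056102bffffffe3251b6dfffffc72c83210ffffe1e8e3abbe8000000000000040000000000000200000000000000fffffffffffff080000000000131400000000030d3a000000007887a90000000d1ac927800000a30d6f5d4000032ab6fc5ae00000000000001000000000000007ffffffffffffec0000000000018e0000000000043afffffffffe523c800000001709f5bffffffeb7c5089fffffb14f2abacffffd1f9301b888000000000000040000000000000200000000000020ffffffffffff4e7fffffffffe79540000000021cf19fffffffeba1a52fffffffc6cae208000047ee80b01400038841f58b0e00000000000000ffffffffffffff8000000000000bc00000000000201ffffffffff1695000000000d12a67fffffffef87453ffffff5fe5006600000e6d95d9d3000119874194cc80000000000000400000000000005ffffffffffffb2fffffffffff3dd800000000133663ffffffff6e0d2dfffffffa5d5631000000dcc1842e7ffff62d534670bffe8b72b499136000000000000030000000000000b7fffffffffffac400000000015181ffffffffed371300000000124ab28000000bdc5369bfffff2d22a9ca1fffffc50ad27bf001eb2ee218745⟩,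
  ⟨170, 2, 54, 0, 0, 10, 57, 0x20000000000079effffffffffd1c27ffffffffb16e4400000008514945ffffffc378a53efffffb51bb1b1380008f3d3d8aee3ffb322060dff71fa9da5dfd6b7978ca4b7b2caadd77ffffffffffe05c00000000009a720000000016da60fffffffdd5f0908000000d247a6fc00001657054731fffda67fe9f8df001158763e2e15819d9cf0c35c6e1c56a729a631a2a00000000000001000000000000007fffffffffffe1c0000000000188e00000000005ed2ffffffffe044f280000001c54cc63ffffff3aab9c19ffff9b0575e9acfffc97d4e8d1b7800000000000003ffffffffffffbe00000000000421000000000002b97ffffffffb79cac000000049ec1b1fffffffb1e277efffffc7f5b981e8000b0ea9de4acc0097c3612c7f0dfffffffffffff90000000000007780000000000039bfffffffff79e5e000000008abdf8ffffffffb0911e7fffff755b35dfc0000b1b931766dfffe4c50bbd6aaff302bfa72fdb08000000000000bc00000000000009ffffffffffcb6b000000000a29b77fffffffaf966bbffffffa100315200000c11aae184ffff70cffff18f7ffae0cfb9d810c10909413e9944a00000000000810ffffffffffe2e57ffffffff969fac00000008fc0d69ffffffd43600d0fffff9814ca6b280009c191631a53ffc40d99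4ff0adf85e4994d900ef90c510b768e3ae800000000000003fffffffffffffe00000000000084fffffffffffa0b7fffffffffdb0bc0000000089fd89fffffff8b275e700000016d264f38000194f0221d84000eb6d175e97e00000000000001000000000000137ffffffffffefcbffffffffffd4b20000000014303afffffffed3c4d3800000002705f8c0000119355f029fffd6498009512ffd8540e7d5a7e80000000000002bfffffffffffe31fffffffffffb0900000000025b437fffffffdc758bbfffffffe6fb3c60000025d28fa6cffffd28ef3f5947ffffd21a39fbbc0350eb4248b98dffffffffffffd2ffffffffffffba8000000000122cbffffffffd3d5220000000133d7390000001b18b3317ffffce3169783c000215f2b91942001d71c6085cf2fbcb2a88b20a3580000000000000400000000000002000000000000010000000000000080000000000007400000000001a9a0000000004f9c30000000078b7f080000005a089e0c000001b2177cd2000000000000010000000000000080000000000000400000000000005ffffffffffffe7000000000013508000000002c0274000000024d9ae20000000b454a04ffffffe559936c8000000000000040000000000000200000000000000fffffffffffff68000000000003ec0000000000536dfffffffffaa3c10000000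1ad5cec8000003235f061c0000190a1dcf6e00000000000001000000000000007ffffffffffffec0000000000008e0000000000016cffffffffff61838000000002e55dbffffffe3ebdb2dfffffc39ed109effffde3f1d2bde8000000000000040000000000000200000000000000fffffffffffff2800000000000d7c00000000035e4e000000008567fd0000000e975f9e800000beb9270bc00003db5adbd8600000000000001000000000000007ffffffffffffec000000000000da00000000000b60fffffffffe7b018000000010989b3ffffffef30f92dfffffaefd392f6ffffccfaf535008000000000000040000000000000200000000000017000000000000077fffffffffe5b440000000019c605ffffffff317462fffffff9561771800004746f1f04c0003cfe4e6c44200000000000000ffffffffffffff80000000000005c000000000005b5ffffffffff2f010000000008b757800000001af21dbffffff6126342a00000d2d45f9b10001275477a1af80000000000000400000000000001ffffffffffffe2fffffffffff3478000000000e78c3ffffffffc25461fffffff8c60925000000c92248067ffff7d401ed91bffe8276a73726e00000000000003000000000000137fffffffffffde400000000011675fffffffff47ac2ffffffffc728d98000000b831579bfffff507cc9cb5ffffe42d81c67d001ea2cecb58b7⟩,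
  ⟨174, 2, 55, 0, 0, 10, 57, 0x200000000000465000000000007617ffffffffa9107c00000005fe5ff5ffffffee84065cfffffa9489e68280007ac20091f93ffcc1db438d341fa1d89e6e3abc386fe253fc8c9487ffffffffffeedbffffffffffc0e20000000017e6e4fffffffe7d8cdd800000021b85c140000189eb50e5dfffe0591b49155000ad84e4232cf81b99e0eeeb2a71e035a18b30a12200000000000001000000000000017fffffffffffe7c00000000000c4e0000000000cc42ffffffffe34f14800000014bbea53ffffff8413abcdffff99c802c60efffc322f6aca86800000000000003ffffffffffffca0000000000021b000000000018547ffffffffbd08fc000000033fee6a0000000ad1bcf6fffffc89a270408000a9ebc33754400a299f812a385fffffffffffffb00000000000032800000000003053fffffffff867ce000000005a329300000001eae9237fffff78e34705c000097eb6e2389ffff95d898fc9aff2f215d432a748000000000000740000000000045dffffffffffc23b00000000079b487fffffffe533bdbffffff90acd27e00000a6f6d1710ffff92a1e1f5e07ff9e51349ea3ec103668f3b28806000000000004290000000000196d7ffffffff9757bc000000060d08e2000000014daa70fffff91e7354f48000810d700f863ffdecf4b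de947df801ff4f74958388f0bf5834ff48800000000000003fffffffffffffe00000000000066fffffffffffd497fffffffffc160c0000000079ed99fffffffabcf7730000000409b26080001968d8b414400104cc25b2606000000000000010000000000000f7fffffffffff863ffffffffff823200000000121d6effffffff3414a97ffffffc3a60fe400001136722915fffd8781278ba4ffd5ca2ac0133280000000000001bffffffffffff55fffffffffff08700000000020e767fffffffe9d7dcbfffffff577f54e00000243929f6affffd98902a8a37fffa9468938424034e0be41713edffffffffffffe6fffffffffffeaf800000000012923ffffffffe01c76000000004ed5ad0000001ebee1477ffffd5843d4d6c00018b49363e5200210f562a2f8cfbea8234f940cf80000000000000400000000000002000000000000010000000000000080000000000007400000000001cbe000000000568690000000088490f80000006a1538c400000213fce65a000000000000010000000000000080000000000000400000000000005fffffffffffffd000000000012fb80000000030c9ec00000002d8d2f20000001069543afffffff319ae588000000000000040000000000000200000000000000fffffffffffff98000000000000cc00000000005ebdfffffffffc0d4b0000000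19f5b428000003581f344400001c48024c5200000000000001000000000000007ffffffffffffe400000000000052000000000003f4ffffffffff6f61800000000082f4bffffffe43cc371fffffc0228c932ffffda5d1aa4338000000000000040000000000000200000000000000fffffffffffff58000000000008c40000000003957a0000000093576f000000103c479c800000dd85d5c1c00004a934356ae00000000000001000000000000007fffffffffffff40000000000004a00000000000eb4fffffffffebd30800000000b03c23fffffff1c37e09fffffad0f4b88effffc7daebbd3f800000000000003fffffffffffffe0000000000000d0000000000007a7fffffffffe74c40000000011c661ffffffff885b02fffffff774cc5a800004650e95a5c000416b5d39ad6000000000000010000000000000080000000000001400000000000725ffffffffff5689000000000501a1800000003621d4bffffff68fb798200000bf68e93cf000133e511b726800000000000003fffffffffffffa00000000000000fffffffffff4a280000000009e783ffffffffff02d9fffffff8505983000000b28739c87ffff94fe58395bffe7b0c61775f2000000000000010000000000001680000000000004c0000000000cf59fffffffffa30a4ffffffff9ca2628000000a4123ef3fffff714d7fbd5ffffd054452db7001e7cb8165b8d⟩,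
  ⟨178, 2, 56, 0, 0, 10, 57, 0x200000000000197000000000021687ffffffffb4644c00000003bde3d60000000b90752afffffa8b621b97800064d17c12e6bffe114084fced5f9cb6b74e7c7f980ef21864fcd437fffffffffffa83ffffffffff5e620000000014173affffffff194f757ffffffaeda296c0000180fbeb589fffe67adc5e36d00057cc1525e8d81c9c1fd5ff14b1fc5eeb1582dfd200000000000001000000000000017fffffffffffefc0000000000033a0000000000fa02ffffffffe7d53880000000e1bb30bffffffb80e6ef1ffff99077575b0fffbcb8e7f8a38800000000000003ffffffffffffda0000000000009d000000000021aa7ffffffffc7e42c000000020e0286000000155ad322fffffcbb16b3568000a32b39ce7cc00ad022b772859fffffffffffffd0000000000000280000000000400bfffffffff9fee200000000312e1700000003435a277fffff83843cd4400007f7fa847da0000acee3a2eb6ff2f46d35a267c80000000000003400000000000625ffffffffffcd950000000004ee7e800000000abfa53ffffff8e9d96de000008aa190ad4ffffaf4a2416807ff927e25e0d0940fce84348eab8a0000000000011700000000002fea7ffffffffaaef2c000000036e779a0000001d7acd78fffff971f82f7e800065ff686bd5bfff47332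d9134df7d61a8957478f80d93120fc7f8d800000000000003fffffffffffffe00000000000044ffffffffffff9c7fffffffffb84dc000000006494bdfffffffc7aed16fffffff6f2f41880001962f647bfc0011e343aee526000000000000010000000000000a7fffffffffffe8bffffffffff62f6000000000ed036ffffffff85d8a17ffffff9b3eb26c0000103faf7a05fffda90b734776ffd3629a597a5780000000000001400000000000019ffffffffffed85000000000194107ffffffff4ca523fffffff05488a60000020e0776ccffffe008895b6d7fff62f2f809bd403465c5954a841fffffffffffff6fffffffffffe4c80000000000e34bffffffffec20c5ffffffffb429930000001ea646e67ffffdd40fb9ab400011772f931de0023ae325e8494fc0cf4478b55c980000000000000400000000000002000000000000010000000000000080000000000006c00000000001ed20000000005df85000000009932dc80000007c293e9400000286ef08fe00000000000001000000000000008000000000000040000000000000600000000000011000000000012fa8000000003586d400000003724c7a00000016b2154d000000068dced78000000000000040000000000000200000000000000fffffffffffffc7fffffffffffeac00000000005ce9fffffffffd88210000000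195bd4780000038b64e07400001fb9ddfaea00000000000001000000000000007ffffffffffffe4000000000000220000000000052effffffffff86707ffffffffe6c8ebffffffe421c5c5fffffbca9808d2ffffd6437f992c8000000000000040000000000000200000000000000fffffffffffff880000000000050c0000000003b77e00000000a1f7b3000000120c1c5c800000ffc6e8f5c00005978d47c7a00000000000001000000000000007fffffffffffffbffffffffffffea00000000000f54ffffffffff07b680000000068cdbbfffffff364674dfffffab6405556ffffc29e40efae800000000000003fffffffffffffe00000000000005000000000000b07fffffffffeab4c000000000ab1d5ffffffffc0e8eafffffff669bfba80000452d0e5e2400045c7793d54200000000000001000000000000007ffffffffffffec00000000000701ffffffffff818f00000000021e3b800000004419a73ffffff749f423600000ad3ba041900013f4843d75c800000000000003fffffffffffffa0000000000000cfffffffffff6ec800000000060c4400000000267a49fffffff8a1c31f0000009bcb01437ffffa9e0e65073ffe750726c4f8a000000000000010000000000001780000000000026c00000000008b99fffffffffe4084ffffffff8a87298000000888b23b3fffff8d8e36be5ffffc04fcef6b5001e44bebfa324⟩,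
  ⟨182, 2, 57, 0, 0, 10, 56, 0x7ffffffffffff6800000000027b87ffffffff8ebef800000007b4e558000000e2775017ffffaf39b208980009f674998187ffc7e7c52b7677ccf9144d8101afaa197c1b903b9800000000000207fffffffffd38180000000074e0f7fffffff930f037fffffee0c143e80000572b256867fff61e547612c8001403e955ea283a0a1c910ca0c064eb33cd5054f80000000000000800000000000017fffffffffffed7fffffffffff5e80000000007df07fffffffecc9f38000000115ec6c7ffffff67be6777fffcc4e14d5d07ffb645aac3a64800000000000007ffffffffffffb7fffffffffffd8800000000022ba7ffffffffa8c03800000004659528000000dc9f76f7ffffd056fe924800139d14c63c7802dc080eca4f07fffffffffffff7fffffffffffe9800000000007b27ffffffffeef878000000009360480000003e7f96d7fffff241c495e80001a5ec960e68000caba335e547f306bb06cde04800000000000028000000000018d7ffffffffff0778000000002adef8000000042b1457fffffe578c9cc8000037860b8447fffc6ab135fca7ff13d68fab1e983d71ea5e14f8f7fffffffffffb9800000000031757ffffffff87fd1800000005c91bb80000015e26ebd7ffffa2e0e0ebe80009a4f8327cb80014cc36223777be843d66397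a1f8a9b7fcaaba9a800000000000007fffffffffffff80000000000012800000000001077fffffffff748a800000001391207ffffffef035fc7fffffee92546f8000328f91abfa8004de2bfcb8ef8000000000000080000000000005800000000000457fffffffffd9428000000005a0f97fffffffc5b5587ffffff0a25ecf800003bb0cba9f7ffee4213081437fd11b79fa2446800000000000018000000000001e7ffffffffff7838000000001161f7ffffffff988107ffffffb89a0e0800000e5147e767fffe5cefc1a4a7ffe51d903f9be80ceaafb5dbc657fffffffffffff7ffffffffffe588000000000109a7ffffffffd76f77fffffffada8958000001c329f387ffffc94aa427e80002e9cfe68238012be331d260e7c3199125a7b80800000000000008000000000000080000000000000800000000000008000000000000c8000000000083280000000032f6280000000ab8e4f800000120e2ae4800000c342d841800000000000008000000000000080000000000000800000000000018000000000001180000000001345800000000749b6800000010681dd8000000f1e02e180000020e8e7fd8000000000000080000000000000800000000000007ffffffffffffe7fffffffffffad800000000014b27fffffffff74c98000000190720380000077b798c5800008d79f39b2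80000000000000800000000000007ffffffffffffc7fffffffffffff800000000002bd7fffffffffa1177ffffffff9763d7ffffff8eaf4ca7ffffdc93997047fffd1f218eb488000000000000080000000000000800000000000007ffffffffffffb800000000000488000000000f24a80000000587ef280000014087b2e8000024ba7f9c880001aa818034580000000000000800000000000007fffffffffffff7fffffffffffed800000000007257fffffffff4ff680000000067ccc7ffffffd12bee67ffffd4f0513917fffbd483fe5f4800000000000007fffffffffffff7fffffffffffff800000000000bb7fffffffffdd7a800000000138197fffffffefcb967ffffff5e0402f8000087e1738a380012841f8e08280000000000000800000000000007ffffffffffffa800000000001807fffffffffd46b80000000000ab6800000009053eb7fffffe079b248800004e50ffafa80014994f922ce800000000000007ffffffffffffd800000000000047ffffffffff96180000000006335800000000f3a027ffffffcb6b8a580000086cb776b7ffff7807d11ce7ff9c0e7379aad800000000000008000000000001580000000000086800000000014f880000000006db87fffffff88f9818000000d56bc9f7ffffe9176f6f17fffd9bebfe512801dfe68923312⟩]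

end P264.LC
end
end

section

section

/-!
# P264 / LC / YData4 : storage matrix of the linear certificate (data, helper919)
-/

namespace P264.LC

def ydata4 : List YC := [
  ⟨488, 8, 90, 0, 0, 10, 57, 0x1ffffffffffffcb000000000001fe7fffffffffeca5c0000000036a319fffffff112c38f00000025933bf27fffe14d57c13c3ff75509cdfa601ebc772b8ea90bc41eef55182997f8000000000000d3fffffffffff6e6000000000036d0fffffffff12c8280000004cfc3a140000018e05636600009bf1bbee1300253708dddaaa8560788717a87cf53f71e5927e30200000000000004ffffffffffffe17fffffffffffda3fffffffffff80a00000000005b09000000007abc1f7ffffffa4f135cc000021eef1c2a6000141571f090affea2495d123e37ffffffffffff9c00000000000585ffffffffffdc090000000001159a7fffffffdbe03bbffffffeec3a256000004f90de576ffffb9a303d5e07ffb2f80ce54c8c01492e5b6752f200000000000001000000000000b67ffffffffffbd8bffffffffe3e57200000000e7197900000034f71ef17fffff2eba4260bfffd4c3993876600212ae905427101f3ff48a1ec98800000000000103ffffffffffee3dfffffffffdeb67000000002f030180000003d6327cbffff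fba8ae93e1ffffaa53d86ae50002587f82a3f5801f6e7faf82693f925ddb6aff825fffffffffffff50000000000031f800000000002e1c0000000047540dffffffe6bce6c2fffffe9eaeb1d07fffbff24fbc153ff438bac9478a5e74cbc6b706cf20745696bd0e8d07fffffffffffffc0000000000006a0000000000035500000000001db580000000017f8abfffffffe06ede600000001f971bcfffff49b2a88107fff505623476840020876926230a00000000000016fffffffffffea680000000000365bfffffffffbb892000000008b1f5700000007a44a777ffffeca0e8ed4c000119dcd111ce001ddc1c14dcb30026d9e702024380000000000000bfffffffffffd1a00000000000abf000000000795cb7fffffffcdc7443ffffff1314c96600000172b540ab00009f43152a477ff5006e67724d3f588c4b385b359ffffffffffffa70000000000030e80000000008eeebffffffff4b10b1ffffffeee7787b00000114724dda80001828f8311f3fff77cafe4bf75ff7e5eeaea6d7b0284cba6316cff80000000000000400000000000001fffffffffffff3000000000001c17fffffffff9778c00000000153eea00000003516676ffffffc588858c8000015052215640002f669e12a2200000000000000ffffffffffffff80000000000005bffffffffffd675ffffffffff2604fff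fffffb98b257fffffff9ed7d3c00000115ea10e1ffffff88e5d87900007a1b5fb6c38000000000000040000000000000200000000000015000000000001fc7fffffffffde1c3fffffffff5b7ba000000037d52eeffffffd09ac14b7ffffc405dbc6ec00008bd6101aae0000000000000100000000000006800000000000453ffffffffffb57e00000000038777000000004635b07ffffffb836280c0000006848eb7a00001c055c17e6fffe6518fdbd54800000000000003ffffffffffffda0000000000024100000000005fd07ffffffff79686bfffffff8ccd1e60000006af934b6ffffffdb1f90217fffef6b0cac92400259ed509a9c200000000000000ffffffffffffff7ffffffffffff83ffffffffff643e00000000062111000000007b9d7a7ffffff581ae4240000003de5b5de000095a41086d100025d731f4ab5800000000000003ffffffffffff95fffffffffff515000000000104938000000005fceabfffffff5166c6e00000019b3cf2b000004de67e67a7fffca993d73f33ffd896620f2a0600000000000002fffffffffffff47ffffffffffecb400000000015552000000000f2228fffffffe6ef5a17ffffff88596a8400000ebd8d0a89fffff8df368550fffc7a6b756f147ffffffffffffe3fffffffffffebe000000000029870000000000c2b07fffffffd7167a3ffffffff6e6bea0000019aeae610fffffd0b73e7127fff9e781d8106c0007bc842e8acdfffffffffffffb0000000000049c7ffffffffffe053ffffffffbce17e0000000088ff2900000023d2681b7fffff71217a183ffff88904db20a00029aeeeee3ef00000b52381f14⟩,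
  ⟨504, 8, 91, 0, 0, 10, 58, 0x7ffffffffffffa20000000000015a7ffffffffffa806000000000c4e587ffffffe491e171ffffffde05255b7ffff0a941f97b1ffdbe5048c8bd77d558ae83aa35892d29ceea824431800000000000015fffffffffffe2980000000000061dfffffffff1da91800000023cbe6f2000000c0575e83800014a32f64602002717265d80a682d66110c6e62b2eb16fd056caed5800000000000005fffffffffffff57fffffffffff992000000000010e87fffffffff834320000000070840f7ffffffe179716a00000842dc4ea7800030884e19aa9ffeb87887e11e8800000000000001ffffffffffffdd800000000004825fffffffffe6a8b7ffffffffefeba5fffffff74333a08000009172da51dffffc7ff47be067ffd58ad3772216003e03b786d7967fffffffffffffe000000000000a8800000000000949fffffffff8d00180000000076c19e00000037ceedda80000004b279b7dffff4e53bf9eba800375334edd66202126cb2fd43cc800000000000089fffffffffffd9c7fffffffffb179a000000001feab4800000026238299ffffff40cbb34b7ffff372572d32600013ffe64be3b80118730517afedfecf2c5d59c8327ffffffffffffb2000000000002e880000000000c87e0000000013649d7ffffffd0edda11fffffe24a091577fffdcb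b078aa61ffcdbd45a31a397cb8ee22a5b8354edd199040659937fffffffffffffe00000000000006800000000000a5600000000000bfc80000000012e631ffffffffa9c5487fffffff676b4bdfffff496581a907fff9cc583d2a0e0005359febfa7e7fffffffffffffa000000000000127ffffffffffa34e00000000010db58000000002c8a9a0000000a117f937fffff774653e6a000038c0148abd8003fafa68dbcba0045bd04e752a2800000000000009ffffffffffff5c7ffffffffffe9d6000000000793417ffffffffdc775dffffffc2a2ac067fffffb525b9c7e00009df573c2c77ffb1fc61733c29fd38b1ff55446b7ffffffffffff5600000000000100800000000051ef1ffffffffe365a17ffffffd6d89be2000000b59d9c7f80000de1738d4e5ffff182f0cef137fee43efc7e15fa01fc39fb615be5800000000000002000000000000007ffffffffffffda000000000001387fffffffffe0375fffffffffec80b800000006d9bc49ffffffcfbfff3580000072c6bc01a0000c1ff645dd3800000000000001ffffffffffffff800000000000031fffffffffffa6d7fffffffffd00a5ffffffffda119b7fffffff63eb4520000003b31fbb380000032496949e00007aafec7562800000000000002000000000000008000000000000320000000000019b7ffffffffff5361ff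fffffffb4ae480000000683896dffffffdac1e9207ffffdf5ec282ae000013472a38c180000000000000200000000000005800000000000189fffffffffff14e8000000000261120000000051d2c17ffffffe5bdfb85ffffffeb46c6788000038222c564dfffe81436f530e800000000000002000000000000067ffffffffffff06000000000052d77ffffffffdac1a9fffffffe44b96e80000009ca63d72000000f018e76c7ffff82250725ce0009265c1ec5bf800000000000002000000000000047fffffffffffed1ffffffffffe6468000000000308860000000091f17a7ffffffbd2d77d1ffffff9e08382d800012891cf2fca0002f2b548bae2800000000000005ffffffffffffe57ffffffffffeeb600000000008f0c80000000054ec0dfffffffd76332b7ffffffde14b7ee000004eb529e9d7fffea3c2e1f875fff563b31c9678800000000000005fffffffffffffd7fffffffffff47a00000000002f918000000002ad3e1fffffffecbced57ffffff97851cb200000332b40b9f80000292898408dfffc817887faa67fffffffffffff9ffffffffffff7f8000000000039060000000001ba247fffffffef5d049fffffffcec1057800000300b73a76000001c023999c7fffcea888938fa0000638eb6d97c7ffffffffffffbe000000000003d080000000000fcddfffffffff0e4bd7fffffffe060eba000000229fa23f8000000048f9b45ffffded32097248000334984b4a4a00022825136cb5⟩,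
  ⟨520, 8, 92, 0, 0, 10, 58, 0x7ffffffffffffe20000000000011f7ffffffffffdaea000000000ba37d7ffffffe6ce71b9ffffff9c43af487ffff0229c5f4cdffda6f99f9be3a7d30b6452857c351743cc6eb477ea7ffffffffffffe1fffffffffffe377ffffffffffa44dfffffffff13c088000000211afd06000001167e41d78000167b23aba2200291b39a1ad2c82fe76906b5649b026903ab5112e4800000000000005ffffffffffffff7fffffffffff88a000000000013be7fffffffff418a60000000056ff377ffffffee1c132e0000081ef3dac0800038b7a0b340dffed2ca01bac56800000000000015ffffffffffff4c8000000000074c1fffffffffdb4ae8000000007788e5fffffff576fc1a8000007dbbabffdffffd4bf66c2d97ffd27343e25b2a0027fabbdf45ac7fffffffffffffa0000000000008b800000000002ed1fffffffff934157ffffffff251732000000374dd08c800000745c15b7dffff540275f1e28002c57ede0d792022b53b19c976b800000000000081ffffffffffffad7fffffffffacf5e000000000eb65280000002a8763ddffffffa64ca4577ffff2579ac377e000003df2eb99b80122b554fa1121ff5ec96994749e8000000000000260000000000031d800000000017e4a00000000175cb67ffffffd4e624d1fffffdb3c1e5f17fffd89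1c35e409ffca3ea2c069eb7c84f46a08bda00d2cb77671ec946800000000000001fffffffffffffc8000000000009d6000000000005bd80000000015e291ffffffffddaaa97ffffffeed753f1fffff48181ff307fff9152655d88a0001ee0d90b0cf7ffffffffffffea0000000000009a7ffffffffff86ee0000000001907c7ffffffffaffd1e0000000a425ed67fffff8bf0d9e4600002ce57aa13b80042da3afa580a00666764858260800000000000009ffffffffffff807ffffffffffc532000000000703028000000013c8f15ffffffc4079b867fffff3b3d21ed2000091347dc98c7ffbb84f1bf0c15fd141ad5850c847ffffffffffff65fffffffffffefa800000000054259fffffffff597bf7ffffffd32dabbe000000496f625680000ee2080510e0000730a228ca97fee078a9a0e50e016c806e61fa84800000000000002000000000000007ffffffffffffe2000000000000a27ffffffffff05a5fffffffffb2459800000006701c9dffffffd9c5d6098000004797130ba0000c4e22b1fe8800000000000001ffffffffffffff800000000000009fffffffffffec27fffffffffc87e9fffffffff328f07fffffff329b24a00000029b3f200800000651da69e600007d19461ee28000000000000020000000000000080000000000002a000000000001657ffffffffff9f51ff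fffffff9ffa0800000005d630bdffffffe40a5c167ffffdd56802b320000026e49e80880000000000000200000000000004800000000000141fffffffffff4727fffffffffeae1a0000000052f4c27fffffff0259db1ffffffcbad31688000035c4f1b2e5fffe9cd248700f7fffffffffffffe0000000000000c7fffffffffffd7a000000000036fd7fffffffff2a181fffffffe85f6b5800000068ea8056000001b2a6037b7ffff97a27250720008ec4c866d25800000000000002000000000000057ffffffffffff09ffffffffffef317fffffffffcb2160000000092569b7ffffffcfa3ecadffffff47a2b765800011f9a238226000384f9dec153800000000000005ffffffffffffef7fffffffffff19a000000000033478000000006474edfffffffdfd80957ffffff94aa7ad60000047fba51997fffeefae87df01fff4c8d76684ad800000000000002000000000000067fffffffffff4de000000000007478000000002ff281ffffffff3edaf37ffffff780d9f1e0000027c94a43d8000056e1da5d51fffca1f4cc8083800000000000001ffffffffffff6e8000000000016aa000000000246727ffffffff57bd69fffffffac784708000002796130fe000005e44c7ef17fffd28bbbca05dfffee59bdcfc577ffffffffffff9a0000000000023680000000001bc21fffffffff5c3287fffffffb9b5a660000001a787fb38000003e63c606dffffe1e3fd526980001328767307600033fdd619d21⟩,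
  ⟨536, 8, 93, 0, 0, 10, 58, 0x800000000000022000000000001168000000000010c2000000000b97d67ffffffe8f97e4dffffff5ffdcd2c7fffef1df6c4ae9ffd8e791f6d77e7d0a63e4c840b7100313a50fe35337ffffffffffffb9fffffffffffe117ffffffffff36a9ffffffffef3e0580000001e2c417600000165ab30ab800018f88571f9a002b5368cb744f8328a8e66180d071b0406e6a5b42c800000000000002000000000000047fffffffffff98a00000000000f607fffffffff287ea0000000036cc737fffffff70cc8160000080b54391e800040cba618705ffef12ba3a8f51800000000000019ffffffffffff36800000000006ec9fffffffffdf4c0800000000ae3719fffffff55fb956800000684d35d9dffffdf89f8ffae7ffd0183f8862c60010966aabeb6c7fffffffffffffa00000000000065800000000004c29fffffffffa0dfe7fffffffdf1af1e00000033a1bfe4800000dfcbde799ffff64030c7c4c800220aa8c6367e023ee1aa40a87b8000000000000720000000000018b7fffffffffafd49fffffffffd220980000002ba1be0e00000012af71817ffff2102150b25fffeb709e7cfe580118958fccab69ffee7a4033df3e7ffffffffffff9e000000000003558000000000249ce000000001df34d7ffffffd9da9ab5fffffd4df1045d7fffd39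166ad6edffc651e0311dd57c4d46ad0dc590cb61701642bbd77800000000000001fffffffffffff8800000000000792000000000004ad80000000016e68e000000001625717ffffffee0dc1b1fffff4664b51277fff85c665607e9fffe4a82fe59487ffffffffffffea000000000000b17ffffffffff968e000000000156c77ffffffff733daa0000000928408d7fffff9f8a9007e000022f3b9e7ef80045568feb987a00887a37d04d6680000000000000dffffffffffffab7ffffffffffaa7a00000000060346800000002769c39ffffffc8b195447ffffec77358b0600007942139ce47ffc3e722c9fcf5fcf405d41712787ffffffffffff85fffffffffffd3880000000004e96a000000000783627ffffffd2ec8e01ffffffd85cb34180000f03eee21a20001db968fcbaf7fef2e971ada2e200e0685b2dd871800000000000002000000000000007ffffffffffffee0000000000002f7ffffffffffb231fffffffff99a5f800000005b65819ffffffe2e8baaa8000002605ba40a0000c6928645f9800000000000001ffffffffffffff7ffffffffffffde000000000001a37fffffffffcb37a000000000342f97fffffff2a5d84e00000015b1b7b380000084df9349a000080ce9f555a8000000000000020000000000000080000000000001e000000000001467ffffffffffdd9dff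fffffff95f108000000050a814dffffffec35608f7ffffdbda161279fffff0b4fd1f7680000000000000200000000000003800000000000125fffffffffff7367fffffffffbec2e000000004c095c7fffffffa2996b1ffffffbb8480d68000031ea6f1e7dfffeb6c8e2b1de7fffffffffffffe0000000000000b7fffffffffffdf600000000001b8880000000001eeddfffffffed732e580000003e9e6c2a0000022e9556c17ffffb700bf31aa0008bfa2f1b7ba800000000000002000000000000057ffffffffffffa9fffffffffff5b97fffffffff8ae4200000000840ed87ffffffe12909e1ffffff0c76b478800011217d7667e0004118dc85507800000000000005fffffffffffffa7fffffffffff469ffffffffffefe5800000000647b39fffffffeb49f377ffffff5f8e0e2e000003b45b03847ffff31b9ace0c1fff451b95c7f328000000000000020000000000000c7fffffffffff721ffffffffffe3cf8000000002ddcb5ffffffffb5818e7ffffff6761786e000001a24c3eab8000077fa341a25fffcd63d953577800000000000005ffffffffffff7d7fffffffffff40e000000000258397ffffffffc88139fffffff9af22c38000001bdd95a96000009121a7a4c7fffda1e7323d09fffd962579bd667ffffffffffff9600000000000044800000000020859fffffffffc7b6c7fffffffa4d13060000000d97940880000066ff7ae91ffffe9d85e1e0c7ffff8b534d8206000369ff904377⟩,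
  ⟨552, 8, 94, 0, 0, 10, 58, 0x80000000000001e0000000000014b80000000000554e000000000c52807ffffffeb33f6e1ffffff292f3cde7fffeda636629bdffd7419f54d9e87ce27b6d4dca460e7e5d0c88648327ffffffffffffd5fffffffffffdcb7fffffffffeb46dffffffffeba04180000001ab8244e000001acecc54c80001c0c8d33a32002dce88880e92835533b668ba60f34f9d215573aa0800000000000002000000000000067fffffffffffb3a0000000000090c7fffffffff2140a00000000145bb57fffffffbc79a6200000801fdd100800048d1b786671fff13935d826a5800000000000015ffffffffffff52800000000005569fffffffffe8692800000000bcfc69fffffff643cb4380000053caf3f2dffffe8588fdc7b7ffce59e5d620e9fff82d1543b0d87fffffffffffffa0000000000003b800000000005fa5fffffffffb3dae7fffffffcefb76a0000002d2f9d128000014108ceae1ffff7da6d6a9dc800190bcd90a776024d962c885ee18000000000000560000000000030b7fffffffffb9275ffffffffecc56f80000002987b0860000007dc6a12f7ffff2a178313c9fffd6db03a3398800f9a930604ebe0073e5ba93ecff800000000000006000000000003828000000000324be00000000276ff87ffffffe04fda55fffffcf6473eae7fffcdd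2ef18149ffc1e3f329551a7c116d14bd20d2c9794c42fe27770800000000000001fffffffffffff78000000000004e2000000000004f88000000001736ca000000005006b17fffffff46fdcf9fffff44f41c6f47fff7a205faa019fffa4a2d8d1e0c7ffffffffffffee0000000000009b7ffffffffffb51e0000000000ea707ffffffff578966000000076c673f7fffffb034aa6ca00001ab7ea646b8004741d7337b0600aba5cdd349f780000000000000dffffffffffffd87ffffffffff9ace0000000004b94380000000379243dffffffd02a305e7ffffe5fe353676000056fc36ea257ffca7609d0efd5fcd7b3fc79a0f77ffffffffffffa5fffffffffffbe5800000000042a0e00000000178d0a7ffffffd5e03251ffffff6abbf55180000e45cbd96ee00033cc25423337ff1bc40514f5960063280bcb3f83800000000000002000000000000007fffffffffffff5ffffffffffffe68000000000015b9fffffffff96095800000004e2ad41ffffffeadc50bb8000000d02cbf0a0000c7595b3607800000000000002000000000000007ffffffffffffc60000000000030e7fffffffffd3e2e000000000be4b77fffffff3a7c2ae000000023604de80000090b21909200008531eaf95e8000000000000020000000000000080000000000000e0000000000012b80000000000143dff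fffffff94f6f800000004340665fffffff32483247ffffdad692b291ffffde5c87dc4b8000000000000020000000000000280000000000011dfffffffffff9ea7fffffffffa0146000000003f4b0a800000002ecb191ffffffb9886121800002d814a563dfffecea51cf85c800000000000002000000000000077fffffffffffeee0000000000076c80000000009bef5ffffffff25173e80000001e6efade00000272dc3b057ffffdc4c7ae7b60008a448f1ce0080000000000000200000000000003800000000000041fffffffffffb117fffffffff672b6000000006d424f7fffffff04dfd85fffffee9ed29038000101aca6434e00049695e19c31800000000000006000000000000037fffffffffff7b1ffffffffffc22f8000000005a4465ffffffff7812e87ffffff426c44f2000002aafd32687ffff64eecabaadfff3f814c330db8000000000000020000000000000f7fffffffffffa91ffffffffffca8f80000000026053a000000001f58f17ffffff64e3a83e000000b9d7ef14800008ae03c1a45fffd178f62111380000000000000dffffffffffffa37ffffffffffd83a0000000001fb3c80000000031d8fdfffffff9abba5b8000000f0c6dc2600000b151d56f27fffe44bc2fd6d1fffc8e76f9c2457ffffffffffffa9fffffffffffe7a80000000001db66000000000367927fffffffa4cd991ffffffff12860380000073a977c61fffff4529560dc7fffe7b15ab295e0002e495e08dc7⟩,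
  ⟨568, 8, 95, 0, 0, 10, 58, 0x7ffffffffffffc60000000000018a80000000000ac6a000000000e149b7ffffffeda904d9fffffef831dfb87fffebc691c4371ffd5737cba31c07cb8d9bb072de38ce545966c8866a7ffffffffffffc9fffffffffffda57fffffffffe2245ffffffffe61cc080000001669de7e000001ea8e5d3080001fa5d2f2836003099ee576cf5838460be95a626f505e471bad98fc800000000000002000000000000067fffffffffffcfa000000000003787fffffffff1e401fffffffff144a17fffffffc256f86000007fc7c399a800050d0e8b52e9fff39fc3f2079080000000000000dffffffffffff7a8000000000038d9ffffffffff14b5800000000bba989fffffff7a8cc7480000041a543319ffffef54bf5e367ffcd1995f864f5ffdf054cc16abd7fffffffffffffa000000000000138000000000068fdfffffffffc9fb67fffffffc2bf71a00000024845cfe800001930e63b1dffff9fbaa51da380011ec96b1df0202583d8918522e80000000000003a000000000004187fffffffffc7695ffffffffdeecd180000002494352a000000dff3d64e7ffff40143c5f59fffc3bc7e6220d800c6c8eab3584a00e4ce660263557ffffffffffffd60000000000032f80000000003fe9e0000000033f3d27ffffffe8d53b5dfffffcb13866807fffc77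6e2d5055ffbce47da000777bd0de06a54f7bc772145718aa493800000000000001fffffffffffff880000000000025a00000000000469800000000176336000000008a66438000000021721bdfffff4473d77c27fff6e69ea5a955fff5ec5c2c888f7fffffffffffff6000000000000797ffffffffffd43200000000008f517ffffffff4c6d96000000057562097fffffbd1d0f1ee000013dff042be80048b4f8eca55200cfa810bc9a6680000000000000a000000000000017ffffffffff95de00000000034b8280000000439dbd5ffffffd9d83fb97ffffe09957145a00002bc71c70307ffce96f02a2485fcbe140e35dd257ffffffffffffcdfffffffffffb188000000000322fa00000000247ae27ffffffdb8f1301ffffff0805787d80000cb62de588a0004821d4ab0797ff59ed04fc9589ffffbb3247451b800000000000002000000000000007fffffffffffffdffffffffffffc1800000000004545fffffffff9da6e80000000414b181fffffff193e2007ffffffb54b02220000c7763f09c3800000000000002000000000000007ffffffffffffbe000000000003687fffffffffdebc6000000000f6d907fffffff5664da9fffffff0e704578000008a08094f6000089a86148848000000000000020000000000000080000000000000200000000000107800000000004515ff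fffffff9c0c680000000363ccb9fffffff8d49b057ffffda37fc94edffffcb9c61303480000000000000200000000000001800000000000115fffffffffffcac7fffffffff8d54e000000002eb40f800000009d506c9ffffffc35c2f3d80000295a9ac571fffee4558029ab800000000000002000000000000037ffffffffffffb5fffffffffffb8c8000000000c6275ffffffff66528180000000744f2d20000028df182a1800000481109a9a00089c6a70bb05800000000000002000000000000028000000000000a1ffffffffffffb07fffffffff5939a0000000052a1257fffffffc514b91fffffedbd10f6a80000efc2902f4e000512fb08c30c800000000000002000000000000087fffffffffffb35ffffffffffa7358000000004a076e000000002cf3c07ffffff3d06e83a00000187ddcf337ffff8690664355fff3b3b6ffe8a58000000000000020000000000000f7fffffffffffe5dffffffffffbe338000000001aa21e0000000070a5a77ffffff6e2fc2fdffffffd6e0e9d2800008f534c25a9fffd5eb3bee8d480000000000000dffffffffffffd67ffffffffffc7d60000000001501680000000081cd51fffffffa93004c8000000329c4d7200000bec053d0e7fffefe426f793dfffbdea7d8b12f7ffffffffffffd1fffffffffffd3b800000000014c36000000000900997fffffffb7e7e45fffffff218910a80000064548cbd9fffffea692657a7fffe14ccbbca7a000201a4dd5516⟩,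
  ⟨584, 8, 96, 0, 0, 10, 58, 0x8000000000000320000000000019f800000000010fce00000000111c8a7fffffff0902ef1fffffecddb138c7fffe98b69843a9ffd373fdf503b47c8d51ef2ae3028b36e5cf82599f8800000000000029fffffffffffde37fffffffffd8ecdffffffffde90b2800000010e236f60000021bf8f0c2800023aea76ea460033c11e2d4b0383b68632437b9636d47c8d994b059800000000000002000000000000057fffffffffffe8dfffffffffffff07fffffffff1a14dffffffffcdaa9c7fffffff81729b6000007f438335b800058c9c4a157dfff64634170bf8800000000000009ffffffffffff9f800000000001fe5ffffffffff7c68800000000b53b95fffffff9464d82800000328d43869fffff4c0dbd49d7ffcc3c2641dd75ffc5571f3c06657fffffffffffff9fffffffffffff08000000000068fdfffffffffe11b37fffffffbac99b60000001a44990a800001d20c6b3bdffffc8a0f176478000d279251e9fa025fe749acd24580000000000001e000000000004a77fffffffffd8c95ffffffffd4823880000001d579d1200000132c2b0ab7ffff616ff7403dfffb339f7e15d280082015b07c43e0137b13e9b23b07ffffffffffff560000000000024f80000000004b1a600000000433adb7fffffff3f7ccf5fffffc849fbe797fffc0a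8180f02dffb746a43fbba27b8b01370559f7c549480e13fef22800000000000001fffffffffffff980000000000002a000000000001b7800000000176e0e00000000c509d88000000170f1235fffff4592f89e77fff62b781d5119fff130d605d60d7fffffffffffffa000000000000597ffffffffffee0a00000000005e087ffffffff4b5dba000000037ce7ff7fffffc60d9ebee00000e0e14fca580049c34b3b47c200f44a01eb220880000000000000a000000000000217ffffffffff9a120000000001dd10800000004b56eb1ffffffe511b1dd7ffffdc84bea9a9fffff970bb7d557ffcfc8d963c059fca5cd958353857ffffffffffffedfffffffffffad780000000001f6b2000000002d89327ffffffe34fb3a1fffffeb64125d880000a713839d8e0005993d6e091f7ffab108e30a9f1ffc04055fbf66e80000000000000200000000000000800000000000001ffffffffffffb5800000000005429fffffffffa9ef48000000035bad5dfffffff7250e337fffffefc84ced60000c71efd4b64800000000000002000000000000007ffffffffffffc2000000000003257fffffffffe946a000000000ffc107fffffff761b9e9ffffffe274f85380000073762217200008da7fc95b2800000000000002000000000000007fffffffffffff6000000000000d5800000000006f19ff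fffffffaa3eb800000002a905a9fffffffd5aab137ffffd9eaecc0c9ffffb8a217f44080000000000000200000000000001800000000000105ffffffffffff757fffffffff854fe000000001c08db80000000e8473d5ffffffd5ea18f780000261b6cb3b1fffef82699706380000000000000200000000000001800000000000021fffffffffff6178000000000c0fbdffffffff983f627fffffff751eb260000028c03f8ec800002d707eeec20008a8e83c13a4800000000000002000000000000008000000000000c20000000000039d7fffffffff5be4200000000379028800000004f1e641fffffedd311b2580000dd796241de000586490c01ef800000000000002000000000000097fffffffffffe85ffffffffff9bc38000000003704f200000000c1f7a77ffffff4c5e934a0000006ca4bc177ffff9615af91b1fff37b9da318f18000000000000020000000000000c8000000000001c5ffffffffffbea48000000000e268200000000a39b947ffffff7fc74ea9ffffff088e635980000862b760985fffda49d16fb5580000000000000e0000000000000a7ffffffffffc46a0000000000824e800000000adb565fffffffc1673fa7ffffff9c0e9d6200000bc0f1281a7ffffbcd7b33c15fffb8d8be94bd37fffffffffffffdfffffffffffcbe800000000008566000000000c35717fffffffd867b61ffffffe93eabb88000003ed236e0e0000066fe4df467fffe423633a2b60001122ffa28c7⟩,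
  ⟨600, 8, 97, 0, 0, 10, 58, 0x7ffffffffffffae000000000001748000000000175fa000000001588b07fffffff42a1fc9fffffeab97b84e7fffe7035ca18f5ffd13b386f9c727c5fae9b105d4209723da3d1ebdcc800000000000059fffffffffffe937fffffffffd176dffffffffd527c3800000009c219720000023da487018000280b3c6592e00374d4de1808983ec04adf13f48f8bcf96f74846f1800000000000002000000000000057ffffffffffffedffffffffffff097fffffffff15515ffffffffa958577ffffffef89a566000007e28229ca800060b633716f5fff92c3fb2a4cd800000000000009ffffffffffffbd800000000000c91ffffffffffb627800000000acefb1fffffffaf309f680000026c5e7fe1fffff8ea1ce99c7ffcbaaf7151c05ffab4e2148fd777fffffffffffffdffffffffffffd5800000000006159ffffffffff75b97fffffffb71b7c60000000f1c92bf800001fb8616d21fffff6707accb58000b1aede1dc3a0265d95968deea800000000000002000000000004bd7fffffffffeb659ffffffffce04a4800000014841d9600000171562ca77ffff8bec71d065fffa64aa4b0c128002e6e98c6233e01645755c4ec63800000000000006000000000000298000000000503e600000000545ffe80000000229a9cdfffffc779dd4b57fffb99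e6bea7ddffb1022700925d7b3f33b25b359142fc182288cce3c800000000000001fffffffffffffa7fffffffffffe55fffffffffffc2180000000016f9d200000000ff3b8d800000033570bb5fffff4901345707fff57289a25219ffec1831fcf8407fffffffffffffa0000000000003e800000000000132000000000058977ffffffff534e6e00000001a513d97fffffcb289f012000008e42397c98004a7a39f8946601195cd381f571800000000000006000000000000367ffffffffffa4fa000000000089dc800000004ee7bf9fffffff12bda477ffffd9e71bdfc9ffffc2112c259c7ffcdaa247e1a19fc8d4f45d1b95a80000000000000dfffffffffffb1880000000000c76e00000000326f597ffffffec5f7649fffffe79aaf1c18000079d5c5f0de000672dee543588000bcc047d149dffad664400572080000000000000200000000000000800000000000005ffffffffffffb78000000000050d5fffffffffb6f9d800000002bc97f9fffffffbb3faa77fffffe948b41ae0000c68037ccfa800000000000002000000000000007ffffffffffffce000000000002987ffffffffff2366000000000f15187fffffff954af0dffffffd6ff1ac28000004ff18abb2000090bd3f1623800000000000002000000000000007ffffffffffffee00000000000093800000000008fa9ff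fffffffbe4c080000000210ba2e00000000e0f60c7ffffd9ddfab615ffffa591f8f608800000000000002000000000000008000000000000f20000000000022b7fffffffff86f860000000008e169800000010d280ddffffffedb809c0800002433e1e981ffff0aaa843a6c8000000000000020000000000000080000000000004dfffffffffff4bf8000000000a6465ffffffffbbed7c7ffffffecb5189600000276718b718000055994ab30e0008c9b9249ae2800000000000002000000000000008000000000000b2000000000006ba7fffffffff6aeb6000000001e708980000000a4a515dfffffee9037c2380000cba05a0c3e0005f0878bfa798000000000000020000000000000780000000000012dffffffffff9c4080000000023a8e6000000012e65937ffffff6bd86509ffffff752217b97ffff94e4cc8aa1fff347017cbf7180000000000000200000000000008800000000000441ffffffffffc98480000000002c77a00000000b857a77ffffff95d27fb5fffffe586f258f8000071072d8155fffde2df35057c80000000000000a000000000000337ffffffffffcca5ffffffffffbdb3800000000b340ddfffffffdd75ae57ffffff3ac72f8200000adb07bad280000727a179fcdfffb99fa92e2aa800000000000025fffffffffffd037ffffffffffb86a000000000c99df7ffffffffe52b75ffffffe6015eb98000000d1487c2a00000a0bae18797fffecc50dbae1600005368279fcf⟩,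
  ⟨616, 8, 98, 0, 0, 10, 58, 0x7fffffffffffff2000000000000f180000000001c5ce000000001b3a2e7fffffff8b7f175fffffe93794bda7fffe4408843125ffcec2c7d1a7f37c2fb3219bd392c796306c35316c4800000000000085fffffffffffff07fffffffffce2c9ffffffffca84bf800000000bd32fe0000024b2e38a680002c97d0f114a003b44bc0575a1842544983af63c7ac12172329c46b80000000000000200000000000004800000000000112000000000000f67fffffffff14665ffffffff8483c87ffffffe267d606000007c08aaeb7800068895e14d61fffc51548a118f800000000000005ffffffffffffd47fffffffffffeddffffffffffc70f800000000a21e9dfffffffc9574898000001e51dbf21fffffc20afb6577ffcb545bee6a61ff910bd2876cf47fffffffffffffdffffffffffffc480000000000543a0000000000b4b47fffffffb766a6600000003b245288000020e52ea3de000027145a0a798000c04bafb3bda026b80d04830027ffffffffffffea000000000004687ffffffffffd7a1ffffffffcb8a9880000000ad9d3aa00000198a446917ffffbccc9d2b91fff9da97ca23d97ffd006cf46e052016450d11854ba7fffffffffffefdfffffffffffd4180000000004b8ea0000000065a4fa8000000139e467dfffffc922a98347fffb2a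0ee12599ffaa14b5900d897aeccd1e882d8ac087623c5c9384f800000000000001fffffffffffffb7fffffffffffcddfffffffffff35d80000000015737200000001370ffe800000056c5f625fffff4f6c987757fff4be79a6cf25ffe6a42e738d6e7fffffffffffffe00000000000027800000000000dc6000000000076797ffffffff6585c60000000007191d7fffffccc98ccb600000409fae70f8004ae1773acdde013eb6fb0c43a38000000000000060000000000003f7ffffffffffb3adffffffffff6459800000004ec02e9fffffffd8871427ffffd8d272282dffff87eadb22177ffc7fc2e04913dfc72dfa541ee13800000000000025fffffffffffbc77ffffffffffb3ca0000000033581f7fffffff5f92515fffffe549081f58000046796881ea000703aeb919ce80077e743d033b9ffcdf277bb3b7780000000000000200000000000000800000000000005ffffffffffffc08000000000044d9fffffffffc2baa800000002369af9ffffffff676e4c7fffffe6e7263ce0000c5be7ff8c6800000000000002000000000000007ffffffffffffd6000000000001f77ffffffffff9152000000000da85b7fffffffb20c989ffffffce5cb7b18000002265d0eb20000928c5d6064800000000000002000000000000007ffffffffffffea0000000000004380000000000a3c9ff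fffffffd67f1800000001a4ff2a00000003a332397ffffda02f3a3ddffff92885e889c800000000000002000000000000008000000000000d6000000000004ae7fffffffff913fdfffffffff6ac00800000010c70fe2000000073422de8000023db5be6c1ffff1c9d4c8dc480000000000000200000000000000800000000000051fffffffffff5a7800000000085f71ffffffffd407077ffffffe5ce049e00000253f2cd93800007bfa2a11860008fe350de7d9800000000000001ffffffffffffff800000000000086000000000008ec7fffffffff8293e0000000008daca80000000cb41afdfffffefa98c2cd80000bab86d700e00065211f977ce800000000000002000000000000048000000000002f5ffffffffffa4e280000000011a04a000000017030f37ffffff9632a8c5fffffeb5a402597ffff85e620338dfff30e340447238000000000000020000000000000380000000000058dffffffffffdb077fffffffffa227a00000000b3cc3a7ffffffacce772dfffffdca7a99568000051f06c6e75fffe13fbbc023d8000000000000060000000000004b7ffffffffffdd1dffffffffff257e80000000097a585ffffffff7aef9f7ffffff10a518b20000098d05d8b780001160e7e1ac1fffbfcfc44ece280000000000003dfffffffffffde07ffffffffff114a000000000a686b800000002168d5dffffffe892188a7fffffdabd52956000008df2fbabc7ffff69f890ef29ffffe1c438a5b8⟩,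
  ⟨632, 8, 99, 0, 0, 10, 59, 0x1fffffffffffff340000000000000580000000000f37700000000086eaadffffffffcda2e9bfffffe88266b737ffff0ace3a8a34fff3018c43136a1f7fa3ad900443d25a181c04dd274d80000000000003f0000000000007e5ffffffffffa3e2bffffffffbfe0b07fffffffad9bbe30000008fe971dd20000624e7d317bc003fa9de8c33978231596268b00c5738bc19e90116c2000000000000004000000000000038000000000000ff000000000001681fffffffffe3b9ebffffffff60435e7ffffffe8583039000001e1db7f2060000e05f22e43ebffffb45e47f291800000000000002fffffffffffff99fffffffffffec53ffffffffffb94580000000049605cffffffff86723ba000000320fe31abfffffeb2d128347ffe595d0831d58ffddaa86f4d230e000000000000003ffffffffffffbd80000000000220700000000006feddffffffff7646eabfffffff89aa024800001054368f170000161abd7255200020025f3a1524027261609a5bc97ffffffffffffed000000000000eee00000000001b09bffffffffcccd448000000008a0d4100000069e03e47dfffffe22053c83bfff99cc1f6d87f7ffb5ac7e0db785004cd48144eaaf5fffffffffffff3bfffffffffff95480000000001c30f000000001d179fa0000000503ea5a3ffff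fcdc43c2c87fffd60367f7844ffe8a0daa27ad7df5264ccc7a26981de7afd87a5f8eb800000000000000ffffffffffffff5ffffffffffff7a3ffffffffffe7a5800000000091c25000000005a4407a000000101ba29cbfffff597bb857a7fffa094ccc493cfff836020487d05ffffffffffffffc00000000000012800000000000a2300000000002aa7dfffffffff070d63fffffffebaeaf47fffffe5be10552ffffffcc96b4ea600095f708243414016431739c8c8d8000000000000010000000000000f5fffffffffff8663fffffffffe748c8000000025bbf9f00000002678c671fffffb28c77211bffff4d4cfeed2e7ffdf52825ac582ff152bc313017c200000000000006bfffffffffffcc77ffffffffff6a15000000000c34005ffffffffed22243fffffe47648af08000007fcdf69410001d12e6c8814e001d52f3f626d6c002666ccf3126980000000000000100000000000000200000000000000bffffffffffffcd800000000001b02ffffffffff315620000000038c2c7c00000002628ba77ffffff3ed1888d0000313de23a7be000000000000004000000000000007fffffffffffff1000000000000571fffffffffffbc3c000000000c34f17fffffffe5f142cfffffff212a9c79ffffffdb0b91a1c000092d016e42b800000000000001000000000000001ffffffffffff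fcbffffffffffffeb800000000005486ffffffffffc2cfe000000002d81aac00000005e96be77ffffed27e543b6ffffdfe6e2b344600000000000000400000000000000800000000000059000000000001b89ffffffffff45fcbffffffffe6aadd8000000074a86db00000007be5412e000004a225cfe73ffff2ec88dd182800000000000001000000000000002000000000000093fffffffffff794800000000034406fffffffff8e5071fffffffc2b429140000022916690b800004ff5a85dcf00025152c1cc3d6000000000000003ffffffffffffff8000000000000290000000000028bdffffffffff3f0d3fffffffff7c85080000000658c6baffffffc37a3c9a60000155f90b68340006ab724d152c80000000000000100000000000000a0000000000007bbffffffffffb21980000000000f62d0000000062783b1fffffff8c71405bfffffe3a8bfcc67ffffb683b704ecfffcb2d061757e6000000000000003fffffffffffffe8000000000002d0fffffffffffbba1fffffffffea1f6c000000009e037d7ffffffe106a33affffff577dca92e000005612dec983fffe33827ed9b4800000000000001000000000000149fffffffffffe2c3fffffffffecede80000000032b883000000002eab885ffffffe2a9e4844000008247b569980000d1c85661f2ffff2b1545c1cda000000000000093ffffffffffff0f7ffffffffff56c900000000019794a0000000075d4b33ffffffeff12cde7fffffd94b0cb53000000d85efd0fdfffffa20e33eb83ffffb4313a8697⟩,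
  ⟨656, 16, 100, 0, 0, 10, 59, 0x1ffffffffffe741bfffffffffdadf88000000005f2a1b00000002b002b72000000251109353ffffe95c0a66927fff73f1d733840ffc767c86835385eeaf0e52bbe8a8a28144fcd05174480000000000a1fb000000000189299ffffffffea2ae43ffffffed03a0247fffffe1d175e1d000007d330374920003788962782c4011c236d0a788e84c79c09504f98181487402ac35405ffffffffffffe8c0000000000015a80000000000b5d700000000010c489ffffffffd373a03fffffff2ff3b707fffffeb823f75f000006f7b2e04d60001ec62aea8a8c000538e6cc3043800000000000294ffffffffffff5e1ffffffffff13f73ffffffffe13bff800000006f7024afffffffff6fbe0600000164f958254000007d7ea5d187ffcb344c2e5442ffd3c24d47fd18a000000000000743ffffffffffc1c68000000000acbcb000000002e2d1c1fffffff17094e83fffffe99bfbe3080000774e36486f00009f3d919921e0006ea773962a8c02825720d18ef47ffffffffffc9a50000000000945e2000000001f5f043fffffff518d7a57ffffff39bf0177000006467d5be8200003f35a4b1993ffe74f5a8f9e667fed33fc456e86700229e1ca868a8dffffffffffc471bfffffffff26ae27ffffffffeb8cc300000007de607360000012aa9395b3ff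ffdb2a27586a7ffe8ef2c0b93f8ff9617a1c647545e7f700692ac94d199f3087a1b7a7e8000000000000a9000000000000189ffffffffffb409bfffffffff4a73480000000090e2b90000000677fecc2000000ca0cf82c3ffffdc288f15a57fff328e641f7f2fff5e30b3de8405ffffffffffff21bfffffffffff41980000000004e78d000000001014e39ffffffff1b86ddbffffffd98390dc7fffff16e5f3712fffff771aa675360012a335f7debd4019c50347448b97fffffffffffc5500000000000a135fffffffffd64eabffffffff5ab20c80000004208b6bf000000692a48521ffffdcaced47ce3fffbe5a14e618b7ffa9e62e751ccaff071850e4e54d600000000000eb13fffffffffe869d7ffffffff8182390000000286c0e12000000303b982ebffffe5da300de87fffefad1c9a42700070c7420de1660065f50a22445bc0117a3dd04df6380000000000000100000000000000200000000000042bfffffffffff8db800000000021672fffffffff59a352000000013b9ac1400000016fb14087fffffee1a09871000030fd8e6a74e000000000000004000000000000107fffffffffffa2700000000000923a00000000006924c00000000a608157fffffffb5c4306ffffffc368b4fe5fffffe56d3dd66400008feac2116d800000000000003000000000000029ffffffffff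fe593ffffffffffd90f8000000000925dd00000000059997a0000000177fdbec0000002452c4397ffffdb037d0a1effffd8e582c802dfffffffffffffebffffffffffff73800000000001c15000000000095dd5fffffffff2284c3fffffffd5126338000000202cc621000000390c5cba200000a53bfd0ce3ffff4c0552b634800000000000000fffffffffffff56000000000002ea3fffffffffeb758800000000490fb6ffffffffc3542e9ffffffdd5b0df0c0000077d09b51f80000d0613b0b97000273f5a3fb88e00000000000002bffffffffffff357fffffffffffef50000000000a7e1dfffffffff3a18dbfffffffe78b26d800000025d76a90ffffff27648049e00002562b7dccac0007237eaf87cb7ffffffffffffaeffffffffffffb5a000000000040eb3fffffffff221ac7fffffffef9ba2900000005c3dcd820000000ed17edc3fffff82c3975397ffff3f03199014fffc93031de9ef1ffffffffffffe5bfffffffffff9b280000000000ff0100000000008e159ffffffffd071e84000000070ea86f7ffffff6e04e472fffffcf0d17f229fffff99210626fbfffe3aa45e29b67fffffffffffb3300000000000f8ca0000000000d99e3ffffffffb404b2800000000c4c621000000063f14df9ffffff518da474400001942d906a7800024ffb25a0a6ffff8a9a5b2f74600000000000e27c0000000000cc337ffffffffaa62cefffffffff16ca5e00000011ce0fcfbfffffffd65ae1a7ffffe6623044e0fffff62b6e7abf9ffffe2ae0ed8ddbffff8a957966a8⟩,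
  ⟨688, 16, 101, 0, 0, 10, 59, 0x1ffffffffffed483fffffffffa52eb7ffffffffdcb8a100000002f4789c60000006a9106a13ffffeeed2ae1947fff5fa2039218cffc057b0b1267fdecceaf707161989df22a3de44d6208000000000045a50000000002b0cae00000000303d49bffffffee1c83987fffffc532a8db100000456c80f19e0003dcd9826008401485b8ce3a70a85608952ad0dd4395915e2e5966c89ffffffffffffe1bfffffffffffd8280000000000a31d000000000221a1dfffffffff9144ebfffffff0d2e3757fffffdd2cea4c5000005ae0266d5600021f6c9220fac000d53f34ab9d28000000000001a70000000000054e1ffffffffff723e3ffffffffd07a5380000000283cd6700000005b8959220000019a570b06c00001978cce8b37ffcbb7d724af04ffc69ce4931a916000000000000b0bffffffffffd9b1800000000046fe7000000003b0de91fffffff675a6c23fffffda6be969c8000058cbd551890000ee3abd16632000d2fa7187b04c02a9b8386ec62e7ffffffffffd27b00000000001767a00000000295416bfffffff935616f7fffffe63443a35000004be4697636000098c1f2a55c3ffec77ccbe585b7fe1f8dc18a24d8ffc01ae7995adce00000000000096bffffffffed527c7fffffffdcdc7b700000005f9079d6000001d83b93c8bff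fff99227f3067ffe782d1f024f6ff8423ea11fae31e460a69a2d0a57132d24602d9dfb78000000000000b9000000000001ba9ffffffffffd143bffffffffee89387ffffffff406deb00000006699e0da0000013344caf4bffffe819304ff07fff236a00b1702fff28cfe91f09e9ffffffffffff923ffffffffffd66380000000000afd700000000135ae7e00000000f6f378bffffffe02bc5ce7ffffef092bce82ffffeb95fdbd5f60012308c445342c01e6175cd765c97fffffffffffd89000000000001bb1fffffffffe13fbbffffffff1dccdc80000002f88f193000000b0bc4f9b5ffffe59b0386eb3fffa6ed5f14ff87ff82f069507ac0feecf1c15a6f1360000000000078740000000000644e7ffffffff785b5d000000019b70e5a00000061f2acabbffffebb4f51d6b7fffd821c9510190005b56b53509620099b96737a3b5c031a96a6de374d800000000000000ffffffffffffffe0000000000004340000000000008f8000000000101e2fffffffff7729ba00000000a6319340000002228b0987ffffffcad74ac9000030d1416edbe000000000000004000000000000107fffffffffffcacfffffffffffcd8200000000007358c0000000088493d800000004c80358ffffffc39fdb0f1fffffc6e4200dbc0000857442fd45800000000000003000000000000081ffffffffff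ff033ffffffffffb56380000000003e85d000000000e1abd2000000021e4ad6c000000394f49687ffffdc74c4fee4ffffcfd11034575fffffffffffffebffffffffffff167ffffffffffff430000000000a80460000000001a4b33fffffffcd48e467ffffffefb9eb290000003f7ffb71600000c4e5463c9bffff793803f47b7fffffffffffffcffffffffffffeee0000000000002f3ffffffffff92d480000000036a548ffffffffe973a65ffffffdad74a8c4000005cc9bd4d680001059bdf2a910002aefd658879a000000000000023ffffffffffff717ffffffffffe92b00000000008920200000000020c2dbfffffffe2e476d8000000099094ecffffff396dbb57e00001ef44a36f040007abfc78f81f800000000000010ffffffffffffb4e000000000039aa3fffffffff915cf7fffffffe0b49f300000003eb314fe0000005dd6ef133fffffad5852b987ffff088f6402d8fffc5b82e6b1f220000000000000e3fffffffffff8e580000000000173100000000018504dffffffffec8dedc0000000449f6327ffffffc5cb0844fffffca70be95cdffffdfc5f05e903fffdee17995b1e7fffffffffffa0b000000000002a2e0000000002083a3ffffffffe063027fffffffb771aad000000037391491ffffffa80fc94040000134aadce2480002ff6ed8b21d00003584bde360a0000000000026d40000000001fdbf7ffffffffdbb2a2ffffffff80fe7560000000a7b3e3140000012a01fef87fffff0646a4dacffffe585bbadfe9ffff4c5d8bb2503fffe15b440f787⟩,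
  ⟨720, 16, 102, 0, 0, 10, 59, 0x200000000000c733fffffffff99d967ffffffff0ebc0f00000002061bfbe000000a929a5153fffff9d7964b2f7fff539b1c14052ffb8802d994a9a9eab26fc9f26b1098e39d188a2d36b7ffffffffff5313000000000250cda0000000086b9a23fffffff8391e637fffffb0bfe5caefffffed8eca90560003f87ee02b8140177b3ce0b41f886107f1f471d9dbac6b8815be47ec5ffffffffffffef3fffffffffff9f680000000000140b0000000002af97e0000000033b0e83fffffff27d52737fffffce7347c21000003b21d6b99a000245637b0c7c4001622dea7d4777ffffffffffff8500000000000775200000000005dd03ffffffffd238087fffffffd6f2ef1000000052bf665a000001fa34c806400002eff5963b47ffccd6aadb781effb9ab1e005f8ae0000000000001f3ffffffffffeacc80000000000fa77000000003f78d7dfffffffc3fe5ddbfffffd2127f427800002e7063c8bb000121770bbd1da001583ab6e3f3dc02ee95f550e2947fffffffffff1a2ffffffffffcd94e00000000266895bfffffffda4ba057fffffdf62cf3d50000026b0d59cf60000d2c22881d6bfff5223c9ec5687fda424c2edfebcff371e3bb18581200000000006d1e3fffffffff4ca957fffffffbc181f90000000033261b600000229979b36c00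00228c6f55f27ffe85b25f40f1eff71edfe402a309e03882f0015ea68bc353edfa797c780000000000002d000000000002d8200000000001d933ffffffffee21807fffffffd97449f00000004714eada0000018cde73b1bfffff8b9848b7e7fff1b719a6d342ffef07ef58145fe0000000000008fbffffffffffd5337fffffffffa5d9b000000000d05c7200000002a81304c0000000c0674c07ffffee3e3d509cffffde62b96d322001158d8d0f0e44022d4d7341f9108000000000002fb000000000001901fffffffffe1fbabfffffffee8adff800000017d5d5b5000000dddc552a1fffff23748a11e3fff97af01105eb7ff52325ffdd706fec7bed8f994fb5fffffffffffb6340000000000b5147ffffffff92a8e500000000c5f4fea0000007e235115bfffff4972706487fffc818fb8c90b00036de311a563200bec7321d53f3405d1b0b18af96a800000000000000ffffffffffffff200000000000030c0000000000072b80000000000cb8afffffffff87d6e200000000265690c00000026e390f08000000f3060467000030e833d22be000000000000004000000000000187ffffffffffffc0fffffffffff68b1ffffffffff9f2c400000000699f4d80000000c629056ffffffca3802ab9fffffaa1d4e7dec00007382c460798000000000000010000000000000ba0000000000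00463ffffffffffac6c7fffffffffc6d15000000000e66dc6000000030ecc0dc0000005858c2197ffffdeb3cd3138ffffc730f6680e6000000000000023ffffffffffff027ffffffffffdbfb00000000008374e00000000104d77bfffffffd8df2607ffffffc1436989000000212462e3a00000de848b3723ffffadf6962fad800000000000000ffffffffffffea1fffffffffffc98bffffffffffe7ba800000000351c05000000000d3212dffffffda8050bac0000040b037b43800012cfd469f5f0002f59b85c8aae00000000000002bffffffffffffb17ffffffffffda6700000000004c526000000000bfe6abfffffffedb037f7fffffff0d9ab90ffffff36a025d32000018c0f5dcfc400081b6ed4c42e7fffffffffffff4ffffffffffffed2000000000038d53ffffffffff7d097fffffffdb915a70000000145e6f2600000087ec37b8c0000006252446f7fffef41d274bc0fffc1a2a42de7ee00000000000022bfffffffffffc8c7ffffffffff6555000000000100832000000000d44a0400000004217133800000005b0c3a6fffffc937e8e641ffffc490807cfbbfffd36f88c5b2a7fffffffffffcb0fffffffffff7d2a0000000001a0a540000000016f13c7fffffffb26703efffffffd0bfb2e9ffffffac8ab057c00000fae81f015800038b2efb85a70001076f0020a89fffffffffff8cac0000000001941b80000000018a904ffffffff78bbd91fffffffd57fa924000001797cd00f8000006e33de3a6ffffe1f0e27df61fffe5ed4ec4c5d3fff975d0b10672⟩,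
  ⟨752, 16, 103, 0, 0, 10, 59, 0x200000000002fce3fffffffffe03ee7fffffffe79d8c4ffffffffc8c5202000000c0ef6755c00000856ce3fa97fff5489fcfff94ffb0627add20835e855f335c1b5939346043d87439607fffffffffe8af4ffffffffffca33200000000adc048400000009d83cea7fffffb1c0b7e7efffff88583f3e460003b35a97db73c01a620ac1b5dd386d816d235b6313c634f3c28e94426000000000000123fffffffffff9f97ffffffffff454f000000000204916000000006dcb79bfffffff8e7a2797fffffc3c4943ef00000118fcd968e000258e5f599e44001f6662a54b837fffffffffffd13000000000003b4e00000000012f41bffffffffed1b3e7fffffff9e9be76fffffffef72399a000002213c1d9a40000480ab743197ffceb191a861f0ffad17f58bd74a5ffffffffffff653ffffffffffe1567fffffffffe1011000000003ed06a20000000235512dbfffffd11d4eee07ffffff69303437000132b7f16aa0e001eebfae7fb72c03574737704334800000000000a96ffffffffffcaf4e000000001efa7bc000000016df1007fffffdecb5dc26ffffffcf6525d520000e4a4f4f8583ffff98801a84ef7fd768087765600fe98b31ee2d13860000000000a701c00000000096f477fffffffb8bf482fffffff83427b72000001cf3badbb400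004b87a6a6ec7ffebd52bd28f6eff6156e0d74599ddb83d8791c16ce033da496268dd957ffffffffffff310000000000021ee000000000072703fffffffff6d2577fffffffc4d258d000000008a2e122000001b6e0217ec00000c8eb2b5597fff1cae70550bcffeb74df232352200000000000170bfffffffffffac47fffffffff68d90fffffffffd72b4a000000033d085440000004f4706bd7fffff10ab91a4cffffd1d8989b94600101860f1f2f840270517c8681b580000000000070b00000000000d9b1fffffffffef3a1bfffffffebc1b4a7fffffffb6232d7000000ea50a1faa000000a82aa2143fff92b6412c5a97ff1c57dd7bf518fe959d695e57fa1fffffffffff6c83ffffffffffa4f97ffffffff9cc4ab00000000167834200000088536ac33fffffef2fe830f7fffc1cd1f8973900009ee66e8e16200cf2cd20dd8e1408f51b90b2f9b3800000000000000fffffffffffffe600000000000005c00000000000a3a800000000013dc0fffffffff9b78e1ffffffffb770b9c0000002602d36580000022a1795150000314bfd9ec41ffffffffffffffc00000000000018800000000000354fffffffffff7645fffffffffe91f9400000000401602800000011c2d25affffffd5b6938e9fffff91ededd99c00005ae56a42ee7ffffffffffffff0000000000000920000000000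01a1bffffffffffc9247fffffffff5cdb5000000000583d5e00000003b92f5940000008197b7257ffffe2162a43bcffffbf4350bb44a000000000000073ffffffffffff9f7ffffffffffc1d50000000000278820000000018c38b3ffffffff3739847ffffffa6889614ffffffe664a99f200000e13e1396dbffffe68c79073c80000000000000afffffffffffff75fffffffffff9b03ffffffffffae89800000000353fa9000000003b226a5ffffffdcb5cc3bc00000253cbb46d80001466706c6130003445157da0be000000000000044000000000000257ffffffffffd689000000000000242000000000f5b46c000000000b3bd37ffffffe7bb835cffffff269feb8ce0000123a8c0a984000871912b97bc7ffffffffffffaaffffffffffff84a00000000003522c0000000005d4317fffffffdfe5ba4fffffffe92e7bb600000086420889c000006e298d8617ffff113ecd8222fffbd9beef824de0000000000001ec0000000000015a7ffffffffff44f6ffffffffffbeb5e0000000016aba9400000005bbd3ec8000000539ddc86fffffcb35764c6dffffa984fb25143fffc12cf796bbb80000000000005cfffffffffff4992000000000050e7c00000000332e9d7fffffffeea6122fffffff90f6237dffffff57061034400000a049426e280003f4b1bc8c3f0001f85a9394e35fffffffffff69ec0000000000524880000000037d884ffffffffc51774dfffffff3d02b2d4000000d8f03696800001a77165a4affffef15bf48d45fffd990bc92a62bfff1422da7bf61⟩,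
  ⟨784, 16, 104, 0, 0, 10, 60, 0x8000000000060cf8000000000556317ffffffff5785ac7fffffff4a6060980000013721bccc80000165dcec30c7fffb21168d31ab7fea2a1ada5c0c57cb73434804f3c84d0940feb4b81cd7ffffffffff74d27fffffffff2b8c8800000000e5d72980000001a9058ab7fffffe6ef4f1707ffffcd5de14e3e800061ea0b82a71801cf041675e75083dad929c87e3beb8d26cacabad67580000000000005a7fffffffffffec27ffffffffff63c080000000000a104800000001112c65800000002d2e0427fffffe0ba913a57fffff8b9736a4180004ac2c3f4e2780028cc2725775c7fffffffffffe647fffffffffff0f98000000000273878000000001431537fffffffce6b5b87ffffffd9a9bd1d800000398bff38b800006028bc3f1f7ffe8aa834b41ed7fe8452fb6e3fbf7ffffffffffff0e7ffffffffffcab77fffffffffc63bd800000000dcf07480000000fa0d7897fffffd7739effb7ffffe98de3709c800048510b5cbca80050a442325a3c803e5f22fbe47fe8000000000002137ffffffffff80b1800000000333bd18000000047d458f7ffffff1a73e9057fffff573178001800019b1b2daf4a80009ecf1be4e3f7fecea7e598e4987f7e5cc7100a84780000000000a5ca8000000001ca2f67ffffffff07a0f47ffffffc8fdcbd080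0000187893cbd800006636d3d69f7fff8bf95d132c97fd50ee87e82b7d7acae9568dcebed397b391700ff3677ffffffffffff597fffffffffffe37800000000011e7a800000000060fa07fffffffe15ce4e7ffffffeebcf015800000331c095088000020bb5e61ae7fff9407f7a48717ff9febf1f9a254800000000000254800000000002e5b7fffffffffc7f2a7ffffffffb338ce80000000460cca880000008ce6a4017fffffc0525159c7ffff2403af05ed8001d0087d10cf3802ad9a7ce5e95e8000000000001bf800000000006baa8000000000321bf7fffffffebf4d8e7ffffffee4beafd8000003451be7bf800001d70d4084d7fff98938394e747ff735cbd12796d7f957bf8e6de2e28000000000001627fffffffffef0497ffffffffc1da937fffffffd5f2a28800000103b1ce818000009765e2c927fffe3063d9ceba7fff70ddb0e1a50801912875f19f4180c2c41c9c714ca8000000000000007fffffffffffffb7ffffffffffffa88000000000007ea80000000000eed57ffffffffeeaf2d7fffffffec33ef780000002079f44b8000001a35d564f80000c7ec145a2e7ffffffffffffff8000000000000058000000000002c37fffffffffff9b57fffffffffbe6978000000000c1f4680000000a16fe9e7ffffff90a77a137fffff00a569846800003d06d6bbf87fffffff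ffffffe7ffffffffffffff80000000000046c8000000000002727fffffffff9ab877ffffffffdaaaf18000000073d74958000000ae968c757fffff36bd837ab7fffee1661109dc8000000000000108000000000000bd7ffffffffffe3017fffffffffedc3b8000000002e60d08000000012898b57ffffffd4d88c907fffffe8a15526d80000186be17ab6800001bd6272dfb8000000000000068000000000000507fffffffffff3c67ffffffffff2a2780000000015a5c9800000001acae2d7ffffffc3df01318000000c8e73b1780000a95805dc218000e5ed88846908000000000000068000000000000b37fffffffffff1ff7fffffffffef53b800000000179704800000001338e957fffffff90d34607fffffc5c85f3d3800001658ad62ea80008ac88e4a32b7ffffffffffffdf7fffffffffffb0b8000000000036348000000000aa1587ffffffff6690de7fffffff230ae808000000bbc3b4c4800000c5be4a5a47ffffafbef30ebc7ffee9baf9056c280000000000001480000000000044c7ffffffffffd3d47fffffffffaff428000000000675f5800000006e71a4c80000005d6189187fffff45e2182c47ffff20f96576e37fffa85c84daaa28000000000001737ffffffffffe27f7fffffffffe29d1800000000299d46800000001c4e0bd7ffffffeac1dbc27fffffdda7258397ffffff83af02e5800020f16dcbed28000bf1de2b02047fffffffffff4e27ffffffffff39518000000001775df8000000009092997ffffffe5be90aa7ffffffccc76019800000fde9e2fc48000017e22dae607fffad53eef1ec97ffe70beb61eabb⟩,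
  ⟨816, 16, 105, 0, 0, 10, 60, 0x800000000000ba480000000009767f7ffffffffd6b41d7ffffffee9a6ed7800000083987de8800001f4085f8f77fffbfc463a99c67fe87d6080c81467c5c67a6fe4459b461dfaf82cee8098000000000024ec7ffffffffeed5bd7ffffffffe022d68000000204548247ffffffde7716457ffffc4a753a0ff800045d100d1de3801ee9a315205838452c562c91dfa8c0feba028cc003f8000000000000448000000000004c87ffffffffff83587fffffffff855cc800000000e3820e80000000cee2b8b7fffffe4be37eb17ffffed9768f8ba80004784d065eb580031f811e2b8277ffffffffffffac7ffffffffffdddc80000000000d1198000000002ec1e97fffffffe86fef47ffffffc02365458000001f4ba18dd80000713a09b5607ffea50959765dd7fe5742a55a4f6b8000000000001357ffffffffffcbc97fffffffff8dfff80000000091c14d8000000186acc097fffffe426401d77ffffd83980cc3580003c737e0b7f0800615f93bab50580498750306abb47fffffffffff5737ffffffffff310280000000029ca948000000070c5c0b7ffffff602e8e537ffffedbea4bed18000126109958c7800124f5b629f237ff080b4f5565217f5b6e494f518d37ffffffffff5abd8000000001c9dde800000000f3f53e7ffffffc8dd5d267f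ffffed7639326800006812bd73ee7fffc0acc4fa80d7fd2f463d9b99a87a1a86146ece04b2e620f94f6669597ffffffffffffa97fffffffffff48f80000000000aa13800000000137e0f7fffffffeb95f847ffffffde417d1f800000261678b768000031b73024dd7fff9e7070665527ff93081d0fb0f67ffffffffffff9c800000000004209800000000003f347ffffffff97543d7ffffffffe2aa728000000a6ee09688000000f395bec77ffff1a8096b9de8001973a67c9b4a802e415115b54f17fffffffffffd378000000000062ec8000000000a0b9e7ffffffff1c23067ffffffe10e893380000024e3eb2bb80000341705ba827fffa81ae2364dd7ff5b4519cef81a7f825bb3d27099c800000000001cf480000000000172b7ffffffffb7cb037fffffff9a11d788000000ce4813198000012b5d077647fffea277de2ec57ffed61524e0e0680159221aa7670b80f1d04549665618000000000000008000000000000007ffffffffffff7a8000000000001648000000000112e67fffffffff8f2ac7fffffffe60fed9800000017bd795580000021490fddd80000cba9db2aff7ffffffffffffff7ffffffffffffec800000000000251800000000001cce7fffffffffc4d197ffffffffd8e2c6800000009a5d4147ffffffccb8fc677ffffeec5fd962a800001baf018d087fffffff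fffffff7ffffffffffffd98000000000003078000000000039d27fffffffffb33d67ffffffffa0da808000000052122768000000d49b4f487fffff67678c3c47fffecb2eea59878000000000000048000000000001767fffffffffff5777fffffffffdb48f80000000018cd6f8000000029838197ffffffe46cec627fffffdb01dd12a8000010c0e4bc0d80000459502ed4d80000000000000180000000000009f7fffffffffffb4f7fffffffffecbb18000000000a87e58000000022f47557ffffffd38cdcfe7ffffff8d45a1fa80000a9e4f104548000fb2e82a801a7fffffffffffffe8000000000000e67ffffffffffff917fffffffffe83608000000000737c4800000001dc7242800000005becb567fffffc563691cf8000007a4940aa280008ca8ab7c0c88000000000000177fffffffffffa937ffffffffffdf4d8000000000b66527fffffffff0fa077ffffffeeed646280000003c9c354e800000f5205ba8d7ffffe81a88c4857ffee318de525247ffffffffffffe7800000000000403800000000001ae37fffffffffa8be67ffffffffc3c9d4800000005decf4c8000000923af0887fffff731148df47fffef7ad69fa9c7fff89c8c9977b18000000000001a580000000000000e7fffffffffd3a99800000000073787800000002f700f2800000003c990f27fffffd8c95a2337fffff1538fef0780001f1644e707f8000ffbdc4f1bd080000000000005a7fffffffffed88380000000006d0b98000000016b66037fffffff2928c327fffffefdc2db23800000ab2056aeb800006ad711281a7fffbe52d889cc57ffdd8e9a333248⟩,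
  ⟨848, 16, 106, 0, 0, 10, 60, 0x7ffffffffffb43680000000006e84780000000062b20f7fffffff05d388d7ffffffb5a66d8d80000204cc1d27f7fffcffe2b4b1b67fe72c6607290637bfb9a9dccda3e43e76ddecb860a5c80000000000a8127fffffffff6ccac7fffffffeffb1df800000017cbeee080000013b48a4ce7ffffca7e02a04080002907f4f9030802034b3f81eb7884d13bddb667f90ca21debfc53e76f7fffffffffffff88000000000006f57ffffffffffe9f77fffffffff4110f80000000066efab8000000138d54567fffffed11a36807ffffe4d3c35ee8800041c179fbd558003a9251db1c3d8000000000001177ffffffffffe5947fffffffffec95c8000000002cf24a800000000c861e37ffffffbb7d24047ffffffd3c829c58000076a79deb3e7ffec24a12a28f47fe2db43b00f0378000000000002f57fffffffffff3e67fffffffff6b0218000000001bb97780000001c9ac4967ffffff50221ca57ffffce6785124180002b6e042d3b98006e6f733bb6ca80568fa2a4dc4047fffffffffff2197fffffffffe3acf800000000154a74800000008d6e3717ffffffc0a02e887ffffe950a27f86800007fc94481a98001752af82c1d27ff5c9cf5d1ff287f41832ed209c647fffffffffeb10680000000009518980000000234cf4f7ffffffe06ad4c97f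ffffcbd5a742f80000510c0721c97fffefd62064dab7fd20bba333b449796427a34c8235821e157a1afa468f8000000000000387fffffffffff39d7ffffffffffdac780000000017517a7ffffffffc86cc67ffffffd6a4856880000012ddbbfe8800003c838b68c67fffac5e6736fb67ff87add38d03b67fffffffffffd6f8000000000024f380000000003b0707ffffffffb2ae537fffffffb616eef800000090d716e78000005f1ae3d377ffff2f8675d54780015fdab8e2b3f8031378540eb7a07fffffffffffa8f8000000000012db8000000000dfdf77ffffffffca586e7ffffffda3d75df8000000efe0a07580000413d3fe8697fffbe729ebf3747ff47fc6b20d6d87f6c80db3a81a3e800000000001eda8000000000266dd7ffffffffcbec2e7fffffff61217f780000006b622e9c8000018fa0da2a37ffff53cc1d90ae7ffe72af07116d880100d6ef17a1348117b24fcabe3858000000000000008000000000000047ffffffffffff9e7fffffffffffa9f80000000000ea8f8000000000325c67fffffffe528ced80000000daf22ba80000025f869e7380000d024ac79e48000000000000007ffffffffffffe28000000000000a88000000000031217fffffffffe1f497ffffffffb4e50d800000007ceff00800000001b0cc387ffffee668588a97fffff8b82007e880000000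00000017ffffffffffffd18000000000000178000000000050647fffffffffea2387ffffffff8127c18000000019204ce8000000e93441bc7fffff9f93f6ee77fffebb90d636637fffffffffffff580000000000012a800000000000bae7fffffffffdbf087fffffffffc500680000000301603a7fffffffb92d4257fffffd4e78c9a980000068f793e51800005d26b19bf87fffffffffffffb8000000000000818000000000004c67fffffffffee08e7fffffffffd2b8f8000000024005467ffffffe59b9c287fffffeb8956c0a80000a64c6cb3628001103a757c7bb7fffffffffffff7800000000000082800000000000b947fffffffffed34b7fffffffff636a3800000001d3b625800000014f441c97fffffca66ca5217fffff97f3f7bdc80008cb790e272a80000000000003b7fffffffffffdc47ffffffffff9f2780000000007b7e18000000006860387fffffff0da75047ffffffb89b0e32800000f29ce2e4280000261b72a9d57ffee3fdfbed6ec7ffffffffffffd38000000000001588000000000047b17fffffffffd70d37ffffffff913dcb8000000026a9da78000000b4b4ed497fffffb13cc8aa37fffedbf1af83c17fff66d92b190808000000000000d98000000000017957fffffffffe0dcd7ffffffffe47dfa800000002717dd880000002032b9f17fffffe2010ac6a7ffffe3e6c472a8800019ab0940f2e8001390f3c0a92e8000000000008cc7ffffffffff331b7fffffffff64c3d800000001504aff800000003e239b07fffffecf27adf78000001710e7e7e800008ff9d0fa287fffded80173df17ffd7486d4efdef⟩,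
  ⟨880, 16, 107, 0, 0, 10, 60, 0x7ffffffffffa8cc80000000000add2800000000a07e377fffffff7ea45fa7ffffff23ef5d83800001a403cf8f27fffdede6a5f6da7fe63a82c102fee7b964a966c74c7a3609642ec6e62ac8000000000090f580000000002a9117fffffffecddd7d800000007894e428000001f9fafe517ffffdb2cb531c180001222f495df18020e200c65cd08855397311d4caeed4463ed5fdadcb87ffffffffffffc480000000000043a80000000000496b7fffffffff59f317ffffffffdad981800000014c62f287ffffff761723a97ffffdfa4814e0580003a3bcb4ad1880042559baa87c78000000000001577fffffffffffd5e7fffffffffdd9b980000000014a15280000000260dc997ffffffcb4a563f7fffffde3f56f2f800006f9001727e7ffedf4f493b01c7fe07d29389c5ed8000000000002878000000000028997fffffffff7a0a27ffffffff9c066980000001adbfb6480000006a78b7c67ffffcd5da4bbce8000185c25f3aa080076eac78eea088064f2065b3c5717fffffffffffe167fffffffffd9ab97fffffffff2909a80000000918b7f880000002e27520d7ffffe8f7df78707ffffc60e8edda780018259c326bd67ffbd0228306e9e7f331453d97dded7ffffffffff255f7fffffffff488978000000021756228000000000a092d7f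ffffc01d51e9d800002b88a413f180000f4947384da7fd212894b2491678ac2524d0a39af13f19e9c91a125680000000000007c7fffffffffffab47ffffffffff452280000000010b9da800000000c2d0ed7ffffffd9a018c97ffffffe85a26f2800003fba07e5817fffbc0ef4126c47ff7e3286905fc77fffffffffffdaf7fffffffffff5a08000000000482027ffffffffee22557fffffff90dd2f9800000056958b4880000099f83615c7ffff5f22aeac4c80013139b6c51d38033c69be7fb2a87fffffffffffc1a7ffffffffffb9438000000000c33b88000000008857807ffffffdc4717f37ffffff78fe153e8000042d302f5627fffd793c3df7cb7ff3aba11712d387f549b75aee93a98000000000004fd80000000003c2bf800000000002b8e7fffffff48f3e7f7ffffffe847bc9a800001aababb6528000025d0e3f9597ffe590f4acffad80098a94ff6b2af81315b777d9694a8000000000000008000000000000057ffffffffffffed7fffffffffff74b8000000000088398000000000a82267fffffffe8bd4c68000000042cc19b800000282cac48380000d50d58b8f28000000000000017ffffffffffffec7ffffffffffff06800000000002d6a800000000005e377ffffffffa8925e80000000534a18b800000028f2bb7a7ffffeec10894947ffffd5c57aa9f980000000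00000027ffffffffffffe87fffffffffffdba800000000003f638000000000227297ffffffff85c59a7fffffffd960d7e8000000e699722b7fffffda0dc46497fffeb32cb107b67fffffffffffff280000000000003a8000000000016ee7fffffffffec11a7ffffffffe6b778800000002665257800000011c262167fffffd78ecd8727fffffbf1ab5b08800005f8b3493857fffffffffffffa80000000000001c8000000000009d37ffffffffff59bb7fffffffff30ddc800000001df8ddc7fffffff6587ab37fffffe4e06763580000a03813fc96800124a72abcafe7fffffffffffff87ffffffffffffe4800000000000ebf7ffffffffff94467ffffffffec2c868000000013d03f08000000217c31ff7fffffd4c190b417ffffed4b1e814180008b1d4a8a13280000000000002980000000000018d7ffffffffff9c02800000000021d85800000000a46ca17fffffff658d9ca7ffffff53d77815800000c38f78b32800005dab24ede17ffeec59f32d22c7ffffffffffffe17fffffffffffe8380000000000451c8000000000180267ffffffff8b0b867fffffffdcf06fc8000000b5c497cc7ffffff65c86aa97fffed0e2a9b2f27fff417833ccc417ffffffffffffb7800000000001c7b7ffffffffffccc77ffffffffd523da800000000b288a78000000308108fb7ffffff6ea497d37ffffdc512f69aa80001187e99180880016493a1b0572800000000000a677ffffffffffeb0a7ffffffffef11f980000000088236c80000000f5a697e7ffffff374409717fffff93dbf20d0800007e5f67ad2b800001ab80aa54e7ffd55c9a74f63a⟩,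
  ⟨912, 16, 108, 0, 0, 10, 60, 0x7ffffffffffdaf47fffffffffc220680000000081bdc58000000002f8a377fffffef646c63d80000106feb3c2d7fffe99d55290557fe5966e42f539d7b2dd6f318330002ccdf2c6bfb2a768000000000022ab800000000091fb27ffffffff37a5127fffffff936e4618000001f894a4e37ffffef79ad8e75800004cda190bfa802121b8103755185d7b94cec1e64cdf71658871fbf837ffffffffffffca7ffffffffffffec800000000006a527fffffffffad36e7ffffffff7b128b8000000113f00fd800000010ae23ee7ffffde471889ba800031e5db8e98280049189d1ec7d6800000000000093800000000000f5d7fffffffffe52367fffffffff91d25800000002afb9a37ffffffe4fbb4e47fffffca2d855c0800005ebd9f82157ffef94130a58fe7fde566dfce5bfd8000000000000a58000000000045f47fffffffffb47a17ffffffff3e392b800000013c5d0848000001575007ae7ffffd4944b53938000067e1ded0d68007ab78fb07fa18074181d17ebf97800000000000d617fffffffffe07e57ffffffffcdf58c800000007535cfe800000092b477f67ffffeccdf1e7357ffff1a84c9f8f380014b7efb4e64280018156136c8847f308a7f3244be68000000000000f57ffffffffed00788000000010cd26780000001692380d7f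ffffc984e50728000005a8eeb18c80001b55bb6ee0e7fd29be9985237677f56a0b793a6d50492d0f1f8b04f28000000000000558000000000002917ffffffffff329d8000000000573648000000014a1f8b7ffffffe45303747fffffedc9cb8f3800003bddc49ebf7fffcba37bfddb57ff76b0462f47dd7ffffffffffff6b7ffffffffffdad980000000002dbf780000000022d9f97fffffff97f8c43800000012a1e97c800000b41b786c87ffff9ed63c0616800110c49ba633c803605f07a7b54f7ffffffffffff9a7ffffffffff925e8000000000632a58000000010bf8ab7ffffffe61601be7fffffe3fa5a2ec800003973bc86967fffef2fa01b4f27ff33a556e648e87f3b71a47863c687ffffffffffea1e80000000003187580000000039f75c7fffffff634c9447ffffff65af95ba800001720ebdc6980000f06e26deef7ffe8e1ea187c9080033f8744b6ef5813e0215d07441a80000000000000080000000000000380000000000002f7fffffffffff830800000000001b618000000000da9087fffffffeef681a7fffffffc91e81a8000002837fc63480000da18b6d5fb8000000000000017fffffffffffffe7fffffffffffe5b8000000000019528000000000206b07ffffffffb2006c800000002930e0f800000040276a687ffffef988547fe7ffffb40f948f7980000000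00000018000000000000057fffffffffffd2b8000000000019798000000000447277ffffffffa76dbc7fffffffa3c9fc38000000cd89a2fd80000010fdaffa67fffeb1ee2fb0f77fffffffffffffa7ffffffffffff7c8000000000013b87fffffffffff83e7ffffffffdf41c780000000137f0698000000206ce2c47fffffe143e04f77fffff2ee98573b800004e0349ad767fffffffffffffd7ffffffffffffc98000000000008b97ffffffffffe9617ffffffffef3e808000000013d8f5f800000002e2edfc7fffffe3c4e6625800009933a176958001383e9d884f17fffffffffffffe7ffffffffffff8a8000000000009a38000000000043ff7ffffffffeb4dd78000000006edaf38000000283269e07fffffe2c5f1b317ffffe42e9f2c148000882b873e6c98000000000000018000000000003007ffffffffffc4b57fffffffffdb03e800000000a1a54a7fffffffce7a6187ffffff20eea4f980000077ce61eac80000857ca87aaf7ffefabf292d6a27fffffffffffffc7fffffffffffd4180000000000205b800000000045de57ffffffffb049f77fffffff9dada058000000937114918000003515147407fffed695e8fef37fff1bc5ca959377ffffffffffff0c8000000000010428000000000144a57ffffffffdd8c547fffffffecdedc480000002dad63d98000000f418ba7b7ffffdd84fb597e80000891aea360a80017ea04dc85798000000000005928000000000081e27fffffffff2f9017ffffffffab3c0080000001056a9d47ffffffde70f6b47fffff58e4cd94f80000481fd6fddb80001af17e20ee37ffd74aef40e570⟩,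
  ⟨944, 16, 109, 0, 0, 10, 61, 0x20000000000018e8ffffffffffb6bf88000000001c818ac0000000155c79a1ffffffe36ed3ea3000000694fa95af7ffff7a75cc8bb6bff948eaf033150df5867f9575f2e98a2bf55b1a7dfe097ffffffffffe8bec000000000214895fffffffff9755ccffffffff25f77ae8000000baf60917c000000399dae2b60000023995adfc100212f18ba0cb55832e311d018cf445ae95e2e673dd59dfffffffffffffdcffffffffffffd5d8000000000028924000000000007d41ffffffffebb694900000000b457745800000041c16adabfffff806ef2936200005347ad863290004ecffc9e84337ffffffffffffe340000000000047f1ffffffffffee110fffffffffe99ce7800000000f9cb5fbffffffff1086bddffffff8594ad1cd0000048cf20dae47fff8720b88b0b83ff717b6d5429d1dffffffffffffe170000000000041da7ffffffffffd85bbffffffffc6d618600000001342146d0000001ebae64b47fffff0f21bff523ffffe23e3645cf2000f4fd14156c51008374cd5e95bd18000000000009e7bffffffffffd0b99fffffffff6f2329000000003e206ad80000006b97f97fbfffffd008161cedffffd37f4ecb57b0000dbe816668188002f0007d1e0603fce0d9e2950d64e00000000000f3d6ffffffffff228337fffffffffccc2a4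000000075671f2dffffffbbe088d5cfffffe9ba8ecd4c80000b529a604b3bff4ce36557674adee823a5320b3a0673c8ee9833b700c80000000000000640000000000017edffffffffffefc32ffffffffffc0d08800000000a7e53abfffffffc6cd2e85ffffffc692832e70000032db89b5547fffecc7d3d4195bffdc426045c69aa00000000000018afffffffffffddf28000000000040f6c000000000e6f259ffffffff78581cefffffffdcfdc1a4800000578a15e24bfffff891543927a000201e4f35ea8d003814d67b55fba8000000000000fdbffffffffffe8df9fffffffffff44bd000000001337a357fffffff9f79e433ffffff600ddf20200000502cc4de57000001a975026ff7ff98f1acb96dc1bfc86f75f8063495fffffffffffc34b0000000000124968000000002e6c243fffffffe9eb6cc1ffffffe0fc61fd3000000f19bf742a80000c5e65b066fbfffc1db679fc8b5fffcae4872d15a9013f479d1083f508000000000000004000000000000002000000000000086ffffffffffffb7a7ffffffffffe617c000000000343151ffffffffeb8ae1affffffff777b5a88000001355c25e2c000037c29556bf200000000000000100000000000000a7ffffffffffff53c000000000000d1e000000000055140fffffffffc804c58000000003b36194000000123b73375fffff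e15dd661fcfffff945136de3a8000000000000004000000000000051ffffffffffffc1affffffffffff6f1800000000024f843fffffffff552331ffffffff05a7a070000000a40eb4fc8000001fb95abd9bffffadc43d7efa2000000000000002fffffffffffff5280000000000049fc00000000003136dfffffffffc88ee5000000000019d158000000129868f73ffffffba7db66d9fffffd9c3101d8f000002d444820778000000000000003ffffffffffffed20000000000008a5000000000004b937fffffffff88eb140000000025aca1e0000000144a1a9cffffffe660a838c800004934eaf8c0c00052bdac8aba3e000000000000006fffffffffffff9780000000000012140000000000256b1fffffffffe14c54fffffffffb9acb480000001458a1a9bffffffc877b1af9fffffbd94561e3b00008450d33000c7fffffffffffff6c0000000000008e5fffffffffffe15cffffffffffbb9c58000000003c16a2c000000009fc7f85ffffffe3f42428f0000002282470f7800004c647403e3bfffc33723e34992000000000000020ffffffffffffdc37fffffffffffb36c00000000013cdadfffffffffd5049affffffff7db146280000002c60c98ec000001877b3a729ffffdd3d4c2d440fffef7afe24da217ffffffffffff903ffffffffffffb42000000000037662ffffffffff3d96e7fffffffed7edbd400000006d02bcb200000043e9983f4fffffe70994072a8000007ef509277c00061f2702fbe01ffffffffffffd5500000000000a7107fffffffffe7b983ffffffffce04eae00000001239711300000006236e2367fffffb60eba729c000002bf631719200004a5afc3dda8fffdb75e7841aaf⟩,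
  ⟨976, 16, 110, 0, 0, 10, 61, 0x2000000000003d88ffffffffffd22317fffffffffdd0f5c00000001a9a0f25ffffffecd90b89cfffffff135eae6f7ffff84c92d7a1dbff931511a1ba41df4ae1e45d81fe2c97d9e34eb2713cc7ffffffffffe0f5400000000010881a00000000061a018ffffffff29729b6800000067140d63c0000030e031932200000955920fb3d00213d9b37aebfd83709a34d84104e5e38c18462d03ab2000000000000014ffffffffffffd32800000000001176c0000000000d3001ffffffffee8e5e70000000054067ec8000000627ff752bfffff9035cb124200004441a1e33550005389a2baf2877ffffffffffffbdc000000000002a3600000000000b698fffffffffe8f06a8000000006c7fb3400000002799ac31ffffff89930ea61000003204b70a137fff8ecbdfc6f5e3ff6a2ea04ad6dadffffffffffffcf7000000000002a1e800000000018fb23ffffffffcc33309ffffffffe736a2f0000002171a07197fffff91a7ac994bffffc125d8bdc1e000eef1da4955b7009299ca518fcba8000000000008274000000000024a4dfffffffff6d1e9cfffffffffcbae35800000076a7a2b6bffffff4064e7841ffffcbeea9d9055000048cb191889c8004187dd7535b63fd1aa7573c34e0e00000000000e87effffffffffb20d47ffffffffb243f84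00000006106ed19ffffffe519c2b5afffffdb15f38346800003a79f23a0f3ff4e5974c48a855ed1db4f3cae45886198a7674efe9217fffffffffffff0c000000000001461fffffffffffb5bcffffffffff78fa38000000008076a1bffffffff5cf2c3dffffffbe687cd3f000002723eba1797ffff26bd97f95cbffdb3df332ecec600000000000021afffffffffffefaa7ffffffffff74cac000000000d09f15ffffffffcca2f2cfffffffc0aa42b88000004ab3692704000007e32d40aee000202c1071b23b003a149ae5538ff8000000000001343fffffffffff3549ffffffffff63aeb0000000010b9e13800000000d497c13ffffff53719cd1e0000025e50697a900000cc7a7f74dc7ff99edf4cd9a153fc204983bc7d6e5fffffffffffd28afffffffffff37a88000000002f8037bfffffffff0c060dffffffdca74a5ff00000048636726780000ed99e06ed73fffeb595017b87dfff76dae9b7a8af0138e698bef5bfd8000000000000003ffffffffffffffe00000000000006affffffffffffede7ffffffffffd42d400000000028c051fffffffff7477a8ffffffff4c6fc488000001213cc23f4000038ee543157a00000000000000100000000000000b7ffffffffffffac3fffffffffffd3ca00000000004da4efffffffffe071417ffffffff8cc1bec00000011cf55351fffff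e3a3f5fa36fffff76d34a29a98000000000000004000000000000049ffffffffffffe9efffffffffffe49580000000001d9d8bffffffffffe78e1fffffffef0e1e8100000007281b098800000312caff3c3ffffb053b5abf06000000000000008fffffffffffff8e7ffffffffffffefc00000000003fdb5fffffffffdecd94fffffffff21c558800000010b9c0f4bfffffff0593f391fffffd47fb0d66d0000003d5921f6b8000000000000013fffffffffffff2e000000000000055000000000006d1c7fffffffffaf89b400000000056d6c600000001969ad46ffffffeaca0a6e38000046450d6a9540005738befc9082000000000000006fffffffffffffd37fffffffffffec2c000000000023e55fffffffffef5460fffffffff44fd1e8000000123eb4f4c00000002cee5dddfffffba59b3cdd300008006866d82d7fffffffffffff840000000000003ba00000000000135cffffffffffbad1880000000021c586c000000018b09145ffffffe875d6cfeffffffd435d1cff800004baba139963fffc804b924d4a2000000000000028fffffffffffff1e7ffffffffffee8540000000000e878e0000000003ecd46ffffffff81a046380000000b99beb1c000001db3164e41ffffe0b06e157a8fffed698cdf73867ffffffffffffd43fffffffffffce2600000000002801d000000000098e647fffffffed39619400000000c645b46000000531c8fb1effffff59375b6f17ffffe412b9a6d2c000612b876f88d5ffffffffffff4f900000000000630b80000000002db0d3ffffffffd3f8eb9fffffffffa1dd2d00000008de2c2b07fffffd606e458ebfffff7b5f0aacd6000043cd699ae40fffe004b05d4c59⟩,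
  ⟨1008, 16, 111, 0, 0, 10, 61, 0x2000000000002f48fffffffffff206c7ffffffffef36bac000000015dcaa09fffffff6222c998ffffffa96c4f5337ffff7724c7e6ea3ff919370b719cb5f3d2cdb34d6a1668c1a996a963c2a87ffffffffffec4a400000000001cc8e000000000a62184ffffffff677be248000000215447c7c0000045933a45e6000018988d8a07b00216f3730c83ba83b33f5a17d504fe1caa612235c65ae000000000000024ffffffffffffe457fffffffffffef74000000000107071fffffffff45629b000000000ac188d80000006dbdb21dbfffffa404f1a8760000377fbe65ee100057645e19ac5b7ffffffffffffcc40000000000007ae0000000000176a2ffffffffff14ba37fffffffff9d35cc0000000352f3b91ffffff95e9919bb000001ceb66774d7fff93b4a3b343e3ff6346290c0f359ffffffffffffd5b000000000000fd38000000000274fe3ffffffffdabf5b5fffffffed8ed6fd0000001e2d5e1c980000012a92e6543ffffb8c226e8322000e64fac50848500a1453ab5bd5f4800000000000432400000000005ca6dfffffffff8f02f8ffffffffc2d5bba80000006a1b0675c0000017b5fbbdf1ffffcd7b458cd56ffffacad33d6ba880040d2db93eb113fd5d763561ff6d600000000000754f00000000001627a7ffffffffa7569d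400000003acab3f6000000027544d7efffffd7a4cec13a7ffff9cdfdc9ccebff4e1fd93e2f51debba7d5d3c9d60c4e04ca0d4bcc09f7ffffffffffffee4000000000000a5a00000000000314affffffffff768e18000000004be178c000000015c1ec7dffffffc032ba895000001ae2850fdb7ffff68b5296c7abffda87b88aba23a00000000000015cfffffffffffff9e7ffffffffff3750c00000000081422a000000000c210eefffffffbbc8d50280000039d8ed91f400001454eb445ee00021f809936011003c23a89a3397d8000000000000e2bfffffffffffce81ffffffffff26b57000000000b7142c80000000629ee793ffffff65c2ae055ffffffc7d10733500000fee5e630d07ff9bce177148debfbbb1f2c8581e99fffffffffffebd0ffffffffffe10768000000002400144000000011a8fa55ffffffdff1ece56ffffff9cf72730180000e9ec91d575c0001839ecbcc385fff7a8c1f645a5d012ff9c8dc726cd8000000000000003ffffffffffffffa0000000000000390000000000001157ffffffffffd3d5c0000000001aa605ffffffffffb50c6ffffffff3fcd605800000109bd26bac00003a03f25d9fa0000000000000010000000000000077fffffffffffff7bfffffffffffc026000000000038220ffffffffff473f77ffffffff38b06340000000fe3c6b11ffff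fe5c1c52028fffff5b8b5104e0800000000000000400000000000002a000000000000066fffffffffffe1c2800000000012704c000000000770895ffffffff00be04d000000040b0095e8000003c57bf70dbffffb3c82ac8c7a000000000000008fffffffffffffd97fffffffffffd904000000000035935ffffffffff55932ffffffffeb5cde880000000c4326e8c0000001c403cc41fffffd56d39ec64fffffd856bb89108000000000000013fffffffffffffadffffffffffffbd30000000000060127fffffffffd8885bfffffffff25b27e0000000181c554effffffef81c8c748000043ea78833a40005b89713dc72e0000000000000050000000000000037fffffffffffe2fc00000000001859dffffffffffa95c0fffffffff10924680000000ed73bb4400000034a392e0dfffffbdec34965700007bc065dbf557fffffffffffffd40000000000000be000000000002380ffffffffffc7c168000000000a245b400000001f72a955ffffffefa1af95affffff97ed444188000042343498223fffcc7dc781fe0e00000000000001b0000000000000567ffffffffffecb24000000000061fce0000000007d25b0ffffffffa0515447ffffffef6fe906c000001d1d08e89dffffe46b8f5c690fffeb9286d6635c800000000000015bfffffffffffc8ea00000000000c171000000000150c0e7ffffffff3592dbbfffffffbc0663e20000004b84860770000004c349d8987ffffdea7438be340005f18acab1f0dffffffffffff586ffffffffffffc31800000000045400bffffffffef05005ffffffff3df2ea900000006a5c26d27ffffff64a14ece3fffff301eb697e200002d8132788f4fffe39b9c5bc192⟩,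
  ⟨1088, 64, 112, 0, 0, 14, 61, 0x1ffffffffffde59effffffffff35b4380000000055a74b3ffffffff34091b9ffffffff6298eb50000000bc318eeb7fffffd5eb7f208400000428ec28426000006a85639944ffff87f976396637ffcbcab7e40989bf8c8ec384fa107dc67c22f8b77a3326aee1d5f98346588000000000004f24000000000817f81ffffffffdad921f000000003c0513080000000ba97eaa3ffffff9fd7653ae00000117cc983a6ffffff52dd747d57ffff779b6b1e9740003c7b2420977a0010f9e3e5f151d022ce561c749243917540fd419e24cebddeadf770a8891ffffffffffffb1f0000000000003738000000000033273fffffffffef887a0000000001f11050000000005166757fffffffd5c8cbdc0000000652130c1fffffffec959d5effffffca8699ed380000163a62a5053ffffd417f02944e00008a28250d99d0005e3abe593ba38000000000002cac00000000000be05ffffffffff9cf41000000000101a6c8000000001710d4bfffffffedc76a2e00000002018cfcd0000000554e05907ffffff3427cf0ec000000970508239ffffeabd8a7609efffff14d49ea88e7ffe56ab62a27c2bff52aecc0dd248600000000000044b0000000000038957fffffffffe4b9f4000000000fae7c5ffffffffd7537fefffffffebe4494f80000007ef47c2e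c0000005a9da6b6dfffff7ded7f33250000079a257c5b580003627cafecf83ffff8ee6ab6c22a0035e8bfc7a582500c3d770fb0493a800000000001998bffffffffff95c4200000000073d75cffffffffdc5d8a27fffffff4370115c0000005c25e5a860000004e351064cfffff90243dd66d800003581bc9daac00049787dba0f85fffbee0d644cf16ffe9e809b51411d7ffd6ec0d3eeceebfdb38063756e7d600000000006001afffffffffb8e8a4800000000ef766c3ffffffff5907d19fffffff791917ff0000002d2f12dc77fffff9e18e1accbfffffb338ff163a000057a69d45518fffe50fb07eff0b7ff902112e9761ebf45c553a00307a5a0c208897d7433216f34ff9b352c868000000000001bd4000000000001159ffffffffffe3b5300000000006bf727fffffffff82af23ffffffffcb75562000000013daca62fffffffd58767377ffffffd7be7d8b4000002965c4161dfffff5dc39cfd35000001f9e21819b7fffeb0bbd9eac33ffd97bdf4982e95ffffffffffffa9cfffffffffff7fff80000000002aace3fffffffffafeab9fffffffff0ac27500000000802aa3f7fffffff02d50aa3ffffffe34c4538e000000b613355eefffffdca2c293f0800006128693e00400026ba6ce15a26000ae7011f980550042203f0b4627f800000000000338bffffffffffd272e0000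000000c7ef2fffffffffba9bd0800000000743db4400000006dbdb3ddffffffda71498feffffffdc7b33341800002863be34c73ffffd8f28cd3d59fffef64e19ef8a2ffffca9483040737fe7a2fc3e4cfe7bfac55a9231157cdffffffffffea887000000000056aa57ffffffffd9d378c000000008c6e2a200000003ff70726ffffffe418650897fffffe7896d77a40000218384b6845ffffee7f7f0ac5efffea9e6fb5c35f800136415b42627400673d7f83c925e00361ef69a3823f01313d5f2f7aa887ffffffffffffff4000000000000036000000000000012ffffffffffffd60800000000000af63ffffffffffeff59ffffffffffbf97b0000000001c75df7ffffffffb8b9f1c000000001c4ec6600000001deb3a54fffffff6483d066800000347c10254c00003c54069f9ee000000000000014fffffffffffffee7ffffffffffff40c000000000004051fffffffffff7386fffffffffff3c1c8000000000a238ebffffffffdfccb8a000000001bd7b91000000009883b347ffffffd351eb1bc0000009dbae64bdfffffa709b3489efffff1f56a819da8000000000000084000000000000031ffffffffffff9250000000000017c27ffffffffffe42fbffffffffff70ffe00000000042cfe0fffffffff3de5b67ffffffff78560140000000ca542b61ffffffdca87f33affffffe1c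9e74468000010139d9745bffffbde866af591fffffffffffffbeffffffffffffd6f800000000000c5fbffffffffffe66e1fffffffffffe9db00000000018dbe67ffffffff833d23400000000816d06a0000000451db754fffffff0cfe56da7fffffffc1f7dc140000047a715a6edfffff9df301ca7afffff81b004686c7fffffffffffff4bffffffffffffd8a000000000001508fffffffffffc003800000000001813c0000000003005e5fffffffff1bd3110000000012306e9800000003d492d2bffffffed71ca55e0000002f0904d8effffff80357527c8000100fd405102400065d3d38b677a000000000000006ffffffffffffd15800000000000931c0000000000007a5ffffffffffbb78f0000000000d079f7ffffffffe19f2d4000000003d237720000000164ac4d6fffffff26844c4a80000015fb068a74000008042064879fffff701df6320100007378cfe0ebb7fffffffffffea2c000000000003efe000000000002962fffffffffff1e847fffffffffcfb93bfffffffff929e0e000000008cdb1b4ffffffff01804b87ffffffa21d06ef40000017cfad6de6000000912d54078fffff66395733f38000058e3019eac3fffd399638d5455ffffffffffffc9cffffffffffff8dc8000000000050703ffffffffff84cf9fffffffffd7ea05000000000c75a9c7ffffffff5f2d7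a3fffffff982cc65e0000001879c6ea100000003e3377b67fffff504252536c00000c713945bedffffacf9ccc567efffe7ddb2f8d1d07fffffffffff995c00000000003cc5dffffffffffc6a50fffffffffd753f080000000080de36c000000005bfd149fffffffb0bc68690000000954e85fe800000114f4a9b2bfffff94f30163ca0000025a4b044290000198e35eea7980000df3ffe7035c0005f7c9621c13200000000002e758ffffffffffed0b47ffffffffd7b3124000000004f0ae3e000000011b279d4fffffffc09445c97ffffffd552e33bc000001591e45a29ffffff6109fd11afffffe8233d1b8b80000231c497483bffff6291d6ea6e1ffffc476e918deafffe5bff56a929d⟩,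
  ⟨1216, 64, 113, 0, 0, 14, 62, 0x800000000000c9d1fffffffffff6c0c7fffffffffd355a6000000000a7a7ab7fffffffee4cd632000000008eccdc08000000181b0976dffffffcc7c128d3800000e39170dc09ffffb4f4a1dbd567ffd9c77bedfed55fe0140f694e5d3676eac55d6b4d55e529f8048064a74da7ffffffffffefb09fffffffffffa778800000000063de55ffffffffee55376800000001c3c75a9ffffffff750ce227ffffffaf9f95d5e000000cf7db8a627ffffe0327f7a7de000069b107c7576800368fe29bf08a6027170cacd472af8b073faadb26765efe512fc6c983fbc80000000000000d1ffffffffffffe54800000000000167e0000000000050087fffffffffe8483a000000000257f3a80000000007b6555ffffffffa3f5309800000006ba5358dffffffe285de8358000005cc7873c2600000146aba5d6180000d15fa29a4b2000654fc50bb3b97ffffffffffffc7600000000000069d80000000000089a9ffffffffffb05358000000000942eea0000000008d3e4a7fffffffcd04a3760000000059b1e3c800000086d1260d20000008ac3ef4a07ffffd9c78d82ccdffffb2f716533027ffefd1b435c5db9ffcd7745cd9d1f37ffffffffffffe19fffffffffffe4a17ffffffffff7333600000000007de4880000000056151fdffffffff3091583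7ffffffedc58db4a0000005bfbaf7bf7ffffff204dad9f1ffffef8f5bcdf2680000b6fd14cf0ca00021423c1ea5ad8007db18d9f43ac600fcb560e18678180000000000001fe0000000000111bb8000000000aff15a000000001b3c48c7fffffffb6e275c1fffffff8232e95080000024d165b922000000779c43b887ffff67350d21302000038ee0eb3c9080012944a2b59801fff5b156ac621c57feb0e0a7c26a041ff0b8f633657e89800000000001001a00000000002d9247fffffffff290b06000000001db18f17fffffffdabfe82dfffffffee0a693c8000000cd3239421fffffe3cd0c7734800003716d3762bdffff6fd36063bde7ffa77d700a68929fca647a40e5590370faebace7443258ab8bcf046e1d19b7ffffffffffffe8e00000000000021e7fffffffffffffe5fffffffffff4dca80000000002630cdfffffffffc5ff077fffffffff7a72de00000000c20011f7ffffffe2cac256600000047c47c4d87fffffa997e4f88dfffff04796aa4d47fffeccab82edec5fff5f3cf9d12c8580000000000004c9ffffffffffffc0c7ffffffffffe8aa2000000000074b977fffffffff36f2adfffffffff6509c98000000043764041fffffffcf3417da7ffffffd168021d1ffffff1d354d5c1800000aa9a934a220000c2413ceb22c80020fe5901e740e004fb9c59503ac18000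0000000003de0000000000026e1800000000008811dffffffffff9b6e57ffffffff9b389b600000000e787b048000000171c24201ffffff92301a79f80000010aed6bf9e0000138ccd412687ffff1056d638ac5fffd10dfc56d4697ff2174b73d713fdfe4adaf96d803968000000000000c4dffffffffffe3d5b7fffffffff3edf79ffffffffe0159cd8000000053835f0a0000000975cab777fffffd49c1e6d55ffffff75419e3ef80000b333c686691ffffbd2035be9887ffea6c49707b09a000c4b3fb420248801dded19443dc7601cd6c94d2c8a4d8000000000000001fffffffffffffff8000000000000029fffffffffffffe77ffffffffffff8b2000000000001e3f7ffffffffffc723e000000000029bae8000000000441421fffffffff0493d980000000233bcd65fffffffb0b517f4800000131f4dbbae00000fc740901f37ffffffffffffffe0000000000000067fffffffffffffadfffffffffffff338000000000004895fffffffffff5fe6800000000008480a0000000000edd517ffffffffd020c2e000000003ca614d7fffffff925e3606000000134e42f187fffff69771725f1ffffece0bedd63a7ffffffffffffffa00000000000000480000000000000b5ffffffffffffe588000000000004a8dfffffffffff20e6800000000011ec520000000002422737fffffff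f36c4ba2000000014e1007e800000003b55bcadffffffb768ee03180000043d88639b5fffff2a71de7b1e7ffffffffffffffe0000000000000347ffffffffffffd5a0000000000002407ffffffffffc64e600000000007ec618000000000511c15ffffffffd15df218000000039c63a3e000000030a893c37ffffff6227684ea0000005b94b89a18000000b7813b6c5fffff5c4a512615800000000000000dfffffffffffffef7fffffffffffffca0000000000008937ffffffffffe449e0000000000247a380000000001c3ea1fffffffff30a2a5800000000f9ece1a000000000b59e5280000001c52d6e41ffffffc86c4621e800007b43e13546a0001d612741c1be7ffffffffffffffa0000000000000717ffffffffffff769ffffffffffff9ad800000000000d102000000000013eda7fffffffffc4fccdfffffffffa7fe658000000033b81c4dfffffffaad260d87ffffff7edcca316000002026c04a448000010821f8f0520000731dddcf59a80000000000002f1fffffffffffffb67fffffffffff7baa000000000007c2d80000000001d25f9fffffffffbeac3e7fffffffff6e432a0000000116d89af7ffffffe499c2539ffffffed1dd5db680000054e556d1f9fffffd11b12e6aa7ffffc0053a8804dffff44cf0972e05800000000000029e0000000000000d47fffffffffff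4fe200000000000cec180000000000671adfffffffffdf1f5d800000000518af09ffffffff7f706f17fffffff72cb0dda0000002893990cd7fffffed27c61cc1fffffd94876011f7ffff563b0a332edfffe2da8099c14c8000000000000cfdfffffffffffac3d80000000000273820000000000c6fbb7ffffffffeceeb49ffffffffff6f5c8800000000e6c26adfffffffd48d855380000007b5d6a27e0000000a5ab6b697ffffebf08d4cb22000006da576a08380001a3b711f3cc60002103a16a501b7ffffffffffdd24600000000000642580000000008706a5fffffffff7aa1737fffffffefcb497200000001d710c8e80000000e0dc6309ffffffd1fa284757ffffff56ebf73ee00000244fe84647800001f253fa7c55ffffe8dfa1bc9037fffd787c3960339fffd948c0f39e81⟩,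
  ⟨1408, 128, 114, 0, 0, 14, 63, 0x1fffffffffc045cdc000000000fb1e3e8000000005d9004cffffffffb32a1896000000054c1044cbffffffd8a1aeb177fffffe546d47bb300000018caa1f5ca0000304207bc558bfffe19e840d03ba7ff3fd71cb372236fd9eac22d47dac25ce95e68f7052dc4aa9edd2d9628d29d8000000001097dc8fffffffffbfd119200000000038c4ea400000000b5b178d7ffffffcdfb39859000000244228c50e0000003287c6c6fbfffffdd8f75262a7ffff01bf1f5269900008d0455def8220042fe2da64abe6c0bf221e6228f15a8f1645ebca2a224f668c3f8c6dfddd95ffffffffffffad0c00000000001ce967fffffffffe1401500000000008fcaba0000000009f933abffffffff68b218c8000000002c5a22b000000026e67f366000000094bee6403fffffe6271422b080000034a6215b99000008b255375d9e000057d13b2f62ac00071c175d1aad28000000000024718ffffffffff90ec8600000000039a696c0000000029f60bc7fffffffc47b8067000000007a54791e00000016b3ea6c03ffffff6dfcc128e7fffffa12663f8cb0000041559c3805e00000ea9a02bafb3fffe4f67d8ea8c27ffe626ef3531398ffef79268e165fa1fffffffffff50814000000000bdc02f800000000b0ff198ffffffff28ed4781fffffffdfc0d63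2400000085974ac207fffffdbfd881b5afffffda2f975367e000014059b4c24ec00003c1d6d452337fffcd1b70232b7700012ffccb4aada6002afd839d56cd44016deb00db353f77fffffffff61a0ecffffffffe0ceb9f5fffffffb374aeac3fffffff5cca943080000031d909b926ffffff73f5286925ffffecca48d8519c000083828762eba80003a796c552cf6fffdabe336fd6845fffc1a60d2411a34003689a1039d0527ff4afab432adc10ff88f60fc1dbe691fffffffffb243694000000000c962108000000000a36258ffffffff6fd736f6000000199def9583fffffeecf69351f7fffffecca4268990000016f892bd2be00005b5c08a575abfffd98880c4ab917fe5fadd7c74b72cfbca2de6acb60e09ad4e42942854da11d6adde59dd79e4380000000000057f0fffffffffff60c8a0000000000947efbfffffffffd270697ffffffffd1fb9b100000000319ee425ffffffff5f71fa4bfffffffcf30882d7ffffff961c45413000000655cea978e0000026e5ca00033ffffb9abf54767f7fffd1aebb6fe07efffd1b41b522bc55fffffffffff414740000000001f8e1c7ffffffffefab910fffffffff3fbf84e000000011745e3abfffffffd0587ffe7ffffffa5334e49700000020bf024f8e000001c50b3af8bbfffff353cf2f5c57ffff5ac6b6f9b8900009f9be35acfd600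0ca28191e118cc006f40d9264a8887ffffffffffe703cfffffffffc6f580dffffffffce6c545400000003ddbcd16800000009b0750d4ffffffd8dde0c056000000a82017a17400000b24ea0160f7ffffa1cec8f29b4ffffeeddf1e414e60000df08bfd29003fff7c08cae02ef57fedd0b374d61056ff622bf767c81db200000000033bcda400000000a3703b78000000167a21a7700000002d0c2244dffffff16d9139064000002991d41b9c800005a04940156affffd950c7595bf5fffeed10293cee74000ae9d0e9c130f800131111e1c358efff0ad18dc2a8c76004cee926412b5ec03201bd97e0250d800000000000001500000000000001c9ffffffffffffd1a400000000000208d7fffffffffff4098fffffffffffe910e00000000005122bbfffffffffcd6e068000000001165664fffffffff5a1349600000000c07fef03fffffff78eb589b8000000e36a8282700000422c940328a000000000000011bffffffffffffa548000000000004e10fffffffffffe3bc5fffffffffffaa9940000000000f594a7fffffffff584d5b0000000002410b0a00000000141311c4000000000ca74dc7ffffffee223c7990000000881dc49f5fffffdf7662d51abffffe65c46f87c17ffffffffffff9c10000000000002cee000000000001bfb3ffffffffffe0c0980000000000761f3000000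00005a902dfffffffff7ebdbdc000000005798ebe7fffffffe8815848ffffffff204eddf200000012d6374993ffffff78ea3f8b27ffffff072c3d3a6fffffce8a9b4887200000000000155ac00000000001005c7ffffffffff42ba10000000000167db60000000002919b5bffffffffd9e6e4b800000000f9a66470000000040dea525fffffff8fc94984c00000019797da3f80000007d369289effffffe381eaa94e00000005166bd1abfffff6bd4c99b2d7ffffffffffff62d000000000000e125fffffffffffa847bfffffffffff48ea8000000000224f18fffffffffe19737e000000000e03fa3c0000000027e73bf7fffffffa00e400effffffffa2d3039a0000002dfbeefb940000007e2d89ca28000079c3b2e47c100008c5c50228192000000000002821bfffffffffffe0fd7ffffffffff58a1d000000000021ca8a000000000150495bfffffffffe1198d8000000000675ab6ffffffff81921a6e000000038689eeb4000000273efefbd7fffffd7ab1f14fb00000075af54edb600000ba4ab2fdf1c00008d2dbf62666800000000001034affffffffffa2be420000000000e9cc6c000000000e8e6917ffffffffbed31190000000004f5c045fffffffe3507c9bc0000000630b0aa78000000ccf802be8ffffffaaabb10ce5ffffff3c8033f9fc00000854e97d26d7ffffd3333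1c3e9effffc5231aa65bea00000000000197ebfffffffffefeac8800000000031fb0100000000039ae8fdfffffffff4806d13fffffffef13d727800000003ac846ad0000000591cb6559ffffffdd11dbc2f3ffffff50bb01f0080000062b4df694effffffee6dd58d99ffffcb0c9818d63bfffd9a70e6dce9f7fffffffff84fdd500000000016612b60000000022a41d9bffffffff54f90e67fffffffa64fb795000000026419f67a00000013541cc3f3ffffff6a63297a67fffffbfaaa272f90000023bc5d7ae1a0000055f77e38613ffffc5a4060beff80000ca70e10a4ed0000c6cddafa822e0000000001c5c46c00000000eb149777fffffffafb1bfc0fffffffd43a83d2e0000001aaca2016c0000001b97f6c1c7fffffbb86ec90f700000091d53a3e560000064f92c57673ffffe233b05634f7ffffb03707caef3000025e9fcec9e25ffffd491ca1f1353fffbf4fe9b28d17⟩,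
  ⟨1664, 128, 115, 0, 0, 14, 63, 0x1ffffffffff8eb05c0000000003f6e9a8000000003ede168ffffffffcb7963c1fffffffe077af814000000277764b838000000d4c14d474fffffdcc534fcf0600000c903af4cdac0000e325e37a53c7ff3bb2d2bf30d58fd0a20769b6e7369b93ac35712a66299bb1cd3341e94b9f80000000002d9e78fffffffffefcf375ffffffffdf8268ac000000016d4f86680000000dcd72a98ffffffee3c389c21ffffffbeda1bb69c00000dd257743e27ffffb9b050e541cffff91971f9dd90e0042af1dd25a315c0f248ffc875b5a295dc3b1fd93d36fbafe84bca9730b0f1ffffffffffffd4abfffffffffffef17800000000004d1b8ffffffffffcfb6b5fffffffffe408cb4000000003141c347ffffffff9197f44fffffffe698a7b8a000000110a3b000c000000292431cd07fffff6f000affef00000498a8dac2d60000933b716998940008fe31cf25abc80000000000008070000000000133705fffffffffedfe0c3fffffffffa06f20800000001256dcb2ffffffff99b6d29dfffffff8c3e6207c0000006666ea71d7fffffffc0f89ad4fffffde7f8c5b92e000011daf81ddd93ffff7d3f395965f7ffdd566d04c1d16ffe7b2d7f5705385fffffffffff9ccabfffffffffcc4b657ffffffffd62b279000000004dcedd0dffffffffa9aca9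4bffffffd03923688800000171a8ca569000000bcb81bd0c9fffff50d832f44e3fffffab013d9c6180001fb56ab09ae100012061a8978b6200314f7e4a7932dc02267169d14cfba8000000000246a05000000000ad054e2000000016a56c7d40000000099238c07fffffece446eda9000000679092ee4e0000078892e6074bffffafa907733a57fffee4825ba1c3b0001687ba14dd00dffff40e04ed7814bffd7ef2e06dd7bb7ff5900443fb0bd6ff6f8cfbf980b441fffffffffef9ee5c0000000003beada800000000d7da5deffffffff7914c31dfffffffa0d2204d4000000744f6db0b800000197c379248fffffa6e68bdeba2000016c9f515222c000361e0e88939e7fe6f20510a2e0b0fa91a8b9d4576b6986b51af4c24d37c041f94afd98221798000000000000cdf0000000000003969ffffffffffea16bc0000000000f46398000000000634cfefffffffff34262aa000000000d7c726c00000007e1fc5bb7ffffffbe7270828ffffffd54edb2c26000004035446fb23ffffe9da1226da47fffb9cc24c2d0b6fffc29dc9a0942f9ffffffffffffa0abffffffffffaa5be800000000054a40f0000000001805045ffffffffad74043c00000001c4cbb32800000022a27edd4ffffffe2da791929ffffffd05f87396400000d21110ae4c7ffff9ef27fa0c2b000021720ff27b9600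0f7da02ff266a400a8e0d63463f42800000000002fb9d0000000000f9ba1a000000000bbfba63fffffffe9249b15800000001c99738b0000000e0a9dc999ffffff9241de6243fffffc82b1165688000033a1ba6f75900000241a9072eedffff641186c3b453fff77c7d7c5c74e7fea782315439b8eff12db13021ee739ffffffffff1a1c03ffffffffc6f76677fffffff93e94838fffffffff62aa9fa00000059d7217b33fffffe0c5424a447ffffdc9c4d88595000017d9bf8ca6de000053f3c1517a6bfff94e817270e3b800035e6a2169fbd000cc112e1106b2a004ffcac30df851404041c32c3af9527fffffffffffffff000000000000000200000000000000c3ffffffffffffec080000000000016f2ffffffffffff4411fffffffffffd641c000000000051cda800000000020e742fffffffff95b2706000000004b945913fffffffdb6f39bf8000000bc0e9dc6900000455b25a5a71ffffffffffffffac0000000000000327fffffffffffff1b000000000000218dfffffffffffda434000000000001d5580000000001a843afffffffffeed5e05fffffffff9f193dc00000000e9a8abb7fffffff93956516fffffffe5aeb9191fffffe0cf3dd6b73ffffde808d663bd800000000000005b0000000000000bd5ffffffffffffb6cbfffffffffffd9c78000000000001a4d000000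000021d26dffffffffff34c733fffffffff626086800000000ac57ef8ffffffff85578bee00000004ed0ff4c3fffffffe6934d357fffffd58615b32cfffffc5eb3013de600000000000066bbfffffffffffd6df7ffffffffffe02dd000000000006bdc20000000000c75463ffffffffff8238d7ffffffff84a38c5000000002440dc9e0000000214904c53fffffff0519e7427ffffffc39f61ed5000000230fbb1856000000976da97c2bfffff738653ef0e80000000000001630000000000000475ffffffffffff88fbfffffffffffac8c800000000006e78b0000000000198a41fffffffffa1dd0ac00000000227314f80000000213e9266fffffffd86d3542a0000000838386abc000001e3639015a8000084913d411150000abea5d0f31820000000000003a6bfffffffffffca767fffffffffff634900000000001aaa21ffffffffffbbd603fffffffff5da8d6800000000562c163000000001fe4c191fffffffd1b83ed6400000011d0003607fffffffb3bb557cffffff9d31602bf600000a9ce2cf1d940000bbe23c4194d7ffffffffffef21efffffffffffc58ba0000000000ad6d6c000000000042d0a7ffffffffb8f1b9d000000000d60045a0000000189054343fffffff54554df87ffffffb84e985b1000000318d2b8c920000003bac81121bfffffc03daf79d17ffffd900c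d96fa8ffffbd07c0572659fffffffffffdd73bfffffffffff1b9d80000000001a243affffffffff83c129fffffffff9acbe6c0000000071e16c27fffffffed13e28cfffffffde428507200000011a802f0ac0000003035dfd227fffffc8e8c82fb8ffffffbd4335d9ddffffcf1b81c24b13fffccfff0e1bad67ffffffffff38ddf0000000000728726000000000081058bffffffffd012f7f8000000017afb5cb0000000038fca28dfffffff594b62e54000000380e048e18000001c3c384f8afffffebe958f5c61ffffff99052b76a4000021f6930b6bf80000afc16b7b42d0000e4836150476e000000000295b1f40000000014aa7ea7fffffffeb60a50300000000024e9d1e00000003f59bf323ffffffef55f54b27ffffffe2a1c4f2d00000014b393fc6dffffff15cce86f540000077b7a622ca800000cb255d42faffffee6183859125ffffd92464960cf3fffbf2a2d4c6bd5⟩,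
  ⟨1920, 128, 116, 0, 0, 14, 64, 0x800000000004aeb57ffffffffff98cec7fffffffff024b1f8000000005d3ff6880000000150abbd27ffffffea0e481038000000428df60bb8000000f59c5cd787ffffee746c2d9c4800009cd4029f35b7ffa4ee8a88c8dd77f1f24d491ac739673e9c8d3031643bc46da828a0bfc912a7ffffffffff8b2c3800000000007f5ad800000000193057b7ffffffff6a3ae1b7fffffffe1c18fe5800000022acea85f7ffffff8979955947fffffe6de8b5b6c8000021f0cebf2d77fffeec226447dfa8007863c0b2135c18121aaf1602170a98f17aff74a30ba9fc5e05118c723172c80000000000002217ffffffffffff7137fffffffffff868c80000000000577e07ffffffffffbc0057fffffffff02eeae80000000061e545f80000000000afd277fffffff5077eb2b800000052633bb057fffffe9adf69dbd8000000357e7ebef8000144e48d99f838000b75b52dacb8e7ffffffffffff4727fffffffffff313880000000000da3f97fffffffffe7c21b7ffffffffd6a9113800000001157cab78000000012ae56a67ffffffdbe25821c8000000773a23e107ffffffa8e6d96337ffffff4266ec5a17ffffc14ed1b7bdc7ffed7194b779f267ff7abffaf90cd208000000000002ee080000000000c6a6480000000002107597ffffffff92a64e7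80000000183c766680000000dd0a258d7ffffff9409d66487ffffffbf3dd41d6800000a6001b285e7ffffec6b760ba2f7ffffad819e79731800069572c88ad4a8007bcf93706e44a803037d3f9886c037fffffffffffa65f7fffffffff590b0d7ffffffff5ece5588000000027812d7e8000000341af81897fffffed40cd78267fffffc089639c1c800002d5d1977d027ffffede75bda6af7fffd3d1bdf3b02d80004e19accec92d80008037a6afb9c37ff6207d3e3e4b757fca75fbbc7e4cf280000000000a675c7ffffffffff53a527ffffffffda1305f800000000e5e478b800000002b2d0bcf7ffffffc9a68989c8000000d0be7c5538000002b541666877ffffbdf7e33f64880001e551ee18d067ff4f899bf9f62e07e5e2cb07597bc616ad8bfc21c8e1d171ffdbc007e39ec477ffffffffffffd848000000000000c2080000000000081f97ffffffffff9a6a680000000000531c9800000000131d0ad7ffffffff890107b7ffffffffb2dcbe080000001354daaf17ffffff6fb0796758000001b6fa2b91180000065a05a59367fffdbbf81eca82b7ffec1ee906f15388000000000001001800000000000dcbf7ffffffffff0006e80000000001efdfd800000000307457b7fffffffeb42022e7fffffffe8aab9ce80000002ecd287577ffffff46afdc8ee8000000e1b9b6d6e8000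00801fdb5ff58000042c2cc17bbb800201b6726cdf88800e81c944c90a197fffffffffffa9177ffffffffff065a97fffffffffe0642e80000000081fce887fffffffe23c525b7ffffffefad78c41800000081b4b7fa980000004d05791cb7fffff36bedd20008000017fc851ed968000065e0c0c67b37fff4f866e44f2f77ff28fa4f246cc047fac9d436bbce99a8000000000004fff8000000000e2193a800000000c50a4ad7fffffffcce71eba7ffffffc2589d99f80000016ae2107cd8000004a8bc762d87ffffc99ec445f37800001622cb3e4a180003500165efd6c7fffa2ddf6ecb2937fff9661449cf32f801050288d2f661f805d5d5c0c871fb380000000000000007fffffffffffffff800000000000000a7fffffffffffffd47ffffffffffffef68000000000000f117fffffffffffd9a67ffffffffffdc8e480000000001ae30a7fffffffff7e73d580000000008d73bf7ffffffff4910e4b80000005925517bc80000120cf4919078000000000000000800000000000000d7fffffffffffff967fffffffffffffc280000000000018517fffffffffff67df7fffffffffffb2de80000000001cb1e97fffffffff25706480000000028d840c800000000dbb49ff7fffffff50bff16f7fffffbee623b65f7ffffd68b5138555800000000000000e7fffffffffffffc87fffffff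fffffd7d80000000000018e07ffffffffffff9137ffffffffffcb18980000000000c74d9800000000017294d80000000003b72a57ffffffff40ef4a380000000182f908680000001c57563827fffffef16c4d4d67ffffef04fae5e177fffffffffffff997ffffffffffffb8680000000000032c1800000000000ba5a7ffffffffff169dc8000000000181ce280000000019e36a27ffffffff87d53977fffffffefdf30b780000000a79435357fffffff7afa0c787ffffffa7cebec9a800000158a94ea477fffffa67bcd8d3a80000000000000107fffffffffffff1e80000000000003e280000000000017b77ffffffffffe85b9800000000005208b80000000001f51637ffffffffe63ede380000000073d59f67ffffffffe20bf507ffffffed6155b818000001b3daaf1268000049bb08df732800033bd260015087fffffffffffff697fffffffffffffd980000000000023db7ffffffffffeb975800000000002127f80000000002944267ffffffffef127398000000000aad8f2800000000a536b4b7ffffffff3d3c5b5800000012c99a3227fffffee9a989016800000fdfd086f3480000e0a5473c4cc7ffffffffffff23280000000000045da7ffffffffffed4aa7ffffffffff5102a8000000000a6ebb67ffffffffea5b4337fffffffeecf8256800000005c8aa6ea800000007c61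78717ffffff926a2215c80000004c5ad1f1d8000003a4525d2857ffffecd8e09e5da7fffec7a4ecfc0007ffffffffffff29a80000000000015598000000000000248800000000006cd0f7ffffffffff61cef7ffffffffe5030f38000000008af990a80000000178773717ffffffee8db6ec3800000012305fbe08000000bc4ae52ce7fffffcde38323c57ffff90606e30f487fffbffd75294fe180000000000008e58000000000046ab47ffffffffff983a47fffffffffdc75987ffffffffe2bd0328000000009f6dc0280000000439a063d7ffffffde933f2c17fffffff15572d3b800000251e1b2ab97fffffca709a7f027fffff5ac68e9bdc8000088959cbd11780004946c5834624800000000012e7657fffffffffe0eab77ffffffffe8bc5b6800000000562a854800000000e13829e7fffffff9996f6a97fffffff9a84a92c80000006885eb2c37fffffff6745e23a7fffffa919ffa5db80000074933fd99c800001a2caf6f9637ffff59cb6ff04497fffab69192572f3⟩,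
  ⟨2304, 256, 117, 0, 0, 14, 65, 0x1fffffffff2df4d54ffffffffc4d3c49a80000000ab815515c0000000288f47669ffffffd9cfbbdc130000001b6fa760c48000003a5f88b5cec000001ccc1a64f29ffffe35edd7dbddf000009c6da77755d7fea10062ff7f0463eed276f09fc3ab7db8371b7a6cdbefa89a18bfab0095bf6e8000000004bee2b9c0000000161c00a15fffffffc0354c26affffffff42ea67eb8000000d795db6be3ffffff5edb501e89ffffff05f9e6132efffffe1c17fb92fd80000b555c23ea6bc0000227d11fe13ae0073741f44731a35058d9d37b01ef81e96a83723d9022953df876f74f4d1bfa2dffffffffffeec07afffffffffffd96f880000000007a77b03fffffffff527a539fffffffff3de1d97000000002f1050137fffffffe617914fbfffffffe1a04cce1fffffffbe86761d30000000e11d3c0838000000a907014febfffffcdd4825e49200004d71024045990000f32163f3d447800000000016835dc000000000dd7dffdffffffffe0b81ab6ffffffffde67b73f80000000a36a1c303fffffffa611ab359ffffffed08d48c6700000018158035d580000015e0bd22623fffffda4d55146ddfffffcd3e3784d50ffffee94619a4e9e7ffebedad2a77f753ffd03543779c3445ffffffffff38dfe2ffffffffd490b4137fffffff97d3c7824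000000172188d11a000000081b65af30ffffffae16c54ad78000003a0eaa116d400000711868b9b99fffff51b2f23f768fffffefc9239381e800008793ae083a6400056ca5086d1eb60027386abf86cd8f004aa4ee2f468a377fffffffff651634400000008160f7dba00000034e4c01efb0000001d199db6427ffffeec065376adc000003ad0336f586000028b393b9732effffdaf3d4b3eb697fffda52db03b71ec0003ea35f252160a00001c8ffe552cd4fffcb1431af7581f7ff60809f3f2539d3febe5e025302ef7dffffffffe415fda4ffffffff81b1912c80000001742dbc2c40000000208f1b28dffffffb7c31c7e330000003b8c29eab580000025da0e4d11c000014d1dd3b9959ffffb94deec87cc0ffffc0f062b42eb37fd5a19473e48c1abdfe0a5fe1abbed717fae5ffbcef65fb650b41b8ee49773b78000000000055a57c000000000002ac0dfffffffffdb3b631000000000367609380000000035e6d2fbffffffff1aefffe600000000af74028affffffffd292887a8000000256a201e3bffffffd6169e489dffffff3b8e220efb0000018bc0effa097fffdeba898e9fda3fff966f92472e139ffffffffff7b908efffffffffbe3607a8000000009b40df8c000000009af107c5fffffffcea8eb9ab00000001cc5e4454800000054a1f2648bffffff9cc05c0db5fffff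f9873fe86af000000300900ff2a800002080ecdffd840000871daddbf96600089f36ee227f030014b9d1a60d981d80000000004d239dc00000000e001d6aa00000001ecf6cbc4fffffff8dff9a16b7ffffffdb82858c2c0000018e193298cdfffffee18ac10154fffffddf12fd70958000034ec87336b8c000003fc300cf1a9ffffd880fd20c2aefffd9d54984fddee7feeed9f18283e113fdfad2251c88c59600000000059639dafffffffd59f1ad4c7fffffef6b2a2422bffffff7ecee007520000054724f8109efffffecc86b1f3b87ffff3a75351386b40000b48a92ced36a0000b765f00fb23efffed01dea16e3067ffff4f3fcf6a747400131713e009a35a004676dfbce159a3008cc34a059eed03800000000000000540000000000000519fffffffffffff11f000000000000066d8000000000002bf63fffffffffff8101600000000000e0ee0ffffffffffeba524800000000006a6cdc0000000004afab0dfffffffff883851affffffffc0b106488000000543b8050e4000004c4614e29b20000000000000334ffffffffffffeb98800000000000195b4000000000002dfadfffffffffff54b9d00000000000d51547ffffffffff32cf3c0000000001687522000000000104575cffffffffef7df5c6800000002a1d15bb3fffffffd910cb27dfffffef1f31ae93efffffca0f5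831b328000000000000176bffffffffffff66820000000000061914fffffffffffafb907fffffffffea731fc00000000027391f60000000001657d04fffffffff7932bdd8000000007dea3d4400000000927b71e5fffffffd9949f29300000003c9de67e87ffffff85c89c21c3fffffb339f6cf2a1ffffffffffffb3270000000000034a5e7ffffffffff6d9fb3fffffffffb37387a0000000007e712f30000000009624d7a7fffffffe3247163c000000008467fb960000000233279302fffffffddb494b6d8000000001a69f2bc00000002898405f200000017c4bb4814ffffffc4b252c3977fffffffffffefef4000000000005139dfffffffffffd034effffffffffebd3a380000000002c2bfdbfffffffffee53b91fffffffffda3007300000000014e92e17ffffffff99d7df3c00000003125baca1fffffff705fde8150000004cf826f9aa8000052423fe1907c000109a3b77bbc42000000000001679cfffffffffffc9de27fffffffffec97acc00000000027dd7a600000000022b6e70fffffffff680b14b800000000373ecf0c000000011965d99dfffffffee3f24066fffffffdffbc1c3380000005577c182b3ffffffb377bd988e000002e61b06f8330000108a31c64ea97ffffffffffda3ee3ffffffffff6cab8e0000000003a1880d000000000c5f79ff7fffffffe4686eb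d3fffffffebe3a4ab20000000569e8fa06fffffffdccdb3ec27ffffff997246813c0000006fae42dc76000000048296bc70ffffffd95f576f807fffff56d70a96abbffffa8ce7be4f1e9ffffffffffe99a4d00000000000cf573800000000111a556bffffffffe5e3d8ddffffffffd989a6fb000000007b2ed92b7fffffffdb85ed40bfffffff31a1a1eba0000000e44443227000000037b5084bd7ffffff6c45af251bffffff4b96301989ffffe28853912b9effffaa422d14f3ba7fffffffff9000f1c00000000089df29dffffffffe93b5694ffffffffb98c8b1080000000be79f74f400000003ca021625ffffffdfb292b1db000000137ef09b0980000021c4fb1b1cbfffffd60a5307a91ffffff9ecad2d79900000187c41befd18000076adcc30531400017bf65c2419d600000000196686b30000000022e7bf8f7fffffffb92f827c400000000cc2e5afe000000008eb5d49afffffffb3175f9a28000000e1bf04fae3ffffff9651ac0b9dfffffecc72972e8b00000156a4e261c6800000458f243c143fffff38698143e6dffffe20028f1777affff95bf81afc098⟩,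
  ⟨2816, 256, 118, 0, 0, 14, 66, 0x7fffffffffa53d6f20000000003f7c9898000000006d52c589ffffffff458bd84c80000000179b47fa60000000cada0bcdd7ffffff13f8c922ee00000027a42e8a08800001134b3845f41ffffe1453d181aa37ff4ce48732327b41faab40cd7259f79b723755eda4a8759493fc27a3dbe71f9f28000000000834a74dfffffffffa42a4f57ffffffff5ee536fa000000010f3d484a7fffffffea7b8304dffffffebc0510d7980000016b3f2f0fe9fffffff29ef54fd97ffffde81b82b54960000340cbf6b6101800ee671f464a306a06ed059e1e929765919064091592b4832f0c58898dc100ae87fffffffffffe755200000000000450147ffffffffffe81fc1ffffffffffaa938e800000000062bb8e20000000000fa1feb7ffffffff90caaebe0000000051323977800000001c0f479a1fffffff8bf3588f680000006135feb63a000000213c60f63b8000095b9f805e70200013e9eabec58e4800000000000dfe69ffffffffffd169047fffffffffa834ee600000000093c2e6780000000008b41fd1ffffffff6a33846c800000006267e783a00000001fe1f9ae97ffffffa97987c4de000000442113a14580000007990022c09ffffe69aacbf69d57fff48cf070c4e5c9ffeeb40e42982974800000000000215c2000000000145fa5f800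000000714f4dde0000000050d370cb7fffffff2d30811720000000146050dd68000000931ae765f1ffffffac9589d5827fffffe039087d28a0000026e6a3f18547fffffeb69baa6826000160a4e74a534f80064f52a4f7a41220077829217e122d37ffffffffffa575d1fffffffff2419c9f7fffffff8f8cc5bbdffffffefcd929c137ffffffdd8a629a260000013d2d1806167fffffad134e36fcdfffff6959da55fc3800005e1e915ba4ba0000129036323d127fffe6b07c4ad94a1fffebdc5e4b72c0d7ff983df22631a061ff7ffcf4ad360c557fffffffff475445e000000000816ce83800000000e5f301b1fffffffe82bcb21580000000053e31d260000002005986a877fffffdda3f9bfd49ffffffb7caeb361680000408fc24ca865ffffa509f1d2d5ca7fe9d830f82de380df5f048a70fb9475166ec1dbd20aa2973cad965532dea53b2f8000000000001d435fffffffffffabb9c800000000001dd646000000000067922a7fffffffff8bfa37dfffffffffdf49d06800000000982bda51ffffffffa4bc1a0e7fffffffa32add0160000000e0bd3c8ca7ffffff715023b80dffffff8f26afe59f7fffefc635f979871fffdd7ae187eeddc7ffffffffffeec82e00000000003a386e80000000006adb09dfffffffff4ace8e17fffffffff30e28aa00000000bdb4693c7fffffff8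55dd4bc9fffffffc8188423c80000009018d5a61dffffff91fbda166f7fffffd2fb56238c200002e5a671c91ff80013ecca54e8b4e2001dfbea2a823afa7fffffffffffd2dd1fffffffffe6f6ab17ffffffff739a8b69ffffffff9e005fdf80000001033365e51fffffffe66298c017ffffff4b2cac517200000065d66c4add80000028b58765345fffffcf850e6d6d67ffffff743dc7a261fffd9709384085297ff5051701792a481ff309eef476d672a8000000000094974a0000000010cfd3b9800000008aa1a069200000013f62b34f5800000028cebb643dfffffe7a32a47330800000665f3231de600000b98b3b3893c7ffff8c47c4c31cf1ffffe8c868efb8b080001f4efb602b6d2000245e928651ff3800b5cd88c94dba0e00df8c5270eb911a8000000000000000dfffffffffffffff47ffffffffffffff9e00000000000000d580000000000000721ffffffffffffe3268000000000000a7a20000000000030e687ffffffffffa0013e000000000037be8f8000000000a01f169ffffffffc155a658800000025fb13a49e000001451d7dd8b87ffffffffffffffbe000000000000000480000000000000f91fffffffffffff4497ffffffffffff1a36000000000001a52d7fffffffffffe29c1ffffffffffd67989800000000044d60e9fffffffffca05cdc80000000004e296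96000000002bc2835b7fffffde30415c9c9fffffb9232ed216580000000000000099fffffffffffffd2e800000000000020e1fffffffffffeeccf800000000000dabde000000000006a67b7ffffffffff33fbd200000000006186547fffffffff8d1ce96000000000dc56b8d7ffffffff5e3dab22000000005c32ce967ffffffdb7c51c4edfffffeb6aecd50f67ffffffffffffe4be0000000000001f4a7ffffffffffff9e9200000000000990a080000000001a37ac5fffffffffe2de5f37fffffffff9a510da00000000142443377ffffffffa3fb4c09ffffffffaf7e37e980000000336e24335ffffffffb6fab7df8000000196a5d4081ffffffd7b9ff09d38000000000000009a00000000000003d67fffffffffffe9546000000000000e60e8000000000013b149ffffffffffe211d57fffffffffff95c9a00000000026070b87ffffffffcdfaaf4a0000000020a07b5e7fffffffcd2665f920000003fd61679da800002d69c07366fa00005814082dcea47fffffffffffff5b200000000000009aa80000000000067ec600000000000ad6c47fffffffffedd146e00000000000b83898000000000d5388e5fffffffff5157c3a80000000052503281ffffffffd8038eb97fffffffdac3a41b20000000019018c4c800000590f0ded6ea000013565beb695f800000000000179adffff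ffffffffbab37ffffffffffda0e41ffffffffff2fdc217ffffffffeee90f5e000000001a1404d88000000001d083c85fffffffefef7d24d800000005cc235e920000000344d1d29b7ffffffdf77ff0a3a0000000019378f1a7fffffac70a3940ddffffe774b005eb2a80000000000008cf600000000000056c47ffffffffffb020e9ffffffffff5275488000000000e85d7e20000000002db39c77ffffffff37e1d262000000004cd5681880000000388795c75fffffffcf06ccce2800000008d92cf9f5ffffffe4faa07d677ffffc21e5c18c74dffff8bf68a9b49f280000000000112a65fffffffffff3ec928000000000142f9ca000000000858f6958000000004e47eef9ffffffff3fddf9de800000001181c75860000000680a5c0bc7ffffffcd43d12f0dfffffff08d8503c28000000ed5cdf0cd200000007961145ef800003e63f1d572d200007e95b69f84b57ffffffffff13c425ffffffffff2fb4908000000000c823429fffffffff1fc967d7fffffffee7e81d5600000001a56271497ffffffffb0f6fc09fffffff14def0267800000066fe28ade600000025c0c7a2767fffffdf9f7e1ec5a00000008d2c0c0fd7ffffc08da11ad3d9ffff748029a69fb3⟩,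
  ⟨3328, 256, 119, 0, 0, 14, 67, 0x200000000001d6693c0000000000ec80547fffffffff00682650000000000075c22a000000002d12a172bffffffff7d035c6680000000297b15bc0fffffff3af6e552c2000000addb55b6c93fffffe5bed28e3677ffa59d053ee0b61cfe6738ed06e28446dd8b736279bdead23abac28bbff36b1d2d7ffffffffff50960cffffffffffa7e28ca0000000005feca133fffffffffee4dee37fffffffefb57ce830000000038a57f20dfffffffda69930b740000005e49504fe47fffffbad31d5bb9cffffffd70f2ef855a001e1c6d5e863889408554ecb88dddcf98c98a1c897cf40dcd66b6f69d020b74a7a0000000000001706bffffffffffff79e77fffffffffff88067000000000004b4de60000000000057093bffffffffff32c37280000000002eb1514fffffffffe364281600000000281234543fffffffeff4334a17fffffff575af75890000000fed23d9aea00001334d701ab1f400018a66295f37637fffffffffffddbaafffffffffffc529ce00000000004b908ac000000000051899a7ffffffffec24f5070000000002cd73982000000001e3dc7043ffffffffc5908c927fffffffa48244616ffffffffd4a83bcb200000054fe93ed6bbffffe9d0f972a75a7fff98661424e9dacfffa260f30ce4e3da0000000000005449c0000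000000d393bd80000000006fb7c08ffffffffecdafc7ee0000000006fbd3d5c00000003f97b48607fffffff5e21684d8fffffffac403d36ea0000001a63ff13ce3fffffffd81a1f63e800000010054a3dcb00005a75d5a09e9d2000f6b100fed34e4400af8e82a4dea71d7fffffffffff937f2fffffffffd9caa521ffffffffae565391c00000000b759f24c80000004cd9d9b9f6fffffff78eba49419ffffff406d1eb67140000022f4705f27f800000b54f468c528fffffc9c86b883149ffffff2d2e4044dabfffeac35b07528b37ffc0052d6cb09ad6ffd17a82655ee7f6e00000000004052ae40000000001fdfe5d7ffffffffdcd85cd50000000000da726a2000000005a624c363fffffffe7b37ff52800000018bcf49e8affffffd32ff567e92000001ba3c22559ac000004bc6ebb15417ff4cc92724efa574fcf60780c5bcafeb5b7a18b232ebe3f231b9ef865e0f372b4b7ffffffffffff8c850000000000002a2aa0000000000025b583ffffffffffe7f81b7ffffffffffebc2dd000000000040848bdfffffffffe889b7b400000000142da52b7fffffffedb4dbb710000000038cd60f720000000753dce64c3ffffff86adfba3287ffff79c879004292ffff54ea5ce565482000000000000b9dfc00000000001262c17fffffffffe84c242ffffffffffe778612000000000628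6568bfffffffff14b06197ffffffff84e9df0cfffffffffbf59a50600000001df9814e640000000ec25779357fffffd5aba1de6bf000009a722d17aff60002d30204629cf0c0028a27e22e59dde7fffffffffffdb4ccffffffffffb991575fffffffffdcc02acc000000005fe809257ffffffffdf8725fafffffffec2aef42a60000000321a0ede6c0000001a05bdfd8b7ffffff7ce41b92e500000002d5200e365ffffffcf4107da67bfffd88d8e4b7f4cd7ff949dccb093339affb3c355c71c106660000000000030e054000000000ce1840d800000001ad752110ffffffffc8d378001ffffffe7ecd52f6f400000029554fd1408000003bc9c216c5cffffff53a933d5e61fffffc72da8d85f6c000010c20c53d0fb80000053c96491ec1000097119f1d6a12a001be612136f0b3340144f9584e3d076f80000000000000000ffffffffffffffffe0000000000000007bffffffffffffffe47fffffffffffffe9300000000000001705fffffffffffff087c00000000000089b680000000000000d30fffffffffff7af73e00000000011bee33bffffffffd0c82a8180000001147a65c5500000055cd67ced1a0000000000000000400000000000000277fffffffffffffe60fffffffffffffface00000000000008963ffffffffffffcf1080000000000019e4afffffffffffeb6ade000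0000000044f3bc00000000007ad4517fffffffff8e42a1b0000000005b2c7771ffffffbca67f4ce73fffffa8450b26bc57ffffffffffffffad00000000000000421fffffffffffff95e40000000000003bb28000000000001514cfffffffffffef2149fffffffffffe280ec00000000003fbbe37fffffffffe9a1886ffffffffffe9d6b060000000004c2aa88c000000003a38e6d57ffffffef51c69788ffffffa9515afe6fa00000000000000193fffffffffffffe658000000000000525d00000000000184ff5ffffffffffeaf99abffffffffffd7183880000000003fefa74ffffffffffaf1c759fffffffffbbd3de34000000000f07d1d97fffffffff7130d4affffffffefbb269b2000000035e5b3e45bffffffe527f69a688000000000000007efffffffffffffefba00000000000007f54000000000000366d7fffffffffffceb2100000000000070401ffffffffffff9bb140000000000216b827fffffffffffa0fa6ffffffffff3d46565ffffffffae4005cf40000003c00d7cf148000018a3d911cd4f00001bf0b91ce9a65ffffffffffffffe540000000000000a1980000000000010c68fffffffffffeb3671fffffffffffee22d4000000000044825a7ffffffffffbce7c2ffffffffff669f9a60000000001f95314c000000001e4819397fffffffeae8a5932fffffffed96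469c26000000adb4dbea47400001619441d489b8000000000000020300000000000001b95fffffffffffca2d93ffffffffffbe73aa80000000005348b4d00000000004a4d895fffffffff1429a92c00000000179ab967800000000ffc508daffffffffbf2781156000000002f48ad5fc000000061a3218397fffffd5d0e02db60fffff93316041879600000000000001853ffffffffffffb0027ffffffffffed0e87000000000012aa21a000000000025422cbfffffffffba58e86800000000061e655d000000000674dca65ffffffffe647151bbffffffffe1e3dd108000000035406b21efffffff983635b685fffff80c81b4cbb63ffff6c97bdb897487ffffffffffffac9d00000000000044282000000000028203d400000000011114cf7ffffffffd748db850000000000885dc3e000000006af74878bffffffff2050533f7fffffff931ebbd7700000001b3e94959e0000000068e125ad400000007a3ea5a4f80000205f722680690000279efc0c42936000000000002bb344000000000006fd0c7fffffffffe602688ffffffffff4c773420000000015c406b6c0000000001b838267fffffffc69ff9b87000000006d686eb8600000003bea40104bfffffff1bad41ca27fffffff8acfdce710000000239af36171fffff7a6aa6287673ffff53b022b8fcdc⟩,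
  ⟨3840, 256, 120, 0, 0, 14, 67, 0x2000000000004340a400000000002980857fffffffffdf14a1b0000000000704c6260000000001baf77e3ffffffffacda36d580000000518d9446efffffffd84dd2b239ffffffe9d2f2a51740000029797afe8057ffa5b9820648820cfe23757ed536e4749cae1df7cd4460a99202a96cd595ae051a7ffffffffffeee650fffffffffff00d4a60000000000c6f4d0bfffffffffd18fcd27fffffffff2fe61ab00000000261e65915fffffffdd1c89394c0000000d443716698000000e6a9972386fffffe8c24265498e001e06bba056995c409be33a38fbee1f1911d8e1f7292b17eba1e72fbaec3a6d912000000000000053f3fffffffffffff5777fffffffffffeb1e70000000000009bb0dfffffffffffeab0d3fffffffffff0182080000000001744be2ffffffffff1480cda0000000001874fdbc000000008e0be7bb7fffffff6233e506700000006ba59231420000138ead4f5742c0001d8068c1aa3807ffffffffffff99c8fffffffffffe6397e000000000009f1e8c00000000002a93b47fffffffffe284f5700000000005f24439fffffffffda7f1bc400000000080d75448000000015257cdbcfffffffda2a3f269e000000317dedd5c53ffffed174e7fc1807fff8e339901febecfff872b5d6ab3cd4a000000000000153840000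00000054b6fe8000000000763d2a0fffffffffcec36be9fffffffff435ebd64000000007689f1647ffffffff7081e696ffffffffbabeb249e000000018419e41abfffffff6799f2ff680000008ba82c6e7b00005af5a5295324600124083813a01dec00f2e421471a4d747ffffffffffff03ceffffffffff0f6fff9ffffffffcff267273fffffffe0c3e773980000000fdd818a95000000024f23ada15ffffffe522abe8c0c00000021c97b1b158000000aa98e709beffffffd9816341166000000195f3667a73fffe9326c40437357ffb4c5e74293926cffc018265a5fc3aaa0000000000021d2c40000000000623f197fffffffffb65666b000000000130bb16e000000000614b03cbfffffffee8e8a68c80000000ef43a3e78fffffffbe91b63db9ffffff7e28f4e9e9400000a46ab900b047ff4d7caca8d551b8fc6fdd82f5ac5515d9d38bf7f4781d9f606509e2dbe457fbf37ffffffffffffe571000000000000032260000000000006fa6bfffffffffffc9ba78000000000007ddd300000000000780961ffffffffff599257400000000054f2652800000000137122b4ffffffffadd529a2e000000047562de4c3ffffffd5b256d7d37ffff77544de24384ffff330084f75ed2a000000000000231b400000000000827277ffffffffffccb370fffffffffff327896000000000097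189f3fffffffffd921cea800000000114f6db90000000000ccbdcf9ffffffff1e57a720c00000012079967b67fffffeba841f1cc10000082dbbe5fc9020003199bcd13aa96400347fa86f3a235d7ffffffffffff71e8ffffffffffe449175fffffffffdae3f904000000000f7e56db8000000003bbea888ffffffffdac221a6e000000002c05dc5340000000167cac2307fffffff76231fbdb00000003f87e73385ffffffc4253af3b03fffd8506beb593c87ff80d58e7b2d656eff96727399f3aab8a0000000000005d2040000000004f5aa5f800000000f73676fb000000009ce2392c9fffffffb0226af3b3fffffff43ebf246a800000086fa717e40fffffff5a76831299ffffffca04cdbee8c000000bd1fef997f7ffffffb53c87a0cf00009f2d6821a3e1a0020d260be30e4b1401be545932fd0ab18000000000000000100000000000000001fffffffffffffffd400000000000000527fffffffffffffbf300000000000001ce1fffffffffffffc7dbffffffffffffafe28000000000004d37cfffffffffffb4730a0000000000ac2b08bffffffffdb43f45e80000000ffb5d440700000059f40a8d2d1ffffffffffffffffbffffffffffffffff800000000000000e4ffffffffffffff106000000000000073ebfffffffffffff6b47fffffffffffe26710000000000019027dfff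ffffffffd3fb6c00000000003959aa7ffffffffff3d5c15000000000314ab62dffffffbcc66e44073fffff977314fd0497fffffffffffffff1000000000000000ddfffffffffffffe09c000000000000056880000000000004602ffffffffffffedecdffffffffffff8e8a4000000000002c66d8000000000032de88ffffffffffc0e08620000000000265a6bc00000000586db7d17fffffff1c3cc8b4affffffa56f049f3a200000000000000033ffffffffffffff6b8000000000000169b000000000000a1b59fffffffffffd5afd3fffffffffff08c378000000000066dcfefffffffffffbed239ffffffffffbdcf6a40000000001b6786c7fffffffffd08aa2effffffffed806f05600000002dd3e86723fffffff1a724f0f680000000000000008fffffffffffffff71fffffffffffffda3400000000000023a37ffffffffffff8be2ffffffffffff86ea600000000000750b53ffffffffffbe4c977fffffffffcbb955f00000000005ba6215ffffffffad38c750c00000037ffd68548800001a73e90b67cb000022545df25ad91fffffffffffffff1c000000000000028180000000000007858ffffffffffffd8199ffffffffffff3f7e40000000000055ed7800000000000351f70000000000051f77dffffffffff02c7014000000000b14ef55800000000257b5bdafffffffe820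d7bf62000000a264944cbcc000018ba512561828000000000000001d00000000000001c39fffffffffffee55f3ffffffffffd9a4d080000000000bee2af000000000037d5bd5fffffffffe64f83bc0000000001017aa580000000010bb146cfffffffffa8962b11fffffffff9a8eb47400000005e1cdeacd7fffffd8b5a8a12b2fffff8902a97a6a5a000000000000007cbffffffffffffec8e7fffffffffff7f8450000000000025925200000000000ed1f5bffffffffff90d68b800000000004e030b00000000004d0f6fdfffffffffebfe6393fffffffffa924672800000001b5e4fa0cfffffffb12c6436b1fffff7df99effd563ffff4c6c0651c4cb7fffffffffffffc8b00000000000008bd200000000000f3a3dc00000000011839987fffffffff95de0aefffffffffe86db402000000000cad70aabfffffffff426e9837ffffffffa6f106cb000000001407d07d9ffffffff91b5971b40000000f97734a308000020dd3106826900002fc54ee53c62a00000000000006c93ffffffffffffd1977ffffffffff8c9afcffffffffff68efdfe000000000365ae8b4000000000d0e8eac7ffffffff94ea378d0000000005cb517c2000000003086d8a63ffffffff5cb28e7c800000001d1143fcafffffffc54878ae4dfffff78e9cc848ed3ffff322984a532de⟩]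

end P264.LC
end
end

section

section

section

section

open scoped ENNReal ContDiff Topology ComplexOrder
open MeasureTheory Set Filter

noncomputable section

namespace Vale.Agent.P264

set_option linter.unusedSectionVars false
set_option linter.unusedVariables false

section Jac

variable {n : ℕ} {E : Type*} [NormedAddCommGroup E] [NormedSpace ℝ E]

/-- Jacobi formula -/
theorem hasFDerivAt_det {M : E → Matrix (Fin n) (Fin n) ℂ} {D : Fin n → Fin n → E →L[ℝ] ℂ}
    {x : E} (h : ∀ i j, HasFDerivAt (fun y => M y i j) (D i j) x) :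
    HasFDerivAt (fun y => (M y).det) (∑ i, ∑ r, (M x).adjugate i r • D r i) x := by
  have h1 : HasFDerivAt (fun y => ∑ σ : Equiv.Perm (Fin n),
      (((Equiv.Perm.sign σ : ℤˣ) : ℤ) : ℂ) * ∏ i, M y (σ i) i)
      (∑ σ : Equiv.Perm (Fin n), (((Equiv.Perm.sign σ : ℤˣ) : ℤ) : ℂ) •
        ∑ i, (∏ j ∈ Finset.univ.erase i, M x (σ j) j) • D (σ i) i) x := by
    have h2 : ∀ σ : Equiv.Perm (Fin n), HasFDerivAt (fun y =>
        (((Equiv.Perm.sign σ : ℤˣ) : ℤ) : ℂ) * ∏ i, M y (σ i) i)
        ((((Equiv.Perm.sign σ : ℤˣ) : ℤ) : ℂ) •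
        ∑ i, (∏ j ∈ Finset.univ.erase i, M x (σ j) j) • D (σ i) i) x := fun σ =>
      (HasFDerivAt.finsetProd (g := fun i y => M y (σ i) i) (g' := fun i => D (σ i) i)
        (u := Finset.univ) (fun i _ => h (σ i) i)).const_mul _
    exact HasFDerivAt.fun_sum fun σ _ => h2 σ
  have h3 : (fun y => (M y).det) = fun y => ∑ σ : Equiv.Perm (Fin n),
      (((Equiv.Perm.sign σ : ℤˣ) : ℤ) : ℂ) * ∏ i, M y (σ i) i := by
    funext y
    rw [Matrix.det_apply']
  rw [h3]
  convert! h1 using 1
  ext v
  simp only [sum_apply, smul_apply, smul_eq_mul]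
  have h4 : ∀ i, ∑ r, (M x).adjugate i r * D r i v =
      ((M x).updateCol i (fun r => D r i v)).det := by
    intro i
    have := congrFun (Matrix.cramer_eq_adjugate_mulVec (M x) (fun r => D r i v)) i
    rw [Matrix.cramer_apply] at this
    rw [this]
    rfl
  simp_rw [h4, Matrix.det_apply', Finset.mul_sum]
  rw [Finset.sum_comm]
  apply Finset.sum_congr rfl
  intro σ _
  apply Finset.sum_congr rfl
  intro i _
  congr 1
  rw [← Finset.mul_prod_erase Finset.univ _ (Finset.mem_univ i), Matrix.updateCol_self, mul_comm]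
  congr 1
  apply Finset.prod_congr rfl
  intro j hj
  rw [Matrix.updateCol_ne (Finset.ne_of_mem_erase hj)]

/-- derivative of the logarithm of the determinant -/
theorem hasFDerivAt_logdet {M : E → Matrix (Fin n) (Fin n) ℂ} {D : Fin n → Fin n → E →L[ℝ] ℂ}
    {x : E} (h : ∀ i j, HasFDerivAt (fun y => M y i j) (D i j) x) (hp : ∀ y, (M y).PosDef) :
    HasFDerivAt (fun y => ((Real.log (M y).det.re : ℝ) : ℂ))
      (∑ i, ∑ r, (M x)⁻¹ i r • D r i) x := by
  set DD := ∑ i, ∑ r, (M x).adjugate i r • D r i with hDD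
  have hd := hasFDerivAt_det h
  have hreal : ∀ y, (M y).det = (((M y).det.re : ℝ) : ℂ) := by
    intro y
    have h0 := (hp y).det_pos
    rw [Complex.lt_def] at h0
    apply Complex.ext
    · simp only [Complex.ofReal_re]
    · rw [Complex.ofReal_im]
      exact h0.2.symm
  have hpos : ∀ y, 0 < (M y).det.re := by
    intro y
    have h0 := (hp y).det_pos
    rw [Complex.lt_def] at h0
    exact h0.1
  have hre : HasFDerivAt (fun y => (M y).det.re) (Complex.reCLM.comp DD) x :=
    Complex.reCLM.hasFDerivAt.comp x hd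
  have hreC : HasFDerivAt (fun y => (((M y).det.re : ℝ) : ℂ))
      (Complex.ofRealCLM.comp (Complex.reCLM.comp DD)) x :=
    Complex.ofRealCLM.hasFDerivAt.comp x hre
  have heq : Complex.ofRealCLM.comp (Complex.reCLM.comp DD) = DD := by
    have h5 : (fun y => (((M y).det.re : ℝ) : ℂ)) = fun y => (M y).det :=
      funext fun y => (hreal y).symm
    rw [h5] at hreC
    exact hreC.unique hd
  have hlog := hre.log (hpos x).ne'
  have hlogC : HasFDerivAt (fun y => ((Real.log (M y).det.re : ℝ) : ℂ))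
      (Complex.ofRealCLM.comp (((M x).det.re)⁻¹ • Complex.reCLM.comp DD)) x :=
    Complex.ofRealCLM.hasFDerivAt.comp x hlog
  refine hlogC.congr_fderiv (Eq.symm ?_)
  ext v
  have h6 : DD v = ((DD v).re : ℂ) := by
    have := congrArg (fun L => L v) heq
    exact this.symm
  change _ = ((((M x).det.re)⁻¹ * (DD v).re : ℝ) : ℂ)
  have e1 : ∀ K : Fin n → Fin n → ℂ, (∑ i, ∑ r, K i r • D r i) v =
      ∑ i, ∑ r, K i r * D r i v := by
    intro K
    rw [FunLike.coe_sum, Finset.sum_apply]
    apply Finset.sum_congr rfl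
    intro i _
    rw [FunLike.coe_sum, Finset.sum_apply]
    rfl
  have a1 := e1 (fun i r => (M x)⁻¹ i r)
  have a2 := e1 (fun i r => (M x).adjugate i r)
  rw [Complex.ofReal_mul, Complex.ofReal_inv, ← h6, ← hreal x]
  refine a1.trans (Eq.trans ?_ (congrArg (fun w => (M x).det⁻¹ * w) a2.symm))
  rw [Finset.mul_sum]
  apply Finset.sum_congr rfl
  intro i _
  rw [Finset.mul_sum]
  apply Finset.sum_congr rfl
  intro r _
  rw [Matrix.inv_def, Ring.inverse_eq_inv', Matrix.smul_apply, smul_eq_mul]
  ring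

end Jac

end Vale.Agent.P264
end
end
end
end
end

section

attribute [-instance] ProperSMul.toContinuousSMul IsTopologicalTorsor.toContinuousSMul IdemSemiring.toCanonicallyOrderedAdd IdemSemiring.toMulLeftMono IdemSemiring.toMulRightMono AddQuantale.instAddLeftMono AddQuantale.instAddRightMono Quantale.instMulLeftMono Quantale.instMulRightMono FiniteDimensional.rclike_to_real IsScalarTower.complexToReal FiniteDimensional.complexToReal

section

/-!
# P264 / B : the one-dimensional (momentum) form of the `U(n)`-invariant Calabi flow on `ℂPⁿ`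

Interface between the geometric part (`Vale/Agent/P264/Geo`, helper618 / helper643) and the
analytic part (`Vale/Agent/P264/B`, helper771 / helper259 / …).

`x ∈ [0,1]` is the moment map of the centre circle of `U(n)` acting on `ℂPⁿ = ℂⁿ ∪ ℂPⁿ⁻¹`
(`x = 0` : the fixed point, `x = 1` : the divisor at infinity), `φ(t,x) = |∇x|²` is the momentum
profile (`φ = dx/d(log r²)`), and

* `S = n(n-1)/x - x^{1-n} (x^{n-1} φ)''`       (scalar curvature),
* `φ_t = φ² S_xx`                               (Calabi flow).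

Fubini–Study: `φ = x (1-x)`, `S = n(n+1)`.
-/

open Set
open scoped ContDiff

namespace P264.B

/-- Scalar curvature of the momentum profile `φ` (usual derivatives; used for `0 < x < 1`):
`S = n(n-1)/x - x^{1-n} (x^{n-1} φ)''`. -/
noncomputable def scal (n : ℕ) (φ : ℝ → ℝ) (x : ℝ) : ℝ :=
  (n : ℝ) * ((n : ℝ) - 1) / x
    - (deriv (deriv (fun y => y ^ (n - 1) * φ y)) x) / x ^ (n - 1)

/-- A momentum profile of a smooth `U(n)`-invariant Kähler metric on `ℂPⁿ` in the class
normalised to moment interval `[0,1]`: smooth up to both ends, positive inside, and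
`φ(0)=0, φ'(0)=1, φ(1)=0, φ'(1)=-1`. -/
structure IsProfile (φ : ℝ → ℝ) : Prop where
  smooth : ContDiffOn ℝ ∞ φ (Icc 0 1)
  pos : ∀ x ∈ Ioo (0 : ℝ) 1, 0 < φ x
  left0 : φ 0 = 0
  left1 : derivWithin φ (Icc 0 1) 0 = 1
  right0 : φ 1 = 0
  right1 : derivWithin φ (Icc 0 1) 1 = -1

end P264.B
end
end

section

attribute [-instance] ProperSMul.toContinuousSMul IsTopologicalTorsor.toContinuousSMul IdemSemiring.toCanonicallyOrderedAdd IdemSemiring.toMulLeftMono IdemSemiring.toMulRightMono AddQuantale.instAddLeftMono AddQuantale.instAddRightMono Quantale.instMulLeftMono Quantale.instMulRightMono FiniteDimensional.rclike_to_real IsScalarTower.complexToReal FiniteDimensional.complexToReal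

section

/-!
# P264 / B : the interface between geometry and analysis in terms of the symplectic potential

`u(t,x) = x log x + (1-x) log (1-x) + U(t,x)`, `u_xx = 1/φ`, `u_t = -S`, with `U` and `φ` smooth up
to the boundary of `[0,T] × [0,1]`.
-/

open Set
open scoped ContDiff

namespace P264.B

/-- Admissible initial data: `U₀` smooth on `ℝ`, `u₀'' > 0`, i.e. `1 + x(1-x) U₀''(x) > 0` on
`[0,1]`. The initial momentum profile is `φ₀ = x(1-x)/(1+x(1-x)U₀'')`. -/
structure IsInit (U₀ : ℝ → ℝ) : Prop where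
  smooth : ContDiff ℝ ∞ U₀
  pos : ∀ x ∈ Icc (0 : ℝ) 1, 0 < 1 + x * (1 - x) * deriv (deriv U₀) x

/-- Smooth `U(n)`-invariant Calabi flow on `[0,T]` in terms of symplectic potential and momentum
profile. -/
structure IsFlowU (n : ℕ) (T : ℝ) (U₀ : ℝ → ℝ) (U φ : ℝ → ℝ → ℝ) : Prop where
  smoothU : ContDiffOn ℝ ∞ (fun p : ℝ × ℝ => U p.1 p.2) (Icc 0 T ×ˢ Icc 0 1)
  smooth : ContDiffOn ℝ ∞ (fun p : ℝ × ℝ => φ p.1 p.2) (Icc 0 T ×ˢ Icc 0 1)
  profile : ∀ t ∈ Icc (0 : ℝ) T, IsProfile (φ t)
  rel : ∀ t ∈ Icc (0 : ℝ) T, ∀ x ∈ Ioo (0 : ℝ) 1,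
    φ t x * (deriv (deriv (U t)) x + 1 / x + 1 / (1 - x)) = 1
  flow : ∀ t ∈ Icc (0 : ℝ) T, ∀ x ∈ Ioo (0 : ℝ) 1,
    HasDerivWithinAt (fun τ => U τ x) (-(scal n (φ t) x)) (Icc 0 T) t
  init : ∀ x ∈ Icc (0 : ℝ) 1, U 0 x = U₀ x

/-- Long-time existence of the one-dimensional flow for all initial data; the analysis proves the
negation of this for `n = 8`. -/
def LongTime (n : ℕ) : Prop :=
  ∀ U₀ : ℝ → ℝ, IsInit U₀ → ∀ T : ℝ, 0 < T → ∃ U φ : ℝ → ℝ → ℝ, IsFlowU n T U₀ U φ

end P264.B
end
end

section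

attribute [-instance] ProperSMul.toContinuousSMul IsTopologicalTorsor.toContinuousSMul IdemSemiring.toCanonicallyOrderedAdd IdemSemiring.toMulLeftMono IdemSemiring.toMulRightMono AddQuantale.instAddLeftMono AddQuantale.instAddRightMono Quantale.instMulLeftMono Quantale.instMulRightMono FiniteDimensional.rclike_to_real IsScalarTower.complexToReal FiniteDimensional.complexToReal

section

/-! # P264 / Geo / RedDefs : definitions for the reduction to one space dimension

`ψ(t,r) = log h(t,(1,√r,0,…))`, `r ≥ 0`; `ψi(t,ρ) = log h(t,(√ρ,1,0,…))`, `ρ ≥ 0` (the end at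
infinity); `ψ(t,r) = log r + ψi(t,1/r)`. -/

open Set
open scoped ContDiff

noncomputable section

namespace P264.Geo

/-- derivative in the second variable within `J` -/
def dx (J : Set ℝ) (f : ℝ → ℝ → ℝ) (t x : ℝ) : ℝ := derivWithin (f t) J x

/-- moment coordinate `x = r ψ_r` -/
def XX (ψ : ℝ → ℝ → ℝ) (t r : ℝ) : ℝ := r * dx (Ici 0) ψ t r

/-- logarithm of the volume density of a radial potential `g(|z|²)` on `ℂⁿ` -/
def Lrad (n : ℕ) (g : ℝ → ℝ) (r : ℝ) : ℝ :=
  Real.log (deriv g r ^ (n - 1) * (deriv g r + r * deriv (deriv g) r))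

/-- scalar curvature of a radial potential `g(|z|²)` on `ℂⁿ` -/
def Srad (n : ℕ) (g : ℝ → ℝ) (r : ℝ) : ℝ :=
  -(((n : ℝ) - 1) * deriv (Lrad n g) r / deriv g r
    + (deriv (Lrad n g) r + r * deriv (deriv (Lrad n g)) r) / (deriv g r + r * deriv (deriv g) r))

/-- The ray at infinity `σ ↦ (σ, 1, 0, …, 0)`. -/
def rayi {n : ℕ} (s : ℝ) : Cm (n + 1) := fun i => if (i : ℕ) = 0 then (s : ℂ) else if (i : ℕ) = 1 then 1 else 0

/-- One end of a radial potential. -/
structure End1 (T : ℝ) (ψ : ℝ → ℝ → ℝ) : Prop where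
  smooth : ContDiffOn ℝ ∞ (fun p : ℝ × ℝ => ψ p.1 p.2) (Icc 0 T ×ˢ Ici 0)
  pos : ∀ t ∈ Icc (0 : ℝ) T, ∀ r ∈ Ici (0 : ℝ), 0 < dx (Ici 0) (XX ψ) t r

/-- Radial data of a `U(n)`-invariant Calabi flow. -/
structure RadData (n : ℕ) (T c : ℝ) (ψ ψi : ℝ → ℝ → ℝ) : Prop where
  end0 : End1 T ψ
  endi : End1 T ψi
  rel : ∀ t ∈ Icc (0 : ℝ) T, ∀ r, 0 < r → ψ t r = Real.log r + ψi t (1 / r)
  flow : ∀ t ∈ Icc (0 : ℝ) T, ∀ r, 0 < r →
    HasDerivWithinAt (fun s => ψ s r) (Srad n (ψ t) r - c) (Icc 0 T) t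

/-- compatibility with the initial symplectic potential -/
def HasPotR (g U₀ : ℝ → ℝ) : Prop :=
  ∀ x ∈ Ioo (0 : ℝ) 1, g (x / (1 - x) * Real.exp (deriv U₀ x)) =
    -Real.log (1 - x) + x * deriv U₀ x - U₀ x

end P264.Geo

end
end
end

section

attribute [-instance] ProperSMul.toContinuousSMul IsTopologicalTorsor.toContinuousSMul IdemSemiring.toCanonicallyOrderedAdd IdemSemiring.toMulLeftMono IdemSemiring.toMulRightMono AddQuantale.instAddLeftMono AddQuantale.instAddRightMono Quantale.instMulLeftMono Quantale.instMulRightMono FiniteDimensional.rclike_to_real IsScalarTower.complexToReal FiniteDimensional.complexToReal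

section
set_option linter.all false
/-!
# P264 / Cal : smooth parametric integrals over closed convex sets, Hadamard division
-/
open Set MeasureTheory Filter Topology Function
open scoped ContDiff

namespace P264.Cal

section Param
variable {E : Type} [NormedAddCommGroup E] [NormedSpace ℝ E]

/-- Differentiation under `∫₀¹` within a compact convex set. -/
theorem hasFDerivWithinAt_integral {F : Type} [NormedAddCommGroup F] [NormedSpace ℝ F]
    [CompleteSpace F] {S : Set E} (hS : IsCompact S) (hc : Convex ℝ S)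
    {f : E → ℝ → F} {f' : E → ℝ → (E →L[ℝ] F)} {a b : ℝ} (hab : a ≤ b)
    (hf : ContinuousOn (fun q : E × ℝ => f q.1 q.2) (S ×ˢ Icc a b))
    (hf' : ContinuousOn (fun q : E × ℝ => f' q.1 q.2) (S ×ˢ Icc a b))
    (hd : ∀ p ∈ S, ∀ s ∈ Icc a b, HasFDerivWithinAt (fun q => f q s) (f' p s) S p)
    {p : E} (hp : p ∈ S) :
    HasFDerivWithinAt (fun q => ∫ s in a..b, f q s) (∫ s in a..b, f' p s) S p := by
  have hK : IsCompact (S ×ˢ Icc a b) := hS.prod isCompact_Icc
  have huc : UniformContinuousOn (fun q : E × ℝ => f' q.1 q.2) (S ×ˢ Icc a b) :=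
    hK.uniformContinuousOn_of_continuous hf'
  have hsec : ∀ q ∈ S, ContinuousOn (fun s => f q s) (Icc a b) := by
    intro q hq
    exact hf.comp (f := fun s : ℝ => ((q, s) : E × ℝ)) (by fun_prop) (fun s hs => ⟨hq, hs⟩)
  have hsec' : ∀ q ∈ S, ContinuousOn (fun s => f' q s) (Icc a b) := by
    intro q hq
    exact hf'.comp (f := fun s : ℝ => ((q, s) : E × ℝ)) (by fun_prop) (fun s hs => ⟨hq, hs⟩)
  have hint : ∀ q ∈ S, IntervalIntegrable (fun s => f q s) volume a b := by
    intro q hq
    apply ContinuousOn.intervalIntegrable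
    rw [uIcc_of_le hab]; exact hsec q hq
  have hint' : ∀ q ∈ S, IntervalIntegrable (fun s => f' q s) volume a b := by
    intro q hq
    apply ContinuousOn.intervalIntegrable
    rw [uIcc_of_le hab]; exact hsec' q hq
  rw [hasFDerivWithinAt_iff_isLittleO, Asymptotics.isLittleO_iff]
  intro c hc0
  set ε : ℝ := c / (b - a + 1) with hε
  have hba : 0 < b - a + 1 := by linarith only [hab]
  have hε0 : 0 < ε := div_pos hc0 hba
  rw [Metric.uniformContinuousOn_iff] at huc
  obtain ⟨δ, hδ, hδ'⟩ := huc ε hε0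
  have hball : S ∩ Metric.ball p δ ∈ 𝓝[S] p :=
    inter_mem self_mem_nhdsWithin (mem_nhdsWithin_of_mem_nhds (Metric.ball_mem_nhds p hδ))
  filter_upwards [hball] with q hq
  have hconv : Convex ℝ (S ∩ Metric.ball p δ) := hc.inter (convex_ball p δ)
  have hpm : p ∈ S ∩ Metric.ball p δ := ⟨hp, Metric.mem_ball_self hδ⟩
  have key : ∀ s ∈ Icc a b, ‖f q s - f p s - f' p s (q - p)‖ ≤ ε * ‖q - p‖ := by
    intro s hs
    apply hconv.norm_image_sub_le_of_norm_hasFDerivWithin_le' (f := fun q => f q s)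
      (f' := fun q => f' q s) (φ := f' p s) (C := ε)
    · intro r hr
      exact (hd r hr.1 s hs).mono inter_subset_left
    · intro r hr
      have := hδ' (r, s) ⟨hr.1, hs⟩ (p, s) ⟨hp, hs⟩ (by
        rw [Prod.dist_eq]
        simp only [dist_self]
        have h1 : dist r p < δ := hr.2
        exact max_lt h1 hδ)
      rw [dist_eq_norm] at this
      exact this.le
    · exact hpm
    · exact hq
  have e1 : (∫ s in a..b, f' p s) (q - p) = ∫ s in a..b, f' p s (q - p) := by
    rw [ContinuousLinearMap.intervalIntegral_apply (hint' p hp)]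
  have hintp : IntervalIntegrable (fun s => f' p s (q - p)) volume a b := by
    apply ContinuousOn.intervalIntegrable
    rw [uIcc_of_le hab]
    exact (hsec' p hp).clm_apply continuousOn_const
  rw [e1, ← intervalIntegral.integral_sub (hint q hq.1) (hint p hp),
    ← intervalIntegral.integral_sub ((hint q hq.1).sub (hint p hp)) hintp]
  calc ‖∫ s in a..b, (f q s - f p s - f' p s (q - p))‖ ≤ (ε * ‖q - p‖) * |b - a| := by
        apply intervalIntegral.norm_integral_le_of_norm_le_const
        intro s hs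
        rw [uIoc_of_le hab] at hs
        exact key s ⟨hs.1.le, hs.2⟩
    _ ≤ c * ‖q - p‖ := by
        rw [abs_of_nonneg (by linarith only [hab]), hε]
        have h2 : (b - a) / (b - a + 1) ≤ 1 := by
          rw [div_le_one hba]; linarith only []
        have h3 : c / (b - a + 1) * ‖q - p‖ * (b - a) = c * ‖q - p‖ * ((b - a) / (b - a + 1)) := by
          (clear * - hba hc0; field_simp)
        rw [h3]
        have h4 : 0 ≤ c * ‖q - p‖ := by (clear * - hc0; positivity)
        linarith only [mul_nonneg (sub_nonneg.2 h2) (sub_nonneg.2 h4)]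

/-- Continuity of parametric integrals on a compact set. -/
theorem continuousOn_integral {F : Type} [NormedAddCommGroup F] [NormedSpace ℝ F]
    {S : Set E} (hS : IsCompact S) {f : E → ℝ → F} {a b : ℝ} (hab : a ≤ b)
    (hf : ContinuousOn (fun q : E × ℝ => f q.1 q.2) (S ×ˢ Icc a b)) :
    ContinuousOn (fun q => ∫ s in a..b, f q s) S := by
  have hK : IsCompact (S ×ˢ Icc a b) := hS.prod isCompact_Icc
  have huc : UniformContinuousOn (fun q : E × ℝ => f q.1 q.2) (S ×ˢ Icc a b) :=
    hK.uniformContinuousOn_of_continuous hf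
  have hsec : ∀ q ∈ S, ContinuousOn (fun s => f q s) (Icc a b) := by
    intro q hq
    exact hf.comp (f := fun s : ℝ => ((q, s) : E × ℝ)) (by fun_prop) (fun s hs => ⟨hq, hs⟩)
  have hint : ∀ q ∈ S, IntervalIntegrable (fun s => f q s) volume a b := by
    intro q hq
    apply ContinuousOn.intervalIntegrable
    rw [uIcc_of_le hab]; exact hsec q hq
  rw [Metric.continuousOn_iff]
  intro p hp c hc0
  set ε : ℝ := c / (b - a + 1) with hε
  have hba : 0 < b - a + 1 := by linarith only [hab]
  have hε0 : 0 < ε := div_pos hc0 hba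
  rw [Metric.uniformContinuousOn_iff] at huc
  obtain ⟨δ, hδ, hδ'⟩ := huc ε hε0
  refine ⟨δ, hδ, fun q hq hqp => ?_⟩
  rw [dist_eq_norm, ← intervalIntegral.integral_sub (hint q hq) (hint p hp)]
  calc ‖∫ s in a..b, (f q s - f p s)‖ ≤ ε * |b - a| := by
        apply intervalIntegral.norm_integral_le_of_norm_le_const
        intro s hs
        rw [uIoc_of_le hab] at hs
        have := hδ' (q, s) ⟨hq, hs.1.le, hs.2⟩ (p, s) ⟨hp, hs.1.le, hs.2⟩ (by
          rw [Prod.dist_eq]
          simp only [dist_self]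
          exact max_lt hqp hδ)
        rw [dist_eq_norm] at this
        exact this.le
    _ < c := by
        rw [abs_of_nonneg (by linarith only [hab]), hε]
        have h3 : c / (b - a + 1) * (b - a) = c - c / (b - a + 1) := by
          field_simp; ring
        rw [h3]; linarith only [hε0]

theorem contDiffOn_integral_nat {S : Set E} (hS : IsCompact S) (hc : Convex ℝ S)
    (hu : UniqueDiffOn ℝ S) {a b : ℝ} (hab : a < b) (n : ℕ) :
    ∀ (F : Type) [NormedAddCommGroup F] [NormedSpace ℝ F] [CompleteSpace F] (f : E × ℝ → F),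
      ContDiffOn ℝ n f (S ×ˢ Icc a b) → ContDiffOn ℝ n (fun p => ∫ s in a..b, f (p, s)) S := by
  have huK : UniqueDiffOn ℝ (S ×ˢ Icc a b) := hu.prod (uniqueDiffOn_Icc hab)
  induction n with
  | zero =>
    intro F _ _ _ f hf
    simp only [CharP.cast_eq_zero, contDiffOn_zero] at hf ⊢
    exact continuousOn_integral hS hab.le (f := fun p s => f (p, s)) hf
  | succ n ih =>
    intro F _ _ _ f hf
    have hf' : ContDiffOn ℝ n (fderivWithin ℝ f (S ×ˢ Icc a b)) (S ×ˢ Icc a b) :=
      hf.fderivWithin huK (by norm_cast)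
    set f' : E × ℝ → (E →L[ℝ] F) := fun q =>
      (fderivWithin ℝ f (S ×ˢ Icc a b) q).comp (ContinuousLinearMap.inl ℝ E ℝ) with hf'def
    have hf'c : ContDiffOn ℝ n f' (S ×ˢ Icc a b) := by
      apply hf'.clm_comp contDiffOn_const
    have hdf : ∀ p ∈ S, ∀ s ∈ Icc a b, HasFDerivWithinAt (fun q => f (q, s)) (f' (p, s)) S p := by
      intro p hp s hs
      have h1 : HasFDerivWithinAt f (fderivWithin ℝ f (S ×ˢ Icc a b) (p, s)) (S ×ˢ Icc a b) (p, s) :=
        ((hf.differentiableOn (by simp only [Nat.cast_add, Nat.cast_one, ne_eq, add_eq_zero, Nat.cast_eq_zero, one_ne_zero, and_false, not_false_eq_true])) (p, s) ⟨hp, hs⟩).hasFDerivWithinAt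
      have h2 : HasFDerivWithinAt (fun q : E => ((q, s) : E × ℝ)) (ContinuousLinearMap.inl ℝ E ℝ) S p :=
        (hasFDerivAt_prodMk_left p s).hasFDerivWithinAt
      exact HasFDerivWithinAt.comp p h1 h2 (fun q hq => ⟨hq, hs⟩)
    have hder := fun p (hp : p ∈ S) => hasFDerivWithinAt_integral hS hc (f := fun p s => f (p, s))
      (f' := fun p s => f' (p, s)) hab.le hf.continuousOn hf'c.continuousOn hdf hp
    have := ih (E →L[ℝ] F) f' hf'c
    have hcast : ((n + 1 : ℕ) : WithTop ℕ∞) = (n : WithTop ℕ∞) + 1 := by norm_cast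
    rw [hcast, contDiffOn_succ_iff_hasFDerivWithinAt_of_uniqueDiffOn hu]
    refine ⟨by simp, fun p => ∫ s in a..b, f' (p, s), this, hder⟩

/-- Smooth parametric integrals over a compact convex set, closed up to the boundary. -/
theorem contDiffOn_integral {F : Type} [NormedAddCommGroup F] [NormedSpace ℝ F] [CompleteSpace F]
    {S : Set E} (hS : IsCompact S) (hc : Convex ℝ S)
    (hu : UniqueDiffOn ℝ S) {a b : ℝ} (hab : a < b) {f : E × ℝ → F}
    (hf : ContDiffOn ℝ ∞ f (S ×ˢ Icc a b)) :
    ContDiffOn ℝ ∞ (fun p => ∫ s in a..b, f (p, s)) S := by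
  rw [contDiffOn_infty]
  intro n
  exact contDiffOn_integral_nat hS hc hu hab n F f (hf.of_le (by exact_mod_cast le_top))

end Param

section Box
variable {a b c d : ℝ}

/-- `∂_t f` on the closed box `K` (`p = (t,x)`), one-sided at the boundary. -/
noncomputable def pdt (K : Set (ℝ × ℝ)) (f : ℝ × ℝ → ℝ) (p : ℝ × ℝ) : ℝ :=
  fderivWithin ℝ f K p (1, 0)

/-- `∂_x f` on the closed box `K` (`p = (t,x)`), one-sided at the boundary. -/
noncomputable def pdx (K : Set (ℝ × ℝ)) (f : ℝ × ℝ → ℝ) (p : ℝ × ℝ) : ℝ :=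
  fderivWithin ℝ f K p (0, 1)

theorem uniqueDiffOn_box (hab : a < b) (hcd : c < d) :
    UniqueDiffOn ℝ (Icc a b ×ˢ Icc c d) :=
  (uniqueDiffOn_Icc hab).prod (uniqueDiffOn_Icc hcd)

theorem contDiffOn_pdt (hab : a < b) (hcd : c < d) {f : ℝ × ℝ → ℝ}
    (hf : ContDiffOn ℝ ∞ f (Icc a b ×ˢ Icc c d)) :
    ContDiffOn ℝ ∞ (pdt (Icc a b ×ˢ Icc c d) f) (Icc a b ×ˢ Icc c d) := by
  have h := hf.fderivWithin (m := ∞) (uniqueDiffOn_box hab hcd) (by simp)
  exact h.clm_apply contDiffOn_const

theorem contDiffOn_pdx (hab : a < b) (hcd : c < d) {f : ℝ × ℝ → ℝ}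
    (hf : ContDiffOn ℝ ∞ f (Icc a b ×ˢ Icc c d)) :
    ContDiffOn ℝ ∞ (pdx (Icc a b ×ˢ Icc c d) f) (Icc a b ×ˢ Icc c d) := by
  have h := hf.fderivWithin (m := ∞) (uniqueDiffOn_box hab hcd) (by simp)
  exact h.clm_apply contDiffOn_const

theorem hasFDerivWithinAt_box {f : ℝ × ℝ → ℝ}
    (hf : ContDiffOn ℝ ∞ f (Icc a b ×ˢ Icc c d)) {p : ℝ × ℝ} (hp : p ∈ Icc a b ×ˢ Icc c d) :
    HasFDerivWithinAt f (fderivWithin ℝ f (Icc a b ×ˢ Icc c d) p) (Icc a b ×ˢ Icc c d) p :=
  ((hf.differentiableOn (by simp)) p hp).hasFDerivWithinAt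

theorem hasDerivWithinAt_pdx {f : ℝ × ℝ → ℝ}
    (hf : ContDiffOn ℝ ∞ f (Icc a b ×ˢ Icc c d)) {t x : ℝ} (ht : t ∈ Icc a b) (hx : x ∈ Icc c d) :
    HasDerivWithinAt (fun y => f (t, y)) (pdx (Icc a b ×ˢ Icc c d) f (t, x)) (Icc c d) x := by
  have h1 := hasFDerivWithinAt_box hf (p := (t, x)) ⟨ht, hx⟩
  have h2 : HasDerivWithinAt (fun y : ℝ => ((t, y) : ℝ × ℝ)) (0, 1) (Icc c d) x :=
    ((hasDerivAt_const x t).prodMk (hasDerivAt_id x)).hasDerivWithinAt
  exact HasFDerivWithinAt.comp_hasDerivWithinAt x h1 h2 (fun y hy => ⟨ht, hy⟩)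

theorem hasDerivWithinAt_pdt {f : ℝ × ℝ → ℝ}
    (hf : ContDiffOn ℝ ∞ f (Icc a b ×ˢ Icc c d)) {t x : ℝ} (ht : t ∈ Icc a b) (hx : x ∈ Icc c d) :
    HasDerivWithinAt (fun s => f (s, x)) (pdt (Icc a b ×ˢ Icc c d) f (t, x)) (Icc a b) t := by
  have h1 := hasFDerivWithinAt_box hf (p := (t, x)) ⟨ht, hx⟩
  have h2 : HasDerivWithinAt (fun s : ℝ => ((s, x) : ℝ × ℝ)) (1, 0) (Icc a b) t :=
    ((hasDerivAt_id t).prodMk (hasDerivAt_const t x)).hasDerivWithinAt
  exact HasFDerivWithinAt.comp_hasDerivWithinAt t h1 h2 (fun y hy => ⟨hy, hx⟩)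

theorem hasDerivAt_pdx {f : ℝ × ℝ → ℝ}
    (hf : ContDiffOn ℝ ∞ f (Icc a b ×ˢ Icc c d)) {t x : ℝ} (ht : t ∈ Icc a b) (hx : x ∈ Ioo c d) :
    HasDerivAt (fun y => f (t, y)) (pdx (Icc a b ×ˢ Icc c d) f (t, x)) x :=
  (hasDerivWithinAt_pdx hf ht (Ioo_subset_Icc_self hx)).hasDerivAt (Icc_mem_nhds hx.1 hx.2)

theorem pdx_eq {f : ℝ × ℝ → ℝ} (hcd : c < d)
    (hf : ContDiffOn ℝ ∞ f (Icc a b ×ˢ Icc c d)) {t x g : ℝ} (ht : t ∈ Icc a b) (hx : x ∈ Icc c d)
    (hg : HasDerivWithinAt (fun y => f (t, y)) g (Icc c d) x) :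
    pdx (Icc a b ×ˢ Icc c d) f (t, x) = g :=
  (uniqueDiffOn_Icc hcd x hx).eq_deriv _ (hasDerivWithinAt_pdx hf ht hx) hg

theorem pdt_eq {f : ℝ × ℝ → ℝ} (hab : a < b)
    (hf : ContDiffOn ℝ ∞ f (Icc a b ×ˢ Icc c d)) {t x g : ℝ} (ht : t ∈ Icc a b) (hx : x ∈ Icc c d)
    (hg : HasDerivWithinAt (fun s => f (s, x)) g (Icc a b) t) :
    pdt (Icc a b ×ˢ Icc c d) f (t, x) = g :=
  (uniqueDiffOn_Icc hab t ht).eq_deriv _ (hasDerivWithinAt_pdt hf ht hx) hg

theorem pdx_congr {f g : ℝ × ℝ → ℝ} (h : ∀ p ∈ Icc a b ×ˢ Icc c d, f p = g p) {p : ℝ × ℝ}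
    (hp : p ∈ Icc a b ×ˢ Icc c d) :
    pdx (Icc a b ×ˢ Icc c d) f p = pdx (Icc a b ×ˢ Icc c d) g p := by
  unfold pdx
  rw [fderivWithin_congr (fun q hq => h q hq) (h p hp)]

theorem pdt_congr {f g : ℝ × ℝ → ℝ} (h : ∀ p ∈ Icc a b ×ˢ Icc c d, f p = g p) {p : ℝ × ℝ}
    (hp : p ∈ Icc a b ×ˢ Icc c d) :
    pdt (Icc a b ×ˢ Icc c d) f p = pdt (Icc a b ×ˢ Icc c d) g p := by
  unfold pdt
  rw [fderivWithin_congr (fun q hq => h q hq) (h p hp)]

theorem mem_closure_interior_box (hab : a < b) (hcd : c < d) {p : ℝ × ℝ}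
    (hp : p ∈ Icc a b ×ˢ Icc c d) : p ∈ closure (interior (Icc a b ×ˢ Icc c d)) := by
  rw [interior_prod_eq, closure_prod_eq, interior_Icc, interior_Icc, closure_Ioo hab.ne,
    closure_Ioo hcd.ne]
  exact hp

/-- Mixed derivatives commute on the closed box. -/
theorem pdx_pdt_comm (hab : a < b) (hcd : c < d) {f : ℝ × ℝ → ℝ}
    (hf : ContDiffOn ℝ ∞ f (Icc a b ×ˢ Icc c d)) {p : ℝ × ℝ} (hp : p ∈ Icc a b ×ˢ Icc c d) :
    pdx (Icc a b ×ˢ Icc c d) (pdt (Icc a b ×ˢ Icc c d) f) p =
      pdt (Icc a b ×ˢ Icc c d) (pdx (Icc a b ×ˢ Icc c d) f) p := by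
  set K := Icc a b ×ˢ Icc c d with hK
  have hu := uniqueDiffOn_box hab hcd
  have hsym := (hf p hp).isSymmSndFDerivWithinAt (by
      rw [minSmoothness_of_isRCLikeNormedField]
      have h2 : ((2 : ℕ∞) : WithTop ℕ∞) ≤ ((⊤ : ℕ∞) : WithTop ℕ∞) := WithTop.coe_le_coe.2 le_top
      exact h2) hu
    (mem_closure_interior_box hab hcd hp) hp
  have hdf : DifferentiableWithinAt ℝ (fderivWithin ℝ f K) K p :=
    ((hf.fderivWithin (m := ∞) hu (by simp)).differentiableOn (by simp)) p hp
  have e : ∀ v : ℝ × ℝ, ∀ w : ℝ × ℝ, fderivWithin ℝ (fun q => fderivWithin ℝ f K q v) K p w =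
      fderivWithin ℝ (fderivWithin ℝ f K) K p w v := by
    intro v w
    have h1 := hdf.hasFDerivWithinAt.clm_apply (hasFDerivWithinAt_const v p K)
    rw [h1.fderivWithin (hu p hp)]
    simp
  change fderivWithin ℝ (fun q => fderivWithin ℝ f K q (1, 0)) K p (0, 1) =
    fderivWithin ℝ (fun q => fderivWithin ℝ f K q (0, 1)) K p (1, 0)
  rw [e, e]
  exact hsym _ _

/-- `d/dt ∫_c^d f(t,x) dx = ∫_c^d ∂_t f(t,x) dx`, up to the ends of the time interval. -/
theorem hasDerivWithinAt_integral (hcd : c < d) {f : ℝ × ℝ → ℝ}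
    (hf : ContDiffOn ℝ ∞ f (Icc a b ×ˢ Icc c d)) (hab : a < b) {t : ℝ} (ht : t ∈ Icc a b) :
    HasDerivWithinAt (fun s => ∫ x in c..d, f (s, x))
      (∫ x in c..d, pdt (Icc a b ×ˢ Icc c d) f (t, x)) (Icc a b) t := by
  have h := hasFDerivWithinAt_integral (F := ℝ) (S := Icc a b) isCompact_Icc (convex_Icc a b)
    (f := fun s x => f (s, x))
    (f' := fun s x => ContinuousLinearMap.toSpanSingleton ℝ (pdt (Icc a b ×ˢ Icc c d) f (s, x)))
    hcd.le hf.continuousOn (by
      have := (contDiffOn_pdt hab hcd hf).continuousOn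
      exact (ContinuousLinearMap.toSpanSingletonCLE (𝕜 := ℝ) (E := ℝ)).continuous.comp_continuousOn this)
    (by
      intro s hs x hx
      exact (hasDerivWithinAt_pdt hf hs hx).hasFDerivWithinAt) ht
  have h2 := h.hasDerivWithinAt
  have e : (∫ (s : ℝ) in c..d, ContinuousLinearMap.toSpanSingleton ℝ
      (pdt (Icc a b ×ˢ Icc c d) f (t, s))) (1 : ℝ) = ∫ x in c..d, pdt (Icc a b ×ˢ Icc c d) f (t, x) := by
    rw [ContinuousLinearMap.intervalIntegral_apply]
    · simp only [Icc_prod_Icc, ContinuousLinearMap.toSpanSingleton_apply, smul_eq_mul, one_mul]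
    · apply ContinuousOn.intervalIntegrable
      rw [uIcc_of_le hcd.le]
      have := (contDiffOn_pdt hab hcd hf).continuousOn
      have h3 : ContinuousOn (fun x => pdt (Icc a b ×ˢ Icc c d) f (t, x)) (Icc c d) :=
        this.comp (f := fun x : ℝ => ((t, x) : ℝ × ℝ)) (by fun_prop) (fun x hx => ⟨ht, hx⟩)
      exact (ContinuousLinearMap.toSpanSingletonCLE (𝕜 := ℝ) (E := ℝ)).continuous.comp_continuousOn h3
  rw [e] at h2
  exact h2

/-- Hadamard division: a smooth function on the closed box vanishing on `x = x₀` is `x - x₀` times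
a smooth function. -/
theorem hadamard_div (hab : a < b) (hcd : c < d) {x₀ : ℝ} (hx₀ : x₀ ∈ Icc c d) {f : ℝ × ℝ → ℝ}
    (hf : ContDiffOn ℝ ∞ f (Icc a b ×ˢ Icc c d)) (h0 : ∀ t ∈ Icc a b, f (t, x₀) = 0) :
    ∃ h : ℝ × ℝ → ℝ, ContDiffOn ℝ ∞ h (Icc a b ×ˢ Icc c d) ∧
      ∀ p ∈ Icc a b ×ˢ Icc c d, f p = (p.2 - x₀) * h p := by
  set K := Icc a b ×ˢ Icc c d with hK
  have hKc : IsCompact K := isCompact_Icc.prod isCompact_Icc
  have hKx : Convex ℝ K := (convex_Icc a b).prod (convex_Icc c d)
  have hmem : ∀ p ∈ K, ∀ s ∈ Icc (0 : ℝ) 1, (p.1, x₀ + s * (p.2 - x₀)) ∈ K := by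
    intro p hp s hs
    refine ⟨hp.1, ?_⟩
    have hx := hp.2
    obtain ⟨h1, h2⟩ := hx
    obtain ⟨h3, h4⟩ := hx₀
    obtain ⟨h5, h6⟩ := hs
    constructor
    · show c ≤ x₀ + s * (p.2 - x₀)
      linarith only [mul_nonneg (sub_nonneg.2 h3) (sub_nonneg.2 h6), mul_nonneg (sub_nonneg.2 h1) (sub_nonneg.2 h5)]
    · show x₀ + s * (p.2 - x₀) ≤ d
      linarith only [mul_nonneg (sub_nonneg.2 h4) (sub_nonneg.2 h6), mul_nonneg (sub_nonneg.2 h2) (sub_nonneg.2 h5)]
  have hg : ContDiffOn ℝ ∞ (fun q : (ℝ × ℝ) × ℝ => pdx K f (q.1.1, x₀ + q.2 * (q.1.2 - x₀)))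
      (K ×ˢ Icc (0 : ℝ) 1) := by
    apply (contDiffOn_pdx hab hcd hf).comp (g := pdx K f)
      (f := fun q : (ℝ × ℝ) × ℝ => (q.1.1, x₀ + q.2 * (q.1.2 - x₀)))
    · apply ContDiff.contDiffOn
      fun_prop
    · rintro ⟨p, s⟩ ⟨hp, hs⟩
      exact hmem p hp s hs
  refine ⟨fun p => ∫ s in (0:ℝ)..1, pdx K f (p.1, x₀ + s * (p.2 - x₀)),
    contDiffOn_integral hKc hKx (uniqueDiffOn_box hab hcd) zero_lt_one hg, ?_⟩
  rintro ⟨t, x⟩ ⟨ht, hx⟩
  replace ht : t ∈ Icc a b := ht
  replace hx : x ∈ Icc c d := hx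
  show f (t, x) = (x - x₀) * ∫ s in (0:ℝ)..1, pdx K f (t, x₀ + s * (x - x₀))
  by_cases hxx : x = x₀
  · subst hxx
    simp only [h0 t ht, sub_self, mul_zero, add_zero, intervalIntegral.integral_const, sub_zero, smul_eq_mul, one_mul, zero_mul]
  have hcont : ContinuousOn (fun s : ℝ => f (t, x₀ + s * (x - x₀))) (Icc 0 1) := by
    apply hf.continuousOn.comp (f := fun s : ℝ => ((t, x₀ + s * (x - x₀)) : ℝ × ℝ)) (by fun_prop)
    intro s hs
    exact hmem (t, x) ⟨ht, hx⟩ s hs
  have hcont' : ContinuousOn (fun s : ℝ => (x - x₀) * pdx K f (t, x₀ + s * (x - x₀))) (Icc 0 1) := by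
    apply continuousOn_const.mul
    apply (contDiffOn_pdx hab hcd hf).continuousOn.comp
      (f := fun s : ℝ => ((t, x₀ + s * (x - x₀)) : ℝ × ℝ)) (by fun_prop)
    intro s hs
    exact hmem (t, x) ⟨ht, hx⟩ s hs
  have hder : ∀ s ∈ Ioo (0 : ℝ) 1, HasDerivAt (fun s : ℝ => f (t, x₀ + s * (x - x₀)))
      ((x - x₀) * pdx K f (t, x₀ + s * (x - x₀))) s := by
    intro s hs
    have hin : x₀ + s * (x - x₀) ∈ Ioo c d := by
      obtain ⟨h1, h2⟩ := hx
      obtain ⟨h3, h4⟩ := hx₀
      obtain ⟨h5, h6⟩ := hs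
      rcases lt_or_gt_of_ne hxx with h | h
      · constructor
        · linarith only [mul_pos (sub_pos.2 h6) (sub_pos.2 h), h1]
        · nlinarith only [h4, h5, h]
      · constructor
        · nlinarith only [h3, h5, h]
        · nlinarith only [h2, h6, h]
    have h1 := hasDerivAt_pdx hf ht hin
    have h2 : HasDerivAt (fun s : ℝ => x₀ + s * (x - x₀)) (x - x₀) s := by
      have := ((hasDerivAt_id s).mul_const (x - x₀)).const_add x₀
      simpa using this
    have h3 := h1.comp s h2
    rw [mul_comm]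
    exact h3
  have hftc := intervalIntegral.integral_eq_sub_of_hasDerivAt_of_le zero_le_one hcont hder
    (by
      apply ContinuousOn.intervalIntegrable
      rw [uIcc_of_le zero_le_one]
      exact hcont')
  simp only [one_mul, add_sub_cancel, zero_mul, add_zero] at hftc
  rw [h0 t ht, sub_zero, intervalIntegral.integral_const_mul] at hftc
  exact hftc.symm

end Box

end P264.Cal
end
end

section

attribute [-instance] ProperSMul.toContinuousSMul IsTopologicalTorsor.toContinuousSMul IdemSemiring.toCanonicallyOrderedAdd IdemSemiring.toMulLeftMono IdemSemiring.toMulRightMono AddQuantale.instAddLeftMono AddQuantale.instAddRightMono Quantale.instMulLeftMono Quantale.instMulRightMono FiniteDimensional.rclike_to_real IsScalarTower.complexToReal FiniteDimensional.complexToReal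

section

/-!
# P264 / B / Cert : interface between the linear certificate (M2) and the nonlinear closure (M3, M4)

`n = 8`, `z = log y`, `D = d/dz`.  All functions are functions of `z : ℝ`.

* `Pi(D) = (D-1)(D-2)(D+7)(D+8) = D⁴ + 12 D³ + 13 D² - 138 D + 112`
* `om G = (D-1)(D-2) G`
* `N(G) = ∫ ρ (om G)²`, `T(G) = (D+1)(D+2)(ρ om G)`
* `L G = -(1/2) D G - e^{-2z} ( R² Pi(D) G + 2 R Pi(D)(R-1) G )`.
-/

open MeasureTheory Set Filter Real
open scoped ContDiff

namespace P264.B

/-- `(D-1)(D-2) G`. -/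
noncomputable def om (G : ℝ → ℝ) (z : ℝ) : ℝ :=
  iteratedDeriv 2 G z - 3 * iteratedDeriv 1 G z + 2 * G z

/-- `(D-1)(D-2)(D+7)(D+8) G`. -/
noncomputable def piD (G : ℝ → ℝ) (z : ℝ) : ℝ :=
  iteratedDeriv 4 G z + 12 * iteratedDeriv 3 G z + 13 * iteratedDeriv 2 G z
    - 138 * iteratedDeriv 1 G z + 112 * G z

/-- `(D+1)(D+2)(D-7)(D-8) G = Pi(-D) G`. -/
noncomputable def piDadj (G : ℝ → ℝ) (z : ℝ) : ℝ :=
  iteratedDeriv 4 G z - 12 * iteratedDeriv 3 G z + 13 * iteratedDeriv 2 G z
    + 138 * iteratedDeriv 1 G z + 112 * G z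

/-- `Pi(D)(R-1)`. -/
noncomputable def kap (R : ℝ → ℝ) (z : ℝ) : ℝ := piD (fun s => R s - 1) z

/-- The linearised operator. -/
noncomputable def Lop (R G : ℝ → ℝ) (z : ℝ) : ℝ :=
  -(1 / 2) * deriv G z - exp (-2 * z) * (R z ^ 2 * piD G z + 2 * R z * kap R z * G z)

/-- The residual of the approximate profile `R`. -/
noncomputable def resid (R : ℝ → ℝ) (z : ℝ) : ℝ :=
  -(1 / 2) * deriv R z - exp (-2 * z) * R z ^ 2 * kap R z

/-- `T(G) = (D+1)(D+2)(ρ om G)`, written out. -/
noncomputable def Top (ρ G : ℝ → ℝ) (z : ℝ) : ℝ :=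
  ρ z * iteratedDeriv 2 (om G) z
    + (2 * iteratedDeriv 1 ρ z + 3 * ρ z) * iteratedDeriv 1 (om G) z
    + (iteratedDeriv 2 ρ z + 3 * iteratedDeriv 1 ρ z + 2 * ρ z) * om G z

/-- The energy. -/
noncomputable def NN (ρ G : ℝ → ℝ) : ℝ := ∫ z, ρ z * om G z ^ 2

/-- The dissipation `∫ e^{-2z} R² ( (1/2) ρ (Pi(D)G)² + 2 T(G)²/ρ )`. -/
noncomputable def Dis (R ρ G : ℝ → ℝ) : ℝ :=
  ∫ z, exp (-2 * z) * R z ^ 2 * (1 / 2 * (ρ z * piD G z ^ 2) + 2 * (Top ρ G z ^ 2 / ρ z))

/-- Admissible functions: `C⁴`, vanishing for large `z`, and behaving at `z → -∞` like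
`c₁ e^z + c₂ e^{2z} + O(e^{3z})`. -/
structure Adm (G : ℝ → ℝ) : Prop where
  smooth : ContDiff ℝ 4 G
  right : ∃ Z : ℝ, ∀ z, Z ≤ z → G z = 0
  left0 : ∃ C : ℝ, ∀ j ≤ 4, ∀ z ≤ (0 : ℝ), |iteratedDeriv j G z| ≤ C * exp z
  left1 : ∃ C : ℝ, ∀ j ≤ 2, ∀ z ≤ (0 : ℝ), |iteratedDeriv j (om G) z| ≤ C * exp (3 * z)

/-- The linear functional `q(G) = -∫ ψ R⁻² G`. -/
noncomputable def qf (R ψ G : ℝ → ℝ) : ℝ := -∫ z, ψ z * G z / R z ^ 2

/-- The square of the Green kernel bound, `b(z)² = ∫_z^∞ (e^{z-s} - e^{2(z-s)})² / ρ(s) ds`. -/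
noncomputable def bsq (ρ : ℝ → ℝ) (z : ℝ) : ℝ :=
  ∫ s in Ioi z, (exp (z - s) - exp (2 * (z - s))) ^ 2 / ρ s

/-- The weight: `C²`, positive, comparable with its derivatives and with
`e^{-2 ν z}`, `0 < ν < 1`. -/
structure Weight (ρ : ℝ → ℝ) (ν c₁ c₂ : ℝ) : Prop where
  smooth : ContDiff ℝ 2 ρ
  pos : ∀ z, 0 < ρ z
  nu : 0 < ν ∧ ν < 1
  tail : ∃ m > 0, ∃ M > 0, ∀ z, m * exp (-(2 * ν) * z) ≤ ρ z ∧ ρ z ≤ M * exp (-(2 * ν) * z)
  d1 : ∀ z, |iteratedDeriv 1 ρ z| ≤ c₁ * ρ z
  d2 : ∀ z, |iteratedDeriv 2 ρ z| ≤ c₂ * ρ z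

/-- The approximate profile: `C⁴`, between `Rmin > 0` and `1`, smooth in `y = e^z` near `y = 0`
(a polynomial `1 + a₁ y + a₂ y² + …`), and `R → α` with `C⁴` rate `e^{-2z}` at `+∞`. -/
structure Profile (R : ℝ → ℝ) (Rmin α : ℝ) : Prop where
  smooth : ContDiff ℝ 4 R
  Rmin_pos : 0 < Rmin
  lower : ∀ z, Rmin ≤ R z
  upper : ∀ z, R z ≤ 1
  left : ∃ p : Polynomial ℝ, p.eval 0 = 1 ∧ ∃ Z : ℝ, ∀ z ≤ Z, R z = p.eval (exp z)
  right : ∃ C : ℝ, ∀ j ≤ 4, ∀ z, 0 ≤ z →
    |iteratedDeriv j (fun s => R s - α) z| ≤ C * exp (-2 * z)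
  right_poly : ∃ q : Polynomial ℝ, ∃ Z : ℝ, ∀ z, Z ≤ z → R z = q.eval (exp (-2 * z))

/-- The whole linear certificate (to be delivered by M2). `psi i` are approximate left
eigenfunctions (in the variable `μ = 1/h - 1/R`) with eigenvalues `lam i`. -/
structure Cert (R ρ : ℝ → ℝ) (psi : Fin 2 → ℝ → ℝ) (lam : Fin 2 → ℝ)
    (ν c₁ c₂ Rmin α δ κ C₀ e₁ e₂ Kr Kp Kq K₂ Kinf z₀ : ℝ) : Prop where
  weight : Weight ρ ν c₁ c₂
  profile : Profile R Rmin α
  psi_smooth : ∀ i, ContDiff ℝ 4 (psi i)
  psi_supp : ∀ i, HasCompactSupport (psi i)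
  psi_far : ∀ i z, z₀ ≤ z → psi i z = 0
  δ_pos : 0 < δ
  κ_pos : 0 < κ
  C₀_nonneg : 0 ≤ C₀
  lam_pos : ∀ i, 0 < lam i
  /-- (H1) -/
  H1 : ∫ z, exp (2 * z) * ρ z * resid R z ^ 2 / R z ^ 2 ≤ e₁ ^ 2
  H1' : ∀ i, |∫ z, psi i z * resid R z / R z ^ 2| ≤ e₂
  /-- (H2) coercivity -/
  H2 : ∀ G, Adm G →
    δ * NN ρ G + κ * Dis R ρ G - C₀ * ∑ i, qf R (psi i) G ^ 2
      ≤ -∫ z, Lop R G z * Top ρ G z
  /-- (H3) -/
  H3r : ∀ i, ∫ z, |(1 / 2) * deriv (psi i) z
      - R z ^ 2 * piDadj (fun s => exp (-2 * s) * psi i s) z - lam i * psi i z|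
        / R z ^ 2 * √(bsq ρ z) ≤ Kr
  H3p : ∀ i, ∫ z, |piDadj (fun s => exp (-2 * s) * psi i s) z| * bsq ρ z / R z ≤ Kp
  H3q : ∀ i, ∫ z, |psi i z| * bsq ρ z / R z ^ 3 ≤ Kq
  H32 : ∫ z, exp (-2 * z) * kap R z ^ 2 * ρ z * bsq ρ z ≤ K₂
  H32f : ∫ z in Ioi z₀, exp (-2 * z) * kap R z ^ 2 * ρ z * bsq ρ z ≤ 1 / 1000000
  H3inf : ∀ z ≤ z₀, √(bsq ρ z) ≤ Kinf * R z

end P264.B
end
end

section

attribute [-instance] ProperSMul.toContinuousSMul IsTopologicalTorsor.toContinuousSMul IdemSemiring.toCanonicallyOrderedAdd IdemSemiring.toMulLeftMono IdemSemiring.toMulRightMono AddQuantale.instAddLeftMono AddQuantale.instAddRightMono Quantale.instMulLeftMono Quantale.instMulRightMono FiniteDimensional.rclike_to_real IsScalarTower.complexToReal FiniteDimensional.complexToReal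

section

/-!
# P264 / H3 / Bsq : upper bounds of the Green kernel bound `bsq` from lower bounds of
`σ(z) = ρ(z) e^z` (helper288)
-/

open MeasureTheory Set Filter Real

namespace P264.H3

/-- `Φ(x) = x - x² + x³/3`, `Φ' = (1-x)²`. -/
noncomputable def Phi (x : ℝ) : ℝ := x - x ^ 2 + x ^ 3 / 3

theorem hasDerivAt_Phi_exp (z s : ℝ) :
    HasDerivAt (fun s => -(exp z * Phi (exp (z - s))))
      ((exp (z - s) - exp (2 * (z - s))) ^ 2 * exp s) s := by
  have h1 : HasDerivAt (fun s => exp (z - s)) (exp (z - s) * (-1)) s := by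
    have := ((hasDerivAt_id s).const_sub z).exp
    simpa only [mul_neg, mul_one, id_eq] using this
  have h2 := ((h1.sub (h1.pow 2)).add ((h1.pow 3).div_const 3)).const_mul (exp z)
  have h3 := h2.neg
  refine (h3.congr_of_eventuallyEq (Eventually.of_forall fun t => ?_)).congr_deriv ?_
  · simp [Phi]
  · have e1 : exp (2 * (z - s)) = exp (z - s) ^ 2 := by rw [← exp_nat_mul]; norm_num
    have e2 : exp z = exp (z - s) * exp s := by rw [← exp_add]; congr 1; ring
    rw [e1, e2]
    push_cast
    ring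

theorem continuous_gk2 (z : ℝ) :
    Continuous fun s => (exp (z - s) - exp (2 * (z - s))) ^ 2 * exp s := by fun_prop

/-- The piece `[s₀, s₁]`. -/
theorem piece_le {ρ : ℝ → ℝ} (hρ : ∀ s, 0 < ρ s) {z s₀ s₁ m : ℝ} (h01 : s₀ ≤ s₁) (hm : 0 < m)
    (hlow : ∀ s, s₀ ≤ s → m ≤ ρ s * exp s) :
    ∫ s in Ioc s₀ s₁, (exp (z - s) - exp (2 * (z - s))) ^ 2 / ρ s ≤
      exp z * ((Phi (exp (z - s₀)) - Phi (exp (z - s₁))) / m) := by
  have hI : ∫ s in s₀..s₁, (exp (z - s) - exp (2 * (z - s))) ^ 2 * exp s =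
      -(exp z * Phi (exp (z - s₁))) - -(exp z * Phi (exp (z - s₀))) :=
    intervalIntegral.integral_eq_sub_of_hasDerivAt (fun s _ => hasDerivAt_Phi_exp z s)
      ((continuous_gk2 z).intervalIntegrable _ _)
  have hle : ∫ s in Ioc s₀ s₁, (exp (z - s) - exp (2 * (z - s))) ^ 2 / ρ s ≤
      ∫ s in Ioc s₀ s₁, (exp (z - s) - exp (2 * (z - s))) ^ 2 * exp s / m := by
    refine integral_mono_of_nonneg ?_ ?_ ?_
    · exact Eventually.of_forall fun s => div_nonneg (sq_nonneg _) (hρ s).le
    · exact (((continuous_gk2 z).div_const m).integrableOn_Icc (μ := volume) (a := s₀)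
        (b := s₁)).mono_set Ioc_subset_Icc_self
    · rw [EventuallyLE, ae_restrict_iff' measurableSet_Ioc]
      refine Eventually.of_forall fun s hs => ?_
      have h1 := hlow s hs.1.le
      rw [div_le_div_iff₀ (hρ s) hm]
      have h2 : 0 ≤ (exp (z - s) - exp (2 * (z - s))) ^ 2 := sq_nonneg _
      linarith only [mul_nonneg (sq_nonneg (rexp (z - s) - rexp (2 * (z - s)) : ℝ)) (sub_nonneg.2 h1)]
  refine hle.trans (le_of_eq ?_)
  rw [integral_div, ← intervalIntegral.integral_of_le h01, hI]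
  ring

/-- The tail `[s₀, ∞)`. -/
theorem tail_le {ρ : ℝ → ℝ} (hρ : ∀ s, 0 < ρ s) {z s₀ m : ℝ} (hm : 0 < m)
    (hlow : ∀ s, s₀ ≤ s → m ≤ ρ s * exp s) :
    ∫ s in Ioi s₀, (exp (z - s) - exp (2 * (z - s))) ^ 2 / ρ s ≤
      exp z * (Phi (exp (z - s₀)) / m) := by
  have hlim : Tendsto (fun s => -(exp z * Phi (exp (z - s)))) atTop (nhds 0) := by
    have h1 : Tendsto (fun s => exp (z - s)) atTop (nhds 0) :=
      tendsto_exp_atBot.comp (tendsto_atBot_add_const_left _ z tendsto_neg_atTop_atBot)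
    have h2 : Tendsto (fun s => -(exp z * Phi (exp (z - s)))) atTop
        (nhds (-(exp z * (0 - 0 ^ 2 + 0 ^ 3 / 3)))) :=
      ((((h1.sub (h1.pow 2)).add ((h1.pow 3).div_const 3)).const_mul (exp z)).neg)
    simpa only [ne_eq, OfNat.ofNat_ne_zero, not_false_eq_true, zero_pow, sub_self, zero_div, add_zero, mul_zero,     neg_zero] using h2
  have hnn : ∀ s ∈ Ioi s₀, 0 ≤ (exp (z - s) - exp (2 * (z - s))) ^ 2 * exp s :=
    fun s _ => mul_nonneg (sq_nonneg _) (exp_pos s).le
  have hint : IntegrableOn (fun s => (exp (z - s) - exp (2 * (z - s))) ^ 2 * exp s) (Ioi s₀) :=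
    integrableOn_Ioi_deriv_of_nonneg' (fun s _ => hasDerivAt_Phi_exp z s) hnn hlim
  have hI : ∫ s in Ioi s₀, (exp (z - s) - exp (2 * (z - s))) ^ 2 * exp s =
      0 - -(exp z * Phi (exp (z - s₀))) :=
    integral_Ioi_of_hasDerivAt_of_nonneg' (fun s _ => hasDerivAt_Phi_exp z s) hnn hlim
  have hle : ∫ s in Ioi s₀, (exp (z - s) - exp (2 * (z - s))) ^ 2 / ρ s ≤
      ∫ s in Ioi s₀, (exp (z - s) - exp (2 * (z - s))) ^ 2 * exp s / m := by
    refine integral_mono_of_nonneg ?_ (hint.div_const m) ?_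
    · exact Eventually.of_forall fun s => div_nonneg (sq_nonneg _) (hρ s).le
    · rw [EventuallyLE, ae_restrict_iff' measurableSet_Ioi]
      refine Eventually.of_forall fun s hs => ?_
      have h1 := hlow s (le_of_lt hs)
      rw [div_le_div_iff₀ (hρ s) hm]
      have h2 : 0 ≤ (exp (z - s) - exp (2 * (z - s))) ^ 2 := sq_nonneg _
      (clear * - h1; linarith [mul_nonneg (sq_nonneg (rexp (z - s) - rexp (2 * (z - s)) : ℝ)) (sub_nonneg.2 h1)])
  refine hle.trans (le_of_eq ?_)
  rw [integral_div, hI]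
  ring

/-- upper bound of `x / d` -/
def cdiv (x d : ℤ) : ℤ := x / d + 1

theorem le_cdiv (x : ℤ) {d : ℤ} (hd : 0 < d) : (x : ℝ) / d ≤ (cdiv x d : ℝ) := by
  have hd' : (0 : ℝ) < d := by exact_mod_cast hd
  rw [div_le_iff₀ hd']
  have := Int.lt_ediv_add_one_mul_self x hd
  have h2 : (x : ℝ) < ((x / d + 1) * d : ℤ) := by exact_mod_cast this
  rw [cdiv]
  push_cast at h2 ⊢
  linarith

/-- numerator of `Φ(a/b)` over `3 b³` -/
def nPhi (a b : ℤ) : ℤ := 3 * a * b ^ 2 - 3 * a ^ 2 * b + a ^ 3

theorem Phi_div (a : ℤ) {b : ℤ} (hb : 0 < b) : Phi ((a : ℝ) / b) = nPhi a b / (3 * b ^ 3) := by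
  have hb' : (b : ℝ) ≠ 0 := by exact_mod_cast hb.ne'
  rw [Phi, nPhi]
  push_cast
  field_simp

/-- the sum bounding `2^Q e^{-z} bsq z` for `a ≤ 16 e^z`; the list contains `(b, m)` with
`σ ≥ m / 2^P` for `16 y ≥ b`. -/
def bsum (P Q : ℕ) (a : ℤ) : List (ℤ × ℤ) → ℤ
  | [] => 0
  | [(b, m)] => cdiv (nPhi a b * 2 ^ (P + Q)) (3 * b ^ 3 * m)
  | (b, m) :: (b', m') :: l =>
      cdiv ((nPhi a b * b' ^ 3 - nPhi a b' * b ^ 3) * 2 ^ (P + Q)) (3 * b ^ 3 * b' ^ 3 * m) +
        bsum P Q a ((b', m') :: l)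

/-- the breakpoints are increasing, and `m > 0` -/
def incr : List (ℤ × ℤ) → Bool
  | [] => true
  | [(b, m)] => decide (0 < b) && decide (0 < m)
  | (b, m) :: (b', m') :: l => decide (0 < b) && decide (0 < m) && decide (b ≤ b') &&
      incr ((b', m') :: l)

theorem bsum_spec {ρ : ℝ → ℝ} (hρ : ∀ s, 0 < ρ s) {z : ℝ}
    (hint : IntegrableOn (fun s => (exp (z - s) - exp (2 * (z - s))) ^ 2 / ρ s) (Ioi z))
    {P Q : ℕ} {a : ℤ} (ha : 0 < a) (L : List (ℤ × ℤ)) (b m : ℤ) (hL : incr ((b, m) :: L) = true)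
    (hab : a ≤ b)
    (hlow : ∀ p ∈ (b, m) :: L, ∀ s, z + log ((p.1 : ℝ) / a) ≤ s →
      (p.2 : ℝ) / 2 ^ P ≤ ρ s * exp s) :
    ∫ s in Ioi (z + log ((b : ℝ) / a)), (exp (z - s) - exp (2 * (z - s))) ^ 2 / ρ s ≤
      exp z * ((bsum P Q a ((b, m) :: L) : ℝ) / 2 ^ Q) := by
  have ha' : (0 : ℝ) < a := by exact_mod_cast ha
  have hexp : ∀ b : ℤ, 0 < b → exp (z - (z + log ((b : ℝ) / a))) = (a : ℝ) / b := by
    intro b hb
    have hb' : (0 : ℝ) < b := by exact_mod_cast hb
    have : z - (z + log ((b : ℝ) / a)) = -log ((b : ℝ) / a) := by ring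
    rw [this, exp_neg, exp_log (by positivity), inv_div]
  induction L generalizing b m with
  | nil =>
    simp only [incr, Bool.and_eq_true, decide_eq_true_eq] at hL
    obtain ⟨hb, hm⟩ := hL
    have hb' : (0 : ℝ) < b := by exact_mod_cast hb
    have hm' : (0 : ℝ) < m := by exact_mod_cast hm
    have h := tail_le hρ (z := z) (s₀ := z + log ((b : ℝ) / a)) (m := (m : ℝ) / 2 ^ P)
      (by (clear * - hm; positivity)) (fun s hs => hlow (b, m) (by simp) s hs)
    refine h.trans ?_
    rw [hexp b hb, Phi_div a hb]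
    refine mul_le_mul_of_nonneg_left ?_ (exp_pos z).le
    have h2 := le_cdiv (nPhi a b * 2 ^ (P + Q)) (d := 3 * b ^ 3 * m) (by (clear * - hb hm; positivity))
    rw [bsum, le_div_iff₀ (by positivity)]
    refine le_trans (le_of_eq ?_) h2
    push_cast
    rw [pow_add]
    (clear * - hm hb; field_simp)
  | cons q L ih =>
    obtain ⟨b', m'⟩ := q
    simp only [incr, Bool.and_eq_true, decide_eq_true_eq] at hL
    obtain ⟨⟨⟨hb, hm⟩, hbb⟩, hL'⟩ := hL
    have hb' : (0 : ℝ) < b := by exact_mod_cast hb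
    have hb2 : 0 < b' := lt_of_lt_of_le hb hbb
    have hb2' : (0 : ℝ) < b' := by exact_mod_cast hb2
    have hm' : (0 : ℝ) < m := by exact_mod_cast hm
    have ih' := ih b' m' hL' (hab.trans hbb) (fun p hp => hlow p (List.mem_cons_of_mem _ hp))
    have h01 : z + log ((b : ℝ) / a) ≤ z + log ((b' : ℝ) / a) := by
      have : log ((b : ℝ) / a) ≤ log ((b' : ℝ) / a) := by
        apply log_le_log (by positivity)
        have : (b : ℝ) ≤ b' := by exact_mod_cast hbb
        (clear * - this ha; gcongr)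
      linarith only [this]
    have hz : z ≤ z + log ((b : ℝ) / a) := by
      have : 0 ≤ log ((b : ℝ) / a) := by
        apply log_nonneg
        rw [le_div_iff₀ ha', one_mul]
        exact_mod_cast hab
      linarith only [this]
    have hp := piece_le hρ (z := z) h01 (m := (m : ℝ) / 2 ^ P) (by positivity)
      (fun s hs => hlow (b, m) (by simp) s hs)
    have hsplit : ∫ s in Ioi (z + log ((b : ℝ) / a)),
        (exp (z - s) - exp (2 * (z - s))) ^ 2 / ρ s =
        (∫ s in Ioc (z + log ((b : ℝ) / a)) (z + log ((b' : ℝ) / a)),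
          (exp (z - s) - exp (2 * (z - s))) ^ 2 / ρ s) +
        ∫ s in Ioi (z + log ((b' : ℝ) / a)),
          (exp (z - s) - exp (2 * (z - s))) ^ 2 / ρ s := by
      rw [← setIntegral_union (Ioc_disjoint_Ioi le_rfl) measurableSet_Ioi
        (hint.mono_set (fun s hs => lt_of_le_of_lt hz hs.1))
        (hint.mono_set (fun s hs => lt_of_le_of_lt (hz.trans h01) hs)), Ioc_union_Ioi_eq_Ioi h01]
    rw [hsplit]
    refine (add_le_add hp ih').trans ?_
    rw [← mul_add]
    refine mul_le_mul_of_nonneg_left ?_ (exp_pos z).le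
    rw [hexp b hb, hexp b' hb2, Phi_div a hb, Phi_div a hb2]
    have h2 := le_cdiv ((nPhi a b * b' ^ 3 - nPhi a b' * b ^ 3) * 2 ^ (P + Q))
      (d := 3 * b ^ 3 * b' ^ 3 * m) (by (clear * - hb hb2 hm; positivity))
    have h3 : ((bsum P Q a ((b, m) :: (b', m') :: L) : ℤ) : ℝ) / 2 ^ Q =
        (cdiv ((nPhi a b * b' ^ 3 - nPhi a b' * b ^ 3) * 2 ^ (P + Q)) (3 * b ^ 3 * b' ^ 3 * m) :
          ℝ) / 2 ^ Q + (bsum P Q a ((b', m') :: L) : ℝ) / 2 ^ Q := by
      rw [bsum]; push_cast; ring
    rw [h3]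
    refine add_le_add ?_ le_rfl
    rw [le_div_iff₀ (by positivity)]
    refine le_trans (le_of_eq ?_) h2
    push_cast
    rw [pow_add]
    (clear * - hb2 hb hm; field_simp)

/-- `bsq z ≤ e^z · bsum / 2^Q` if `a ≤ 16 e^z`, `σ ≥ m/2^P` for `16 y ≥ b`, `(b,m)` in the list
starting with `(a, m₀)`. -/
theorem bsq_le_bsum {ρ : ℝ → ℝ} (hρ : ∀ s, 0 < ρ s) {z : ℝ}
    (hint : IntegrableOn (fun s => (exp (z - s) - exp (2 * (z - s))) ^ 2 / ρ s) (Ioi z))
    {P Q : ℕ} {a m : ℤ} (L : List (ℤ × ℤ)) (hL : incr ((a, m) :: L) = true)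
    (hz : (a : ℝ) ≤ 16 * exp z)
    (hlow : ∀ p ∈ (a, m) :: L, ∀ s, (p.1 : ℝ) ≤ 16 * exp s →
      (p.2 : ℝ) / 2 ^ P ≤ ρ s * exp s) :
    P264.B.bsq ρ z ≤ exp z * ((bsum P Q a ((a, m) :: L) : ℝ) / 2 ^ Q) := by
  have ha : 0 < a := by
    cases L with
    | nil => simp only [incr, Bool.and_eq_true, decide_eq_true_eq] at hL; exact hL.1
    | cons q L =>
      obtain ⟨b', m'⟩ := q
      simp only [incr, Bool.and_eq_true, decide_eq_true_eq] at hL; exact hL.1.1.1
  have hpos : ∀ p ∈ (a, m) :: L, 0 < p.1 := by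
    clear hint hz hlow
    induction L generalizing a m with
    | nil =>
      intro p hp; simp only [List.mem_singleton] at hp; subst hp; exact ha
    | cons q L ih =>
      obtain ⟨b', m'⟩ := q
      intro p hp
      simp only [incr, Bool.and_eq_true, decide_eq_true_eq] at hL
      rcases List.mem_cons.1 hp with h | h
      · subst h; exact ha
      · exact ih hL.2 (lt_of_lt_of_le ha hL.1.2) p h
  have ha' : (0 : ℝ) < a := by exact_mod_cast ha
  have h := bsum_spec hρ hint (P := P) (Q := Q) ha L a m hL le_rfl (fun p hp s hs => by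
    refine hlow p hp s ?_
    have hp0 : (0 : ℝ) < p.1 := by exact_mod_cast hpos p hp
    have h1 : exp (z + log ((p.1 : ℝ) / a)) ≤ exp s := exp_le_exp.2 hs
    rw [exp_add, exp_log (by (clear * - hp0 ha; positivity))] at h1
    have h2 : (a : ℝ) / 16 * ((p.1 : ℝ) / a) ≤ exp z * ((p.1 : ℝ) / a) := by
      have : (a : ℝ) / 16 ≤ exp z := by (clear * - hz; linarith)
      (clear * - this hp0 ha; gcongr)
    have h3 : (a : ℝ) / 16 * ((p.1 : ℝ) / a) = p.1 / 16 := by (clear * - ha hp0; field_simp)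
    linarith only [h3, h2, h1])
  rw [div_self ha'.ne', log_one, add_zero] at h
  exact h

/-- crude bound: `bsq z ≤ e^z / (3 m)` if `σ ≥ m` on `[z,∞)`. -/
theorem bsq_le_third {ρ : ℝ → ℝ} (hρ : ∀ s, 0 < ρ s) {z m : ℝ} (hm : 0 < m)
    (hlow : ∀ s, z ≤ s → m ≤ ρ s * exp s) :
    P264.B.bsq ρ z ≤ exp z * (1 / (3 * m)) := by
  have h := tail_le hρ (z := z) (s₀ := z) hm hlow
  have : Phi (exp (z - z)) = 1 / 3 := by simp [Phi]
  rw [this] at h
  refine h.trans (le_of_eq ?_)
  field_simp

end P264.H3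
end
end

section

attribute [-instance] ProperSMul.toContinuousSMul IsTopologicalTorsor.toContinuousSMul IdemSemiring.toCanonicallyOrderedAdd IdemSemiring.toMulLeftMono IdemSemiring.toMulRightMono AddQuantale.instAddLeftMono AddQuantale.instAddRightMono Quantale.instMulLeftMono Quantale.instMulRightMono FiniteDimensional.rclike_to_real IsScalarTower.complexToReal FiniteDimensional.complexToReal

section

/-!
# P264 / H3 / Step : integrals bounded by step functions in `16 e^z` (helper288)
-/

open MeasureTheory Set Filter Real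

namespace P264.H3

/-- A step: `B / 2^S` on `a ≤ 16 e^z < b`. -/
structure Stp where
  a : ℤ
  b : ℤ
  B : ℤ

/-- contiguous, increasing -/
def SCh : List Stp → ℤ → Bool
  | [], _ => true
  | p :: L, r => decide (p.a = r) && decide (p.a ≤ p.b) && SCh L p.b

/-- right end -/
def srend : List Stp → ℤ → ℤ
  | [], r => r
  | p :: L, _ => srend L p.b

/-- `∑ B (b - a) / a`, rounded up -/
def ssum : List Stp → ℤ
  | [] => 0
  | p :: L => cdiv (p.B * (p.b - p.a)) p.a + ssum L

/-- the step function with tail `gr` -/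
noncomputable def stepf (S : ℕ) (gr : ℝ → ℝ) : List Stp → ℝ → ℝ
  | [], z => gr z
  | p :: L, z => if 16 * exp z < (p.b : ℝ) then (p.B : ℝ) / 2 ^ S else stepf S gr L z

theorem lt_iff_exp {b : ℤ} (hb : 0 < b) (z : ℝ) : 16 * exp z < (b : ℝ) ↔ z < log ((b : ℝ) / 16) := by
  have hb' : (0 : ℝ) < b := by exact_mod_cast hb
  rw [lt_log_iff_exp_lt (by positivity), lt_div_iff₀ (by norm_num)]
  constructor <;> intro h <;> linarith only [h]

theorem le_iff_exp {b : ℤ} (hb : 0 < b) (z : ℝ) : (b : ℝ) ≤ 16 * exp z ↔ log ((b : ℝ) / 16) ≤ z := by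
  rw [← not_lt, lt_iff_exp hb, not_lt]

theorem stepf_le {S : ℕ} {F gr : ℝ → ℝ} (L : List Stp) (r : ℤ) (hL : SCh L r = true)
    (h2 : ∀ p ∈ L, ∀ z, (p.a : ℝ) ≤ 16 * exp z → 16 * exp z < p.b → F z ≤ (p.B : ℝ) / 2 ^ S)
    (h3 : ∀ z, ((srend L r : ℤ) : ℝ) ≤ 16 * exp z → F z ≤ gr z) (z : ℝ)
    (hz : (r : ℝ) ≤ 16 * exp z) : F z ≤ stepf S gr L z := by
  induction L generalizing r with
  | nil => exact h3 z hz
  | cons p L ih =>
    simp only [SCh, Bool.and_eq_true, decide_eq_true_eq] at hL
    obtain ⟨⟨ha, _⟩, hL'⟩ := hL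
    rw [stepf]
    by_cases h : 16 * exp z < (p.b : ℝ)
    · rw [if_pos h]
      exact h2 p (by simp) z (by rw [ha]; exact hz) h
    · rw [if_neg h]
      exact ih p.b hL' (fun q hq => h2 q (List.mem_cons_of_mem _ hq)) h3 (not_lt.1 h)

theorem stepf_integral {S : ℕ} {gr : ℝ → ℝ} (L : List Stp) (r : ℤ) (hr : 0 < r)
    (hL : SCh L r = true) (hB : ∀ p ∈ L, 0 ≤ p.B)
    (hgr : IntegrableOn gr (Ici (log ((srend L r : ℤ) / 16)))) :
    IntegrableOn (stepf S gr L) (Ici (log ((r : ℝ) / 16))) ∧
    ∫ z in Ici (log ((r : ℝ) / 16)), stepf S gr L z ≤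
      (ssum L : ℝ) / 2 ^ S + ∫ z in Ici (log ((srend L r : ℤ) / 16)), gr z := by
  induction L generalizing r with
  | nil =>
    refine ⟨hgr, ?_⟩
    simp only [stepf, ssum, Int.cast_zero, zero_div, srend, zero_add, Std.le_refl]
  | cons p L ih =>
    simp only [SCh, Bool.and_eq_true, decide_eq_true_eq] at hL
    obtain ⟨⟨ha, hab⟩, hL'⟩ := hL
    have hb : 0 < p.b := by omega
    have hr' : (0 : ℝ) < r := by exact_mod_cast hr
    have hb' : (0 : ℝ) < p.b := by exact_mod_cast hb
    have hrb : (r : ℝ) ≤ p.b := by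
      have : r ≤ p.b := by omega
      exact_mod_cast this
    obtain ⟨ih1, ih2⟩ := ih p.b hb hL' (fun q hq => hB q (List.mem_cons_of_mem _ hq)) hgr
    have hlog : log ((r : ℝ) / 16) ≤ log ((p.b : ℝ) / 16) :=
      log_le_log (by positivity) (by (clear * - hrb; gcongr))
    have hU : Ici (log ((r : ℝ) / 16)) =
        Ico (log ((r : ℝ) / 16)) (log ((p.b : ℝ) / 16)) ∪ Ici (log ((p.b : ℝ) / 16)) :=
      (Ico_union_Ici_eq_Ici hlog).symm
    have heq1 : EqOn (stepf S gr (p :: L)) (fun _ => (p.B : ℝ) / 2 ^ S)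
        (Ico (log ((r : ℝ) / 16)) (log ((p.b : ℝ) / 16))) := by
      intro z hz
      simp only [stepf]
      rw [if_pos ((lt_iff_exp hb z).2 hz.2)]
    have heq2 : EqOn (stepf S gr (p :: L)) (stepf S gr L) (Ici (log ((p.b : ℝ) / 16))) := by
      intro z hz
      simp only [stepf]
      rw [if_neg (not_lt.2 ((le_iff_exp hb z).2 hz))]
    have hI1 : IntegrableOn (stepf S gr (p :: L))
        (Ico (log ((r : ℝ) / 16)) (log ((p.b : ℝ) / 16))) := by
      have : IntegrableOn (fun _ : ℝ => (p.B : ℝ) / 2 ^ S)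
          (Ico (log ((r : ℝ) / 16)) (log ((p.b : ℝ) / 16))) :=
        integrableOn_const (by simp only [volume_Ico, ne_eq, ENNReal.ofReal_ne_top, not_false_eq_true])
      exact this.congr_fun heq1.symm measurableSet_Ico
    have hI2 : IntegrableOn (stepf S gr (p :: L)) (Ici (log ((p.b : ℝ) / 16))) :=
      ih1.congr_fun heq2.symm measurableSet_Ici
    refine ⟨?_, ?_⟩
    · rw [hU]; exact hI1.union hI2
    · have hd : Disjoint (Ico (log ((r : ℝ) / 16)) (log ((p.b : ℝ) / 16)))
          (Ici (log ((p.b : ℝ) / 16))) :=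
        Set.disjoint_left.2 fun z hz hz' => absurd hz.2 (not_lt.2 hz')
      rw [hU, setIntegral_union hd
        measurableSet_Ici hI1 hI2, setIntegral_congr_fun measurableSet_Ico heq1,
        setIntegral_congr_fun measurableSet_Ici heq2]
      have hconst : ∫ _ in Ico (log ((r : ℝ) / 16)) (log ((p.b : ℝ) / 16)), (p.B : ℝ) / 2 ^ S =
          (log ((p.b : ℝ) / 16) - log ((r : ℝ) / 16)) * ((p.B : ℝ) / 2 ^ S) := by
        rw [setIntegral_const, smul_eq_mul]
        congr 1
        rw [Measure.real, Real.volume_Ico, ENNReal.toReal_ofReal (by linarith only [hlog])]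
      rw [hconst]
      have hl : log ((p.b : ℝ) / 16) - log ((r : ℝ) / 16) ≤ ((p.b : ℝ) - r) / r := by
        rw [← log_div (by positivity) (by positivity)]
        have h1 := log_le_sub_one_of_pos (x := (p.b : ℝ) / 16 / ((r : ℝ) / 16)) (by positivity)
        refine h1.trans (le_of_eq ?_)
        (clear * - hr; field_simp)
      have hBn : (0 : ℝ) ≤ (p.B : ℝ) / 2 ^ S := by
        have : 0 ≤ p.B := hB p (by simp)
        have : (0 : ℝ) ≤ (p.B : ℝ) := by exact_mod_cast this
        (clear gr ih r hr hgr hL' ha hab hb hr' hb' hrb ih1 ih2 hlog hU heq1 heq2 hI1 hI2 hd hconst hl this; positivity)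
      have h2 := mul_le_mul_of_nonneg_right hl hBn
      have h3 := le_cdiv (p.B * (p.b - p.a)) (d := p.a) (by omega)
      have h4 : ((p.b : ℝ) - r) / r * ((p.B : ℝ) / 2 ^ S) ≤
          (cdiv (p.B * (p.b - p.a)) p.a : ℝ) / 2 ^ S := by
        rw [le_div_iff₀ (by positivity)]
        refine le_trans (le_of_eq ?_) h3
        rw [← ha]
        push_cast
        (clear * -; field_simp)
      have h5 : ((ssum (p :: L) : ℤ) : ℝ) / 2 ^ S =
          (cdiv (p.B * (p.b - p.a)) p.a : ℝ) / 2 ^ S + (ssum L : ℝ) / 2 ^ S := by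
        rw [ssum]; push_cast; ring
      rw [h5]
      have h6 : srend (p :: L) r = srend L p.b := rfl
      rw [h6]
      linarith only [h4, h2, ih2]

/-- The integral of a nonnegative function bounded by `gl` on the left, by steps, and by `gr`
on the right. -/
theorem integral_le_steps {S : ℕ} {F gl gr : ℝ → ℝ} (hF : ∀ z, 0 ≤ F z) (L : List Stp) (r : ℤ)
    (hr : 0 < r) (hL : SCh L r = true) (hB : ∀ p ∈ L, 0 ≤ p.B)
    (hgl : IntegrableOn gl (Iio (log ((r : ℝ) / 16))))
    (hgr : IntegrableOn gr (Ici (log ((srend L r : ℤ) / 16))))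
    (h1 : ∀ z, 16 * exp z < (r : ℝ) → F z ≤ gl z)
    (h2 : ∀ p ∈ L, ∀ z, (p.a : ℝ) ≤ 16 * exp z → 16 * exp z < p.b → F z ≤ (p.B : ℝ) / 2 ^ S)
    (h3 : ∀ z, ((srend L r : ℤ) : ℝ) ≤ 16 * exp z → F z ≤ gr z) :
    ∫ z, F z ≤ (∫ z in Iio (log ((r : ℝ) / 16)), gl z) + (ssum L : ℝ) / 2 ^ S +
      ∫ z in Ici (log ((srend L r : ℤ) / 16)), gr z := by
  obtain ⟨hI, hle⟩ := stepf_integral (S := S) L r hr hL hB hgr
  set g : ℝ → ℝ := fun z => if z < log ((r : ℝ) / 16) then gl z else stepf S gr L z with hg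
  have hU : (univ : Set ℝ) = Iio (log ((r : ℝ) / 16)) ∪ Ici (log ((r : ℝ) / 16)) :=
    Iio_union_Ici.symm
  have he1 : EqOn g gl (Iio (log ((r : ℝ) / 16))) := fun z hz => by
    simp only [hg]; rw [if_pos (show z < log ((r : ℝ) / 16) from hz)]
  have he2 : EqOn g (stepf S gr L) (Ici (log ((r : ℝ) / 16))) := fun z hz => by
    simp only [hg]; rw [if_neg (not_lt.2 (show log ((r : ℝ) / 16) ≤ z from hz))]
  have hg1 : IntegrableOn g (Iio (log ((r : ℝ) / 16))) :=
    hgl.congr_fun he1.symm measurableSet_Iio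
  have hg2 : IntegrableOn g (Ici (log ((r : ℝ) / 16))) :=
    hI.congr_fun he2.symm measurableSet_Ici
  have hgi : Integrable g := by
    rw [← integrableOn_univ, hU]; exact hg1.union hg2
  have hFg : ∀ z, F z ≤ g z := by
    intro z
    simp only [hg]
    by_cases h : z < log ((r : ℝ) / 16)
    · rw [if_pos h]; exact h1 z ((lt_iff_exp hr z).2 h)
    · rw [if_neg h]
      exact stepf_le L r hL h2 h3 z ((le_iff_exp hr z).2 (not_lt.1 h))
  have hm : ∫ z, F z ≤ ∫ z, g z :=
    integral_mono_of_nonneg (Eventually.of_forall hF) hgi (Eventually.of_forall hFg)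
  have hsp : ∫ z, g z = (∫ z in Iio (log ((r : ℝ) / 16)), gl z) +
      ∫ z in Ici (log ((r : ℝ) / 16)), stepf S gr L z := by
    have hd : Disjoint (Iio (log ((r : ℝ) / 16))) (Ici (log ((r : ℝ) / 16))) :=
      Set.disjoint_left.2 fun z hz hz' => absurd (show z < log ((r : ℝ) / 16) from hz)
        (not_lt.2 hz')
    rw [← setIntegral_univ, hU, setIntegral_union hd measurableSet_Ici hg1 hg2,
      setIntegral_congr_fun measurableSet_Iio he1,
      setIntegral_congr_fun measurableSet_Ici he2]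
  rw [hsp] at hm
  (clear * - hle hm; linarith)

/-- compactly supported case -/
theorem integral_le_steps0 {S : ℕ} {F : ℝ → ℝ} (hF : ∀ z, 0 ≤ F z) (L : List Stp) (r : ℤ)
    (hr : 0 < r) (hL : SCh L r = true) (hB : ∀ p ∈ L, 0 ≤ p.B)
    (h1 : ∀ z, 16 * exp z < (r : ℝ) → F z = 0)
    (h2 : ∀ p ∈ L, ∀ z, (p.a : ℝ) ≤ 16 * exp z → 16 * exp z < p.b → F z ≤ (p.B : ℝ) / 2 ^ S)
    (h3 : ∀ z, ((srend L r : ℤ) : ℝ) ≤ 16 * exp z → F z = 0) :
    ∫ z, F z ≤ (ssum L : ℝ) / 2 ^ S := by
  have h := integral_le_steps (S := S) (gl := fun _ => 0) (gr := fun _ => 0) hF L r hr hL hB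
    integrableOn_zero integrableOn_zero (fun z hz => (h1 z hz).le) h2 (fun z hz => (h3 z hz).le)
  simpa only [ge_iff_le, integral_zero, zero_add, add_zero] using h

/-- left tail integral -/
theorem integral_exp_left (C : ℝ) {p : ℝ} (hp : 0 < p) (z₀ : ℝ) :
    IntegrableOn (fun z => C * exp (p * z)) (Iio z₀) ∧
    ∫ z in Iio z₀, C * exp (p * z) = C * (exp (p * z₀) / p) := by
  have h := integrableOn_exp_mul_Iic hp z₀
  refine ⟨(h.mono_set Iio_subset_Iic_self).const_mul C, ?_⟩
  rw [integral_const_mul, ← integral_Iic_eq_integral_Iio, integral_exp_mul_Iic hp]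

/-- right tail integral -/
theorem integral_exp_right (C : ℝ) {p : ℝ} (hp : 0 < p) (z₀ : ℝ) :
    IntegrableOn (fun z => C * exp (-p * z)) (Ici z₀) ∧
    ∫ z in Ici z₀, C * exp (-p * z) = C * (exp (-p * z₀) / p) := by
  have hp' : -p < 0 := by linarith only [hp]
  have h := integrableOn_exp_mul_Ioi hp' z₀
  have h' : IntegrableOn (fun z => exp (-p * z)) (Ici z₀) := by
    rw [integrableOn_Ici_iff_integrableOn_Ioi]; exact h
  refine ⟨h'.const_mul C, ?_⟩
  rw [integral_const_mul, integral_Ici_eq_integral_Ioi, integral_exp_mul_Ioi hp']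
  congr 1
  (clear * - hp; field_simp)

end P264.H3
end
end

section

attribute [-instance] ProperSMul.toContinuousSMul IsTopologicalTorsor.toContinuousSMul IdemSemiring.toCanonicallyOrderedAdd IdemSemiring.toMulLeftMono IdemSemiring.toMulRightMono AddQuantale.instAddLeftMono AddQuantale.instAddRightMono Quantale.instMulLeftMono Quantale.instMulRightMono FiniteDimensional.rclike_to_real IsScalarTower.complexToReal FiniteDimensional.complexToReal

section

/-!
# P264 / Tool / ZForm : basic calculus for the `z`-form of the energy (helper602)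

Green representation, pointwise bounds, integration by parts for the class `Adm`.
-/

open MeasureTheory Set Filter Real
open scoped ContDiff Topology

namespace P264.B

/-! ### integrability -/

/-- Continuous functions with compact support on the right and exponential decay on the left. -/
theorem integrable_of_tail {f : ℝ → ℝ} (hf : Continuous f) {Z : ℝ} (hr : ∀ z, Z ≤ z → f z = 0)
    {a : ℝ} (ha : 0 < a) {C Z₀ : ℝ} (hl : ∀ z ≤ Z₀, |f z| ≤ C * exp (a * z)) :
    Integrable f := by
  have h1 : IntegrableOn f (Iic Z₀) := by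
    refine Integrable.mono' ((integrableOn_exp_mul_Iic ha Z₀).const_mul C)
      hf.aestronglyMeasurable.restrict ?_
    rw [ae_restrict_iff' measurableSet_Iic]
    exact Eventually.of_forall fun z hz => by
      rw [Real.norm_eq_abs]
      exact hl z hz
  have h2 : IntegrableOn f (Icc Z₀ Z) := hf.continuousOn.integrableOn_Icc
  have h3 : IntegrableOn f (Ici Z) := by
    refine IntegrableOn.congr_fun (f := fun _ => (0 : ℝ)) integrableOn_zero ?_ measurableSet_Ici
    intro z hz
    exact (hr z hz).symm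
  have h4 : IntegrableOn f (Iic Z₀ ∪ Icc Z₀ Z ∪ Ici Z) := (h1.union h2).union h3
  rw [← integrableOn_univ]
  refine h4.mono_set fun z _ => ?_
  rcases le_total z Z₀ with h | h
  · exact Or.inl (Or.inl h)
  · rcases le_total z Z with h' | h'
    · exact Or.inl (Or.inr ⟨h, h'⟩)
    · exact Or.inr h'

/-! ### iterated derivatives -/

theorem hdIter {n : ℕ} {G : ℝ → ℝ} (hG : ContDiff ℝ n G) {j : ℕ} (hj : j < n) (z : ℝ) :
    HasDerivAt (iteratedDeriv j G) (iteratedDeriv (j + 1) G z) z := by
  rw [iteratedDeriv_succ]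
  exact (hG.differentiable_iteratedDeriv j (by exact_mod_cast hj) z).hasDerivAt

theorem contIter {n : ℕ} {G : ℝ → ℝ} (hG : ContDiff ℝ n G) {j : ℕ} (hj : j ≤ n) :
    Continuous (iteratedDeriv j G) :=
  hG.continuous_iteratedDeriv j (by exact_mod_cast hj)

theorem hdIter0 {n : ℕ} {G : ℝ → ℝ} (hG : ContDiff ℝ n G) (hj : 0 < n) (z : ℝ) :
    HasDerivAt G (iteratedDeriv 1 G z) z := by
  have := hdIter hG hj z
  rwa [iteratedDeriv_zero] at this

theorem cdIter {n m j : ℕ} {G : ℝ → ℝ} (hG : ContDiff ℝ n G) (hj : m + j ≤ n) :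
    ContDiff ℝ m (iteratedDeriv j G) := by
  rw [iteratedDeriv_eq_iterate]
  exact (hG.of_le (by exact_mod_cast hj)).iterate_deriv' m j

theorem contDiff_om {n : ℕ} {G : ℝ → ℝ} (hG : ContDiff ℝ (n + 2 : ℕ) G) :
    ContDiff ℝ n (om G) := by
  have h2 : ContDiff ℝ n (iteratedDeriv 2 G) := cdIter hG le_rfl
  have h1 : ContDiff ℝ n (iteratedDeriv 1 G) := cdIter hG (by omega)
  have h0 : ContDiff ℝ n G := hG.of_le (by exact_mod_cast Nat.le_add_right n 2)
  exact ((h2.sub (contDiff_const.mul h1)).add (contDiff_const.mul h0))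

theorem hasDerivAt_om {G : ℝ → ℝ} (hG : ContDiff ℝ 4 G) (z : ℝ) :
    HasDerivAt (om G) (iteratedDeriv 1 (om G) z) z :=
  hdIter0 (n := 2) (contDiff_om (n := 2) (by exact_mod_cast hG)) (by norm_num) z

theorem hasDerivAt_om1 {G : ℝ → ℝ} (hG : ContDiff ℝ 4 G) (z : ℝ) :
    HasDerivAt (iteratedDeriv 1 (om G)) (iteratedDeriv 2 (om G) z) z :=
  hdIter (n := 2) (contDiff_om (n := 2) (by exact_mod_cast hG)) (by norm_num) z

/-! ### the Green representation -/

/-- kernel `k(z,s) = e^{z-s} - e^{2(z-s)}` -/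
noncomputable def gk (z s : ℝ) : ℝ := exp (z - s) - exp (2 * (z - s))

theorem hasDerivAt_exp_sub (a z s : ℝ) :
    HasDerivAt (fun s => exp (a * (z - s))) (-(a * exp (a * (z - s)))) s := by
  have h : HasDerivAt (fun s : ℝ => a * (z - s)) (-a) s := by
    have := ((hasDerivAt_id s).const_sub z).const_mul a
    simpa only [id_eq, mul_neg, mul_one] using this
  have := h.exp
  convert this using 1
  ring

/-- Green representation with boundary terms at `b`. -/
theorem green_rep {g g1 g2 : ℝ → ℝ} {z b : ℝ} (hzb : z ≤ b)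
    (h0 : ∀ s ∈ Icc z b, HasDerivAt g (g1 s) s) (h1 : ∀ s ∈ Icc z b, HasDerivAt g1 (g2 s) s)
    (hi : IntervalIntegrable (fun s => gk z s * (g2 s - 3 * g1 s + 2 * g s)) volume z b) :
    g z = (∫ s in z..b, gk z s * (g2 s - 3 * g1 s + 2 * g s))
      - (gk z b * (g1 b - 3 * g b) + (exp (z - b) - 2 * exp (2 * (z - b))) * g b) := by
  have e1 : ∀ s, HasDerivAt (fun s => exp (z - s)) (-exp (z - s)) s := by
    intro s
    have := hasDerivAt_exp_sub 1 z s
    simpa using this
  have e2 : ∀ s, HasDerivAt (fun s => exp (2 * (z - s))) (-(2 * exp (2 * (z - s)))) s :=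
    fun s => hasDerivAt_exp_sub 2 z s
  have hF : ∀ s ∈ uIcc z b, HasDerivAt (fun s => gk z s * (g1 s - 3 * g s)
      + (exp (z - s) - 2 * exp (2 * (z - s))) * g s)
      (gk z s * (g2 s - 3 * g1 s + 2 * g s)) s := by
    intro s hs
    rw [uIcc_of_le hzb] at hs
    have hk : HasDerivAt (fun s => gk z s) (-exp (z - s) - -(2 * exp (2 * (z - s)))) s :=
      (e1 s).sub (e2 s)
    have hk1 : HasDerivAt (fun s => exp (z - s) - 2 * exp (2 * (z - s)))
        (-exp (z - s) - 2 * -(2 * exp (2 * (z - s)))) s := (e1 s).sub ((e2 s).const_mul 2)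
    refine ((hk.fun_mul ((h1 s hs).fun_sub ((h0 s hs).const_mul 3))).fun_add
      (hk1.fun_mul (h0 s hs))).congr_deriv ?_
    simp only [gk]
    ring
  have := intervalIntegral.integral_eq_sub_of_hasDerivAt hF hi
  rw [this]
  simp only [gk, sub_self, exp_zero, mul_zero, zero_mul, mul_one, zero_add, sub_sub_cancel_left]
  ring

theorem om_zero_right {G : ℝ → ℝ} {Z : ℝ} (hZ : ∀ z, Z ≤ z → G z = 0) (j : ℕ) {z : ℝ}
    (hz : Z < z) : iteratedDeriv j G z = 0 := by
  have : G =ᶠ[𝓝 z] fun _ => 0 := by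
    filter_upwards [Ioi_mem_nhds hz] with s hs
    exact hZ s (le_of_lt hs)
  rw [this.iteratedDeriv_eq]
  simp

theorem om_eq_zero {G : ℝ → ℝ} {Z : ℝ} (hZ : ∀ z, Z ≤ z → G z = 0) {z : ℝ}
    (hz : Z < z) : om G z = 0 := by
  simp [om, om_zero_right hZ _ hz, hZ z hz.le]

theorem continuous_gk (z : ℝ) : Continuous (gk z) := by
  unfold gk
  fun_prop

/-- (B1) -/
theorem Adm.green {G : ℝ → ℝ} (hG : Adm G) (z : ℝ) :
    G z = ∫ s in Ioi z, (exp (z - s) - exp (2 * (z - s))) * om G s := by
  obtain ⟨Z, hZ⟩ := hG.right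
  set b : ℝ := max Z z + 1 with hb
  have hzb : z ≤ b := (le_max_right _ _).trans (by linarith)
  have hZb : Z < b := (le_max_left Z z).trans_lt (by linarith only [])
  have hc : Continuous (om G) := (contDiff_om (n := 2) (by exact_mod_cast hG.smooth)).continuous
  have h := green_rep (g := G) (g1 := iteratedDeriv 1 G) (g2 := iteratedDeriv 2 G) hzb
    (fun s _ => hdIter0 (n := 4) hG.smooth (by norm_num) s)
    (fun s _ => hdIter (n := 4) hG.smooth (by norm_num) s)
    (((continuous_gk z).mul hc).intervalIntegrable _ _)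
  rw [h, om_zero_right hZ 1 hZb, hZ b hZb.le]
  have hs : ∫ s in Ioi z, (exp (z - s) - exp (2 * (z - s))) * om G s
      = ∫ s in Ioc z b, (exp (z - s) - exp (2 * (z - s))) * om G s := by
    refine (setIntegral_eq_of_subset_of_forall_sdiff_eq_zero measurableSet_Ioi
      Ioc_subset_Ioi_self ?_)
    intro s hs
    have : b < s := by
      by_contra hcon
      exact hs.2 ⟨hs.1, not_lt.mp hcon⟩
    rw [om_eq_zero hZ (hZb.trans this), mul_zero]
  rw [hs, intervalIntegral.integral_of_le hzb]
  simp only [gk, iteratedDeriv_one, mul_zero, sub_self, add_zero, sub_zero, om]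

/-! ### Cauchy-Schwarz -/

theorem integral_mul_sq_le {α : Type*} [MeasurableSpace α] {μ : Measure α} {f g : α → ℝ}
    (hf : Integrable (fun x => f x ^ 2) μ) (hg : Integrable (fun x => g x ^ 2) μ)
    (hfg : Integrable (fun x => f x * g x) μ) :
    (∫ x, f x * g x ∂μ) ^ 2 ≤ (∫ x, f x ^ 2 ∂μ) * ∫ x, g x ^ 2 ∂μ := by
  have key : ∀ t : ℝ, 0 ≤ (∫ x, g x ^ 2 ∂μ) * (t * t) + (-2 * ∫ x, f x * g x ∂μ) * t
      + ∫ x, f x ^ 2 ∂μ := by
    intro t
    have h0 : 0 ≤ ∫ x, (f x - t * g x) ^ 2 ∂μ := integral_nonneg fun x => sq_nonneg _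
    have e : (fun x => (f x - t * g x) ^ 2) =
        fun x => (f x ^ 2 - 2 * t * (f x * g x)) + t ^ 2 * g x ^ 2 := by
      funext x
      ring
    have i1 : Integrable (fun x => f x ^ 2 - 2 * t * (f x * g x)) μ := hf.sub (hfg.const_mul _)
    rw [e, integral_add i1 (hg.const_mul _),
      integral_sub hf (hfg.const_mul _), integral_const_mul, integral_const_mul] at h0
    linarith only [h0]
  have := discrim_le_zero key
  rw [discrim] at this
  linarith

/-! ### bounds for the weight -/

theorem Weight.bounds₂ {ρ : ℝ → ℝ} {ν c₁ c₂ : ℝ} (h : Weight ρ ν c₁ c₂) :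
    ∃ m > 0, ∃ M > 0, ∀ z, m * exp (-(2 * ν) * z) ≤ ρ z ∧ ρ z ≤ M * exp (-(2 * ν) * z) :=
  h.tail

/-- `∫_{z}^∞ e^{-a s}/ρ(s) ds` converges for `a > 2ν`. -/
theorem Weight.integrableOn_exp_div {ρ : ℝ → ℝ} {ν c₁ c₂ : ℝ} (h : Weight ρ ν c₁ c₂) {a : ℝ}
    (ha : 2 * ν < a) (z : ℝ) : IntegrableOn (fun s => exp (-a * s) / ρ s) (Ioi z) := by
  obtain ⟨m, hm, M, hM, hb⟩ := h.bounds₂
  have h1 : IntegrableOn (fun s => m⁻¹ * exp ((2 * ν - a) * s)) (Ioi z) :=
    (integrableOn_exp_mul_Ioi (by (clear * - ha; linarith)) z).const_mul _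
  refine Integrable.mono' h1 ?_ ?_
  · have : Continuous (fun s => exp (-a * s) / ρ s) :=
      Continuous.div (by fun_prop) h.smooth.continuous (fun s => (h.pos s).ne')
    exact this.aestronglyMeasurable.restrict
  · refine Eventually.of_forall fun s => ?_
    rw [Real.norm_eq_abs, abs_of_pos (div_pos (exp_pos _) (h.pos s))]
    rw [div_le_iff₀ (h.pos s)]
    calc exp (-a * s) = m⁻¹ * exp ((2 * ν - a) * s) * (m * exp (-(2 * ν) * s)) := by
          have : exp (-a * s) = exp ((2 * ν - a) * s) * exp (-(2 * ν) * s) := by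
            rw [← exp_add]
            congr 1
            ring
          rw [this]
          field_simp
      _ ≤ m⁻¹ * exp ((2 * ν - a) * s) * ρ s :=
          mul_le_mul_of_nonneg_left (hb s).1 (by positivity)

theorem gk_sq (z s : ℝ) : (exp (z - s) - exp (2 * (z - s))) ^ 2 =
    exp (2 * z) * exp (-2 * s) - 2 * exp (3 * z) * exp (-3 * s)
      + exp (4 * z) * exp (-4 * s) := by
  have e1 : exp (z - s) ^ 2 = exp (2 * z) * exp (-2 * s) := by
    rw [← exp_nat_mul, ← exp_add]; congr 1; push_cast; ring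
  have e2 : exp (z - s) * exp (2 * (z - s)) = exp (3 * z) * exp (-3 * s) := by
    rw [← exp_add, ← exp_add]; congr 1; ring
  have e3 : exp (2 * (z - s)) ^ 2 = exp (4 * z) * exp (-4 * s) := by
    rw [← exp_nat_mul, ← exp_add]; congr 1; push_cast; ring
  calc (exp (z - s) - exp (2 * (z - s))) ^ 2 = exp (z - s) ^ 2
        - 2 * (exp (z - s) * exp (2 * (z - s))) + exp (2 * (z - s)) ^ 2 := by ring
    _ = _ := by rw [e1, e2, e3]; ring

theorem Weight.integrableOn_gk {ρ : ℝ → ℝ} {ν c₁ c₂ : ℝ} (h : Weight ρ ν c₁ c₂) (z : ℝ) :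
    IntegrableOn (fun s => (exp (z - s) - exp (2 * (z - s))) ^ 2 / ρ s) (Ioi z) := by
  have hν := h.nu.2
  have h2 := (h.integrableOn_exp_div (a := 2) (by linarith) z).const_mul (exp (2 * z))
  have h3 := (h.integrableOn_exp_div (a := 3) (by linarith only [hν]) z).const_mul (2 * exp (3 * z))
  have h4 := (h.integrableOn_exp_div (a := 4) (by linarith) z).const_mul (exp (4 * z))
  refine IntegrableOn.congr_fun ((h2.sub h3).add h4) (fun s _ => ?_) measurableSet_Ioi
  simp only [Pi.add_apply, Pi.sub_apply]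
  rw [gk_sq]
  ring

theorem Weight.bsq_eq {ρ : ℝ → ℝ} {ν c₁ c₂ : ℝ} (h : Weight ρ ν c₁ c₂) (z : ℝ) :
    bsq ρ z = exp (2 * z) * (∫ s in Ioi z, exp (-2 * s) / ρ s)
      - 2 * exp (3 * z) * (∫ s in Ioi z, exp (-3 * s) / ρ s)
      + exp (4 * z) * ∫ s in Ioi z, exp (-4 * s) / ρ s := by
  have hν := h.nu.2
  have h2 := (h.integrableOn_exp_div (a := 2) (by linarith only [hν]) z).const_mul (exp (2 * z))
  have h3 := (h.integrableOn_exp_div (a := 3) (by linarith only [hν]) z).const_mul (2 * exp (3 * z))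
  have h4 := (h.integrableOn_exp_div (a := 4) (by linarith) z).const_mul (exp (4 * z))
  have h23 : Integrable (fun s => exp (2 * z) * (exp (-2 * s) / ρ s)
    - 2 * exp (3 * z) * (exp (-3 * s) / ρ s)) (volume.restrict (Ioi z)) := h2.sub h3
  unfold bsq
  rw [← integral_const_mul, ← integral_const_mul, ← integral_const_mul,
    ← integral_sub h2 h3, ← integral_add h23 h4]
  refine setIntegral_congr_fun measurableSet_Ioi fun s _ => ?_
  change (exp (z - s) - exp (2 * (z - s))) ^ 2 / ρ s = _
  rw [gk_sq]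
  ring

theorem continuous_integral_Ioi {f : ℝ → ℝ} (hf : Continuous f)
    (hi : ∀ z, IntegrableOn f (Ioi z)) : Continuous (fun z => ∫ s in Ioi z, f s) := by
  have e : (fun z => ∫ s in Ioi z, f s) = fun z => (∫ s in Ioi 0, f s) - ∫ s in (0 : ℝ)..z, f s := by
    funext z
    rw [intervalIntegral.integral_Ioi_sub_Ioi' (hi 0) (hi z) |>.symm]
    ring
  rw [e]
  exact continuous_const.sub (intervalIntegral.continuous_primitive
    (fun a b => hf.intervalIntegrable a b) 0)

theorem Weight.continuous_bsq {ρ : ℝ → ℝ} {ν c₁ c₂ : ℝ} (h : Weight ρ ν c₁ c₂) :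
    Continuous (bsq ρ) := by
  have hν := h.nu.2
  have hc : ∀ a : ℝ, 2 * ν < a → Continuous (fun z => ∫ s in Ioi z, exp (-a * s) / ρ s) :=
    fun a ha => continuous_integral_Ioi
      (Continuous.div (by fun_prop) h.smooth.continuous (fun s => (h.pos s).ne'))
      (fun z => h.integrableOn_exp_div ha z)
  have e : bsq ρ = fun z => exp (2 * z) * (∫ s in Ioi z, exp (-2 * s) / ρ s)
      - 2 * exp (3 * z) * (∫ s in Ioi z, exp (-3 * s) / ρ s)
      + exp (4 * z) * ∫ s in Ioi z, exp (-4 * s) / ρ s := funext h.bsq_eq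
  rw [e]
  have c2 := hc 2 (by linarith only [hν])
  have c3 := hc 3 (by linarith only [hν])
  have c4 := hc 4 (by linarith only [hν])
  (clear * - c2 c3 c4; fun_prop)

theorem bsq_nonneg {ρ : ℝ → ℝ} (h : ∀ z, 0 < ρ z) (z : ℝ) : 0 ≤ bsq ρ z :=
  integral_nonneg fun s => div_nonneg (sq_nonneg _) (h s).le

theorem Weight.bsq_le {ρ : ℝ → ℝ} {ν c₁ c₂ : ℝ} (h : Weight ρ ν c₁ c₂) :
    ∃ C > 0, ∀ z, bsq ρ z ≤ C * exp (2 * ν * z) := by
  obtain ⟨m, hm, M, hM, hb⟩ := h.bounds₂
  have hν := h.nu.2
  refine ⟨(m * (2 - 2 * ν))⁻¹, by have : 0 < 2 - 2 * ν := by linarith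
                                  positivity, fun z => ?_⟩
  have hi : IntegrableOn (fun s => m⁻¹ * exp (2 * z) * exp ((2 * ν - 2) * s)) (Ioi z) :=
    (integrableOn_exp_mul_Ioi (by linarith) z).const_mul _
  calc bsq ρ z ≤ ∫ s in Ioi z, m⁻¹ * exp (2 * z) * exp ((2 * ν - 2) * s) := by
        refine setIntegral_mono_on (h.integrableOn_gk z) hi measurableSet_Ioi fun s hs => ?_
        rw [div_le_iff₀ (h.pos s)]
        have hs' : z < s := hs
        have h0 : 0 ≤ exp (z - s) - exp (2 * (z - s)) := by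
          have : exp (2 * (z - s)) ≤ exp (z - s) := exp_le_exp.mpr (by linarith only [hs'])
          linarith
        have h1 : exp (z - s) - exp (2 * (z - s)) ≤ exp (z - s) := by
          have := exp_pos (2 * (z - s))
          linarith
        have h2 : (exp (z - s) - exp (2 * (z - s))) ^ 2 ≤ exp (z - s) ^ 2 :=
          pow_le_pow_left₀ h0 h1 2
        have h3 : exp (z - s) ^ 2 = m⁻¹ * exp (2 * z) * exp ((2 * ν - 2) * s)
            * (m * exp (-(2 * ν) * s)) := by
          have e1 : exp (z - s) ^ 2 = exp (2 * z) * exp ((2 * ν - 2) * s) * exp (-(2 * ν) * s) := by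
            rw [← exp_nat_mul, ← exp_add, ← exp_add]; congr 1; push_cast; ring
          rw [e1]
          field_simp
        rw [h3] at h2
        exact h2.trans (mul_le_mul_of_nonneg_left (hb s).1 (by positivity))
    _ = (m * (2 - 2 * ν))⁻¹ * exp (2 * ν * z) := by
        rw [integral_const_mul, integral_exp_mul_Ioi (by linarith)]
        have e1 : exp (2 * z) * exp ((2 * ν - 2) * z) = exp (2 * ν * z) := by
          rw [← exp_add]; congr 1; ring
        have h2 : 2 - 2 * ν ≠ 0 := by linarith only [hν]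
        have h3 : 2 * ν - 2 ≠ 0 := by linarith
        have e2 : m⁻¹ * exp (2 * z) * (-exp ((2 * ν - 2) * z) / (2 * ν - 2)) =
            (m * (2 - 2 * ν))⁻¹ * (exp (2 * z) * exp ((2 * ν - 2) * z)) := by
          rw [mul_inv, div_eq_mul_inv]
          have : (2 * ν - 2)⁻¹ = -(2 - 2 * ν)⁻¹ := by
            rw [← inv_neg]; congr 1; ring
          rw [this]
          ring
        rw [e2, e1]

/-! ### decay of `ρ (om G)²` and the pointwise bound -/

theorem Adm.om_cont {G : ℝ → ℝ} (hG : Adm G) : Continuous (om G) :=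
  (contDiff_om (n := 2) (by exact_mod_cast hG.smooth)).continuous

theorem Adm.integrable_NN {G ρ : ℝ → ℝ} {ν c₁ c₂ : ℝ} (hG : Adm G) (h : Weight ρ ν c₁ c₂) :
    Integrable (fun z => ρ z * om G z ^ 2) := by
  obtain ⟨Z, hZ⟩ := hG.right
  obtain ⟨C, hC⟩ := hG.left1
  obtain ⟨m, hm, M, hM, hb⟩ := h.bounds₂
  have hν := h.nu.2
  refine integrable_of_tail (Z := Z + 1) (Z₀ := 0) (a := 6 - 2 * ν) (C := M * C ^ 2)
    (h.smooth.continuous.mul (hG.om_cont.pow 2)) ?_ (by linarith) ?_
  · intro z hz
    rw [om_eq_zero hZ (by linarith only [hz])]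
    ring
  · intro z hz
    have h1 : |om G z| ≤ C * exp (3 * z) := by
      have := hC 0 (by norm_num) z hz
      rwa [iteratedDeriv_zero] at this
    rw [abs_mul, abs_of_pos (h.pos z), abs_pow]
    calc ρ z * |om G z| ^ 2 ≤ (M * exp (-(2 * ν) * z)) * (C * exp (3 * z)) ^ 2 :=
          mul_le_mul (hb z).2 (pow_le_pow_left₀ (abs_nonneg _) h1 2) (by (clear * -; positivity))
            (by positivity)
      _ = M * C ^ 2 * exp ((6 - 2 * ν) * z) := by
          have : exp ((6 - 2 * ν) * z) = exp (-(2 * ν) * z) * exp (3 * z) ^ 2 := by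
            rw [← exp_nat_mul, ← exp_add]; congr 1; push_cast; ring
          rw [this]
          ring

/-- (B2) -/
theorem Adm.sq_le {G ρ : ℝ → ℝ} {ν c₁ c₂ : ℝ} (hG : Adm G) (h : Weight ρ ν c₁ c₂) (z : ℝ) :
    G z ^ 2 ≤ bsq ρ z * NN ρ G := by
  have hN := hG.integrable_NN h
  have h1 : ∀ s, (exp (z - s) - exp (2 * (z - s))) * om G s =
      ((exp (z - s) - exp (2 * (z - s))) / √(ρ s)) * (√(ρ s) * om G s) := by
    intro s
    have : √(ρ s) ≠ 0 := (Real.sqrt_pos.mpr (h.pos s)).ne'
    (clear * - this; field_simp)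
  have hs : ∀ s, ((exp (z - s) - exp (2 * (z - s))) / √(ρ s)) ^ 2 =
      (exp (z - s) - exp (2 * (z - s))) ^ 2 / ρ s := by
    intro s
    rw [div_pow, Real.sq_sqrt (h.pos s).le]
  have hs2 : ∀ s, (√(ρ s) * om G s) ^ 2 = ρ s * om G s ^ 2 := by
    intro s
    rw [mul_pow, Real.sq_sqrt (h.pos s).le]
  have i1 : IntegrableOn (fun s => ((exp (z - s) - exp (2 * (z - s))) / √(ρ s)) ^ 2) (Ioi z) := by
    simp only [hs]
    exact h.integrableOn_gk z
  have i2 : IntegrableOn (fun s => (√(ρ s) * om G s) ^ 2) (Ioi z) := by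
    simp only [hs2]
    exact hN.integrableOn
  have i3 : IntegrableOn (fun s => ((exp (z - s) - exp (2 * (z - s))) / √(ρ s)) *
      (√(ρ s) * om G s)) (Ioi z) := by
    refine Integrable.mono' (i1.add i2) ?_ ?_
    · have hc : Continuous (fun s => ((exp (z - s) - exp (2 * (z - s))) / √(ρ s)) *
          (√(ρ s) * om G s)) := by
        refine Continuous.mul (Continuous.div (by fun_prop)
          (Real.continuous_sqrt.comp h.smooth.continuous)
          (fun s => (Real.sqrt_pos.mpr (h.pos s)).ne')) ?_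
        exact (Real.continuous_sqrt.comp h.smooth.continuous).mul hG.om_cont
      exact hc.aestronglyMeasurable.restrict
    · refine Eventually.of_forall fun s => ?_
      simp only [Pi.add_apply, Real.norm_eq_abs]
      rw [abs_le]
      constructor <;> nlinarith only []
  have key := integral_mul_sq_le i1 i2 i3
  rw [hG.green z]
  simp only [h1]
  refine key.trans ?_
  simp only [hs, hs2]
  unfold bsq NN
  refine mul_le_mul_of_nonneg_left ?_ (bsq_nonneg h.pos z)
  exact setIntegral_le_integral hN (Eventually.of_forall fun s =>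
    mul_nonneg (h.pos s).le (sq_nonneg _))

/-! ### integration by parts -/

theorem Adm.om_right {G : ℝ → ℝ} (hG : Adm G) : ∃ Z : ℝ, ∀ z, Z ≤ z → ∀ j : ℕ,
    iteratedDeriv j (om G) z = 0 := by
  obtain ⟨Z, hZ⟩ := hG.right
  have h1 : ∀ z, Z + 1 ≤ z → om G z = 0 := fun z hz => om_eq_zero hZ (by linarith only [hz])
  exact ⟨Z + 2, fun z hz j => om_zero_right h1 j (by linarith only [hz])⟩

theorem Adm.hasDerivAt_u {G ρ : ℝ → ℝ} {ν c₁ c₂ : ℝ} (hG : Adm G) (h : Weight ρ ν c₁ c₂)
    (z : ℝ) : HasDerivAt (fun z => ρ z * om G z)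
      (iteratedDeriv 1 ρ z * om G z + ρ z * iteratedDeriv 1 (om G) z) z :=
  (hdIter0 (n := 2) h.smooth (by norm_num) z).fun_mul (hasDerivAt_om hG.smooth z)

theorem Adm.hasDerivAt_u1 {G ρ : ℝ → ℝ} {ν c₁ c₂ : ℝ} (hG : Adm G) (h : Weight ρ ν c₁ c₂)
    (z : ℝ) : HasDerivAt (fun z => iteratedDeriv 1 ρ z * om G z + ρ z * iteratedDeriv 1 (om G) z)
      (iteratedDeriv 2 ρ z * om G z + 2 * iteratedDeriv 1 ρ z * iteratedDeriv 1 (om G) z
        + ρ z * iteratedDeriv 2 (om G) z) z := by
  refine (((hdIter (n := 2) h.smooth (j := 1) (by norm_num) z).fun_mul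
    (hasDerivAt_om hG.smooth z)).fun_add
    ((hdIter0 (n := 2) h.smooth (by norm_num) z).fun_mul
      (hasDerivAt_om1 hG.smooth z))).congr_deriv ?_
  ring

/-- tail bounds for the three jets of `ρ om G` -/
theorem Adm.u_bounds {G ρ : ℝ → ℝ} {ν c₁ c₂ : ℝ} (hG : Adm G) (h : Weight ρ ν c₁ c₂) :
    ∃ C > 0, ∀ z ≤ (0 : ℝ), |ρ z * om G z| ≤ C * exp ((3 - 2 * ν) * z) ∧
      |iteratedDeriv 1 ρ z * om G z + ρ z * iteratedDeriv 1 (om G) z|
        ≤ C * exp ((3 - 2 * ν) * z) ∧
      |iteratedDeriv 2 ρ z * om G z + 2 * iteratedDeriv 1 ρ z * iteratedDeriv 1 (om G) z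
        + ρ z * iteratedDeriv 2 (om G) z| ≤ C * exp ((3 - 2 * ν) * z) := by
  obtain ⟨C, hC⟩ := hG.left1
  obtain ⟨m, hm, M, hM, hb⟩ := h.bounds₂
  have hC0 : 0 ≤ C := by
    have := (abs_nonneg _).trans (hC 0 (by norm_num) 0 le_rfl)
    simpa only [ge_iff_le, mul_zero, exp_zero, mul_one] using this
  have hc1 : 0 ≤ c₁ := by
    have := (abs_nonneg _).trans (h.d1 0)
    exact nonneg_of_mul_nonneg_left this (h.pos 0)
  have hc2 : 0 ≤ c₂ := by
    have := (abs_nonneg _).trans (h.d2 0)
    exact nonneg_of_mul_nonneg_left this (h.pos 0)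
  refine ⟨M * (C + 1) * (1 + 2 * c₁ + c₂), by (clear * - hM hC0 hc1 hc2; positivity), fun z hz => ?_⟩
  have e0 := hC 0 (by norm_num) z hz
  have e1 := hC 1 (by norm_num) z hz
  have e2 := hC 2 (by norm_num) z hz
  rw [iteratedDeriv_zero] at e0
  have hρ := (hb z).2
  have hρ0 := h.pos z
  have d1 := h.d1 z
  have d2 := h.d2 z
  have hE : exp ((3 - 2 * ν) * z) = exp (-(2 * ν) * z) * exp (3 * z) := by
    rw [← exp_add]; congr 1; ring
  set E := C * exp (3 * z) with hEdef
  have hE0 : 0 ≤ E := by (clear * - hC0; positivity)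
  -- basic products
  have p0 : ρ z * E ≤ M * C * exp ((3 - 2 * ν) * z) := by
    rw [hE, hEdef]
    calc ρ z * (C * exp (3 * z)) ≤ (M * exp (-(2 * ν) * z)) * (C * exp (3 * z)) :=
          mul_le_mul_of_nonneg_right hρ (by (clear * - hC0; positivity))
      _ = _ := by ring
  have a0 : |ρ z * om G z| ≤ ρ z * E := by
    rw [abs_mul, abs_of_pos hρ0]
    exact mul_le_mul_of_nonneg_left e0 hρ0.le
  have a1 : |ρ z * iteratedDeriv 1 (om G) z| ≤ ρ z * E := by
    rw [abs_mul, abs_of_pos hρ0]
    exact mul_le_mul_of_nonneg_left e1 hρ0.le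
  have a2 : |ρ z * iteratedDeriv 2 (om G) z| ≤ ρ z * E := by
    rw [abs_mul, abs_of_pos hρ0]
    exact mul_le_mul_of_nonneg_left e2 hρ0.le
  have b0 : |iteratedDeriv 1 ρ z * om G z| ≤ c₁ * (ρ z * E) := by
    rw [abs_mul, ← mul_assoc]
    exact mul_le_mul d1 e0 (abs_nonneg _) (by (clear * - hc1 hρ0; positivity))
  have b1 : |2 * iteratedDeriv 1 ρ z * iteratedDeriv 1 (om G) z| ≤ 2 * (c₁ * (ρ z * E)) := by
    rw [mul_assoc, abs_mul, abs_of_pos (by norm_num : (0 : ℝ) < 2), abs_mul, ← mul_assoc c₁]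
    exact mul_le_mul_of_nonneg_left (mul_le_mul d1 e1 (abs_nonneg _) (by (clear * - hc1 hρ0; positivity)))
      (by norm_num)
  have b2 : |iteratedDeriv 2 ρ z * om G z| ≤ c₂ * (ρ z * E) := by
    rw [abs_mul, ← mul_assoc]
    exact mul_le_mul d2 e0 (abs_nonneg _) (by (clear * - hc2 hρ0; positivity))
  set X := exp ((3 - 2 * ν) * z) with hX
  have hX0 : 0 < X := exp_pos _
  have q1 : ρ z * E ≤ M * (C + 1) * X := p0.trans (by
    have : M * C * X ≤ M * (C + 1) * X := by
      apply mul_le_mul_of_nonneg_right _ hX0.le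
      nlinarith only [hM]
    exact this)
  have hQ : 0 ≤ M * (C + 1) * X := by (clear * - hM hC0; positivity)
  refine ⟨?_, ?_, ?_⟩
  · refine (a0.trans q1).trans ?_
    have : 0 ≤ M * (C + 1) * X * (2 * c₁ + c₂) := by (clear * - hM hC0 hc1 hc2; positivity)
    nlinarith only [this]
  · refine (abs_add_le _ _).trans ((add_le_add b0 a1).trans ?_)
    have h1 : c₁ * (ρ z * E) ≤ c₁ * (M * (C + 1) * X) := mul_le_mul_of_nonneg_left q1 hc1
    have : 0 ≤ M * (C + 1) * X * (c₁ + c₂) := by (clear * - hM hC0 hc1 hc2; positivity)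
    linarith
  · refine (abs_add_three _ _ _).trans ((add_le_add (add_le_add b2 b1) a2).trans ?_)
    have h1 : c₁ * (ρ z * E) ≤ c₁ * (M * (C + 1) * X) := mul_le_mul_of_nonneg_left q1 hc1
    have h2 : c₂ * (ρ z * E) ≤ c₂ * (M * (C + 1) * X) := mul_le_mul_of_nonneg_left q1 hc2
    linarith

/-- product of a tail-decaying jet of `ρ om G` and a function of size `e^z` is integrable -/
theorem integrable_prod_tail {u f : ℝ → ℝ} (hu : Continuous u) (hf : Continuous f) {Z : ℝ}
    (hr : ∀ z, Z ≤ z → u z = 0) {a C C' : ℝ} (ha : -1 < a)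
    (hl : ∀ z ≤ (0 : ℝ), |u z| ≤ C * exp (a * z)) (hf' : ∀ z ≤ (0 : ℝ), |f z| ≤ C' * exp z) :
    Integrable (fun z => u z * f z) := by
  refine integrable_of_tail (Z := Z) (Z₀ := 0) (a := a + 1) (C := C * C') (hu.mul hf)
    (fun z hz => by rw [hr z hz, zero_mul]) (by linarith) fun z hz => ?_
  have h1 := hl z hz
  have h2 := hf' z hz
  rw [abs_mul]
  have hC : 0 ≤ C * exp (a * z) := (abs_nonneg _).trans h1
  calc |u z| * |f z| ≤ (C * exp (a * z)) * (C' * exp z) :=
        mul_le_mul h1 h2 (abs_nonneg _) hC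
    _ = C * C' * exp ((a + 1) * z) := by
        have : exp ((a + 1) * z) = exp (a * z) * exp z := by
          rw [← exp_add]; congr 1; ring
        rw [this]
        ring

/-- (C) integration by parts: `∫ ρ om(G) (D-1)(D-2)f = ∫ f T(G)`. -/
theorem Adm.parts {G ρ f f1 f2 : ℝ → ℝ} {ν c₁ c₂ : ℝ} (hG : Adm G) (h : Weight ρ ν c₁ c₂)
    (hf : ∀ z, HasDerivAt f (f1 z) z) (hf1 : ∀ z, HasDerivAt f1 (f2 z) z)
    (hf2 : Continuous f2) {C' : ℝ} (hb0 : ∀ z ≤ (0 : ℝ), |f z| ≤ C' * exp z)
    (hb1 : ∀ z ≤ (0 : ℝ), |f1 z| ≤ C' * exp z) (hb2 : ∀ z ≤ (0 : ℝ), |f2 z| ≤ C' * exp z) :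
    Integrable (fun z => ρ z * om G z * (f2 z - 3 * f1 z + 2 * f z)) ∧
    Integrable (fun z => f z * Top ρ G z) ∧
    ∫ z, ρ z * om G z * (f2 z - 3 * f1 z + 2 * f z) = ∫ z, f z * Top ρ G z := by
  obtain ⟨Z, hZ⟩ := hG.om_right
  obtain ⟨C, hC, hb⟩ := hG.u_bounds h
  have hν := h.nu.2
  have hfc : Continuous f := continuous_iff_continuousAt.mpr fun z => (hf z).continuousAt
  have hf1c : Continuous f1 := continuous_iff_continuousAt.mpr fun z => (hf1 z).continuousAt
  have c0 : Continuous (om G) := hG.om_cont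
  have c1 : Continuous (iteratedDeriv 1 (om G)) :=
    contIter (n := 2) (contDiff_om (n := 2) (by exact_mod_cast hG.smooth)) (by norm_num)
  have c2 : Continuous (iteratedDeriv 2 (om G)) :=
    contIter (n := 2) (contDiff_om (n := 2) (by exact_mod_cast hG.smooth)) (by norm_num)
  have r0 : Continuous ρ := h.smooth.continuous
  have r1 : Continuous (iteratedDeriv 1 ρ) := contIter (n := 2) h.smooth (by norm_num)
  have r2 : Continuous (iteratedDeriv 2 ρ) := contIter (n := 2) h.smooth (by norm_num)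
  set u : ℝ → ℝ := fun z => ρ z * om G z with hu
  set u1 : ℝ → ℝ := fun z => iteratedDeriv 1 ρ z * om G z + ρ z * iteratedDeriv 1 (om G) z
    with hu1
  set u2 : ℝ → ℝ := fun z => iteratedDeriv 2 ρ z * om G z
    + 2 * iteratedDeriv 1 ρ z * iteratedDeriv 1 (om G) z + ρ z * iteratedDeriv 2 (om G) z with hu2
  have hTop : ∀ z, Top ρ G z = u2 z + 3 * u1 z + 2 * u z := by
    intro z
    simp only [Top, hu, hu1, hu2]
    ring
  have uc : Continuous u := r0.mul c0
  have u1c : Continuous u1 := (r1.mul c0).add (r0.mul c1)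
  have u2c : Continuous u2 := ((r2.mul c0).add ((continuous_const.mul r1).mul c1)).add (r0.mul c2)
  have z0 : ∀ z, Z ≤ z → u z = 0 := fun z hz => by
    have := hZ z hz 0
    rw [iteratedDeriv_zero] at this
    simp only [hu, this, mul_zero]
  have z1 : ∀ z, Z ≤ z → u1 z = 0 := fun z hz => by
    have e0 := hZ z hz 0
    rw [iteratedDeriv_zero] at e0
    simp only [hu1, e0, hZ z hz 1, mul_zero, add_zero]
  have z2 : ∀ z, Z ≤ z → u2 z = 0 := fun z hz => by
    have e0 := hZ z hz 0
    rw [iteratedDeriv_zero] at e0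
    simp only [hu2, e0, hZ z hz 1, hZ z hz 2, mul_zero, add_zero]
  have b0 : ∀ z ≤ (0 : ℝ), |u z| ≤ C * exp ((3 - 2 * ν) * z) := fun z hz => (hb z hz).1
  have b1 : ∀ z ≤ (0 : ℝ), |u1 z| ≤ C * exp ((3 - 2 * ν) * z) := fun z hz => (hb z hz).2.1
  have b2 : ∀ z ≤ (0 : ℝ), |u2 z| ≤ C * exp ((3 - 2 * ν) * z) := fun z hz => (hb z hz).2.2
  have ha : -1 < 3 - 2 * ν := by linarith
  have i00 := integrable_prod_tail uc hfc z0 ha b0 hb0
  have i01 := integrable_prod_tail uc hf1c z0 ha b0 hb1
  have i02 := integrable_prod_tail uc hf2 z0 ha b0 hb2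
  have i10 := integrable_prod_tail u1c hfc z1 ha b1 hb0
  have i20 := integrable_prod_tail u2c hfc z2 ha b2 hb0
  have I1 : Integrable (fun z => u z * (f2 z - 3 * f1 z + 2 * f z)) := by
    refine ((i02.sub (i01.const_mul 3)).add (i00.const_mul 2)).congr
      (Eventually.of_forall fun z => ?_)
    simp only [Pi.add_apply, Pi.sub_apply]
    ring
  have I2 : Integrable (fun z => f z * Top ρ G z) := by
    refine ((i20.add (i10.const_mul 3)).add (i00.const_mul 2)).congr
      (Eventually.of_forall fun z => ?_)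
    simp only [Pi.add_apply, hTop]
    ring
  refine ⟨I1, I2, ?_⟩
  have hB : ∀ z, HasDerivAt (fun z => u z * f1 z - u1 z * f z - 3 * (u z * f z))
      (u z * (f2 z - 3 * f1 z + 2 * f z) - f z * Top ρ G z) z := by
    intro z
    have d0 : HasDerivAt u (u1 z) z := hG.hasDerivAt_u h z
    have d1 : HasDerivAt u1 (u2 z) z := hG.hasDerivAt_u1 h z
    refine (((d0.fun_mul (hf1 z)).fun_sub (d1.fun_mul (hf z))).fun_sub
      ((d0.fun_mul (hf z)).const_mul 3)).congr_deriv ?_
    rw [hTop]
    ring
  have IB : Integrable (fun z => u z * f1 z - u1 z * f z - 3 * (u z * f z)) :=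
    (i01.sub i10).sub (i00.const_mul 3)
  have key := integral_eq_zero_of_hasDerivAt_of_integrable hB (I1.sub I2) IB
  rw [integral_sub I1 I2] at key
  linarith only [key]

end P264.B
end
end

section

attribute [-instance] ProperSMul.toContinuousSMul IsTopologicalTorsor.toContinuousSMul IdemSemiring.toCanonicallyOrderedAdd IdemSemiring.toMulLeftMono IdemSemiring.toMulRightMono AddQuantale.instAddLeftMono AddQuantale.instAddRightMono Quantale.instMulLeftMono Quantale.instMulRightMono FiniteDimensional.rclike_to_real IsScalarTower.complexToReal FiniteDimensional.complexToReal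

section

/-!
# P264 / B / Near / Objects : self-similar variables for a solution of the flow

`T - t = e^{-s}`, `x = e^{z - s/2}` (so `y = e^z = x/√(T-t)`), `h = φ/x`, `w = h - R`,
`G = χ(x) w`, `μ = 1/h - 1/R`.
-/

open MeasureTheory Set Filter Real
open scoped ContDiff

namespace P264.B

/-- Cut-off function in the variable `x`: `1` for `x ≤ X/2`, `0` for `x ≥ X`. -/
structure Cutoff (χ : ℝ → ℝ) (X : ℝ) : Prop where
  X_pos : 0 < X
  X_lt : X < 1
  smooth : ContDiff ℝ ∞ χ
  one : ∀ x ≤ X / 2, χ x = 1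
  zero : ∀ x, X ≤ x → χ x = 0
  mem : ∀ x, χ x ∈ Icc (0 : ℝ) 1

/-- original time. -/
noncomputable def tt (T s : ℝ) : ℝ := T - exp (-s)

/-- original space variable. -/
noncomputable def xx (s z : ℝ) : ℝ := exp (z - s / 2)

/-- `h(s,z) = φ(t,x)/x`. -/
noncomputable def HH (φ : ℝ → ℝ → ℝ) (T s z : ℝ) : ℝ := φ (tt T s) (xx s z) / xx s z

/-- `w = h - R`. -/
noncomputable def WW (R : ℝ → ℝ) (φ : ℝ → ℝ → ℝ) (T s z : ℝ) : ℝ := HH φ T s z - R z

/-- `G = χ(x) w`. -/
noncomputable def GG (χ R : ℝ → ℝ) (φ : ℝ → ℝ → ℝ) (T s z : ℝ) : ℝ :=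
  χ (xx s z) * WW R φ T s z

/-- The commutator term `e^{-2z} h² [Pi(D), χ] w`. -/
noncomputable def cutE (χ R : ℝ → ℝ) (φ : ℝ → ℝ → ℝ) (T s z : ℝ) : ℝ :=
  exp (-2 * z) * HH φ T s z ^ 2 *
    (piD (GG χ R φ T s) z - χ (xx s z) * piD (WW R φ T s) z)

/-- `∂_s G` (value given by the equation). -/
noncomputable def GS (χ R : ℝ → ℝ) (φ : ℝ → ℝ → ℝ) (T s z : ℝ) : ℝ :=
  Lop R (GG χ R φ T s) z
    - exp (-2 * z) * ((2 * R z + WW R φ T s z) * WW R φ T s z * piD (GG χ R φ T s) z
        + WW R φ T s z * kap R z * GG χ R φ T s z)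
    + cutE χ R φ T s z + χ (xx s z) * resid R z

/-- The scalar unknowns `a(s) = ∫ ψ μ dz`, `μ = 1/h - 1/R`. -/
noncomputable def aa (ψ R : ℝ → ℝ) (φ : ℝ → ℝ → ℝ) (T s : ℝ) : ℝ :=
  ∫ z, ψ z * (1 / HH φ T s z - 1 / R z)

/-- `a'(s)` (value given by the equation). -/
noncomputable def aS (ψ R : ℝ → ℝ) (φ : ℝ → ℝ → ℝ) (T s : ℝ) : ℝ :=
  (∫ z, ((1 / 2) * deriv ψ z - R z ^ 2 * piDadj (fun u => exp (-2 * u) * ψ u) z)
      * (1 / HH φ T s z - 1 / R z))
    + (∫ z, piDadj (fun u => exp (-2 * u) * ψ u) z * (WW R φ T s z ^ 2 / HH φ T s z))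
    - ∫ z, ψ z * resid R z / R z ^ 2

/-- Size of the cut-off error. -/
noncomputable def ecut2 (χ R ρ : ℝ → ℝ) (φ : ℝ → ℝ → ℝ) (T s : ℝ) : ℝ :=
  ∫ z, exp (2 * z) * ρ z * cutE χ R φ T s z ^ 2 / R z ^ 2

/-- Pointwise smallness on `0 < x ≤ X` at time `s`. -/
def Small (R : ℝ → ℝ) (φ : ℝ → ℝ → ℝ) (T X η s : ℝ) : Prop :=
  ∀ z, xx s z ≤ X → |WW R φ T s z| ≤ η * R z

end P264.B
end
end

section

attribute [-instance] ProperSMul.toContinuousSMul IsTopologicalTorsor.toContinuousSMul IdemSemiring.toCanonicallyOrderedAdd IdemSemiring.toMulLeftMono IdemSemiring.toMulRightMono AddQuantale.instAddLeftMono AddQuantale.instAddRightMono Quantale.instMulLeftMono Quantale.instMulRightMono FiniteDimensional.rclike_to_real IsScalarTower.complexToReal FiniteDimensional.complexToReal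

section

/-!
# P264 / B / Far / Defs : frozen blocks

A block is a unit interval of `log x`, centre `c` (fixed in `x`): `z = c + s/2 + u`, `|u| ≤ 1`.
-/

open MeasureTheory Set Filter Real
open scoped ContDiff

namespace P264.B

/-- Weighted combination `(D+1)(D+2)(ζ ω)` with `ζ = (1-u²)⁴`; `a, b, c` are `ω'', ω', ω`. -/
noncomputable def tauB (a b c u : ℝ) : ℝ :=
  (1 - u ^ 2) ^ 4 * a
    + (3 * (1 - u ^ 2) ^ 4 - 16 * u * (1 - u ^ 2) ^ 3) * b
    + (2 * (1 - u ^ 2) ^ 4 - 24 * u * (1 - u ^ 2) ^ 3 - 8 * (1 - u ^ 2) ^ 3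
        + 48 * u ^ 2 * (1 - u ^ 2) ^ 2) * c

/-- Energy of the block with centre `c` (in `log x`) at time `s`. -/
noncomputable def blockE (χ R : ℝ → ℝ) (φ : ℝ → ℝ → ℝ) (T c s : ℝ) : ℝ :=
  ∫ u in (-1 : ℝ)..1, (1 - u ^ 2) ^ 4 * om (GG χ R φ T s) (c + s / 2 + u) ^ 2

/-- `∂_s w` at fixed `x` (transport free), in the region where `χ = 1`. -/
noncomputable def gdot (χ R : ℝ → ℝ) (φ : ℝ → ℝ → ℝ) (T s z : ℝ) : ℝ :=
  -exp (-2 * z) * (HH φ T s z ^ 2 * piD (GG χ R φ T s) z
      + (2 * R z + WW R φ T s z) * WW R φ T s z * kap R z) + resid R z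

/-- Derivative of `blockE` in `s` (value). -/
noncomputable def blockD (χ R : ℝ → ℝ) (φ : ℝ → ℝ → ℝ) (T c s : ℝ) : ℝ :=
  2 * ∫ u in (-1 : ℝ)..1,
    tauB (iteratedDeriv 2 (om (GG χ R φ T s)) (c + s / 2 + u))
      (iteratedDeriv 1 (om (GG χ R φ T s)) (c + s / 2 + u))
      (om (GG χ R φ T s) (c + s / 2 + u)) u * gdot χ R φ T s (c + s / 2 + u)

/-- Facts on the profile and the weight in the far region `z ≥ z₀ - 2`, to be delivered by M2. -/
structure FarCert (R ρ : ℝ → ℝ) (z₀ rf E₃ : ℝ) : Prop where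
  R_lower : ∀ z, z₀ - 2 ≤ z → 79 / 100 ≤ R z
  R_upper : ∀ z, z₀ - 2 ≤ z → R z ≤ 81 / 100
  kap_le : ∀ z, z₀ - 2 ≤ z → |kap R z| ≤ 24
  resid_int : IntegrableOn (fun z => exp (2 * z) * resid R z ^ 2) (Ici (z₀ - 2))
  resid_le : ∫ z in Ici (z₀ - 2), exp (2 * z) * resid R z ^ 2 ≤ E₃
  E₃_nonneg : 0 ≤ E₃
  rf_pos : 0 < rf
  rho_ge : ∀ z ∈ Icc (z₀ - 2) (z₀ + 1), rf ≤ ρ z
  z₀_large : 24 * 10 ^ 9 ≤ exp (2 * z₀)

end P264.B
end
end

section

attribute [-instance] ProperSMul.toContinuousSMul IsTopologicalTorsor.toContinuousSMul IdemSemiring.toCanonicallyOrderedAdd IdemSemiring.toMulLeftMono IdemSemiring.toMulRightMono AddQuantale.instAddLeftMono AddQuantale.instAddRightMono Quantale.instMulLeftMono Quantale.instMulRightMono FiniteDimensional.rclike_to_real IsScalarTower.complexToReal FiniteDimensional.complexToReal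

section

/-!
# P264 / B / Far / Defs2 : control of the outer region
-/

open MeasureTheory Set Filter Real
open scoped ContDiff

namespace P264.B

/-- Control of a flow on the fixed interval `[a,b] ⊂ (0,1)` of the variable `x`. -/
structure OuterCtl (T a b C : ℝ) (φ : ℝ → ℝ → ℝ) : Prop where
  sup : ∀ t ∈ Icc 0 T, ∀ x ∈ Icc a b, |φ t x - φ 0 x| ≤ C * T ^ (1 / 4 : ℝ)
  h2 : ∀ t ∈ Icc 0 T, ∫ x in a..b,
    (φ t x ^ 2 + deriv (φ t) x ^ 2 + iteratedDeriv 2 (φ t) x ^ 2) ≤ C
  h3 : ∫ t in (0 : ℝ)..T, ∫ x in a..b, iteratedDeriv 3 (φ t) x ^ 2 ≤ C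

/-- What the family of initial data has to satisfy, for one value of `T` (`e^{-s₀} = T`).
`A` is the size of the parameter box; `Ns`, `M` the thresholds; `EA` the bound for the Calabi
energy, `Z` the size of the modified region; `CL` a Lipschitz constant (may depend on `T`). -/
structure DataFam (χ R ρ : ℝ → ℝ) (psi : Fin 2 → ℝ → ℝ) (T s₀ z₀ c₁ A Ns M EA Z CL : ℝ)
    (U₀ : (Fin 2 → ℝ) → ℝ → ℝ) : Prop where
  init : ∀ b, (∀ i, |b i| ≤ A) → IsInit (U₀ b)
  aa_eq : ∀ b, (∀ i, |b i| ≤ A) → ∀ U φ, IsFlowU 8 T (U₀ b) U φ →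
    ∀ i, aa (psi i) R φ T s₀ = b i
  NN_le : ∀ b, (∀ i, |b i| ≤ A) → ∀ U φ, IsFlowU 8 T (U₀ b) U φ →
    NN ρ (GG χ R φ T s₀) ≤ Ns / 2
  block_le : ∀ b, (∀ i, |b i| ≤ A) → ∀ U φ, IsFlowU 8 T (U₀ b) U φ →
    ∀ c ∈ Icc (z₀ - s₀ / 2) c₁, blockE χ R φ T c s₀ ≤ M / 4
  far_eq : ∀ b, (∀ i, |b i| ≤ A) → ∀ U φ, IsFlowU 8 T (U₀ b) U φ →
    ∀ x, √T * exp Z ≤ x → x ≤ 1 / 4 → φ 0 x = x * R (log (x / √T))
  energy : ∀ b, (∀ i, |b i| ≤ A) → ∀ U φ, IsFlowU 8 T (U₀ b) U φ →
    ∫ x in (0 : ℝ)..1, x ^ 7 * scal 8 (φ 0) x ^ 2 ≤ EA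
  lip : ∀ b b', (∀ i, |b i| ≤ A) → (∀ i, |b' i| ≤ A) →
    ∫ x in (0 : ℝ)..1, x ^ 7 * (U₀ b x - U₀ b' x) ^ 2 ≤ CL ^ 2 * ‖b - b'‖ ^ 2

end P264.B
end
end

section

attribute [-instance] ProperSMul.toContinuousSMul IsTopologicalTorsor.toContinuousSMul IdemSemiring.toCanonicallyOrderedAdd IdemSemiring.toMulLeftMono IdemSemiring.toMulRightMono AddQuantale.instAddLeftMono AddQuantale.instAddRightMono Quantale.instMulLeftMono Quantale.instMulRightMono FiniteDimensional.rclike_to_real IsScalarTower.complexToReal FiniteDimensional.complexToReal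

section

/-!
# P264 / B / Near / Basic : elementary facts on admissible functions
-/

open MeasureTheory Set Filter Real
open scoped ContDiff Topology

namespace P264.B

/-- Integrability from continuity, vanishing at the right and exponential decay at `-∞`. -/
theorem integrable_of_decay {F : ℝ → ℝ} (hF : Continuous F) {Z C a : ℝ} (ha : 0 < a)
    (hr : ∀ z, Z ≤ z → F z = 0) (hl : ∀ z ≤ (0 : ℝ), |F z| ≤ C * exp (a * z)) :
    Integrable F := by
  have h1 : IntegrableOn F (Iic 0) := by
    have hexp : IntegrableOn (fun z : ℝ => C * exp (a * z)) (Iic 0) := by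
      have := integrableOn_exp_mul_Iic ha 0
      exact this.const_mul C
    refine Integrable.mono' hexp hF.aestronglyMeasurable.restrict ?_
    rw [ae_restrict_iff' measurableSet_Iic]
    exact Eventually.of_forall fun z hz => by
      rw [Real.norm_eq_abs]; exact hl z hz
  have h2 : IntegrableOn F (Icc 0 (max 0 Z)) := hF.continuousOn.integrableOn_Icc
  have h3 : IntegrableOn F (Ici (max 0 Z)) := by
    have : IntegrableOn (fun _ : ℝ => (0 : ℝ)) (Ici (max 0 Z)) := integrableOn_zero
    refine this.congr_fun (fun z hz => ?_) measurableSet_Ici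
    exact (hr z ((le_max_right _ _).trans hz)).symm
  have hU : (univ : Set ℝ) = Iic 0 ∪ Icc 0 (max 0 Z) ∪ Ici (max 0 Z) := by
    ext z
    simp only [mem_univ, mem_union, mem_Iic, mem_Icc, mem_Ici, true_iff]
    rcases le_total z 0 with h | h
    · exact Or.inl (Or.inl h)
    · rcases le_total z (max 0 Z) with h' | h'
      · exact Or.inl (Or.inr ⟨h, h'⟩)
      · exact Or.inr h'
  rw [← integrableOn_univ, hU]
  exact (h1.union h2).union h3

section Deriv

variable {G : ℝ → ℝ}

theorem iteratedDeriv_two' (f : ℝ → ℝ) : iteratedDeriv 2 f = deriv (deriv f) := by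
  rw [iteratedDeriv_succ, iteratedDeriv_one]

theorem hasDerivAt_iter {k n : ℕ} (hG : ContDiff ℝ n G) (hk : k + 1 ≤ n) (z : ℝ) :
    HasDerivAt (iteratedDeriv k G) (iteratedDeriv (k + 1) G z) z := by
  have hd : Differentiable ℝ (iteratedDeriv k G) :=
    hG.differentiable_iteratedDeriv k (by exact_mod_cast hk)
  rw [iteratedDeriv_succ]
  exact (hd z).hasDerivAt

theorem contDiff_iter {k n m : ℕ} (hG : ContDiff ℝ n G) (h : m + k = n) :
    ContDiff ℝ m (iteratedDeriv k G) := by
  subst h
  have := ContDiff.iterate_deriv' m k (f := G) (by exact_mod_cast hG)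
  rwa [← iteratedDeriv_eq_iterate] at this

theorem om_contDiff (hG : ContDiff ℝ 4 G) : ContDiff ℝ 2 (om G) := by
  have hG' : ContDiff ℝ (4 : ℕ) G := hG
  have h2 : ContDiff ℝ (2 : ℕ) (iteratedDeriv 2 G) := contDiff_iter hG' (by norm_num)
  have h1 : ContDiff ℝ (3 : ℕ) (iteratedDeriv 1 G) := contDiff_iter hG' (by norm_num)
  have h1' : ContDiff ℝ 2 (iteratedDeriv 1 G) := h1.of_le (by norm_num)
  have h0 : ContDiff ℝ 2 G := hG.of_le (by norm_num)
  exact (h2.sub (contDiff_const.mul h1')).add (contDiff_const.mul h0)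

theorem om_iter1 (hG : ContDiff ℝ 4 G) (z : ℝ) :
    iteratedDeriv 1 (om G) z
      = iteratedDeriv 3 G z - 3 * iteratedDeriv 2 G z + 2 * iteratedDeriv 1 G z := by
  rw [iteratedDeriv_one]
  have h2 := hasDerivAt_iter hG (k := 2) (by norm_num) z
  have h1 := hasDerivAt_iter hG (k := 1) (by norm_num) z
  have h0 := hasDerivAt_iter hG (k := 0) (by norm_num) z
  rw [iteratedDeriv_zero] at h0
  exact ((h2.sub (h1.const_mul 3)).add (h0.const_mul 2)).deriv

theorem om_iter2 (hG : ContDiff ℝ 4 G) (z : ℝ) :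
    iteratedDeriv 2 (om G) z
      = iteratedDeriv 4 G z - 3 * iteratedDeriv 3 G z + 2 * iteratedDeriv 2 G z := by
  rw [iteratedDeriv_succ]
  have h3 := hasDerivAt_iter hG (k := 3) (by norm_num) z
  have h2 := hasDerivAt_iter hG (k := 2) (by norm_num) z
  have h1 := hasDerivAt_iter hG (k := 1) (by norm_num) z
  have : iteratedDeriv 1 (om G) = fun z => iteratedDeriv 3 G z - 3 * iteratedDeriv 2 G z
      + 2 * iteratedDeriv 1 G z := funext (om_iter1 hG)
  rw [this]
  exact ((h3.sub (h2.const_mul 3)).add (h1.const_mul 2)).deriv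

theorem piD_eq_om (hG : ContDiff ℝ 4 G) (z : ℝ) :
    piD G z = iteratedDeriv 2 (om G) z + 15 * iteratedDeriv 1 (om G) z + 56 * om G z := by
  rw [om_iter2 hG, om_iter1 hG, piD, om]
  ring

end Deriv

end P264.B
end
end

section

attribute [-instance] ProperSMul.toContinuousSMul IsTopologicalTorsor.toContinuousSMul IdemSemiring.toCanonicallyOrderedAdd IdemSemiring.toMulLeftMono IdemSemiring.toMulRightMono AddQuantale.instAddLeftMono AddQuantale.instAddRightMono Quantale.instMulLeftMono Quantale.instMulRightMono FiniteDimensional.rclike_to_real IsScalarTower.complexToReal FiniteDimensional.complexToReal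

section

/-!
# P264 / B / Near / Tail : behaviour at `±∞` of the profile and the weight
-/

open MeasureTheory Set Filter Real Polynomial
open scoped ContDiff Topology

namespace P264.B

/-- `θ p = X p'`. -/
noncomputable def theta (p : ℝ[X]) : ℝ[X] := X * derivative p

theorem theta_coeff (p : ℝ[X]) (k : ℕ) : (theta p).coeff k = k * p.coeff k := by
  unfold theta
  cases k with
  | zero => simp
  | succ k => rw [coeff_X_mul, coeff_derivative]; push_cast; ring

theorem hasDerivAt_eval_exp (p : ℝ[X]) (z : ℝ) :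
    HasDerivAt (fun z => p.eval (exp z)) ((theta p).eval (exp z)) z := by
  have h1 : HasDerivAt (fun x => p.eval x) (p.derivative.eval (exp z)) (exp z) := p.hasDerivAt _
  have h2 := h1.comp z (Real.hasDerivAt_exp z)
  refine h2.congr_deriv ?_
  simp [theta, mul_comm]

theorem iteratedDeriv_eval_exp (p : ℝ[X]) (j : ℕ) (z : ℝ) :
    iteratedDeriv j (fun z => p.eval (exp z)) z = (theta^[j] p).eval (exp z) := by
  induction j generalizing z with
  | zero => simp
  | succ j ih =>
    rw [iteratedDeriv_succ, funext ih, Function.iterate_succ_apply']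
    exact (hasDerivAt_eval_exp _ z).deriv

/-- `Pi(θ) p`. -/
noncomputable def piTheta (p : ℝ[X]) : ℝ[X] :=
  theta^[4] p + C 12 * theta^[3] p + C 13 * theta^[2] p - C 138 * theta^[1] p + C 112 * p

theorem theta_iter_coeff (p : ℝ[X]) (j k : ℕ) :
    (theta^[j] p).coeff k = (k : ℝ) ^ j * p.coeff k := by
  induction j with
  | zero => simp
  | succ j ih => rw [Function.iterate_succ_apply', theta_coeff, ih]; ring

theorem piTheta_coeff (p : ℝ[X]) (k : ℕ) :
    (piTheta p).coeff k = ((k : ℝ) ^ 4 + 12 * (k : ℝ) ^ 3 + 13 * (k : ℝ) ^ 2 - 138 * k + 112)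
      * p.coeff k := by
  unfold piTheta
  simp only [coeff_add, coeff_sub, theta_iter_coeff, coeff_C_mul]
  ring

theorem piTheta_dvd (p : ℝ[X]) (h0 : p.coeff 0 = 0) : X ^ 3 ∣ piTheta p := by
  rw [X_pow_dvd_iff]
  intro d hd
  rw [piTheta_coeff]
  interval_cases d
  · simp [h0]
  · (clear * -; norm_num)
  · norm_num

theorem piD_eval_exp (p : ℝ[X]) (z : ℝ) :
    piD (fun z => p.eval (exp z)) z = (piTheta p).eval (exp z) := by
  unfold piD piTheta
  simp only [iteratedDeriv_eval_exp]
  simp only [Function.iterate_succ, Function.iterate_one, Function.comp_apply, eval_add, eval_sub, eval_mul, eval_C]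

/-- A polynomial divisible by `X^k` is `O(e^{kz})` for `z ≤ 0`. -/
theorem eval_exp_bound (q : ℝ[X]) (k : ℕ) (h : X ^ k ∣ q) :
    ∃ C : ℝ, 0 ≤ C ∧ ∀ z ≤ (0 : ℝ), |q.eval (exp z)| ≤ C * exp (k * z) := by
  obtain ⟨r, rfl⟩ := h
  obtain ⟨M, hM⟩ := isCompact_Icc.exists_bound_of_continuousOn
    (s := Icc (0 : ℝ) 1) (f := fun x => r.eval x) r.continuous.continuousOn
  refine ⟨M, (norm_nonneg _).trans (hM 0 (by simp only [mem_Icc, Std.le_refl, zero_le_one, and_self])), fun z hz => ?_⟩
  have h1 : exp z ∈ Icc (0 : ℝ) 1 := ⟨(exp_pos _).le, exp_le_one_iff.2 hz⟩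
  have h2 := hM _ h1
  rw [Real.norm_eq_abs] at h2
  simp only [eval_mul, eval_pow, eval_X, abs_mul, abs_pow, abs_of_pos (exp_pos z)]
  rw [← exp_nat_mul, mul_comm]
  gcongr

/-- `kap R = O(e^{3z})` at `-∞`. -/
theorem Profile.kap_left {R : ℝ → ℝ} {Rmin α : ℝ} (h : Profile R Rmin α) :
    ∃ C : ℝ, 0 ≤ C ∧ ∀ z ≤ (0 : ℝ), |kap R z| ≤ C * exp (3 * z) := by
  obtain ⟨p, hp0, Z, hZ⟩ := h.left
  -- on `z < Z`
  have hloc : ∀ z < Z, kap R z = (piTheta (p - 1)).eval (exp z) := by
    intro z hz
    have he : (fun s => R s - 1) =ᶠ[𝓝 z] fun s => (p - 1).eval (exp s) := by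
      filter_upwards [Iio_mem_nhds hz] with s hs
      simp [hZ s (le_of_lt hs)]
    have hj : ∀ j, iteratedDeriv j (fun s => R s - 1) z
        = iteratedDeriv j (fun s => (p - 1).eval (exp s)) z := fun j => he.iteratedDeriv_eq j
    unfold kap
    rw [← piD_eval_exp]
    unfold piD
    rw [hj, hj, hj, hj]
    show _ + 112 * (R z - 1) = _
    rw [hZ z hz.le]
    simp only [eval_sub, eval_one, iteratedDeriv_one, deriv_sub_const_fun]
  obtain ⟨C₁, hC₁, hb₁⟩ := eval_exp_bound (piTheta (p - 1)) 3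
    (piTheta_dvd _ (by simp [coeff_zero_eq_eval_zero, hp0]))
  have hcont : Continuous (kap R) := by
    have hR1 : ContDiff ℝ (4 : ℕ) (fun s => R s - 1) := h.smooth.sub contDiff_const
    unfold kap piD
    have hc : ∀ j ≤ 4, Continuous (iteratedDeriv j (fun s => R s - 1)) := by
      intro j hj
      exact (contDiff_iter (m := 4 - j) hR1 (by omega)).continuous
    have := hc 4 le_rfl
    have := hc 3 (by norm_num)
    have := hc 2 (by norm_num)
    have := hc 1 (by norm_num)
    have := h.smooth.continuous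
    (clear p hp0 Z hZ hloc C₁ hC₁ hb₁; fun_prop)
  obtain ⟨M, hM⟩ := isCompact_Icc.exists_bound_of_continuousOn
    (s := Icc (min Z 0 - 1) 0) (f := kap R) hcont.continuousOn
  have hM0 : 0 ≤ M := (norm_nonneg _).trans (hM 0 (by
    constructor
    · have := min_le_right Z 0; linarith
    · exact le_rfl))
  refine ⟨C₁ + M * exp (3 * (1 - min Z 0)), by (clear * - hC₁ hM0; positivity), fun z hz => ?_⟩
  rcases lt_or_ge z (min Z 0) with hz1 | hz1
  · rw [hloc z (lt_of_lt_of_le hz1 (min_le_left _ _))]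
    have := hb₁ z hz
    push_cast at this
    calc _ ≤ C₁ * exp (3 * z) := this
      _ ≤ _ := by
        have : 0 ≤ M * exp (3 * (1 - min Z 0)) := by (clear * - hM0; positivity)
        nlinarith only [this, exp_pos (3 * z)]
  · have h1 := hM z ⟨by linarith only [hz1], hz⟩
    rw [Real.norm_eq_abs] at h1
    calc |kap R z| ≤ M := h1
      _ ≤ M * exp (3 * (1 - min Z 0)) * exp (3 * z) := by
          rw [mul_assoc, ← exp_add]
          have : 1 ≤ exp (3 * (1 - min Z 0) + 3 * z) := by
            apply one_le_exp; linarith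
          nlinarith only [hM0, this]
      _ ≤ _ := by nlinarith only [hC₁, exp_pos (3 * z)]

/-- `ρ ≤ C e^{-2νz}` and `1/ρ ≤ C e^{2νz}` everywhere. -/
theorem Weight.bounds {ρ : ℝ → ℝ} {ν c₁ c₂ : ℝ} (h : Weight ρ ν c₁ c₂) :
    ∃ C : ℝ, 0 < C ∧ ∀ z, ρ z ≤ C * exp (-(2 * ν) * z) ∧ exp (-(2 * ν) * z) ≤ C * ρ z := by
  obtain ⟨m, hm, M, hM, hb⟩ := h.tail
  refine ⟨M + m⁻¹, by (clear * - hM hm; positivity), fun z => ⟨?_, ?_⟩⟩
  · calc ρ z ≤ M * exp (-(2 * ν) * z) := (hb z).2
      _ ≤ (M + m⁻¹) * exp (-(2 * ν) * z) := by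
          gcongr
          have : 0 < m⁻¹ := inv_pos.2 hm
          linarith
  · have h1 := (hb z).1
    have hρ := h.pos z
    calc exp (-(2 * ν) * z) = m⁻¹ * (m * exp (-(2 * ν) * z)) := by field_simp
      _ ≤ m⁻¹ * ρ z := by (clear * - h1 hm; gcongr)
      _ ≤ (M + m⁻¹) * ρ z := by gcongr; linarith only [hM]

end P264.B
end
end

section

attribute [-instance] ProperSMul.toContinuousSMul IsTopologicalTorsor.toContinuousSMul IdemSemiring.toCanonicallyOrderedAdd IdemSemiring.toMulLeftMono IdemSemiring.toMulRightMono AddQuantale.instAddLeftMono AddQuantale.instAddRightMono Quantale.instMulLeftMono Quantale.instMulRightMono FiniteDimensional.rclike_to_real IsScalarTower.complexToReal FiniteDimensional.complexToReal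

section

/-!
# P264 / B / Jets : continuous jets of a smooth solution of the one-dimensional flow

From `IsFlow n T φ` (joint `ContDiffOn ℝ ∞` on the closed rectangle `[0,T] × [0,1]`) we extract
functions `J k = ∂ₓᵏ φ`, `K k = ∂ₜ ∂ₓᵏ φ`, continuous on the closed rectangle, with the expected
one-sided/two-sided derivatives, and the flow equation in terms of `J 0, …, J 4`.
-/

open Set
open scoped ContDiff

namespace P264.B

/-- The closed rectangle. -/
def rect (T : ℝ) : Set (ℝ × ℝ) := Icc 0 T ×ˢ Icc 0 1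

theorem uniqueDiffOn_rect {T : ℝ} (hT : 0 < T) : UniqueDiffOn ℝ (rect T) :=
  (uniqueDiffOn_Icc hT).prod (uniqueDiffOn_Icc one_pos)

theorem rect_subset_closure_interior {T : ℝ} (hT : 0 < T) :
    rect T ⊆ closure (interior (rect T)) := by
  unfold rect
  rw [interior_prod_eq, interior_Icc, interior_Icc, closure_prod_eq, closure_Ioo hT.ne,
    closure_Ioo zero_ne_one]

/-- `∂ₓ` on the closed rectangle. -/
noncomputable def px (T : ℝ) (F : ℝ × ℝ → ℝ) : ℝ × ℝ → ℝ :=
  fun p => fderivWithin ℝ F (rect T) p (0, 1)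

/-- `∂ₜ` on the closed rectangle. -/
noncomputable def pt (T : ℝ) (F : ℝ × ℝ → ℝ) : ℝ × ℝ → ℝ :=
  fun p => fderivWithin ℝ F (rect T) p (1, 0)

theorem contDiffOn_fderivWithin_apply {T : ℝ} (hT : 0 < T) {F : ℝ × ℝ → ℝ}
    (hF : ContDiffOn ℝ ∞ F (rect T)) (v : ℝ × ℝ) :
    ContDiffOn ℝ ∞ (fun p => fderivWithin ℝ F (rect T) p v) (rect T) :=
  (hF.fderivWithin (uniqueDiffOn_rect hT) (by simp)).clm_apply contDiffOn_const

theorem contDiffOn_px {T : ℝ} (hT : 0 < T) {F : ℝ × ℝ → ℝ} (hF : ContDiffOn ℝ ∞ F (rect T)) :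
    ContDiffOn ℝ ∞ (px T F) (rect T) := contDiffOn_fderivWithin_apply hT hF _

theorem contDiffOn_pt {T : ℝ} (hT : 0 < T) {F : ℝ × ℝ → ℝ} (hF : ContDiffOn ℝ ∞ F (rect T)) :
    ContDiffOn ℝ ∞ (pt T F) (rect T) := contDiffOn_fderivWithin_apply hT hF _

theorem hasDerivWithinAt_px {T : ℝ} {F : ℝ × ℝ → ℝ} (hF : ContDiffOn ℝ ∞ F (rect T))
    {t x : ℝ} (ht : t ∈ Icc 0 T) (hx : x ∈ Icc (0 : ℝ) 1) :
    HasDerivWithinAt (fun y => F (t, y)) (px T F (t, x)) (Icc 0 1) x := by
  have h1 : HasFDerivWithinAt F (fderivWithin ℝ F (rect T) (t, x)) (rect T) (t, x) :=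
    ((hF (t, x) ⟨ht, hx⟩).differentiableWithinAt (by simp)).hasFDerivWithinAt
  have h2 : HasDerivWithinAt (fun y : ℝ => (t, y)) ((0 : ℝ), (1 : ℝ)) (Icc 0 1) x :=
    (hasDerivWithinAt_const _ _ _).prodMk (hasDerivWithinAt_id _ _)
  have h3 : MapsTo (fun y : ℝ => (t, y)) (Icc 0 1) (rect T) := fun y hy => ⟨ht, hy⟩
  exact h1.comp_hasDerivWithinAt x h2 h3

theorem hasDerivWithinAt_pt {T : ℝ} {F : ℝ × ℝ → ℝ} (hF : ContDiffOn ℝ ∞ F (rect T))
    {t x : ℝ} (ht : t ∈ Icc 0 T) (hx : x ∈ Icc (0 : ℝ) 1) :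
    HasDerivWithinAt (fun τ => F (τ, x)) (pt T F (t, x)) (Icc 0 T) t := by
  have h1 : HasFDerivWithinAt F (fderivWithin ℝ F (rect T) (t, x)) (rect T) (t, x) :=
    ((hF (t, x) ⟨ht, hx⟩).differentiableWithinAt (by simp)).hasFDerivWithinAt
  have h2 : HasDerivWithinAt (fun τ : ℝ => (τ, x)) ((1 : ℝ), (0 : ℝ)) (Icc 0 T) t :=
    (hasDerivWithinAt_id _ _).prodMk (hasDerivWithinAt_const _ _ _)
  have h3 : MapsTo (fun τ : ℝ => (τ, x)) (Icc 0 T) (rect T) := fun y hy => ⟨hy, hx⟩
  exact h1.comp_hasDerivWithinAt t h2 h3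

theorem px_pt_comm {T : ℝ} (hT : 0 < T) {F : ℝ × ℝ → ℝ} (hF : ContDiffOn ℝ ∞ F (rect T))
    {p : ℝ × ℝ} (hp : p ∈ rect T) : px T (pt T F) p = pt T (px T F) p := by
  have hud := uniqueDiffOn_rect hT
  have hsym : IsSymmSndFDerivWithinAt ℝ F (rect T) p :=
    (hF p hp).isSymmSndFDerivWithinAt (by
      simp only [minSmoothness_of_isRCLikeNormedField]
      exact WithTop.coe_le_coe.mpr le_top) hud (rect_subset_closure_interior hT hp) hp
  have hd : DifferentiableWithinAt ℝ (fderivWithin ℝ F (rect T)) (rect T) p :=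
    ((hF.fderivWithin hud (m := ∞) (by simp)) p hp).differentiableWithinAt (by simp)
  have key : ∀ v w : ℝ × ℝ,
      fderivWithin ℝ (fun q => fderivWithin ℝ F (rect T) q v) (rect T) p w
        = fderivWithin ℝ (fderivWithin ℝ F (rect T)) (rect T) p w v := by
    intro v w
    have := fderivWithin_clm_apply (hud p hp) hd (differentiableWithinAt_const (c := v))
    rw [this]
    simp
  change fderivWithin ℝ (fun q => fderivWithin ℝ F (rect T) q (1, 0)) (rect T) p (0, 1)
    = fderivWithin ℝ (fun q => fderivWithin ℝ F (rect T) q (0, 1)) (rect T) p (1, 0)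
  rw [key, key]
  exact hsym _ _

/-- Continuous jets of `φ` on `[0,T] × [0,1]`: `J k = ∂ₓᵏ φ`, `K k = ∂ₜ ∂ₓᵏ φ`. -/
structure Jets (T : ℝ) (φ : ℝ → ℝ → ℝ) (J K : ℕ → ℝ → ℝ → ℝ) : Prop where
  zero : ∀ t x, J 0 t x = φ t x
  contJ : ∀ k, ContinuousOn (fun p : ℝ × ℝ => J k p.1 p.2) (Icc 0 T ×ˢ Icc 0 1)
  contK : ∀ k, ContinuousOn (fun p : ℝ × ℝ => K k p.1 p.2) (Icc 0 T ×ˢ Icc 0 1)
  dx : ∀ k, ∀ t ∈ Icc (0 : ℝ) T, ∀ x ∈ Icc (0 : ℝ) 1,
    HasDerivWithinAt (J k t) (J (k + 1) t x) (Icc 0 1) x
  dt : ∀ k, ∀ t ∈ Icc (0 : ℝ) T, ∀ x ∈ Icc (0 : ℝ) 1,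
    HasDerivWithinAt (fun τ => J k τ x) (K k t x) (Icc 0 T) t
  dxK : ∀ k, ∀ t ∈ Icc (0 : ℝ) T, ∀ x ∈ Icc (0 : ℝ) 1,
    HasDerivWithinAt (K k t) (K (k + 1) t x) (Icc 0 1) x

theorem exists_jets {T : ℝ} (hT : 0 < T) {φ : ℝ → ℝ → ℝ}
    (hφ : ContDiffOn ℝ ∞ (fun p : ℝ × ℝ => φ p.1 p.2) (Icc 0 T ×ˢ Icc 0 1)) :
    ∃ J K : ℕ → ℝ → ℝ → ℝ, Jets T φ J K := by
  set F : ℕ → ℝ × ℝ → ℝ := fun k => (px T)^[k] (fun p : ℝ × ℝ => φ p.1 p.2) with hFdef
  have hsucc : ∀ k, F (k + 1) = px T (F k) := by
    intro k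
    simp only [hFdef, Function.iterate_succ_apply']
  have hF : ∀ k, ContDiffOn ℝ ∞ (F k) (rect T) := by
    intro k
    induction k with
    | zero => exact hφ
    | succ k ih => rw [hsucc]; exact contDiffOn_px hT ih
  refine ⟨fun k t x => F k (t, x), fun k t x => pt T (F k) (t, x), ?_, ?_, ?_, ?_, ?_, ?_⟩
  · intro t x; rfl
  · intro k; exact (hF k).continuousOn
  · intro k; exact (contDiffOn_pt hT (hF k)).continuousOn
  · intro k t ht x hx
    have := hasDerivWithinAt_px (hF k) ht hx
    rw [← hsucc] at this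
    exact this
  · intro k t ht x hx
    exact hasDerivWithinAt_pt (hF k) ht hx
  · intro k t ht x hx
    have h1 := hasDerivWithinAt_px (contDiffOn_pt hT (hF k)) ht hx
    rw [px_pt_comm hT (hF k) ⟨ht, hx⟩, ← hsucc] at h1
    exact h1

/-- Two-sided derivative in the open interval. -/
theorem Jets.hasDerivAt {T : ℝ} {φ : ℝ → ℝ → ℝ} {J K : ℕ → ℝ → ℝ → ℝ} (h : Jets T φ J K)
    (k : ℕ) {t : ℝ} (ht : t ∈ Icc 0 T) {x : ℝ} (hx : x ∈ Ioo (0 : ℝ) 1) :
    HasDerivAt (J k t) (J (k + 1) t x) x :=
  (h.dx k t ht x ⟨hx.1.le, hx.2.le⟩).hasDerivAt (Icc_mem_nhds hx.1 hx.2)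

/-- The second derivative of the scalar curvature in terms of the jets of the profile. -/
theorem deriv2_scal {n : ℕ} (hn : 2 ≤ n) {f : ℝ → ℝ} {j : ℕ → ℝ → ℝ}
    (h0 : ∀ x ∈ Ioo (0 : ℝ) 1, f x = j 0 x)
    (hj : ∀ k, ∀ x ∈ Ioo (0 : ℝ) 1, HasDerivAt (j k) (j (k + 1) x) x)
    {x : ℝ} (hx : x ∈ Ioo (0 : ℝ) 1) :
    scal n f x = (n : ℝ) * (n - 1) / x
        - ((n - 1) * (n - 2) * j 0 x / x ^ 2 + 2 * (n - 1) * j 1 x / x + j 2 x) ∧
    deriv (deriv (scal n f)) x = 2 * n * (n - 1) / x ^ 3
        - ((n - 1) * (n - 2) * (j 2 x / x ^ 2 - 4 * j 1 x / x ^ 3 + 6 * j 0 x / x ^ 4)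
          + 2 * (n - 1) * (j 3 x / x - 2 * j 2 x / x ^ 2 + 2 * j 1 x / x ^ 3) + j 4 x) := by
  obtain ⟨m, rfl⟩ : ∃ m, n = m + 2 := ⟨n - 2, by omega⟩
  have hopen : IsOpen (Ioo (0 : ℝ) 1) := isOpen_Ioo
  -- first: the inner second derivative
  have hinner : ∀ y ∈ Ioo (0 : ℝ) 1,
      deriv (deriv (fun z => z ^ (m + 2 - 1) * f z)) y
        = (m + 1) * m * y ^ (m - 1) * j 0 y + 2 * (m + 1) * y ^ m * j 1 y
          + y ^ (m + 1) * j 2 y := by
    intro y hy
    have e1 : (fun z => z ^ (m + 2 - 1) * f z) =ᶠ[nhds y] fun z => z ^ (m + 1) * j 0 z := by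
      filter_upwards [hopen.mem_nhds hy] with z hz
      rw [h0 z hz]; rfl
    have d1 : ∀ z ∈ Ioo (0 : ℝ) 1, HasDerivAt (fun z => z ^ (m + 1) * j 0 z)
        ((m + 1) * z ^ m * j 0 z + z ^ (m + 1) * j 1 z) z := by
      intro z hz
      have := (hasDerivAt_pow (m + 1) z).fun_mul (hj 0 z hz)
      simpa only [Nat.cast_add, Nat.cast_one, add_tsub_cancel_right, zero_add] using this
    have e2 : deriv (fun z => z ^ (m + 2 - 1) * f z) =ᶠ[nhds y]
        fun z => (m + 1) * z ^ m * j 0 z + z ^ (m + 1) * j 1 z := by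
      filter_upwards [hopen.mem_nhds hy] with z hz
      have e1' : (fun z => z ^ (m + 2 - 1) * f z) =ᶠ[nhds z] fun z => z ^ (m + 1) * j 0 z := by
        filter_upwards [hopen.mem_nhds hz] with u hu
        rw [h0 u hu]; rfl
      rw [e1'.deriv_eq]
      exact (d1 z hz).deriv
    rw [e2.deriv_eq]
    have a1 : HasDerivAt (fun z => ((m : ℝ) + 1) * z ^ m * j 0 z)
        ((m + 1) * (m * y ^ (m - 1)) * j 0 y + (m + 1) * y ^ m * j 1 y) y := by
      have := ((hasDerivAt_pow m y).const_mul ((m : ℝ) + 1)).fun_mul (hj 0 y hy)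
      simpa only [zero_add] using this
    have a2 : HasDerivAt (fun z => z ^ (m + 1) * j 1 z)
        ((m + 1) * y ^ m * j 1 y + y ^ (m + 1) * j 2 y) y := by
      have := (hasDerivAt_pow (m + 1) y).fun_mul (hj 1 y hy)
      simpa only [Nat.cast_add, Nat.cast_one, add_tsub_cancel_right, Nat.reduceAdd] using this
    rw [(a1.fun_add a2).deriv]
    ring
  have hS : ∀ y ∈ Ioo (0 : ℝ) 1, scal (m + 2) f y = ((m + 2 : ℕ) : ℝ) * (((m + 2 : ℕ) : ℝ) - 1) / y
        - ((((m + 2 : ℕ) : ℝ) - 1) * (((m + 2 : ℕ) : ℝ) - 2) * j 0 y / y ^ 2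
          + 2 * (((m + 2 : ℕ) : ℝ) - 1) * j 1 y / y + j 2 y) := by
    intro y hy
    unfold scal
    rw [hinner y hy]
    have hy0 : y ≠ 0 := hy.1.ne'
    have hm1 : m + 2 - 1 = m + 1 := rfl
    rw [hm1]
    push_cast
    rcases m with _ | m
    · simp only [CharP.cast_eq_zero, zero_add, mul_zero, zero_tsub, pow_zero, mul_one, zero_mul, pow_one, sub_self, zero_div, sub_right_inj]
      field_simp
      ring
    · have : m + 1 - 1 = m := rfl
      rw [this]
      push_cast
      field_simp
      ring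
  refine ⟨hS x hx, ?_⟩
  set N : ℝ := ((m + 2 : ℕ) : ℝ) with hN
  -- derivative of S
  have hS1 : ∀ y ∈ Ioo (0 : ℝ) 1, deriv (scal (m + 2) f) y =
      -(N * (N - 1)) / y ^ 2 - ((N - 1) * (N - 2) * (j 1 y / y ^ 2 - 2 * j 0 y / y ^ 3)
        + 2 * (N - 1) * (j 2 y / y - j 1 y / y ^ 2) + j 3 y) := by
    intro y hy
    have hy0 : y ≠ 0 := hy.1.ne'
    have e1 : scal (m + 2) f =ᶠ[nhds y] fun y => N * (N - 1) / y
        - ((N - 1) * (N - 2) * j 0 y / y ^ 2 + 2 * (N - 1) * j 1 y / y + j 2 y) := by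
      filter_upwards [hopen.mem_nhds hy] with z hz
      rw [hS z hz]
    rw [e1.deriv_eq]
    have b0 : HasDerivAt (fun y : ℝ => N * (N - 1) / y) (-(N * (N - 1)) / y ^ 2) y := by
      have := (hasDerivAt_inv hy0).const_mul (N * (N - 1))
      refine this.congr_deriv ?_ |>.congr_of_eventuallyEq ?_
      · (clear * - hy0; field_simp)
      · exact Filter.Eventually.of_forall fun z => by simp only [div_eq_mul_inv]
    have b1 : HasDerivAt (fun y : ℝ => (N - 1) * (N - 2) * j 0 y / y ^ 2)
        ((N - 1) * (N - 2) * (j 1 y / y ^ 2 - 2 * j 0 y / y ^ 3)) y := by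
      have := ((hj 0 y hy).const_mul ((N - 1) * (N - 2))).fun_div (hasDerivAt_pow 2 y)
        (pow_ne_zero 2 hy0)
      refine this.congr_deriv ?_
      field_simp
      ring
    have b2 : HasDerivAt (fun y : ℝ => 2 * (N - 1) * j 1 y / y)
        (2 * (N - 1) * (j 2 y / y - j 1 y / y ^ 2)) y := by
      have := ((hj 1 y hy).const_mul (2 * (N - 1))).fun_div (hasDerivAt_id' y) hy0
      refine this.congr_deriv ?_
      (clear * - hy0; field_simp)
    exact (b0.fun_sub ((b1.fun_add b2).fun_add (hj 2 y hy))).deriv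
  have hx0 : x ≠ 0 := hx.1.ne'
  have e2 : deriv (scal (m + 2) f) =ᶠ[nhds x] fun y =>
      -(N * (N - 1)) / y ^ 2 - ((N - 1) * (N - 2) * (j 1 y / y ^ 2 - 2 * j 0 y / y ^ 3)
        + 2 * (N - 1) * (j 2 y / y - j 1 y / y ^ 2) + j 3 y) := by
    filter_upwards [hopen.mem_nhds hx] with z hz
    exact hS1 z hz
  rw [e2.deriv_eq]
  have c0 : HasDerivAt (fun y : ℝ => -(N * (N - 1)) / y ^ 2) (2 * N * (N - 1) / x ^ 3) x := by
    have := (hasDerivAt_const x (-(N * (N - 1)))).fun_div (hasDerivAt_pow 2 x) (pow_ne_zero 2 hx0)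
    refine this.congr_deriv ?_
    field_simp
    ring
  have c1 : HasDerivAt (fun y : ℝ => (N - 1) * (N - 2) * (j 1 y / y ^ 2 - 2 * j 0 y / y ^ 3))
      ((N - 1) * (N - 2) * (j 2 x / x ^ 2 - 4 * j 1 x / x ^ 3 + 6 * j 0 x / x ^ 4)) x := by
    have p1 := (hj 1 x hx).fun_div (hasDerivAt_pow 2 x) (pow_ne_zero 2 hx0)
    have p2 := ((hj 0 x hx).const_mul (2 : ℝ)).fun_div (hasDerivAt_pow 3 x) (pow_ne_zero 3 hx0)
    have := (p1.fun_sub p2).const_mul ((N - 1) * (N - 2))
    refine this.congr_deriv ?_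
    field_simp
    ring
  have c2 : HasDerivAt (fun y : ℝ => 2 * (N - 1) * (j 2 y / y - j 1 y / y ^ 2))
      (2 * (N - 1) * (j 3 x / x - 2 * j 2 x / x ^ 2 + 2 * j 1 x / x ^ 3)) x := by
    have p1 := (hj 2 x hx).fun_div (hasDerivAt_id' x) hx0
    have p2 := (hj 1 x hx).fun_div (hasDerivAt_pow 2 x) (pow_ne_zero 2 hx0)
    have := (p1.fun_sub p2).const_mul (2 * (N - 1))
    refine this.congr_deriv ?_
    field_simp
    ring
  exact (c0.fun_sub ((c1.fun_add c2).fun_add (hj 3 x hx))).deriv

end P264.B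
end
end

section

attribute [-instance] ProperSMul.toContinuousSMul IsTopologicalTorsor.toContinuousSMul IdemSemiring.toCanonicallyOrderedAdd IdemSemiring.toMulLeftMono IdemSemiring.toMulRightMono AddQuantale.instAddLeftMono AddQuantale.instAddRightMono Quantale.instMulLeftMono Quantale.instMulRightMono FiniteDimensional.rclike_to_real IsScalarTower.complexToReal FiniteDimensional.complexToReal

section

/-!
# P264, module M6: piecewise `C^1` calculus on a compact interval

`PC1 s a b f f'` : `f` is continuous on `[a,b]`, has derivative `f'` at all points of `(a,b)`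
outside the (countable) set `s`, and `f'` is integrable.  Closed under sums and products, with the
fundamental theorem and integration by parts of first and second order.
-/

open Set MeasureTheory

namespace Vale.Agent.P264.Cal

/-- Piecewise `C^1` pair `(f, f')` on `[a,b]`, exceptional set `s`. -/
structure PC1 (s : Set ℝ) (a b : ℝ) (f f' : ℝ → ℝ) : Prop where
  cont : ContinuousOn f (Icc a b)
  der : ∀ x ∈ Ioo a b \ s, HasDerivAt f (f' x) x
  int : IntervalIntegrable f' volume a b

variable {s t : Set ℝ} {a b c : ℝ} {f f' g g' h h' : ℝ → ℝ}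

/-- A function which is `C^1` on `[a,b]` in the usual sense. -/
theorem PC1.of_hasDerivAt (hab : a ≤ b) (hc : ContinuousOn f (Icc a b))
    (hd : ∀ x ∈ Ioo a b, HasDerivAt f (f' x) x) (hc' : ContinuousOn f' (Icc a b)) :
    PC1 s a b f f' :=
  ⟨hc, fun x hx => hd x hx.1, (by rw [← uIcc_of_le hab] at hc'; exact hc'.intervalIntegrable)⟩

/-- A function on the whole line with continuous derivative. -/
theorem PC1.of_hasDerivAt' (hd : ∀ x, HasDerivAt f (f' x) x) (hc' : Continuous f') :
    PC1 s a b f f' :=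
  ⟨fun x _ => (hd x).continuousAt.continuousWithinAt, fun x _ => hd x,
    hc'.intervalIntegrable a b⟩

theorem PC1.add (hf : PC1 s a b f f') (hg : PC1 s a b g g') :
    PC1 s a b (fun x => f x + g x) (fun x => f' x + g' x) :=
  ⟨hf.cont.add hg.cont, fun x hx => (hf.der x hx).add (hg.der x hx), hf.int.add hg.int⟩

theorem PC1.sub (hf : PC1 s a b f f') (hg : PC1 s a b g g') :
    PC1 s a b (fun x => f x - g x) (fun x => f' x - g' x) :=
  ⟨hf.cont.sub hg.cont, fun x hx => (hf.der x hx).sub (hg.der x hx), hf.int.sub hg.int⟩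

theorem PC1.const_mul (k : ℝ) (hf : PC1 s a b f f') :
    PC1 s a b (fun x => k * f x) (fun x => k * f' x) :=
  ⟨continuousOn_const.mul hf.cont, fun x hx => (hf.der x hx).const_mul k, hf.int.const_mul k⟩

theorem PC1.congr (hf : PC1 s a b f f') (h1 : ∀ x ∈ Icc a b, f x = g x)
    (h2 : ∀ x ∈ Ioo a b \ s, f' x = g' x) (hs : s.Countable) (hab : a ≤ b) :
    PC1 s a b g g' := by
  refine ⟨hf.cont.congr fun x hx => (h1 x hx).symm, fun x hx => ?_, ?_⟩
  · rw [← h2 x hx]
    refine (hf.der x hx).congr_of_eventuallyEq ?_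
    filter_upwards [Ioo_mem_nhds hx.1.1 hx.1.2] with y hy
    exact (h1 y ⟨hy.1.le, hy.2.le⟩).symm
  · refine hf.int.congr_ae ?_
    rw [uIoc_of_le hab]
    have h3 : ∀ᵐ x ∂(volume.restrict (Ioc a b)), x ∉ s :=
      ae_restrict_of_ae (hs.ae_notMem volume)
    have h4 : ∀ᵐ x ∂(volume.restrict (Ioc a b)), x ∈ Ioc a b := ae_restrict_mem measurableSet_Ioc
    have h5 : ∀ᵐ x ∂(volume.restrict (Ioc a b)), x ≠ b :=
      ae_restrict_of_ae (by
        have := (countable_singleton b).ae_notMem volume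
        filter_upwards [this] with x hx
        simpa using hx)
    filter_upwards [h3, h4, h5] with x hx1 hx2 hx3
    exact h2 x ⟨⟨hx2.1, lt_of_le_of_ne hx2.2 hx3⟩, hx1⟩

theorem PC1.mul (hab : a ≤ b) (hf : PC1 s a b f f') (hg : PC1 s a b g g') :
    PC1 s a b (fun x => f x * g x) (fun x => f' x * g x + f x * g' x) := by
  have hfc : ContinuousOn f (uIcc a b) := by rw [uIcc_of_le hab]; exact hf.cont
  have hgc : ContinuousOn g (uIcc a b) := by rw [uIcc_of_le hab]; exact hg.cont
  exact ⟨hf.cont.mul hg.cont, fun x hx => (hf.der x hx).mul (hg.der x hx),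
    (hf.int.mul_continuousOn hgc).add (hg.int.continuousOn_mul hfc)⟩

theorem PC1.sq (hab : a ≤ b) (hf : PC1 s a b f f') :
    PC1 s a b (fun x => f x ^ 2) (fun x => 2 * f x * f' x) := by
  have hfc : ContinuousOn f (uIcc a b) := by rw [uIcc_of_le hab]; exact hf.cont
  refine ⟨hf.cont.pow 2, fun x hx => ?_, ?_⟩
  · have h := (hf.der x hx).mul (hf.der x hx)
    have e1 : (fun x => f x ^ 2) = fun x => f x * f x := by
      ext y
      ring
    have e2 : 2 * f x * f' x = f' x * f x + f x * f' x := by ring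
    rw [e1, e2]
    exact h
  · exact hf.int.continuousOn_mul (continuousOn_const.mul hfc)

/-- Restriction to a subinterval. -/
theorem PC1.restrict {a' b' : ℝ} (hf : PC1 s a b f f') (ha : a ≤ a') (hab' : a' ≤ b')
    (hb : b' ≤ b) : PC1 s a' b' f f' := by
  refine ⟨hf.cont.mono (Icc_subset_Icc ha hb),
    fun x hx => hf.der x ⟨⟨lt_of_le_of_lt ha hx.1.1, lt_of_lt_of_le hx.1.2 hb⟩, hx.2⟩, ?_⟩
  refine hf.int.mono_set ?_
  rw [uIcc_of_le hab', uIcc_of_le (ha.trans (hab'.trans hb))]
  exact Icc_subset_Icc ha hb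

/-- Fundamental theorem. -/
theorem PC1.integral (hs : s.Countable) (hab : a ≤ b) (hf : PC1 s a b f f') :
    ∫ x in a..b, f' x = f b - f a :=
  integral_eq_of_hasDerivAt_off_countable_of_le f f' hab hs hf.cont hf.der hf.int

/-- Integration by parts. -/
theorem PC1.parts (hs : s.Countable) (hab : a ≤ b) (hf : PC1 s a b f f') (hg : PC1 s a b g g') :
    ∫ x in a..b, f' x * g x = f b * g b - f a * g a - ∫ x in a..b, f x * g' x := by
  have hfc : ContinuousOn f (uIcc a b) := by rw [uIcc_of_le hab]; exact hf.cont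
  have hgc : ContinuousOn g (uIcc a b) := by rw [uIcc_of_le hab]; exact hg.cont
  have h := (hf.mul hab hg).integral hs hab
  rw [intervalIntegral.integral_add (hf.int.mul_continuousOn hgc)
    (hg.int.continuousOn_mul hfc)] at h
  (clear * - h; linarith)

/-- Second order integration by parts
`∫ f'' g = ∫ f g'' + [f' g - f g']`. -/
theorem PC1.parts2 {f'' g'' : ℝ → ℝ} (hs : s.Countable) (hab : a ≤ b)
    (hf : PC1 s a b f f') (hf' : PC1 s a b f' f'')
    (hg : PC1 s a b g g') (hg' : PC1 s a b g' g'') :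
    ∫ x in a..b, f'' x * g x =
      (f' b * g b - f b * g' b) - (f' a * g a - f a * g' a) + ∫ x in a..b, f x * g'' x := by
  have h1 := hf'.parts hs hab hg
  have h2 := hf.parts hs hab hg'
  linarith only [h1, h2]

/-- Second order integration by parts without boundary terms: `f` and `f'` vanish at both ends. -/
theorem PC1.parts2_zero {f'' g'' : ℝ → ℝ} (hs : s.Countable) (hab : a ≤ b)
    (hf : PC1 s a b f f') (hf' : PC1 s a b f' f'')
    (hg : PC1 s a b g g') (hg' : PC1 s a b g' g'')
    (ha : f a = 0) (ha' : f' a = 0) (hb : f b = 0) (hb' : f' b = 0) :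
    ∫ x in a..b, f'' x * g x = ∫ x in a..b, f x * g'' x := by
  rw [PC1.parts2 hs hab hf hf' hg hg', ha, ha', hb, hb']
  ring

end Vale.Agent.P264.Cal
end
end

section

attribute [-instance] ProperSMul.toContinuousSMul IsTopologicalTorsor.toContinuousSMul IdemSemiring.toCanonicallyOrderedAdd IdemSemiring.toMulLeftMono IdemSemiring.toMulRightMono AddQuantale.instAddLeftMono AddQuantale.instAddRightMono Quantale.instMulLeftMono Quantale.instMulRightMono FiniteDimensional.rclike_to_real IsScalarTower.complexToReal FiniteDimensional.complexToReal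

section

/-!
# P264, module M6: Cauchy–Schwarz, Agmon, Taylor kernels and pointwise bounds

All on compact intervals of the variable `y > 0`, with standard derivatives.
`V'' = z`, energy `∫ W z²` with `W ≥ c ξ^p`.
-/

open Set MeasureTheory

namespace Vale.Agent.P264.Cal

variable {s : Set ℝ} {a b : ℝ} {f f' g g' h h' V V' z : ℝ → ℝ}

/-- Cauchy–Schwarz for interval integrals. -/
theorem cs (hab : a ≤ b) (hf : IntervalIntegrable (fun x => f x ^ 2) volume a b)
    (hg : IntervalIntegrable (fun x => g x ^ 2) volume a b)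
    (hfg : IntervalIntegrable (fun x => f x * g x) volume a b) :
    (∫ x in a..b, f x * g x) ^ 2 ≤ (∫ x in a..b, f x ^ 2) * ∫ x in a..b, g x ^ 2 := by
  have key : ∀ k : ℝ, 0 ≤ (∫ x in a..b, f x ^ 2) * (k * k) +
      (-2 * ∫ x in a..b, f x * g x) * k + ∫ x in a..b, g x ^ 2 := by
    intro k
    have h1 : 0 ≤ ∫ x in a..b, (k * f x - g x) ^ 2 :=
      intervalIntegral.integral_nonneg hab fun x _ => sq_nonneg _
    have h2 : ∀ x, (k * f x - g x) ^ 2 =
        k * k * (f x ^ 2) + (-2 * k) * (f x * g x) + g x ^ 2 := fun x => by ring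
    simp only [h2] at h1
    rw [intervalIntegral.integral_add ((hf.const_mul _).add (hfg.const_mul _)) hg,
      intervalIntegral.integral_add (hf.const_mul _) (hfg.const_mul _),
      intervalIntegral.integral_const_mul, intervalIntegral.integral_const_mul] at h1
    linarith only [h1]
  have h3 := discrim_le_zero key
  unfold discrim at h3
  linarith

/-- Cauchy–Schwarz with absolute values and upper bounds. -/
theorem cs_le {A B : ℝ} (hab : a ≤ b) (hf : IntervalIntegrable (fun x => f x ^ 2) volume a b)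
    (hg : IntervalIntegrable (fun x => g x ^ 2) volume a b)
    (hfg : IntervalIntegrable (fun x => f x * g x) volume a b)
    (hA : ∫ x in a..b, f x ^ 2 ≤ A) (hB : ∫ x in a..b, g x ^ 2 ≤ B) :
    |∫ x in a..b, f x * g x| ≤ Real.sqrt (A * B) := by
  have h0 : 0 ≤ ∫ x in a..b, f x ^ 2 := intervalIntegral.integral_nonneg hab fun x _ => sq_nonneg _
  have h1 : 0 ≤ ∫ x in a..b, g x ^ 2 := intervalIntegral.integral_nonneg hab fun x _ => sq_nonneg _
  apply Real.abs_le_sqrt
  exact (cs hab hf hg hfg).trans (mul_le_mul hA hB h1 (h0.trans hA))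

/-- Agmon inequality on an interval: `f(x)² ≤ (1/(b-a)) ∫ f² + 2 (∫ f²)^{1/2} (∫ f'²)^{1/2}`. -/
theorem agmon {A B x : ℝ} (hs : s.Countable) (hab : a < b) (hf : PC1 s a b f f')
    (hf2 : IntervalIntegrable (fun x => f' x ^ 2) volume a b)
    (hA : ∫ x in a..b, f x ^ 2 ≤ A) (hB : ∫ x in a..b, f' x ^ 2 ≤ B) (hx : x ∈ Icc a b) :
    f x ^ 2 ≤ A / (b - a) + 2 * Real.sqrt (A * B) := by
  have hfc : ContinuousOn f (uIcc a b) := by rw [uIcc_of_le hab.le]; exact hf.cont
  have hsqi : IntervalIntegrable (fun x => f x ^ 2) volume a b := (hfc.pow 2).intervalIntegrable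
  have hffi : IntervalIntegrable (fun x => f x * f' x) volume a b := hf.int.continuousOn_mul hfc
  -- the bound for the oscillation of `f²`
  have hab_abs : ∫ x in a..b, |f x * f' x| ≤ Real.sqrt (A * B) := by
    have e : ∀ x, |f x * f' x| = |f x| * |f' x| := fun x => abs_mul _ _
    simp only [e]
    have h1 := cs_le (f := fun x => |f x|) (g := fun x => |f' x|) (A := A) (B := B) hab.le
      (by simpa only [sq_abs] using hsqi) (by simpa only [sq_abs] using hf2)
      (by simpa only [← abs_mul] using hffi.abs) (by simpa only [sq_abs] using hA)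
      (by simpa only [sq_abs] using hB)
    exact (le_abs_self _).trans h1
  have osc : ∀ u ∈ Icc a b, ∀ v ∈ Icc a b, u ≤ v → |f v ^ 2 - f u ^ 2| ≤ 2 * Real.sqrt (A * B) := by
    intro u hu v hv huv
    have h1 := ((hf.restrict hu.1 huv hv.2).sq huv).integral hs huv
    rw [← h1]
    calc |∫ x in u..v, 2 * f x * f' x| ≤ ∫ x in u..v, |2 * f x * f' x| :=
          intervalIntegral.abs_integral_le_integral_abs huv
      _ = 2 * ∫ x in u..v, |f x * f' x| := by
          rw [← intervalIntegral.integral_const_mul]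
          congr 1
          ext x
          rw [mul_assoc, abs_mul, abs_of_pos (by norm_num : (0 : ℝ) < 2)]
      _ ≤ 2 * ∫ x in a..b, |f x * f' x| := by
          have := intervalIntegral.integral_mono_interval (μ := volume)
            (f := fun x => |f x * f' x|) hu.1 huv hv.2
            (Filter.Eventually.of_forall fun x => abs_nonneg _) hffi.abs
          linarith only [this]
      _ ≤ 2 * Real.sqrt (A * B) := by linarith only [hab_abs]
  have osc' : ∀ u ∈ Icc a b, f x ^ 2 ≤ f u ^ 2 + 2 * Real.sqrt (A * B) := by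
    intro u hu
    rcases le_total u x with h | h
    · have := osc u hu x hx h
      have := (abs_le.mp this).2
      linarith only [this]
    · have := osc x hx u hu h
      have := (abs_le.mp this).1
      linarith only [this]
  have h2 : ∫ _u in a..b, f x ^ 2 ≤ ∫ u in a..b, (f u ^ 2 + 2 * Real.sqrt (A * B)) :=
    intervalIntegral.integral_mono_on hab.le intervalIntegrable_const
      (hsqi.add intervalIntegrable_const) fun u hu => osc' u hu
  rw [intervalIntegral.integral_const, intervalIntegral.integral_add hsqi intervalIntegrable_const,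
    intervalIntegral.integral_const] at h2
  simp only [smul_eq_mul] at h2
  have hpos : 0 < b - a := sub_pos.mpr hab
  have h3 : f x ^ 2 ≤ (A + (b - a) * (2 * Real.sqrt (A * B))) / (b - a) := by
    rw [le_div_iff₀ hpos]
    linarith
  calc f x ^ 2 ≤ (A + (b - a) * (2 * Real.sqrt (A * B))) / (b - a) := h3
    _ = A / (b - a) + 2 * Real.sqrt (A * B) := by (clear * - hpos; field_simp)

end Vale.Agent.P264.Cal
end
end

section

attribute [-instance] ProperSMul.toContinuousSMul IsTopologicalTorsor.toContinuousSMul IdemSemiring.toCanonicallyOrderedAdd IdemSemiring.toMulLeftMono IdemSemiring.toMulRightMono AddQuantale.instAddLeftMono AddQuantale.instAddRightMono Quantale.instMulLeftMono Quantale.instMulRightMono FiniteDimensional.rclike_to_real IsScalarTower.complexToReal FiniteDimensional.complexToReal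

section

/-!
# P264 / B / Energy : L² contraction and monotonicity of the Calabi energy (`n = 8`)
-/

open Set MeasureTheory Filter Topology
open scoped ContDiff
open Vale.Agent.P264.Cal (PC1)
open P264.Cal (pdt pdx)

namespace P264.B

/-- Extending an identity between continuous functions from `(0,1)` to `[0,1]`. -/
theorem eqOn_Icc_of_Ioo {f g : ℝ → ℝ} (hf : ContinuousOn f (Icc 0 1))
    (hg : ContinuousOn g (Icc 0 1)) (h : ∀ x ∈ Ioo (0 : ℝ) 1, f x = g x) :
    ∀ x ∈ Icc (0 : ℝ) 1, f x = g x := by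
  have h1 : EqOn f g (Ioo 0 1) := h
  have h2 := h1.of_subset_closure hf hg Ioo_subset_Icc_self
    (by rw [closure_Ioo (by norm_num : (0 : ℝ) ≠ 1)])
  exact h2

section
variable {T : ℝ} {U₀ : ℝ → ℝ} {U φ : ℝ → ℝ → ℝ}

/-- The closed box. -/
abbrev bx (T : ℝ) : Set (ℝ × ℝ) := Icc 0 T ×ˢ Icc 0 1

/-- Slices of continuous functions on the box. -/
theorem cont_slice {f : ℝ × ℝ → ℝ} (hf : ContinuousOn f (bx T)) {t : ℝ} (ht : t ∈ Icc 0 T) :
    ContinuousOn (fun x => f (t, x)) (Icc 0 1) :=
  hf.comp (f := fun x : ℝ => ((t, x) : ℝ × ℝ)) (by fun_prop) (fun _ hx => ⟨ht, hx⟩)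

end

namespace IsFlowU

variable {T : ℝ} {U₀ : ℝ → ℝ} {U φ : ℝ → ℝ → ℝ}

/-- `U` as a function of the pair. -/
theorem sU (h : IsFlowU 8 T U₀ U φ) : ContDiffOn ℝ ∞ (fun p : ℝ × ℝ => U p.1 p.2) (bx T) :=
  h.smoothU

theorem sφ (h : IsFlowU 8 T U₀ U φ) : ContDiffOn ℝ ∞ (fun p : ℝ × ℝ => φ p.1 p.2) (bx T) :=
  h.smooth

end IsFlowU

section jets

variable {T : ℝ} {f : ℝ × ℝ → ℝ}

/-- `∂ₓᵏ f` on the closed box. -/
noncomputable def dx (T : ℝ) (k : ℕ) (f : ℝ × ℝ → ℝ) : ℝ × ℝ → ℝ := (pdx (bx T))^[k] f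

theorem dx_zero : dx T 0 f = f := rfl

theorem dx_succ (k : ℕ) : dx T (k + 1) f = pdx (bx T) (dx T k f) := by
  unfold dx
  rw [Function.iterate_succ_apply']

theorem smooth_dx (hT : 0 < T) (hf : ContDiffOn ℝ ∞ f (bx T)) (k : ℕ) :
    ContDiffOn ℝ ∞ (dx T k f) (bx T) := by
  induction k with
  | zero => exact hf
  | succ k ih => rw [dx_succ]; exact P264.Cal.contDiffOn_pdx hT zero_lt_one ih

theorem smooth_pdt (hT : 0 < T) (hf : ContDiffOn ℝ ∞ f (bx T)) :
    ContDiffOn ℝ ∞ (pdt (bx T) f) (bx T) :=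
  P264.Cal.contDiffOn_pdt hT zero_lt_one hf

theorem der_dx (hT : 0 < T) (hf : ContDiffOn ℝ ∞ f (bx T)) (k : ℕ) {t : ℝ} (ht : t ∈ Icc 0 T)
    {x : ℝ} (hx : x ∈ Ioo (0 : ℝ) 1) :
    HasDerivAt (fun y => dx T k f (t, y)) (dx T (k + 1) f (t, x)) x := by
  rw [dx_succ]
  exact P264.Cal.hasDerivAt_pdx (smooth_dx hT hf k) ht hx

theorem cont_dx (hT : 0 < T) (hf : ContDiffOn ℝ ∞ f (bx T)) (k : ℕ) {t : ℝ} (ht : t ∈ Icc 0 T) :
    ContinuousOn (fun x => dx T k f (t, x)) (Icc 0 1) :=
  cont_slice (smooth_dx hT hf k).continuousOn ht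

theorem pc1_dx {s : Set ℝ} (hT : 0 < T) (hf : ContDiffOn ℝ ∞ f (bx T)) (k : ℕ) {t : ℝ}
    (ht : t ∈ Icc 0 T) :
    PC1 s 0 1 (fun x => dx T k f (t, x)) (fun x => dx T (k + 1) f (t, x)) :=
  PC1.of_hasDerivAt zero_le_one (cont_dx hT hf k ht) (fun _ hx => der_dx hT hf k ht hx)
    (cont_dx hT hf (k + 1) ht)

theorem dx_pdt_comm (hT : 0 < T) (hf : ContDiffOn ℝ ∞ f (bx T)) (k : ℕ) {p : ℝ × ℝ}
    (hp : p ∈ bx T) : dx T k (pdt (bx T) f) p = pdt (bx T) (dx T k f) p := by
  induction k generalizing p with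
  | zero => rfl
  | succ k ih =>
    rw [dx_succ, dx_succ]
    rw [P264.Cal.pdx_congr (g := pdt (bx T) (dx T k f)) (fun q hq => ih hq) hp]
    exact P264.Cal.pdx_pdt_comm hT zero_lt_one (smooth_dx hT hf k) hp

end jets

namespace IsFlowU

variable {T : ℝ} {U₀ : ℝ → ℝ} {U φ : ℝ → ℝ → ℝ}

/-- The flow equation on the closed box, multiplied by `x⁷`. -/
theorem ut_eq (h : IsFlowU 8 T U₀ U φ) (hT : 0 < T) {t x : ℝ} (ht : t ∈ Icc 0 T)
    (hx : x ∈ Icc (0 : ℝ) 1) :
    x ^ 7 * pdt (bx T) (fun p : ℝ × ℝ => U p.1 p.2) (t, x) =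
      -56 * x ^ 6 + 42 * x ^ 5 * φ t x + 14 * x ^ 6 * dx T 1 (fun p : ℝ × ℝ => φ p.1 p.2) (t, x)
        + x ^ 7 * dx T 2 (fun p : ℝ × ℝ => φ p.1 p.2) (t, x) := by
  have c0 := cont_slice (smooth_pdt hT h.sU).continuousOn ht
  have c1 := cont_dx hT h.sφ 0 ht
  have c2 := cont_dx hT h.sφ 1 ht
  have c3 := cont_dx hT h.sφ 2 ht
  simp only [dx_zero] at c1
  refine eqOn_Icc_of_Ioo (f := fun x => x ^ 7 * pdt (bx T) (fun p : ℝ × ℝ => U p.1 p.2) (t, x))
    (g := fun x => -56 * x ^ 6 + 42 * x ^ 5 * φ t x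
      + 14 * x ^ 6 * dx T 1 (fun p : ℝ × ℝ => φ p.1 p.2) (t, x)
        + x ^ 7 * dx T 2 (fun p : ℝ × ℝ => φ p.1 p.2) (t, x)) ?_ ?_ ?_ x hx
  · exact (by fun_prop : ContinuousOn (fun x : ℝ => x ^ 7) (Icc 0 1)).mul c0
  · refine ContinuousOn.add (ContinuousOn.add (ContinuousOn.add (by fun_prop) ?_) ?_) ?_
    · exact (by fun_prop : ContinuousOn (fun x : ℝ => 42 * x ^ 5) (Icc 0 1)).mul c1
    · exact (by fun_prop : ContinuousOn (fun x : ℝ => 14 * x ^ 6) (Icc 0 1)).mul c2
    · exact (by fun_prop : ContinuousOn (fun x : ℝ => x ^ 7) (Icc 0 1)).mul c3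
  · intro x hx
    have h1 := P264.Cal.pdt_eq hT h.sU ht (Ioo_subset_Icc_self hx) (h.flow t ht x hx)
    have h2 := (deriv2_scal (n := 8) (by norm_num) (f := φ t)
      (j := fun k x => dx T k (fun p : ℝ × ℝ => φ p.1 p.2) (t, x))
      (fun x _ => rfl) (fun k x hx => der_dx hT h.sφ k ht hx) hx).1
    have hx0 : x ≠ 0 := hx.1.ne'
    simp only [h1, h2, dx_zero]
    push_cast
    field_simp
    ring

/-- `u'' φ = 1` on the closed box, multiplied by `x(1-x)`. -/
theorem rel_box (h : IsFlowU 8 T U₀ U φ) (hT : 0 < T) {t x : ℝ} (ht : t ∈ Icc 0 T)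
    (hx : x ∈ Icc (0 : ℝ) 1) :
    φ t x * (x * (1 - x) * dx T 2 (fun p : ℝ × ℝ => U p.1 p.2) (t, x) + 1) = x * (1 - x) := by
  have c1 := cont_dx hT h.sφ 0 ht
  have c3 := cont_dx hT h.sU 2 ht
  simp only [dx_zero] at c1
  refine eqOn_Icc_of_Ioo
    (f := fun x => φ t x * (x * (1 - x) * dx T 2 (fun p : ℝ × ℝ => U p.1 p.2) (t, x) + 1))
    (g := fun x => x * (1 - x)) ?_ (by fun_prop) ?_ x hx
  · exact c1.mul (((by fun_prop : ContinuousOn (fun x : ℝ => x * (1 - x)) (Icc 0 1)).mul c3).add
      continuousOn_const)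
  · intro x hx
    have h0 := h.rel t ht x hx
    have e1 : ∀ y ∈ Ioo (0 : ℝ) 1, deriv (U t) y = dx T 1 (fun p : ℝ × ℝ => U p.1 p.2) (t, y) :=
      fun y hy => (der_dx hT h.sU 0 ht hy).deriv
    have e2 : deriv (deriv (U t)) x = dx T 2 (fun p : ℝ × ℝ => U p.1 p.2) (t, x) := by
      have : deriv (U t) =ᶠ[𝓝 x] fun y => dx T 1 (fun p : ℝ × ℝ => U p.1 p.2) (t, y) := by
        filter_upwards [isOpen_Ioo.mem_nhds hx] with y hy using e1 y hy
      rw [this.deriv_eq]
      exact (der_dx hT h.sU 1 ht hx).deriv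
    rw [e2] at h0
    have hx0 : x ≠ 0 := hx.1.ne'
    have hx1 : 1 - x ≠ 0 := by linarith only [hx.2]
    have h3 : φ t x * (x * (1 - x) * dx T 2 (fun p : ℝ × ℝ => U p.1 p.2) (t, x) + 1)
        = (φ t x * (dx T 2 (fun p : ℝ × ℝ => U p.1 p.2) (t, x) + 1 / x + 1 / (1 - x)))
          * (x * (1 - x)) := by
      field_simp
      ring
    simp only [h3, h0, one_mul]

/-- First and second derivative of `x⁷ g(t,x)` as `PC1` pairs. -/
theorem pc1_x7 {s : Set ℝ} {g : ℝ × ℝ → ℝ} (hT : 0 < T) (hg : ContDiffOn ℝ ∞ g (bx T)) {t : ℝ}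
    (ht : t ∈ Icc 0 T) :
    PC1 s 0 1 (fun x => x ^ 7 * g (t, x)) (fun x => 7 * x ^ 6 * g (t, x) + x ^ 7 * dx T 1 g (t, x)) ∧
    PC1 s 0 1 (fun x => 7 * x ^ 6 * g (t, x) + x ^ 7 * dx T 1 g (t, x))
      (fun x => 42 * x ^ 5 * g (t, x) + 14 * x ^ 6 * dx T 1 g (t, x) + x ^ 7 * dx T 2 g (t, x)) := by
  have p0 := pc1_dx (s := s) hT hg 0 ht
  have p1 := pc1_dx (s := s) hT hg 1 ht
  simp only [dx_zero] at p0
  have q7 : PC1 s 0 1 (fun x : ℝ => x ^ 7) (fun x => 7 * x ^ 6) :=
    PC1.of_hasDerivAt' (fun x => by simpa only [Nat.cast_ofNat, Nat.add_one_sub_one] using hasDerivAt_pow 7 x) (by fun_prop)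
  have q6 : PC1 s 0 1 (fun x : ℝ => 7 * x ^ 6) (fun x => 42 * x ^ 5) := by
    refine PC1.of_hasDerivAt' (fun x => ?_) (by fun_prop)
    have h0 := (hasDerivAt_pow 6 x).const_mul (7 : ℝ)
    have e0 : (7 : ℝ) * (((6 : ℕ) : ℝ) * x ^ (6 - 1)) = 42 * x ^ 5 := by
      norm_num
      ring
    rw [e0] at h0
    exact h0
  refine ⟨q7.mul zero_le_one p0, ?_⟩
  have h1 := (q6.mul zero_le_one p0).add (q7.mul zero_le_one p1)
  refine ⟨h1.cont, fun x hx => ?_, ?_⟩
  · have := h1.der x hx
    convert this using 1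
    ring
  · have h2 := h1.int
    have e : (fun x => 42 * x ^ 5 * g (t, x) + 7 * x ^ 6 * dx T (0 + 1) g (t, x) +
        (7 * x ^ 6 * dx T 1 g (t, x) + x ^ 7 * dx T (1 + 1) g (t, x))) =
        (fun x => 42 * x ^ 5 * g (t, x) + 14 * x ^ 6 * dx T 1 g (t, x) + x ^ 7 * dx T 2 g (t, x)) := by
      ext x
      simp only [zero_add, Nat.reduceAdd]
      ring
    rw [e] at h2
    exact h2

end IsFlowU

end P264.B
end
end

section

attribute [-instance] ProperSMul.toContinuousSMul IsTopologicalTorsor.toContinuousSMul IdemSemiring.toCanonicallyOrderedAdd IdemSemiring.toMulLeftMono IdemSemiring.toMulRightMono AddQuantale.instAddLeftMono AddQuantale.instAddRightMono Quantale.instMulLeftMono Quantale.instMulRightMono FiniteDimensional.rclike_to_real IsScalarTower.complexToReal FiniteDimensional.complexToReal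

section

/-!
# P264 / B / Near / AaBase : the self-similar frame, jets of `h = φ/x` and of `1/h`
-/

open MeasureTheory Set Filter Real
open scoped ContDiff Topology
open Vale.Agent.P264.Cal (PC1)
open P264.Cal (pdt pdx)

namespace P264.B.Aa

/-! ### the frame -/

theorem xx_pos (s z : ℝ) : 0 < xx s z := exp_pos _

theorem xx_lt_one_iff {s z : ℝ} : xx s z < 1 ↔ z < s / 2 := by
  unfold xx
  rw [exp_lt_one_iff]
  constructor <;> intro h <;> linarith only [h]

theorem tt_mem {T s : ℝ} (hs : exp (-s) ≤ T) {r : ℝ} (hr : s ≤ r) : tt T r ∈ Icc 0 T := by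
  unfold tt
  have h1 : exp (-r) ≤ exp (-s) := exp_le_exp.2 (by linarith only [hr])
  have h2 := exp_pos (-r)
  exact ⟨by linarith only [hs, h1], by linarith⟩

theorem T_pos {T s : ℝ} (hs : exp (-s) ≤ T) : 0 < T := lt_of_lt_of_le (exp_pos _) hs

theorem hasDerivAt_xx_z (s z : ℝ) : HasDerivAt (fun z => xx s z) (xx s z) z := by
  have h := ((hasDerivAt_id z).sub_const (s / 2)).exp
  simpa only [xx, id_eq, mul_one] using h

theorem hasDerivAt_xx_s (s z : ℝ) : HasDerivAt (fun s => xx s z) (-(xx s z) / 2) s := by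
  have h := (((hasDerivAt_id s).div_const 2).const_sub z).exp
  refine h.congr_deriv ?_
  simp only [id_eq, one_div, mul_neg, xx]
  ring

theorem hasDerivAt_tt (T s : ℝ) : HasDerivAt (fun s => tt T s) (exp (-s)) s := by
  have h := ((hasDerivAt_neg s).exp).const_sub T
  refine h.congr_deriv ?_
  ring

/-- `e^{-s} = x² e^{-2z}`. -/
theorem exp_neg_s (s z : ℝ) : exp (-s) = xx s z ^ 2 * exp (-2 * z) := by
  unfold xx
  rw [← exp_nat_mul, ← exp_add]
  congr 1
  push_cast
  ring

section slice

variable {T : ℝ} {f : ℝ × ℝ → ℝ}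

/-- `z`-derivative of a jet composed with the frame. -/
theorem hasDerivAt_jet_z (hT : 0 < T) (hf : ContDiffOn ℝ ∞ f (bx T)) (k : ℕ) {t : ℝ}
    (ht : t ∈ Icc 0 T) {s z : ℝ} (hz : xx s z < 1) :
    HasDerivAt (fun z => dx T k f (t, xx s z)) (dx T (k + 1) f (t, xx s z) * xx s z) z :=
  (der_dx hT hf k ht ⟨xx_pos s z, hz⟩).comp z (hasDerivAt_xx_z s z)

/-- derivative of a jet along the moving frame. -/
theorem hasDerivWithinAt_jet_s (hT : 0 < T) (hf : ContDiffOn ℝ ∞ f (bx T)) (k : ℕ) {s r z : ℝ}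
    (hs : exp (-s) ≤ T) (hr : s ≤ r) (hz : xx s z < 1) :
    HasDerivWithinAt (fun r => dx T k f (tt T r, xx r z))
      (exp (-r) * pdt (bx T) (dx T k f) (tt T r, xx r z)
        - xx r z / 2 * dx T (k + 1) f (tt T r, xx r z)) (Ici s) r := by
  have hmem : ∀ r' ∈ Ici s, (tt T r', xx r' z) ∈ bx T := by
    intro r' hr'
    have h1 : xx r' z ≤ xx s z := exp_le_exp.2 (by have := mem_Ici.1 hr'; linarith)
    exact ⟨tt_mem hs hr', (xx_pos _ _).le, h1.trans hz.le⟩
  have h1 := P264.Cal.hasFDerivWithinAt_box (smooth_dx hT hf k) (hmem r hr)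
  have h2 : HasDerivWithinAt (fun r : ℝ => ((tt T r, xx r z) : ℝ × ℝ))
      (exp (-r), -(xx r z) / 2) (Ici s) r :=
    ((hasDerivAt_tt T r).prodMk (hasDerivAt_xx_s r z)).hasDerivWithinAt
  have h3 := HasFDerivWithinAt.comp_hasDerivWithinAt r h1 h2 (fun y hy => hmem y hy)
  refine h3.congr_deriv ?_
  have e : ((exp (-r), -(xx r z) / 2) : ℝ × ℝ)
      = exp (-r) • ((1 : ℝ), (0 : ℝ)) + (-(xx r z) / 2) • ((0 : ℝ), (1 : ℝ)) := by
    ext <;> simp
  rw [e, map_add, map_smul, map_smul]
  simp only [smul_eq_mul]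
  rw [dx_succ]
  unfold pdt pdx
  ring

end slice

/-! ### jets of `h` -/

/-- `D^k h` (`k ≤ 4`) in terms of the jets of `φ`. -/
noncomputable def hj (T : ℝ) (φ : ℝ → ℝ → ℝ) (s : ℝ) (k : ℕ) (z : ℝ) : ℝ :=
  let J := fun k => dx T k (fun p : ℝ × ℝ => φ p.1 p.2) (tt T s, xx s z)
  match k with
  | 0 => J 0 / xx s z
  | 1 => J 1 - J 0 / xx s z
  | 2 => xx s z * J 2 - J 1 + J 0 / xx s z
  | 3 => xx s z ^ 2 * J 3 + J 1 - J 0 / xx s z
  | _ => xx s z ^ 3 * J 4 + 2 * xx s z ^ 2 * J 3 + xx s z * J 2 - J 1 + J 0 / xx s z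

section

variable {T : ℝ} {U₀ : ℝ → ℝ} {U φ : ℝ → ℝ → ℝ} {s z : ℝ}

theorem hj_zero : hj T φ s 0 z = HH φ T s z := rfl

theorem hj_e0 : hj T φ s 0 z =
    dx T 0 (fun p : ℝ × ℝ => φ p.1 p.2) (tt T s, xx s z) / xx s z := rfl

theorem hj_e1 : hj T φ s 1 z = dx T 1 (fun p : ℝ × ℝ => φ p.1 p.2) (tt T s, xx s z)
    - dx T 0 (fun p : ℝ × ℝ => φ p.1 p.2) (tt T s, xx s z) / xx s z := rfl

theorem hj_e2 : hj T φ s 2 z = xx s z * dx T 2 (fun p : ℝ × ℝ => φ p.1 p.2) (tt T s, xx s z)
    - dx T 1 (fun p : ℝ × ℝ => φ p.1 p.2) (tt T s, xx s z)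
    + dx T 0 (fun p : ℝ × ℝ => φ p.1 p.2) (tt T s, xx s z) / xx s z := rfl

theorem hj_hasDerivAt (h : IsFlowU 8 T U₀ U φ) {s₀ : ℝ} (hs : exp (-s₀) ≤ T) (hss : s₀ ≤ s)
    (hz : xx s z < 1) {k : ℕ} (hk : k ≤ 3) : HasDerivAt (hj T φ s k) (hj T φ s (k + 1) z) z := by
  have hT := T_pos hs
  have ht := tt_mem hs hss
  have hx := xx_pos s z
  have hJ : ∀ k, HasDerivAt (fun z => dx T k (fun p : ℝ × ℝ => φ p.1 p.2) (tt T s, xx s z))
      (dx T (k + 1) (fun p : ℝ × ℝ => φ p.1 p.2) (tt T s, xx s z) * xx s z) z := fun k =>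
    hasDerivAt_jet_z hT h.sφ k ht hz
  have hX := hasDerivAt_xx_z s z
  have h0 := (hJ 0).fun_div hX hx.ne'
  interval_cases k
  · refine h0.congr_deriv ?_
    simp only [hj]
    (clear * - hx; field_simp)
  · refine ((hJ 1).sub h0).congr_deriv ?_
    simp only [hj]
    field_simp
    ring
  · refine (((hX.mul (hJ 2)).sub (hJ 1)).add h0).congr_deriv ?_
    simp only [hj]
    field_simp
    ring
  · refine ((((hX.fun_pow 2).mul (hJ 3)).add (hJ 1)).sub h0).congr_deriv ?_
    simp only [hj]
    field_simp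
    ring

/-- The relation `1/h = x U'' + 1 + x/(1-x)`. -/
theorem inv_HH (h : IsFlowU 8 T U₀ U φ) {s₀ : ℝ} (hs : exp (-s₀) ≤ T) (hss : s₀ ≤ s)
    (hz : xx s z < 1) :
    1 / HH φ T s z = xx s z * dx T 2 (fun p : ℝ × ℝ => U p.1 p.2) (tt T s, xx s z) + 1
      + xx s z / (1 - xx s z) := by
  have hT := T_pos hs
  have ht := tt_mem hs hss
  have hx := xx_pos s z
  have hx1 : (0 : ℝ) < 1 - xx s z := by linarith
  have hmem : xx s z ∈ Ioo (0 : ℝ) 1 := ⟨hx, hz⟩
  have hr := h.rel (tt T s) ht (xx s z) hmem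
  have hd2 : deriv (deriv (U (tt T s))) (xx s z)
      = dx T 2 (fun p : ℝ × ℝ => U p.1 p.2) (tt T s, xx s z) := by
    have e1 : deriv (U (tt T s)) =ᶠ[𝓝 (xx s z)]
        fun y => dx T 1 (fun p : ℝ × ℝ => U p.1 p.2) (tt T s, y) := by
      filter_upwards [isOpen_Ioo.mem_nhds hmem] with y hy
      exact (der_dx hT h.sU 0 ht hy).deriv
    rw [e1.deriv_eq]
    exact (der_dx hT h.sU 1 ht hmem).deriv
  rw [hd2] at hr
  have hφ := (h.profile (tt T s) ht).pos _ hmem
  unfold HH
  rw [one_div, inv_div, div_eq_iff hφ.ne']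
  have : xx s z = xx s z * (φ (tt T s) (xx s z) *
      (dx T 2 (fun p : ℝ × ℝ => U p.1 p.2) (tt T s, xx s z) + 1 / xx s z + 1 / (1 - xx s z))) := by
    rw [hr, mul_one]
  field_simp at this ⊢
  linarith only [this]

/-- The mixed derivative `∂_t ∂_x² U = -S_xx`, in terms of the jets of `h`. -/
theorem Utxx (h : IsFlowU 8 T U₀ U φ) {s₀ : ℝ} (hs : exp (-s₀) ≤ T) (hss : s₀ ≤ s)
    (hz : xx s z < 1) :
    xx s z ^ 3 * pdt (bx T) (dx T 2 (fun p : ℝ × ℝ => U p.1 p.2)) (tt T s, xx s z)
      = hj T φ s 4 z + 12 * hj T φ s 3 z + 13 * hj T φ s 2 z - 138 * hj T φ s 1 z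
        + 112 * (hj T φ s 0 z - 1) := by
  have hT := T_pos hs
  have ht := tt_mem hs hss
  have hx := xx_pos s z
  have hmem : xx s z ∈ Ioo (0 : ℝ) 1 := ⟨hx, hz⟩
  have hmem' : (tt T s, xx s z) ∈ bx T := ⟨ht, hx.le, hz.le⟩
  rw [← dx_pdt_comm hT h.sU 2 hmem']
  -- `∂_t U = -S` on the open interval
  have hS : ∀ y ∈ Ioo (0 : ℝ) 1, pdt (bx T) (fun p : ℝ × ℝ => U p.1 p.2) (tt T s, y)
      = -(scal 8 (φ (tt T s)) y) := by
    intro y hy
    exact P264.Cal.pdt_eq hT h.sU ht ⟨hy.1.le, hy.2.le⟩ (h.flow _ ht y hy)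
  have e2 : dx T 2 (pdt (bx T) (fun p : ℝ × ℝ => U p.1 p.2)) (tt T s, xx s z)
      = -deriv (deriv (scal 8 (φ (tt T s)))) (xx s z) := by
    have d1 : ∀ y ∈ Ioo (0 : ℝ) 1,
        dx T 1 (pdt (bx T) (fun p : ℝ × ℝ => U p.1 p.2)) (tt T s, y)
          = -deriv (scal 8 (φ (tt T s))) y := by
      intro y hy
      have h1 := (der_dx hT (smooth_pdt hT h.sU) 0 ht hy).deriv
      rw [← h1]
      have : (fun y => dx T 0 (pdt (bx T) (fun p : ℝ × ℝ => U p.1 p.2)) (tt T s, y))
          =ᶠ[𝓝 y] fun y => -(scal 8 (φ (tt T s)) y) := by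
        filter_upwards [isOpen_Ioo.mem_nhds hy] with y' hy'
        exact hS y' hy'
      rw [this.deriv_eq, deriv.fun_neg]
    have h2 := (der_dx hT (smooth_pdt hT h.sU) 1 ht hmem).deriv
    rw [← h2]
    have : (fun y => dx T 1 (pdt (bx T) (fun p : ℝ × ℝ => U p.1 p.2)) (tt T s, y))
        =ᶠ[𝓝 (xx s z)] fun y => -deriv (scal 8 (φ (tt T s))) y := by
      filter_upwards [isOpen_Ioo.mem_nhds hmem] with y' hy'
      exact d1 y' hy'
    rw [this.deriv_eq, deriv.fun_neg]
  rw [e2, (deriv2_scal (n := 8) (by norm_num) (f := φ (tt T s))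
    (j := fun k y => dx T k (fun p : ℝ × ℝ => φ p.1 p.2) (tt T s, y))
    (fun y _ => rfl) (fun k y hy => der_dx hT h.sφ k ht hy) hmem).2]
  simp only [hj]
  push_cast
  field_simp
  ring

/-- positivity of `h` -/
theorem HH_pos (h : IsFlowU 8 T U₀ U φ) {s₀ : ℝ} (hs : exp (-s₀) ≤ T) (hss : s₀ ≤ s)
    (hz : xx s z < 1) : 0 < HH φ T s z :=
  div_pos ((h.profile _ (tt_mem hs hss)).pos _ ⟨xx_pos s z, hz⟩) (xx_pos s z)

end

end P264.B.Aa
end
end

section

attribute [-instance] ProperSMul.toContinuousSMul IsTopologicalTorsor.toContinuousSMul IdemSemiring.toCanonicallyOrderedAdd IdemSemiring.toMulLeftMono IdemSemiring.toMulRightMono AddQuantale.instAddLeftMono AddQuantale.instAddRightMono Quantale.instMulLeftMono Quantale.instMulRightMono FiniteDimensional.rclike_to_real IsScalarTower.complexToReal FiniteDimensional.complexToReal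

section

/-!
# P264 / B / Near / StaticE : the static energy inequality (S1)
-/

open MeasureTheory Set Filter Real
open scoped ContDiff Topology

namespace P264.B

section Cont

variable {G ρ R : ℝ → ℝ}

theorem cont_iter {n : ℕ} (hG : ContDiff ℝ n G) {j : ℕ} (hj : j ≤ n) :
    Continuous (iteratedDeriv j G) :=
  (contDiff_iter (m := n - j) hG (by omega)).continuous

theorem cont_om (hG : ContDiff ℝ 4 G) {j : ℕ} (hj : j ≤ 2) :
    Continuous (iteratedDeriv j (om G)) :=
  cont_iter (n := 2) (om_contDiff hG) hj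

theorem cont_om0 (hG : ContDiff ℝ 4 G) : Continuous (om G) := (om_contDiff hG).continuous

theorem cont_piD (hG : ContDiff ℝ 4 G) : Continuous (piD G) := by
  have h4 := cont_iter (n := 4) hG (le_refl 4)
  have h3 := cont_iter (n := 4) hG (show 3 ≤ 4 by norm_num)
  have h2 := cont_iter (n := 4) hG (show 2 ≤ 4 by norm_num)
  have h1 := cont_iter (n := 4) hG (show 1 ≤ 4 by norm_num)
  have h0 := hG.continuous
  unfold piD
  (clear * - hG h3 h2 h1 h0; fun_prop)

theorem cont_kap (hR : ContDiff ℝ 4 R) : Continuous (kap R) := by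
  unfold kap
  exact cont_piD (G := fun s => R s - 1) (hR.sub contDiff_const)

theorem cont_Top (hρ : ContDiff ℝ 2 ρ) (hG : ContDiff ℝ 4 G) : Continuous (Top ρ G) := by
  have h2 := cont_om hG (le_refl 2)
  have h1 := cont_om hG (show 1 ≤ 2 by norm_num)
  have h0 := cont_om0 hG
  have r2 := cont_iter (n := 2) hρ (le_refl 2)
  have r1 := cont_iter (n := 2) hρ (show 1 ≤ 2 by norm_num)
  have r0 := hρ.continuous
  unfold Top
  (clear * - r0 h2 r1 h1 hρ h0; fun_prop)

theorem cont_Lop (hR : ContDiff ℝ 4 R) (hG : ContDiff ℝ 4 G) : Continuous (Lop R G) := by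
  have h1 : Continuous (deriv G) := by
    have := cont_iter (n := 4) hG (show 1 ≤ 4 by norm_num)
    rwa [iteratedDeriv_one] at this
  have hp := cont_piD hG
  have hk := cont_kap hR
  have h0 := hG.continuous
  have hR0 := hR.continuous
  unfold Lop
  (clear * - h1 hR0 hp hk h0; continuity)

end Cont

section Adm

variable {G ρ R : ℝ → ℝ} {ν c₁ c₂ Rmin α : ℝ}

/-- All quantities attached to an admissible function vanish for large `z`. -/
theorem Adm.right_iter (hG : Adm G) : ∃ Z : ℝ, ∀ j : ℕ, ∀ z, Z ≤ z →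
    iteratedDeriv j G z = 0 ∧ iteratedDeriv j (om G) z = 0 := by
  obtain ⟨Z, hZ⟩ := hG.right
  have h1 : ∀ z, Z < z → ∀ j : ℕ, iteratedDeriv j G z = 0 := by
    intro z hz j
    have he : G =ᶠ[𝓝 z] fun _ => 0 := by
      filter_upwards [Ioi_mem_nhds hz] with s hs using hZ s (le_of_lt hs)
    rw [he.iteratedDeriv_eq j]
    simp [iteratedDeriv_const]
  have h2 : ∀ z, Z < z → om G z = 0 := by
    intro z hz
    have := h1 z hz 2; have := h1 z hz 1; have := hZ z hz.le
    simp only [om]; simp [*]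
  have h3 : ∀ z, Z < z → ∀ j : ℕ, iteratedDeriv j (om G) z = 0 := by
    intro z hz j
    have he : om G =ᶠ[𝓝 z] fun _ => 0 := by
      filter_upwards [Ioi_mem_nhds hz] with s hs using h2 s hs
    rw [he.iteratedDeriv_eq j]
    simp [iteratedDeriv_const]
  exact ⟨Z + 1, fun j z hz => ⟨h1 z (by linarith) j, h3 z (by linarith) j⟩⟩

/-- Decay of `om G` and its derivatives with one constant. -/
theorem Adm.bound (hG : Adm G) : ∃ C : ℝ, 0 ≤ C ∧ (∀ j ≤ 4, ∀ z ≤ (0 : ℝ),
    |iteratedDeriv j G z| ≤ C * exp z) ∧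
    ∀ j ≤ 2, ∀ z ≤ (0 : ℝ), |iteratedDeriv j (om G) z| ≤ C * exp (3 * z) := by
  obtain ⟨C₁, h1⟩ := hG.left0
  obtain ⟨C₂, h2⟩ := hG.left1
  refine ⟨max (max C₁ C₂) 0, le_max_right _ _, fun j hj z hz => (h1 j hj z hz).trans ?_,
    fun j hj z hz => (h2 j hj z hz).trans ?_⟩
  · gcongr
    exact (le_max_left _ _).trans (le_max_left _ _)
  · gcongr
    exact (le_max_right _ _).trans (le_max_left _ _)

theorem Weight.nonneg (hρ : Weight ρ ν c₁ c₂) : 0 ≤ c₁ ∧ 0 ≤ c₂ := by
  constructor
  · have := (abs_nonneg _).trans (hρ.d1 0)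
    exact nonneg_of_mul_nonneg_left this (hρ.pos 0)
  · have := (abs_nonneg _).trans (hρ.d2 0)
    exact nonneg_of_mul_nonneg_left this (hρ.pos 0)

theorem int_N (hρ : Weight ρ ν c₁ c₂) (hG : Adm G) :
    Integrable fun z => ρ z * om G z ^ 2 := by
  obtain ⟨Z, hZ⟩ := hG.right_iter
  obtain ⟨C, hC, -, hb⟩ := hG.bound
  obtain ⟨D, hD, hw⟩ := hρ.bounds
  have := hρ.nu
  refine integrable_of_decay (Z := Z) (C := D * C ^ 2) (a := 6 - 2 * ν) ?_ (by linarith only [this]) ?_ ?_
  · exact hρ.smooth.continuous.mul ((cont_om0 hG.smooth).pow 2)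
  · intro z hz
    have := (hZ 0 z hz).2
    rw [iteratedDeriv_zero] at this
    simp [this]
  · intro z hz
    have h0 := hb 0 (by norm_num) z hz
    rw [iteratedDeriv_zero] at h0
    rw [abs_mul, abs_of_pos (hρ.pos z), abs_pow]
    calc ρ z * |om G z| ^ 2 ≤ (D * exp (-(2 * ν) * z)) * (C * exp (3 * z)) ^ 2 := by
          gcongr
          exact (hw z).1
      _ = D * C ^ 2 * exp ((6 - 2 * ν) * z) := by
          rw [mul_pow, ← exp_nat_mul, show (6 - 2 * ν) * z = -(2 * ν) * z + (2 : ℕ) * (3 * z) by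
            push_cast; ring, exp_add]
          ring

theorem Top_bound' (hρ : Weight ρ ν c₁ c₂) (hG : Adm G) : ∃ C : ℝ, 0 ≤ C ∧ ∀ z ≤ (0 : ℝ),
    |Top ρ G z| ≤ C * exp (3 * z) * ρ z := by
  obtain ⟨C, hC, -, hb⟩ := hG.bound
  obtain ⟨hc1, hc2⟩ := hρ.nonneg
  refine ⟨(1 + (2 * c₁ + 3) + (c₂ + 3 * c₁ + 2)) * C, by (clear * - hc1 hc2 hC; positivity), fun z hz => ?_⟩
  have h0 := hb 0 (by norm_num) z hz
  have h1 := hb 1 (by norm_num) z hz
  have h2 := hb 2 (by norm_num) z hz
  rw [iteratedDeriv_zero] at h0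
  have hρz := hρ.pos z
  have d1 := hρ.d1 z
  have d2 := hρ.d2 z
  have a1 : |2 * iteratedDeriv 1 ρ z + 3 * ρ z| ≤ (2 * c₁ + 3) * ρ z := by
    calc |2 * iteratedDeriv 1 ρ z + 3 * ρ z| ≤ |2 * iteratedDeriv 1 ρ z| + |3 * ρ z| :=
          abs_add_le _ _
      _ = 2 * |iteratedDeriv 1 ρ z| + 3 * ρ z := by
          rw [abs_mul, abs_mul, abs_of_pos hρz]; norm_num
      _ ≤ _ := by linarith
  have a2 : |iteratedDeriv 2 ρ z + 3 * iteratedDeriv 1 ρ z + 2 * ρ z|
      ≤ (c₂ + 3 * c₁ + 2) * ρ z := by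
    calc |iteratedDeriv 2 ρ z + 3 * iteratedDeriv 1 ρ z + 2 * ρ z|
        ≤ |iteratedDeriv 2 ρ z| + |3 * iteratedDeriv 1 ρ z| + |2 * ρ z| := abs_add_three _ _ _
      _ = |iteratedDeriv 2 ρ z| + 3 * |iteratedDeriv 1 ρ z| + 2 * ρ z := by
          rw [abs_mul, abs_mul, abs_of_pos hρz]; norm_num
      _ ≤ _ := by linarith only [d2, d1]
  calc |Top ρ G z| ≤ |ρ z * iteratedDeriv 2 (om G) z|
        + |(2 * iteratedDeriv 1 ρ z + 3 * ρ z) * iteratedDeriv 1 (om G) z|
        + |(iteratedDeriv 2 ρ z + 3 * iteratedDeriv 1 ρ z + 2 * ρ z) * om G z| :=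
        abs_add_three _ _ _
    _ = ρ z * |iteratedDeriv 2 (om G) z|
        + |2 * iteratedDeriv 1 ρ z + 3 * ρ z| * |iteratedDeriv 1 (om G) z|
        + |iteratedDeriv 2 ρ z + 3 * iteratedDeriv 1 ρ z + 2 * ρ z| * |om G z| := by
        rw [abs_mul, abs_mul, abs_mul, abs_of_pos hρz]
    _ ≤ ρ z * (C * exp (3 * z)) + (2 * c₁ + 3) * ρ z * (C * exp (3 * z))
        + (c₂ + 3 * c₁ + 2) * ρ z * (C * exp (3 * z)) := by (clear * - h2 hρz a1 h1 hc1 a2 h0 hc2; gcongr)
    _ = _ := by ring

theorem Top_bound (hρ : Weight ρ ν c₁ c₂) (hG : Adm G) : ∃ C : ℝ, 0 ≤ C ∧ ∀ z ≤ (0 : ℝ),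
    |Top ρ G z| ≤ C * exp ((3 - 2 * ν) * z) := by
  obtain ⟨C, hC, hb⟩ := Top_bound' hρ hG
  obtain ⟨D, hD, hw⟩ := hρ.bounds
  refine ⟨C * D, by positivity, fun z hz => ?_⟩
  calc |Top ρ G z| ≤ C * exp (3 * z) * ρ z := hb z hz
    _ ≤ C * exp (3 * z) * (D * exp (-(2 * ν) * z)) := by
        gcongr
        exact (hw z).1
    _ = _ := by
        rw [show (3 - 2 * ν) * z = 3 * z + -(2 * ν) * z by ring, exp_add]
        ring

theorem Top_right (hG : Adm G) (ρ : ℝ → ℝ) : ∃ Z : ℝ, ∀ z, Z ≤ z → Top ρ G z = 0 := by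
  obtain ⟨Z, hZ⟩ := hG.right_iter
  refine ⟨Z, fun z hz => ?_⟩
  have h0 := (hZ 0 z hz).2
  have h1 := (hZ 1 z hz).2
  have h2 := (hZ 2 z hz).2
  rw [iteratedDeriv_zero] at h0
  simp [Top, h0, h1, h2]

theorem piD_right (hG : Adm G) : ∃ Z : ℝ, ∀ z, Z ≤ z → piD G z = 0 := by
  obtain ⟨Z, hZ⟩ := hG.right_iter
  refine ⟨Z, fun z hz => ?_⟩
  have h0 := (hZ 0 z hz).2
  have h1 := (hZ 1 z hz).2
  have h2 := (hZ 2 z hz).2
  rw [iteratedDeriv_zero] at h0
  rw [piD_eq_om hG.smooth, h0, h1, h2]
  simp

theorem piD_bound (hG : Adm G) : ∃ C : ℝ, 0 ≤ C ∧ ∀ z ≤ (0 : ℝ),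
    |piD G z| ≤ C * exp (3 * z) := by
  obtain ⟨C, hC, -, hb⟩ := hG.bound
  refine ⟨72 * C, by positivity, fun z hz => ?_⟩
  have h0 := hb 0 (by norm_num) z hz
  have h1 := hb 1 (by norm_num) z hz
  have h2 := hb 2 (by norm_num) z hz
  rw [iteratedDeriv_zero] at h0
  rw [piD_eq_om hG.smooth]
  calc _ ≤ |iteratedDeriv 2 (om G) z| + |15 * iteratedDeriv 1 (om G) z| + |56 * om G z| :=
        abs_add_three _ _ _
    _ = |iteratedDeriv 2 (om G) z| + 15 * |iteratedDeriv 1 (om G) z| + 56 * |om G z| := by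
        rw [abs_mul, abs_mul]; norm_num
    _ ≤ C * exp (3 * z) + 15 * (C * exp (3 * z)) + 56 * (C * exp (3 * z)) := by (clear * - h2 h1 h0; gcongr)
    _ = _ := by ring

theorem int_Dis (hρ : Weight ρ ν c₁ c₂) (hR : Profile R Rmin α) (hG : Adm G) :
    Integrable fun z => exp (-2 * z) * R z ^ 2 *
      (1 / 2 * (ρ z * piD G z ^ 2) + 2 * (Top ρ G z ^ 2 / ρ z)) := by
  obtain ⟨Z, hZ⟩ := piD_right hG
  obtain ⟨Z', hZ'⟩ := Top_right hG ρ
  obtain ⟨C, hC, hb⟩ := piD_bound hG
  obtain ⟨C', hC', hb'⟩ := Top_bound' hρ hG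
  obtain ⟨D, hD, hw⟩ := hρ.bounds
  have := hρ.nu
  refine integrable_of_decay (Z := max Z Z') (C := D * (C ^ 2 / 2 + 2 * C' ^ 2))
    (a := 4 - 2 * ν) ?_ (by linarith) ?_ ?_
  · have h2 := cont_piD hG.smooth
    have h1 := cont_Top hρ.smooth hG.smooth
    have r0 := hρ.smooth.continuous
    have R0 := hR.smooth.continuous
    have h3 : Continuous fun z => Top ρ G z ^ 2 / ρ z :=
      (h1.pow 2).div r0 fun z => (hρ.pos z).ne'
    fun_prop
  · intro z hz
    rw [hZ z ((le_max_left _ _).trans hz), hZ' z ((le_max_right _ _).trans hz)]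
    simp
  · intro z hz
    have h0 := hb z hz
    have h1 := hb' z hz
    have hRp : 0 < R z := hR.Rmin_pos.trans_le (hR.lower z)
    have hR1 : R z ^ 2 ≤ 1 := by
      have := hR.upper z
      (by_contra nlg; linarith only [nlg, mul_nonneg (sub_nonneg.2 this) (sub_nonneg.2 this), mul_nonneg (le_of_lt (sub_pos.2 hRp)) (sub_nonneg.2 this), mul_nonneg (le_of_lt (sub_pos.2 (not_le.1 nlg))) (sub_nonneg.2 this), mul_pos (sub_pos.2 (not_le.1 nlg)) (sub_pos.2 hRp)])
    have hρz := hρ.pos z
    rw [abs_of_nonneg (by (clear * - hRp hρz; positivity))]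
    have e0 : piD G z ^ 2 ≤ (C * exp (3 * z)) ^ 2 := by rw [← sq_abs]; (clear * - h0; gcongr)
    have e1 : Top ρ G z ^ 2 / ρ z ≤ (C' * exp (3 * z)) ^ 2 * ρ z := by
      rw [div_le_iff₀ hρz]
      calc Top ρ G z ^ 2 = |Top ρ G z| ^ 2 := (sq_abs _).symm
        _ ≤ (C' * exp (3 * z) * ρ z) ^ 2 := by (clear * - h1; gcongr)
        _ = _ := by ring
    calc exp (-2 * z) * R z ^ 2 * (1 / 2 * (ρ z * piD G z ^ 2) + 2 * (Top ρ G z ^ 2 / ρ z))
        ≤ exp (-2 * z) * 1 * (1 / 2 * (ρ z * (C * exp (3 * z)) ^ 2)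
            + 2 * ((C' * exp (3 * z)) ^ 2 * ρ z)) := by
          (clear * - hR1 e0 hρz e1; gcongr)
      _ = exp (-2 * z) * exp (3 * z) ^ 2 * (C ^ 2 / 2 + 2 * C' ^ 2) * ρ z := by ring
      _ ≤ exp (-2 * z) * exp (3 * z) ^ 2 * (C ^ 2 / 2 + 2 * C' ^ 2)
            * (D * exp (-(2 * ν) * z)) := by
          gcongr
          exact (hw z).1
      _ = _ := by
          rw [← exp_nat_mul, show (4 - 2 * ν) * z = -2 * z + (2 : ℕ) * (3 * z) + -(2 * ν) * z by
            push_cast; ring, exp_add, exp_add]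
          ring

theorem Lop_bound (hR : Profile R Rmin α) (hG : Adm G) : ∃ C : ℝ, 0 ≤ C ∧ ∀ z ≤ (0 : ℝ),
    |Lop R G z| ≤ C * exp z := by
  obtain ⟨C, hC, ha, hb⟩ := hG.bound
  obtain ⟨K, hK, hk⟩ := hR.kap_left
  refine ⟨C / 2 + 72 * C + 2 * K * C, by (clear * - hC hK; positivity), fun z hz => ?_⟩
  have g0 := ha 0 (by norm_num) z hz
  have g1 := ha 1 (by norm_num) z hz
  rw [iteratedDeriv_zero] at g0
  rw [iteratedDeriv_one] at g1
  have h0 := hb 0 (by norm_num) z hz
  have h1 := hb 1 (by norm_num) z hz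
  have h2 := hb 2 (by norm_num) z hz
  rw [iteratedDeriv_zero] at h0
  have hk' := hk z hz
  have hRp : 0 < R z := hR.Rmin_pos.trans_le (hR.lower z)
  have hRle := hR.upper z
  have hR1 : R z ^ 2 ≤ 1 := by nlinarith only [hRle, hRp]
  have hpi : |piD G z| ≤ 72 * (C * exp (3 * z)) := by
    rw [piD_eq_om hG.smooth]
    calc _ ≤ |iteratedDeriv 2 (om G) z| + |15 * iteratedDeriv 1 (om G) z| + |56 * om G z| :=
          abs_add_three _ _ _
      _ = |iteratedDeriv 2 (om G) z| + 15 * |iteratedDeriv 1 (om G) z| + 56 * |om G z| := by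
          rw [abs_mul, abs_mul]; (clear * -; norm_num)
      _ ≤ C * exp (3 * z) + 15 * (C * exp (3 * z)) + 56 * (C * exp (3 * z)) := by (clear * - h2 h1 h0; gcongr)
      _ = _ := by ring
  have hE : exp (-2 * z) * exp (3 * z) = exp z := by rw [← exp_add]; congr 1; ring
  have hE1 : exp z ≤ 1 := exp_le_one_iff.2 hz
  calc |Lop R G z| ≤ |-(1 / 2) * deriv G z|
        + |exp (-2 * z) * (R z ^ 2 * piD G z + 2 * R z * kap R z * G z)| := abs_sub _ _
    _ ≤ (1 / 2) * |deriv G z| + exp (-2 * z) * (R z ^ 2 * |piD G z|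
          + 2 * R z * |kap R z| * |G z|) := by
        rw [abs_mul, abs_mul, abs_of_pos (exp_pos _)]
        have t1 : |R z ^ 2 * piD G z + 2 * R z * kap R z * G z| ≤ R z ^ 2 * |piD G z|
          + 2 * R z * |kap R z| * |G z| := by
          calc _ ≤ |R z ^ 2 * piD G z| + |2 * R z * kap R z * G z| := abs_add_le _ _
            _ = _ := by
              rw [abs_mul, abs_mul, abs_mul, abs_mul, abs_of_pos hRp, abs_of_pos (pow_pos hRp 2)]
              norm_num
        have t2 : |-(1 / 2 : ℝ)| = 1 / 2 := by norm_num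
        rw [t2]
        (clear * - t1; gcongr)
    _ ≤ (1 / 2) * (C * exp z) + exp (-2 * z) * (1 * (72 * (C * exp (3 * z)))
          + 2 * 1 * (K * exp (3 * z)) * (C * exp z)) := by (clear * - g1 hR1 hpi hRle hk' g0 hK; gcongr)
    _ = (1 / 2) * (C * exp z) + 72 * C * (exp (-2 * z) * exp (3 * z))
          + 2 * K * C * (exp (-2 * z) * exp (3 * z)) * exp z := by ring
    _ = (1 / 2) * (C * exp z) + 72 * C * exp z + 2 * K * C * exp z * exp z := by rw [hE]
    _ ≤ (1 / 2) * (C * exp z) + 72 * C * exp z + 2 * K * C * exp z * 1 := by (clear * - hE1 hK hC; gcongr)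
    _ = _ := by ring

theorem int_LT (hρ : Weight ρ ν c₁ c₂) (hR : Profile R Rmin α) (hG : Adm G) :
    Integrable fun z => Lop R G z * Top ρ G z := by
  obtain ⟨C, hC, h1⟩ := Top_bound hρ hG
  obtain ⟨D, hD, h2⟩ := Lop_bound hR hG
  obtain ⟨Z, hZ⟩ := Top_right hG ρ
  have := hρ.nu
  refine integrable_of_decay (Z := Z) (C := D * C) (a := 4 - 2 * ν) ?_ (by linarith only [this]) ?_ ?_
  · exact (cont_Lop hR.smooth hG.smooth).mul (cont_Top hρ.smooth hG.smooth)
  · intro z hz; rw [hZ z hz, mul_zero]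
  · intro z hz
    rw [abs_mul]
    calc |Lop R G z| * |Top ρ G z| ≤ (D * exp z) * (C * exp ((3 - 2 * ν) * z)) := by
          have := h1 z hz; have := h2 z hz; gcongr
      _ = _ := by
          rw [show (4 - 2 * ν) * z = z + (3 - 2 * ν) * z by ring, exp_add]; ring

theorem int_kG (hρ : Weight ρ ν c₁ c₂) (hR : Profile R Rmin α) (hG : Adm G) :
    Integrable fun z => exp (-2 * z) * kap R z ^ 2 * ρ z * G z ^ 2 := by
  obtain ⟨Z, hZ⟩ := hG.right
  obtain ⟨C, hC, ha, -⟩ := hG.bound
  obtain ⟨D, hD, hw⟩ := hρ.bounds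
  obtain ⟨K, hK, hk⟩ := hR.kap_left
  have := hρ.nu
  refine integrable_of_decay (Z := Z) (C := K ^ 2 * D * C ^ 2) (a := 6 - 2 * ν) ?_
    (by linarith only [this]) ?_ ?_
  · have h0 := hG.smooth.continuous
    have r0 := hρ.smooth.continuous
    have hk0 := cont_kap hR.smooth
    fun_prop
  · intro z hz; rw [hZ z hz]; simp only [neg_mul, ne_eq, OfNat.ofNat_ne_zero, not_false_eq_true, zero_pow, mul_zero]
  · intro z hz
    have g0 := ha 0 (by norm_num) z hz
    rw [iteratedDeriv_zero] at g0
    have hk' := hk z hz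
    have hρz := hρ.pos z
    rw [abs_of_nonneg (by (clear * - hρz; positivity))]
    have e0 : G z ^ 2 ≤ (C * exp z) ^ 2 := by rw [← sq_abs]; (clear * - g0; gcongr)
    have e1 : kap R z ^ 2 ≤ (K * exp (3 * z)) ^ 2 := by rw [← sq_abs]; (clear * - hk'; gcongr)
    calc exp (-2 * z) * kap R z ^ 2 * ρ z * G z ^ 2
        ≤ exp (-2 * z) * (K * exp (3 * z)) ^ 2 * (D * exp (-(2 * ν) * z)) * (C * exp z) ^ 2 := by
          gcongr
          exact (hw z).1
      _ = _ := by
          rw [mul_pow, mul_pow, ← exp_nat_mul, ← exp_nat_mul,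
            show (6 - 2 * ν) * z = -2 * z + (2 : ℕ) * (3 * z) + -(2 * ν) * z + (2 : ℕ) * z by
              push_cast; ring, exp_add, exp_add, exp_add]
          ring

end Adm

end P264.B
end
end

section

attribute [-instance] ProperSMul.toContinuousSMul IsTopologicalTorsor.toContinuousSMul IdemSemiring.toCanonicallyOrderedAdd IdemSemiring.toMulLeftMono IdemSemiring.toMulRightMono AddQuantale.instAddLeftMono AddQuantale.instAddRightMono Quantale.instMulLeftMono Quantale.instMulRightMono FiniteDimensional.rclike_to_real IsScalarTower.complexToReal FiniteDimensional.complexToReal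

section

/-!
# P264 / B / Far / NNStep : time integration of the energy inequality (D14)
-/

open MeasureTheory Set Filter Real
open scoped ContDiff Topology

namespace P264.B

/-- Gronwall inequality with a right derivative and an integrable forcing. -/
theorem nn_gron {f f' g : ℝ → ℝ} {a b δ K c G : ℝ} (hab : a ≤ b) (hδ : 0 < δ)
    (hf : ContinuousOn f (Icc a b))
    (hd : ∀ s ∈ Ico a b, HasDerivWithinAt f (f' s) (Ici s) s)
    (hle : ∀ s ∈ Ico a b, f' s ≤ -δ * f s + K + c * g s) (hc : 0 ≤ c) (hg0 : ∀ s, 0 ≤ g s)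
    (hgi : IntervalIntegrable g volume a b) (hG : ∫ s in a..b, g s ≤ G) :
    f b ≤ exp (-(δ * (b - a))) * (f a - K / δ) + K / δ + c * G := by
  have hderiv : ∀ s ∈ Ico a b, HasDerivWithinAt (fun s => exp (δ * (s - a)) * (f s - K / δ))
      (exp (δ * (s - a)) * δ * (f s - K / δ) + exp (δ * (s - a)) * f' s) (Ioi s) s := by
    intro s hs
    have h1 : HasDerivAt (fun s => exp (δ * (s - a))) (exp (δ * (s - a)) * δ) s := by
      have h2 : HasDerivAt (fun s => δ * (s - a)) δ s := by
        simpa using ((hasDerivAt_id s).sub_const a).const_mul δ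
      exact h2.exp
    exact h1.hasDerivWithinAt.mul (((hd s hs).mono Ioi_subset_Ici_self).sub_const _)
  have hcont : ContinuousOn (fun s => exp (δ * (s - a)) * (f s - K / δ)) (Icc a b) :=
    (Continuous.continuousOn (by fun_prop)).mul (hf.sub continuousOn_const)
  have hfi : IntervalIntegrable (fun s => exp (δ * (s - a)) * (c * g s)) volume a b :=
    (hgi.const_mul c).continuousOn_mul (Continuous.continuousOn (by fun_prop))
  have hint : IntegrableOn (fun s => exp (δ * (s - a)) * (c * g s)) (Icc a b) := by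
    rw [integrableOn_Icc_iff_integrableOn_Ioc]
    exact (intervalIntegrable_iff_integrableOn_Ioc_of_le hab).1 hfi
  have key := intervalIntegral.sub_le_integral_of_hasDeriv_right_of_le hab hcont
    (fun s hs => hderiv s (Ioo_subset_Ico_self hs)) hint
    (by
      intro s hs
      have h1 := hle s (Ioo_subset_Ico_self hs)
      have h2 : exp (δ * (s - a)) * δ * (f s - K / δ) + exp (δ * (s - a)) * f' s =
          exp (δ * (s - a)) * (δ * f s - K + f' s) := by
        (clear * - hδ; field_simp)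
      rw [h2]
      have h3 := exp_pos (δ * (s - a))
      exact mul_le_mul_of_nonneg_left (by linarith only [h1]) h3.le)
  have h4 : ∫ s in a..b, exp (δ * (s - a)) * (c * g s) ≤ exp (δ * (b - a)) * (c * G) := by
    calc ∫ s in a..b, exp (δ * (s - a)) * (c * g s)
        ≤ ∫ s in a..b, exp (δ * (b - a)) * (c * g s) := by
          refine intervalIntegral.integral_mono_on hab hfi
            ((hgi.const_mul c).const_mul (exp (δ * (b - a)))) fun s hs => ?_
          have h5 := hg0 s
          have h6 := hs.2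
          (clear * - h6 hδ hc h5; gcongr)
      _ = exp (δ * (b - a)) * (c * ∫ s in a..b, g s) := by
          rw [intervalIntegral.integral_const_mul, intervalIntegral.integral_const_mul]
      _ ≤ exp (δ * (b - a)) * (c * G) := by (clear * - hG hc; gcongr)
  simp only [sub_self, mul_zero, exp_zero, one_mul] at key
  have h7 : exp (-(δ * (b - a))) * exp (δ * (b - a)) = 1 := by
    rw [← exp_add, neg_add_cancel, exp_zero]
  have h8 := (exp_pos (-(δ * (b - a)))).le
  have h9 : exp (δ * (b - a)) * (f b - K / δ) ≤ (f a - K / δ) + exp (δ * (b - a)) * (c * G) := by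
    linarith only [h4, key]
  have h10 := mul_le_mul_of_nonneg_left h9 h8
  rw [mul_add, ← mul_assoc, ← mul_assoc, h7] at h10
  linarith only [h10]

variable {R ρ χ : ℝ → ℝ} {Rmin α z₀ : ℝ}

theorem ecut2_nonneg' {ν c₁ c₂ : ℝ} (hρ : Weight ρ ν c₁ c₂) (φ : ℝ → ℝ → ℝ) (T s : ℝ) :
    0 ≤ ecut2 χ R ρ φ T s := by
  refine integral_nonneg fun z => ?_
  have h1 := (hρ.pos z).le
  show 0 ≤ exp (2 * z) * ρ z * cutE χ R φ T s z ^ 2 / R z ^ 2
  positivity

end P264.B
end
end

section

attribute [-instance] ProperSMul.toContinuousSMul IsTopologicalTorsor.toContinuousSMul IdemSemiring.toCanonicallyOrderedAdd IdemSemiring.toMulLeftMono IdemSemiring.toMulRightMono AddQuantale.instAddLeftMono AddQuantale.instAddRightMono Quantale.instMulLeftMono Quantale.instMulRightMono FiniteDimensional.rclike_to_real IsScalarTower.complexToReal FiniteDimensional.complexToReal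

section

/-!
# P264 / B / Approx : smooth approximation of a `C²` function in `C²`

`exists_smooth_near_global`: a `C²` function `R`, which is smooth to the left of `Z₀` and to the
right of `Z₁`, is approximated in `C²(ℝ)` by `C^∞` functions which agree with `R` for
`z ≤ Z₀ - 2` and for `z ≥ Z₁ + 2`.
-/

open Set MeasureTheory intervalIntegral
open scoped ContDiff

namespace P264.B

theorem contDiff_infty_of_hasDerivAt {f g : ℝ → ℝ} (h : ∀ x, HasDerivAt f (g x) x)
    (hg : ContDiff ℝ ∞ g) : ContDiff ℝ ∞ f := by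
  rw [contDiff_infty_iff_deriv]
  refine ⟨fun x => (h x).differentiableAt, ?_⟩
  have : deriv f = g := funext fun x => (h x).deriv
  rwa [this]

/-- A primitive of a smooth function with a prescribed value. -/
theorem exists_primitive {g : ℝ → ℝ} (hg : ContDiff ℝ ∞ g) (a c : ℝ) :
    ∃ f : ℝ → ℝ, ContDiff ℝ ∞ f ∧ f a = c ∧ ∀ x, HasDerivAt f (g x) x := by
  refine ⟨fun x => c + ∫ y in a..x, g y, ?_, by simp, ?_⟩
  · refine contDiff_infty_of_hasDerivAt (g := g) (fun x => ?_) hg
    exact (integral_hasDerivAt_right (hg.continuous.intervalIntegrable _ _)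
      (hg.continuous.stronglyMeasurableAtFilter _ _) hg.continuous.continuousAt).const_add c
  · intro x
    exact (integral_hasDerivAt_right (hg.continuous.intervalIntegrable _ _)
      (hg.continuous.stronglyMeasurableAtFilter _ _) hg.continuous.continuousAt).const_add c

/-- If `f - g` has derivative bounded by `τ` on `[a,b]` and `f a = g a` then
`|f - g| ≤ τ (b - a)`. -/
theorem abs_sub_le_of_deriv {f g f' g' : ℝ → ℝ} {a b τ : ℝ}
    (hf : ∀ x ∈ Icc a b, HasDerivAt f (f' x) x) (hg : ∀ x ∈ Icc a b, HasDerivAt g (g' x) x)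
    (h0 : f a = g a) (hτ : ∀ x ∈ Icc a b, |f' x - g' x| ≤ τ) :
    ∀ x ∈ Icc a b, |f x - g x| ≤ τ * (b - a) := by
  intro x hx
  have hab : a ≤ b := hx.1.trans hx.2
  have h1 : ∀ y ∈ Icc a b, HasDerivWithinAt (fun z => f z - g z) (f' y - g' y) (Icc a b) y :=
    fun y hy => ((hf y hy).fun_sub (hg y hy)).hasDerivWithinAt
  have h2 := Convex.norm_image_sub_le_of_norm_hasDerivWithin_le (C := τ) h1
    (fun y hy => by rw [Real.norm_eq_abs]; exact hτ y hy) (convex_Icc a b)
    (left_mem_Icc.2 hab) hx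
  rw [Real.norm_eq_abs, Real.norm_eq_abs, h0, sub_self, sub_zero] at h2
  have hτ0 : 0 ≤ τ := (abs_nonneg _).trans (hτ x hx)
  have h3 : |x - a| ≤ b - a := by
    rw [abs_of_nonneg (by linarith only [hx.1])]; linarith [hx.2]
  exact h2.trans (mul_le_mul_of_nonneg_left h3 hτ0)

theorem exists_smooth_near {R : ℝ → ℝ} (hR : ContDiff ℝ 2 R) {a b : ℝ} (hab : a ≤ b)
    {τ : ℝ} (hτ : 0 < τ) :
    ∃ P : ℝ → ℝ, ContDiff ℝ ∞ P ∧ ∀ z ∈ Icc a b, |P z - R z| ≤ τ ∧
      |deriv P z - deriv R z| ≤ τ ∧ |deriv (deriv P) z - deriv (deriv R) z| ≤ τ := by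
  have hR1 : ContDiff ℝ 1 (deriv R) := by
    have : ContDiff ℝ (1 + 1) R := by simpa [one_add_one_eq_two] using hR
    exact (contDiff_succ_iff_deriv.1 this).2.2
  have hR2 : Continuous (deriv (deriv R)) := hR1.continuous_deriv (by simp)
  have dR : ∀ x, HasDerivAt R (deriv R x) x := fun x =>
    (hR.differentiable (by simp) x).hasDerivAt
  have dR1 : ∀ x, HasDerivAt (deriv R) (deriv (deriv R) x) x := fun x =>
    (hR1.differentiable (by simp) x).hasDerivAt
  set L := b - a with hL
  have hL0 : 0 ≤ L := by linarith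
  set τ' := τ / (1 + L) ^ 2 with hτ'
  have hτ'0 : 0 < τ' := by (clear * - hτ hab; positivity)
  obtain ⟨p, hp⟩ := exists_polynomial_near_of_continuousOn a b (deriv (deriv R))
    hR2.continuousOn τ' hτ'0
  have hpc : ContDiff ℝ ∞ (fun x => p.eval x) := by
    simpa using p.contDiff_aeval (𝕜 := ℝ) ∞
  obtain ⟨P1, hP1, hP1a, dP1⟩ := exists_primitive hpc a (deriv R a)
  obtain ⟨P, hP, hPa, dP⟩ := exists_primitive hP1 a (R a)
  have e1 : deriv P = P1 := funext fun x => (dP x).deriv
  have e2 : deriv P1 = fun x => p.eval x := funext fun x => (dP1 x).deriv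
  have b2 : ∀ z ∈ Icc a b, |p.eval z - deriv (deriv R) z| ≤ τ' := fun z hz => (hp z hz).le
  have b1 : ∀ z ∈ Icc a b, |P1 z - deriv R z| ≤ τ' * L :=
    abs_sub_le_of_deriv (fun x _ => dP1 x) (fun x _ => dR1 x) hP1a b2
  have b0 : ∀ z ∈ Icc a b, |P z - R z| ≤ τ' * L * L :=
    abs_sub_le_of_deriv (fun x _ => dP x) (fun x _ => dR x) hPa b1
  have k2 : τ' ≤ τ := by
    rw [hτ', div_le_iff₀ (by (clear * - hab; positivity))]
    linarith only [mul_nonneg (le_of_lt (sub_pos.2 hτ)) (sub_nonneg.2 hL0), mul_nonneg (mul_self_nonneg (L : ℝ)) (le_of_lt (sub_pos.2 hτ))]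
  have k1 : τ' * L ≤ τ := by
    rw [hτ', div_mul_eq_mul_div, div_le_iff₀ (by (clear * - hab; positivity))]
    nlinarith only [hτ, mul_nonneg hτ.le (mul_nonneg hL0 hL0)]
  have k0 : τ' * L * L ≤ τ := by
    rw [hτ', div_mul_eq_mul_div, div_mul_eq_mul_div, div_le_iff₀ (by (clear * - hab; positivity))]
    linarith [mul_nonneg (le_of_lt (sub_pos.2 hτ)) (sub_nonneg.2 hL0), hτ]
  refine ⟨P, hP, fun z hz => ⟨(b0 z hz).trans k0, ?_, ?_⟩⟩
  · rw [e1]; exact (b1 z hz).trans k1
  · rw [e1, e2]; exact (b2 z hz).trans k2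

/-- Smooth cut-off: `1` on `[a+1, b-1]`, `0` outside `(a,b)`, with values in `[0,1]`. -/
theorem exists_cutoff {a b : ℝ} (_hab : a + 2 ≤ b) :
    ∃ ξ : ℝ → ℝ, ContDiff ℝ ∞ ξ ∧ (∀ z, ξ z ∈ Icc (0 : ℝ) 1) ∧
      (∀ z ∈ Icc (a + 1) (b - 1), ξ z = 1) ∧ (∀ z, z ≤ a ∨ b ≤ z → ξ z = 0) := by
  refine ⟨fun z => Real.smoothTransition (z - a) * Real.smoothTransition (b - z), ?_, ?_, ?_, ?_⟩
  · exact (Real.smoothTransition.contDiff.comp (contDiff_id.sub contDiff_const)).mul
      (Real.smoothTransition.contDiff.comp (contDiff_const.sub contDiff_id))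
  · intro z
    exact ⟨mul_nonneg (Real.smoothTransition.nonneg _) (Real.smoothTransition.nonneg _),
      mul_le_one₀ (Real.smoothTransition.le_one _) (Real.smoothTransition.nonneg _)
        (Real.smoothTransition.le_one _)⟩
  · intro z hz
    have h1 : Real.smoothTransition (z - a) = 1 :=
      Real.smoothTransition.one_of_one_le (by linarith [hz.1])
    have h2 : Real.smoothTransition (b - z) = 1 :=
      Real.smoothTransition.one_of_one_le (by linarith only [hz.2])
    simp [h1, h2]
  · rintro z (hz | hz)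
    · have h1 : Real.smoothTransition (z - a) = 0 :=
        Real.smoothTransition.zero_of_nonpos (by linarith)
      simp [h1]
    · have h1 : Real.smoothTransition (b - z) = 0 :=
        Real.smoothTransition.zero_of_nonpos (by linarith only [hz])
      simp [h1]

theorem exists_smooth_near_global {R : ℝ → ℝ} (hR : ContDiff ℝ 2 R) {Z₀ Z₁ : ℝ} (h01 : Z₀ ≤ Z₁)
    (hl : ∀ z, z < Z₀ → ContDiffAt ℝ ∞ R z) (hr : ∀ z, Z₁ < z → ContDiffAt ℝ ∞ R z)
    {τ : ℝ} (hτ : 0 < τ) :
    ∃ S : ℝ → ℝ, ContDiff ℝ ∞ S ∧ (∀ z, z ≤ Z₀ - 2 ∨ Z₁ + 2 ≤ z → S z = R z) ∧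
      ∀ z, |S z - R z| ≤ τ ∧ |deriv S z - deriv R z| ≤ τ ∧
        |deriv (deriv S) z - deriv (deriv R) z| ≤ τ := by
  set a := Z₀ - 2 with ha
  set b := Z₁ + 2 with hb
  have hab : a + 2 ≤ b := by linarith only [h01]
  obtain ⟨ξ, hξ, hξ01, hξ1, hξ0⟩ := exists_cutoff hab
  have hξ' : ContDiff ℝ ∞ (deriv ξ) := (contDiff_infty_iff_deriv.1 hξ).2
  have hξ'' : ContDiff ℝ ∞ (deriv (deriv ξ)) := (contDiff_infty_iff_deriv.1 hξ').2
  -- bounds for the derivatives of the cutoff on `[a,b]`
  obtain ⟨C₁, hC₁⟩ := (isCompact_Icc (a := a) (b := b)).exists_bound_of_continuousOn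
    hξ'.continuous.continuousOn
  obtain ⟨C₂, hC₂⟩ := (isCompact_Icc (a := a) (b := b)).exists_bound_of_continuousOn
    hξ''.continuous.continuousOn
  have hab' : a ≤ b := by linarith
  have hC₁0 : 0 ≤ C₁ := (norm_nonneg _).trans (hC₁ a (left_mem_Icc.2 hab'))
  have hC₂0 : 0 ≤ C₂ := (norm_nonneg _).trans (hC₂ a (left_mem_Icc.2 hab'))
  set τ' := τ / (1 + 2 * C₁ + C₂) with hτ'
  have hden : 0 < 1 + 2 * C₁ + C₂ := by linarith
  have hτ'0 : 0 < τ' := by (clear * - hτ hC₁0 hC₂0; positivity)
  obtain ⟨P, hP, hPb⟩ := exists_smooth_near hR hab' hτ'0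
  have hR1 : ContDiff ℝ 1 (deriv R) := by
    have : ContDiff ℝ (1 + 1) R := by simpa [one_add_one_eq_two] using hR
    exact (contDiff_succ_iff_deriv.1 this).2.2
  have hP' : ContDiff ℝ ∞ (deriv P) := (contDiff_infty_iff_deriv.1 hP).2
  have dR : ∀ x, HasDerivAt R (deriv R x) x := fun x =>
    (hR.differentiable (by simp) x).hasDerivAt
  have dR1 : ∀ x, HasDerivAt (deriv R) (deriv (deriv R) x) x := fun x =>
    (hR1.differentiable (by simp) x).hasDerivAt
  have dP : ∀ x, HasDerivAt P (deriv P x) x := fun x =>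
    (hP.differentiable (by simp) x).hasDerivAt
  have dP1 : ∀ x, HasDerivAt (deriv P) (deriv (deriv P) x) x := fun x =>
    (hP'.differentiable (by simp) x).hasDerivAt
  have dξ : ∀ x, HasDerivAt ξ (deriv ξ x) x := fun x =>
    (hξ.differentiable (by simp) x).hasDerivAt
  have dξ1 : ∀ x, HasDerivAt (deriv ξ) (deriv (deriv ξ) x) x := fun x =>
    (hξ'.differentiable (by simp) x).hasDerivAt
  set S : ℝ → ℝ := fun z => R z + ξ z * (P z - R z) with hS
  have dS : ∀ z, HasDerivAt S (deriv R z + (deriv ξ z * (P z - R z)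
      + ξ z * (deriv P z - deriv R z))) z := fun z =>
    (dR z).fun_add ((dξ z).fun_mul ((dP z).fun_sub (dR z)))
  have eS : deriv S = fun z => deriv R z + (deriv ξ z * (P z - R z)
      + ξ z * (deriv P z - deriv R z)) := funext fun z => (dS z).deriv
  have dS1 : ∀ z, HasDerivAt (deriv S) (deriv (deriv R) z
      + ((deriv (deriv ξ) z * (P z - R z) + deriv ξ z * (deriv P z - deriv R z))
        + (deriv ξ z * (deriv P z - deriv R z)
          + ξ z * (deriv (deriv P) z - deriv (deriv R) z)))) z := by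
    intro z
    rw [eS]
    exact (dR1 z).fun_add (((dξ1 z).fun_mul ((dP z).fun_sub (dR z))).fun_add
      ((dξ z).fun_mul ((dP1 z).fun_sub (dR1 z))))
  have hSR : ∀ z, z ≤ a ∨ b ≤ z → S z = R z := by
    intro z hz
    simp only [hS, hξ0 z hz, zero_mul, add_zero]
  -- outside `(a,b)` all derivatives of `ξ` vanish
  have hξout : ∀ z, z ≤ a ∨ b ≤ z → ξ z = 0 ∧ deriv ξ z = 0 ∧ deriv (deriv ξ) z = 0 := by
    have open_left : ∀ z, z < a → ξ =ᶠ[nhds z] fun _ => 0 := by
      intro z hz
      filter_upwards [Iio_mem_nhds hz] with y hy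
      exact hξ0 y (Or.inl (le_of_lt hy))
    have open_right : ∀ z, b < z → ξ =ᶠ[nhds z] fun _ => 0 := by
      intro z hz
      filter_upwards [Ioi_mem_nhds hz] with y hy
      exact hξ0 y (Or.inr (le_of_lt hy))
    have d1l : ∀ z, z < a → deriv ξ z = 0 := fun z hz => by
      rw [(open_left z hz).deriv_eq]; simp
    have d1r : ∀ z, b < z → deriv ξ z = 0 := fun z hz => by
      rw [(open_right z hz).deriv_eq]; simp
    have d2l : ∀ z, z < a → deriv (deriv ξ) z = 0 := fun z hz => by
      have : deriv ξ =ᶠ[nhds z] fun _ => 0 := by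
        filter_upwards [Iio_mem_nhds hz] with y hy
        exact d1l y hy
      rw [this.deriv_eq]; simp
    have d2r : ∀ z, b < z → deriv (deriv ξ) z = 0 := fun z hz => by
      have : deriv ξ =ᶠ[nhds z] fun _ => 0 := by
        filter_upwards [Ioi_mem_nhds hz] with y hy
        exact d1r y hy
      rw [this.deriv_eq]; simp
    have c1a : deriv ξ a = 0 := by
      have h1 : Filter.Tendsto (deriv ξ) (nhdsWithin a (Iio a)) (nhds (deriv ξ a)) :=
        hξ'.continuous.continuousAt.tendsto.mono_left nhdsWithin_le_nhds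
      have h2 : Filter.Tendsto (deriv ξ) (nhdsWithin a (Iio a)) (nhds 0) :=
        Filter.Tendsto.congr' (by
          filter_upwards [self_mem_nhdsWithin] with y hy
          exact (d1l y hy).symm) tendsto_const_nhds
      exact tendsto_nhds_unique h1 h2
    have c1b : deriv ξ b = 0 := by
      have h1 : Filter.Tendsto (deriv ξ) (nhdsWithin b (Ioi b)) (nhds (deriv ξ b)) :=
        hξ'.continuous.continuousAt.tendsto.mono_left nhdsWithin_le_nhds
      have h2 : Filter.Tendsto (deriv ξ) (nhdsWithin b (Ioi b)) (nhds 0) :=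
        Filter.Tendsto.congr' (by
          filter_upwards [self_mem_nhdsWithin] with y hy
          exact (d1r y hy).symm) tendsto_const_nhds
      exact tendsto_nhds_unique h1 h2
    have c2a : deriv (deriv ξ) a = 0 := by
      have h1 : Filter.Tendsto (deriv (deriv ξ)) (nhdsWithin a (Iio a))
          (nhds (deriv (deriv ξ) a)) :=
        hξ''.continuous.continuousAt.tendsto.mono_left nhdsWithin_le_nhds
      have h2 : Filter.Tendsto (deriv (deriv ξ)) (nhdsWithin a (Iio a)) (nhds 0) :=
        Filter.Tendsto.congr' (by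
          filter_upwards [self_mem_nhdsWithin] with y hy
          exact (d2l y hy).symm) tendsto_const_nhds
      exact tendsto_nhds_unique h1 h2
    have c2b : deriv (deriv ξ) b = 0 := by
      have h1 : Filter.Tendsto (deriv (deriv ξ)) (nhdsWithin b (Ioi b))
          (nhds (deriv (deriv ξ) b)) :=
        hξ''.continuous.continuousAt.tendsto.mono_left nhdsWithin_le_nhds
      have h2 : Filter.Tendsto (deriv (deriv ξ)) (nhdsWithin b (Ioi b)) (nhds 0) :=
        Filter.Tendsto.congr' (by
          filter_upwards [self_mem_nhdsWithin] with y hy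
          exact (d2r y hy).symm) tendsto_const_nhds
      exact tendsto_nhds_unique h1 h2
    intro z hz
    refine ⟨hξ0 z hz, ?_, ?_⟩
    · rcases hz with hz | hz
      · rcases hz.lt_or_eq with h | h
        · exact d1l z h
        · rw [h]; exact c1a
      · rcases hz.lt_or_eq with h | h
        · exact d1r z h
        · rw [← h]; exact c1b
    · rcases hz with hz | hz
      · rcases hz.lt_or_eq with h | h
        · exact d2l z h
        · rw [h]; exact c2a
      · rcases hz.lt_or_eq with h | h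
        · exact d2r z h
        · rw [← h]; exact c2b
  refine ⟨S, ?_, hSR, ?_⟩
  · rw [contDiff_iff_contDiffAt]
    intro z
    by_cases h1 : z < Z₀
    · exact (hl z h1).add (hξ.contDiffAt.mul (hP.contDiffAt.sub (hl z h1)))
    by_cases h2 : Z₁ < z
    · exact (hr z h2).add (hξ.contDiffAt.mul (hP.contDiffAt.sub (hr z h2)))
    have hz1 : a + 1 < z := by
      have := not_lt.1 h1
      linarith only [h1]
    have hz2 : z < b - 1 := by
      have := not_lt.1 h2
      linarith only [h2]
    have : S =ᶠ[nhds z] P := by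
      filter_upwards [Ioo_mem_nhds hz1 hz2] with y hy
      simp only [hS, hξ1 y ⟨hy.1.le, hy.2.le⟩]
      ring
    exact hP.contDiffAt.congr_of_eventuallyEq this
  · intro z
    by_cases hz : z ∈ Icc a b
    · obtain ⟨p0, p1, p2⟩ := hPb z hz
      have q1 : |deriv ξ z| ≤ C₁ := by rw [← Real.norm_eq_abs]; exact hC₁ z hz
      have q2 : |deriv (deriv ξ) z| ≤ C₂ := by rw [← Real.norm_eq_abs]; exact hC₂ z hz
      have q0 : |ξ z| ≤ 1 := by
        rw [abs_of_nonneg (hξ01 z).1]; exact (hξ01 z).2
      have key : τ' * (1 + 2 * C₁ + C₂) = τ := by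
        rw [hτ']; (clear * - hC₁0 hC₂0 hτ; field_simp)
      refine ⟨?_, ?_, ?_⟩
      · have : S z - R z = ξ z * (P z - R z) := by simp only [hS]; ring
        rw [this, abs_mul]
        calc |ξ z| * |P z - R z| ≤ 1 * τ' := mul_le_mul q0 p0 (abs_nonneg _) zero_le_one
          _ ≤ τ := by rw [← key]; nlinarith only [hC₁0, hτ'0, hC₂0]
      · have : deriv S z - deriv R z = deriv ξ z * (P z - R z)
            + ξ z * (deriv P z - deriv R z) := by rw [eS]; ring
        rw [this]
        calc |deriv ξ z * (P z - R z) + ξ z * (deriv P z - deriv R z)|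
            ≤ |deriv ξ z| * |P z - R z| + |ξ z| * |deriv P z - deriv R z| := by
              refine (abs_add_le _ _).trans ?_
              rw [abs_mul, abs_mul]
          _ ≤ C₁ * τ' + 1 * τ' := add_le_add
              (mul_le_mul q1 p0 (abs_nonneg _) hC₁0) (mul_le_mul q0 p1 (abs_nonneg _) zero_le_one)
          _ ≤ τ := by rw [← key]; linarith only [mul_nonneg (le_of_lt (sub_pos.2 hτ'0)) (sub_nonneg.2 hC₂0), mul_nonneg (sub_nonneg.2 hC₁0) (le_of_lt (sub_pos.2 hτ'0))]
      · have : deriv (deriv S) z - deriv (deriv R) z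
            = (deriv (deriv ξ) z * (P z - R z) + deriv ξ z * (deriv P z - deriv R z))
              + (deriv ξ z * (deriv P z - deriv R z)
                + ξ z * (deriv (deriv P) z - deriv (deriv R) z)) := by
          rw [(dS1 z).deriv]; ring
        rw [this]
        calc |(deriv (deriv ξ) z * (P z - R z) + deriv ξ z * (deriv P z - deriv R z))
              + (deriv ξ z * (deriv P z - deriv R z)
                + ξ z * (deriv (deriv P) z - deriv (deriv R) z))|
            ≤ (|deriv (deriv ξ) z| * |P z - R z| + |deriv ξ z| * |deriv P z - deriv R z|)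
              + (|deriv ξ z| * |deriv P z - deriv R z|
                + |ξ z| * |deriv (deriv P) z - deriv (deriv R) z|) := by
              refine (abs_add_le _ _).trans (add_le_add ?_ ?_)
              · refine (abs_add_le _ _).trans ?_
                rw [abs_mul, abs_mul]
              · refine (abs_add_le _ _).trans ?_
                rw [abs_mul, abs_mul]
          _ ≤ (C₂ * τ' + C₁ * τ') + (C₁ * τ' + 1 * τ') := by
              refine add_le_add (add_le_add ?_ ?_) (add_le_add ?_ ?_)
              · exact mul_le_mul q2 p0 (abs_nonneg _) hC₂0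
              · exact mul_le_mul q1 p1 (abs_nonneg _) hC₁0
              · exact mul_le_mul q1 p1 (abs_nonneg _) hC₁0
              · exact mul_le_mul q0 p2 (abs_nonneg _) zero_le_one
          _ = τ := by rw [← key]; ring
    · have hz' : z ≤ a ∨ b ≤ z := by
        by_contra h
        push Not at h
        exact hz ⟨h.1.le, h.2.le⟩
      obtain ⟨x0, x1, x2⟩ := hξout z hz'
      refine ⟨?_, ?_, ?_⟩
      · rw [hSR z hz', sub_self, abs_zero]; exact hτ.le
      · have : deriv S z - deriv R z = 0 := by rw [eS]; simp [x0, x1]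
        rw [this, abs_zero]; exact hτ.le
      · have : deriv (deriv S) z - deriv (deriv R) z = 0 := by
          rw [(dS1 z).deriv, x0, x1, x2]; ring
        rw [this, abs_zero]; exact hτ.le

end P264.B
end
end

section

attribute [-instance] ProperSMul.toContinuousSMul IsTopologicalTorsor.toContinuousSMul IdemSemiring.toCanonicallyOrderedAdd IdemSemiring.toMulLeftMono IdemSemiring.toMulRightMono AddQuantale.instAddLeftMono AddQuantale.instAddRightMono Quantale.instMulLeftMono Quantale.instMulRightMono FiniteDimensional.rclike_to_real IsScalarTower.complexToReal FiniteDimensional.complexToReal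

section

/-!
# P264 / Prof / H2Core : from a storage function to the coercivity inequality (H2)

`F ≥ V'` pointwise (right derivatives, so nodes of piecewise data are allowed), `V(-∞) = 0`,
`V(+∞) ≥ -C`, one downward jump allowed.  Conclusion `-C ≤ ∫ F`.
-/

open MeasureTheory Set Filter Real
open scoped ContDiff Topology

namespace P264.B

/-- `V b - V a ≤ ∫_a^b F` if the right derivative of `V` is `≤ F`. -/
theorem sub_le_integral_of_right_deriv {V V' F : ℝ → ℝ} {a b : ℝ} (hab : a ≤ b)
    (hV : ContinuousOn V (Icc a b))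
    (hV' : ∀ x ∈ Ico a b, HasDerivWithinAt V (V' x) (Ici x) x)
    (hF : Continuous F) (hle : ∀ x ∈ Ico a b, V' x ≤ F x) :
    V b - V a ≤ ∫ x in a..b, F x := by
  have hB' : ∀ x, HasDerivAt (fun x => V a + ∫ t in a..x, F t) (F x) x := fun x =>
    ((hF.integral_hasStrictDerivAt a x).hasDerivAt).const_add (V a)
  have h := image_le_of_deriv_right_le_deriv_boundary (f := V) (f' := V')
    (B := fun x => V a + ∫ t in a..x, F t) (B' := F) hV hV' (by simp)
    (fun x _ => (hB' x).continuousAt.continuousWithinAt)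
    (fun x _ => (hB' x).hasDerivWithinAt) hle (right_mem_Icc.2 hab)
  have h2 : V b ≤ V a + ∫ t in a..b, F t := h
  linarith

/-! ## The state variables -/

/-- `v = (D-1) G`. -/
noncomputable def vG (G : ℝ → ℝ) (z : ℝ) : ℝ := iteratedDeriv 1 G z - G z

section State
variable {G : ℝ → ℝ}

theorem hasDerivAt_G (hG : ContDiff ℝ 4 G) (z : ℝ) : HasDerivAt G (vG G z + G z) z := by
  have h0 := hasDerivAt_iter hG (k := 0) (by norm_num) z
  rw [iteratedDeriv_zero] at h0
  refine h0.congr_deriv ?_
  simp [vG]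

theorem hasDerivAt_vG (hG : ContDiff ℝ 4 G) (z : ℝ) :
    HasDerivAt (vG G) (om G z + 2 * vG G z) z := by
  have h0 := hasDerivAt_iter hG (k := 0) (by norm_num) z
  have h1 := hasDerivAt_iter hG (k := 1) (by norm_num) z
  rw [iteratedDeriv_zero] at h0
  refine (h1.sub h0).congr_deriv ?_
  simp only [vG, om]
  ring

theorem hasDerivAt_om0 (hG : ContDiff ℝ 4 G) (z : ℝ) :
    HasDerivAt (om G) (iteratedDeriv 1 (om G) z) z := by
  have h := hasDerivAt_iter (n := 2) (om_contDiff hG) (k := 0) (by norm_num) z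
  rwa [iteratedDeriv_zero] at h

theorem hasDerivAt_om1' (hG : ContDiff ℝ 4 G) (z : ℝ) :
    HasDerivAt (iteratedDeriv 1 (om G)) (iteratedDeriv 2 (om G) z) z :=
  hasDerivAt_iter (n := 2) (om_contDiff hG) (k := 1) (by norm_num) z

/-- decay of `v`. -/
theorem vG_bound (hG : Adm G) : ∃ C : ℝ, 0 ≤ C ∧ ∀ z ≤ (0 : ℝ), |vG G z| ≤ C * exp (2 * z) := by
  obtain ⟨C, hC, -, hb⟩ := hG.bound
  refine ⟨|vG G 0| + C, by positivity, fun z hz => ?_⟩
  have hd : ∀ t, HasDerivAt (fun t => exp (-2 * t) * vG G t) (exp (-2 * t) * om G t) t := by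
    intro t
    have he : HasDerivAt (fun t : ℝ => exp (-2 * t)) (exp (-2 * t) * (-2)) t := by
      have := (((hasDerivAt_id t).const_mul (-2 : ℝ))).exp
      simpa only [neg_mul, mul_neg, id_eq, mul_one] using this
    refine (he.mul (hasDerivAt_vG hG.smooth t)).congr_deriv ?_
    ring
  have hcont : Continuous fun t => exp (-2 * t) * om G t := by
    have := cont_om0 hG.smooth
    fun_prop
  have hint : ∫ t in z..0, exp (-2 * t) * om G t = exp (-2 * 0) * vG G 0 - exp (-2 * z) * vG G z :=
    intervalIntegral.integral_eq_sub_of_hasDerivAt (fun t _ => hd t)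
      (hcont.intervalIntegrable _ _)
  have hbd : |∫ t in z..0, exp (-2 * t) * om G t| ≤ C := by
    have h1 : ‖∫ t in z..0, exp (-2 * t) * om G t‖ ≤ ∫ t in z..0, C * exp t := by
      refine intervalIntegral.norm_integral_le_of_norm_le hz ?_ ?_
      · refine Eventually.of_forall fun t ht => ?_
        have h0 := hb 0 (by norm_num) t ht.2
        rw [iteratedDeriv_zero] at h0
        rw [Real.norm_eq_abs, abs_mul, abs_of_pos (exp_pos _)]
        calc exp (-2 * t) * |om G t| ≤ exp (-2 * t) * (C * exp (3 * t)) := by (clear * - h0; gcongr)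
          _ = C * (exp (-2 * t) * exp (3 * t)) := by ring
          _ = C * exp t := by rw [← exp_add]; ring_nf
      · exact (Continuous.intervalIntegrable (by fun_prop) _ _)
    rw [Real.norm_eq_abs] at h1
    refine h1.trans ?_
    rw [intervalIntegral.integral_const_mul, integral_exp]
    have := exp_pos z
    simp only [exp_zero]
    nlinarith only [hC, this]
  have h2 : exp (-2 * z) * vG G z = vG G 0 - ∫ t in z..0, exp (-2 * t) * om G t := by
    rw [hint]; simp
  have h3 : vG G z = exp (2 * z) * (vG G 0 - ∫ t in z..0, exp (-2 * t) * om G t) := by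
    rw [← h2, ← mul_assoc, ← exp_add]
    ring_nf
    simp
  rw [h3, abs_mul, abs_of_pos (exp_pos _), mul_comm]
  gcongr
  exact (abs_sub _ _).trans (by (clear * - hbd; gcongr))

end State

/-! ## The integrand of (H2) -/

/-- `-Lop·Top - δ ρ om² - κ e^{-2z}R²(ρ Π²/2 + 2 T²/ρ)` as a function of the state
`(g, v, a, b, c) = (G, (D-1)G, om, om', om'')`. -/
noncomputable def FH2 (R ρ : ℝ → ℝ) (δ κ : ℝ) (z g v a b c : ℝ) : ℝ :=
  (1 / 2 * (v + g) + exp (-2 * z) * (R z ^ 2 * (c + 15 * b + 56 * a) + 2 * R z * kap R z * g))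
      * (ρ z * c + (2 * iteratedDeriv 1 ρ z + 3 * ρ z) * b
        + (iteratedDeriv 2 ρ z + 3 * iteratedDeriv 1 ρ z + 2 * ρ z) * a)
    - δ * (ρ z * a ^ 2)
    - κ * (exp (-2 * z) * R z ^ 2 * (1 / 2 * (ρ z * (c + 15 * b + 56 * a) ^ 2)
      + 2 * ((ρ z * c + (2 * iteratedDeriv 1 ρ z + 3 * ρ z) * b
        + (iteratedDeriv 2 ρ z + 3 * iteratedDeriv 1 ρ z + 2 * ρ z) * a) ^ 2 / ρ z)))

/-- the integrand along `G` -/
noncomputable def FG (R ρ : ℝ → ℝ) (δ κ : ℝ) (G : ℝ → ℝ) (z : ℝ) : ℝ :=
  FH2 R ρ δ κ z (G z) (vG G z) (om G z) (iteratedDeriv 1 (om G) z) (iteratedDeriv 2 (om G) z)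

theorem FG_eq {R ρ G : ℝ → ℝ} (hG : ContDiff ℝ 4 G) (δ κ : ℝ) (z : ℝ) :
    FG R ρ δ κ G z = -(Lop R G z * Top ρ G z) - δ * (ρ z * om G z ^ 2)
      - κ * (exp (-2 * z) * R z ^ 2 *
        (1 / 2 * (ρ z * piD G z ^ 2) + 2 * (Top ρ G z ^ 2 / ρ z))) := by
  unfold FG FH2 Lop Top
  rw [piD_eq_om hG, ← iteratedDeriv_one (f := G)]
  simp only [vG]
  ring

/-- (H2) from a lower bound of the integral of `FG`. -/
theorem H2_of_integral {R ρ G : ℝ → ℝ} {ν c₁ c₂ Rmin α δ κ C : ℝ} (hρ : Weight ρ ν c₁ c₂)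
    (hR : Profile R Rmin α) (hG : Adm G) (h : -C ≤ ∫ z, FG R ρ δ κ G z) :
    δ * NN ρ G + κ * Dis R ρ G - C ≤ -∫ z, Lop R G z * Top ρ G z := by
  have iL := int_LT hρ hR hG
  have iD := int_Dis hρ hR hG
  have iN := int_N hρ hG
  have e : ∫ z, FG R ρ δ κ G z = -(∫ z, Lop R G z * Top ρ G z) - δ * NN ρ G - κ * Dis R ρ G := by
    have e1 : (fun z => FG R ρ δ κ G z) = fun z => -(Lop R G z * Top ρ G z)
        - δ * (ρ z * om G z ^ 2) - κ * (exp (-2 * z) * R z ^ 2 *
        (1 / 2 * (ρ z * piD G z ^ 2) + 2 * (Top ρ G z ^ 2 / ρ z))) :=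
      funext fun z => FG_eq hG.smooth δ κ z
    have q1 := integral_sub (iL.neg.sub (iN.const_mul δ)) (iD.const_mul κ)
    have q2 := integral_sub iL.neg (iN.const_mul δ)
    simp only [Pi.sub_apply, Pi.neg_apply] at q1 q2
    rw [e1, q1, q2, integral_neg, integral_const_mul, integral_const_mul]
    rfl
  rw [e] at h
  linarith

theorem FG_integrable {R ρ G : ℝ → ℝ} {ν c₁ c₂ Rmin α δ κ : ℝ} (hρ : Weight ρ ν c₁ c₂)
    (hR : Profile R Rmin α) (hG : Adm G) : Integrable (FG R ρ δ κ G) := by
  have iL := int_LT hρ hR hG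
  have iD := int_Dis hρ hR hG
  have iN := int_N hρ hG
  have e1 : FG R ρ δ κ G = fun z => -(Lop R G z * Top ρ G z)
      - δ * (ρ z * om G z ^ 2) - κ * (exp (-2 * z) * R z ^ 2 *
      (1 / 2 * (ρ z * piD G z ^ 2) + 2 * (Top ρ G z ^ 2 / ρ z))) :=
    funext fun z => FG_eq hG.smooth δ κ z
  rw [e1]
  exact (iL.neg.sub (iN.const_mul δ)).sub (iD.const_mul κ)

theorem FG_continuous {R ρ G : ℝ → ℝ} {ν c₁ c₂ Rmin α δ κ : ℝ} (hρ : Weight ρ ν c₁ c₂)
    (hR : Profile R Rmin α) (hG : Adm G) : Continuous (FG R ρ δ κ G) := by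
  have e1 : FG R ρ δ κ G = fun z => -(Lop R G z * Top ρ G z)
      - δ * (ρ z * om G z ^ 2) - κ * (exp (-2 * z) * R z ^ 2 *
      (1 / 2 * (ρ z * piD G z ^ 2) + 2 * (Top ρ G z ^ 2 / ρ z))) :=
    funext fun z => FG_eq hG.smooth δ κ z
  rw [e1]
  have h1 := cont_Lop hR.smooth hG.smooth
  have h2 := cont_Top hρ.smooth hG.smooth
  have h3 := cont_om0 hG.smooth
  have h4 := cont_piD hG.smooth
  have h5 := hρ.smooth.continuous
  have h6 := hR.smooth.continuous
  have h7 : Continuous fun z => Top ρ G z ^ 2 / ρ z :=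
    (h2.pow 2).div h5 fun z => (hρ.pos z).ne'
  fun_prop

end P264.B
end
end

section

attribute [-instance] ProperSMul.toContinuousSMul IsTopologicalTorsor.toContinuousSMul IdemSemiring.toCanonicallyOrderedAdd IdemSemiring.toMulLeftMono IdemSemiring.toMulRightMono AddQuantale.instAddLeftMono AddQuantale.instAddRightMono Quantale.instMulLeftMono Quantale.instMulRightMono FiniteDimensional.rclike_to_real IsScalarTower.complexToReal FiniteDimensional.complexToReal

section

/-!
# P264 / Lin / Tail : the coercivity inequality (H2) on the far cell `y ≥ 256` (helper144)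

On the far cell `ρ = c e^{-z}` and `R` is close to its limit.  With the explicit quadratic form
`Vt` the function `FG + (Vt)'` (`δ = 1/25`, `κ = 1/40`) is a nonnegative quadratic form in the
state `(G, (D-1)G, om, om', om'')`.
-/

open MeasureTheory Set Filter Real
open scoped ContDiff Topology

namespace P264.B

/-! ### algebra -/

/-- first form: the terms of order `e^{-2z}` (`t = om'' + om'`) -/
theorem tail_alg1 (P K g o u t : ℝ) (hP : 6414 / 10000 ≤ P) (hP' : P ≤ 6425 / 10000)
    (hK : |K| ≤ 1924 / 100) :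
    -(1100 * o ^ 2 + 1300 * g ^ 2) ≤
      P * ((t + 14 * u + 56 * o) * t) - 1 / 40 * (P * (1 / 2 * (t + 14 * u + 56 * o) ^ 2
        + 2 * t ^ 2)) + 25 * u ^ 2 - 10 * u * t + 2 * K * g * t := by
  have hKg : -(29 / 100 * t ^ 2 + 1300 * g ^ 2) ≤ 2 * K * g * t := by
    have h1 : (K * g) ^ 2 ≤ (1924 / 100) ^ 2 * g ^ 2 := by
      rw [mul_pow]
      have : K ^ 2 ≤ (1924 / 100) ^ 2 := sq_le_sq' (by linarith only [hK, neg_abs_le K]) (by
        linarith only [hK, le_abs_self K])
      exact mul_le_mul_of_nonneg_right this (sq_nonneg g)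
    have e4 := sq_nonneg (29 / 100 * t + K * g)
    have e5 := sq_nonneg g
    linarith only [e5, e4, h1]
  have key : ∀ P : ℝ, (P = 6414 / 10000 ∨ P = 6425 / 10000) → 0 ≤
      P * ((t + 14 * u + 56 * o) * t) - 1 / 40 * (P * (1 / 2 * (t + 14 * u + 56 * o) ^ 2
        + 2 * t ^ 2)) + 25 * u ^ 2 - 10 * u * t - 29 / 100 * t ^ 2 + 1100 * o ^ 2 := by
    rintro P (rfl | rfl)
    · have h : 0 ≤ 4981 / 16000 * (t - 248978 / 124525 * u + 7004088 / 124525 * o) ^ 2
          + 69061689201 / 3113125000 * (u + 29807752268 / 23020563067 * o) ^ 2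
          + 1214934600500 / 23020563067 * o ^ 2 := by positivity
      linarith only [h]
    · have h : 0 ≤ 1999 / 6400 * (t - 19678 / 9995 * u + 561288 / 9995 * o) ^ 2
          + 444081761 / 19990000 * (u + 564447044 / 444081761 * o) ^ 2
          + 23944241500 / 444081761 * o ^ 2 := by (clear * -; positivity)
      linarith only [h]
  have k1 := key _ (Or.inl rfl)
  have k2 := key _ (Or.inr rfl)
  have m1 := mul_nonneg (sub_nonneg.2 hP') k1
  have m2 := mul_nonneg (sub_nonneg.2 hP) k2
  linarith only [hKg, m2, m1]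

/-- second form: all terms -/
theorem tail_alg2 (h Φ g s o : ℝ) (h0 : 0 ≤ h) (h1 : h ≤ 1 / 65536)
    (hΦ : -(1100 * o ^ 2 + 1300 * g ^ 2) ≤ Φ) :
    0 ≤ 21 / 100 * o ^ 2 + 3 / 5 * s ^ 2 + 2 / 5 * s * o + 1 / 10 * (s - g) ^ 2
      + 1 / 5 * (s - g) * o + h * Φ := by
  have k1 : -(1 / 65536 * (1100 * o ^ 2 + 1300 * g ^ 2)) ≤ h * Φ := by
    have a1 : h * (1100 * o ^ 2 + 1300 * g ^ 2) ≤ 1 / 65536 * (1100 * o ^ 2 + 1300 * g ^ 2) :=
      mul_le_mul_of_nonneg_right h1 (by positivity)
    have a2 := mul_le_mul_of_nonneg_left hΦ h0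
    linarith only [a1, a2]
  have h : 0 ≤ 6567 / 81920 * (g - 8192 / 6567 * s - 8192 / 6567 * o) ^ 2
      + 37777 / 65670 * (s + 11509 / 37777 * o) ^ 2
      + 233306357 / 15473459200 * o ^ 2 := by positivity
  linarith only [h, k1]

/-! ### the multiplier -/

/-- leading part of the multiplier (state `(g, v, a, b) = (G, (D-1)G, om, om')`) -/
noncomputable def Bst (g v a b : ℝ) : ℝ :=
  -(1 / 2) * ((v + g) * b) + 1 / 2 * ((g + 3 * v + a) * a) - (v + g) * a - 1 / 4 * a ^ 2
    + 1 / 5 * v ^ 2 + 1 / 10 * (v - g) ^ 2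

/-- its derivative along `g' = v+g, v' = a+2v, a' = b, b' = c` -/
noncomputable def Bst' (g v a b c : ℝ) : ℝ :=
  -(1 / 2) * ((a + 3 * v + g) * b + (v + g) * c)
    + 1 / 2 * ((g + 7 * v + 3 * a + b) * a + (g + 3 * v + a) * b)
    - ((a + 3 * v + g) * a + (v + g) * b) - 1 / 2 * (a * b)
    + 2 / 5 * (v * (a + 2 * v)) + 1 / 5 * ((v - g) * (a + v - g))

/-- the quadratic form of the far cell -/
noncomputable def Vt (c : ℝ) (G : ℝ → ℝ) (z : ℝ) : ℝ :=
  c * exp (-z) * Bst (G z) (vG G z) (om G z) (iteratedDeriv 1 (om G) z)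
    - 5 * c * exp (-z) ^ 3 * iteratedDeriv 1 (om G) z ^ 2

/-- its derivative -/
noncomputable def Vt' (c : ℝ) (G : ℝ → ℝ) (z : ℝ) : ℝ :=
  -(c * exp (-z)) * Bst (G z) (vG G z) (om G z) (iteratedDeriv 1 (om G) z)
    + c * exp (-z) * Bst' (G z) (vG G z) (om G z) (iteratedDeriv 1 (om G) z)
      (iteratedDeriv 2 (om G) z)
    + 15 * c * exp (-z) ^ 3 * iteratedDeriv 1 (om G) z ^ 2
    - 10 * c * exp (-z) ^ 3 * (iteratedDeriv 1 (om G) z * iteratedDeriv 2 (om G) z)

variable {G : ℝ → ℝ}

theorem hasDerivAt_exp_neg' (z : ℝ) : HasDerivAt (fun z : ℝ => exp (-z)) (-exp (-z)) z := by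
  have := (hasDerivAt_neg z).exp
  simpa only [mul_neg, mul_one] using this

theorem hasDerivAt_Bst (hG : ContDiff ℝ 4 G) (z : ℝ) :
    HasDerivAt (fun z => Bst (G z) (vG G z) (om G z) (iteratedDeriv 1 (om G) z))
      (Bst' (G z) (vG G z) (om G z) (iteratedDeriv 1 (om G) z) (iteratedDeriv 2 (om G) z)) z := by
  have g0 := hasDerivAt_G hG z
  have v0 := hasDerivAt_vG hG z
  have o0 := hasDerivAt_om0 hG z
  have o1 := hasDerivAt_om1' hG z
  unfold Bst
  refine ((((((((v0.add g0).mul o1).const_mul (-(1 / 2))).add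
    ((((g0.add (v0.const_mul 3)).add o0).mul o0).const_mul (1 / 2))).sub
    ((v0.add g0).mul o0)).sub ((o0.pow 2).const_mul (1 / 4))).add
    ((v0.pow 2).const_mul (1 / 5))).add
    (((v0.sub g0).pow 2).const_mul (1 / 10))).congr_deriv ?_
  simp only [Bst', Pi.add_apply, Pi.sub_apply]
  push_cast
  ring

theorem hasDerivAt_Vt (hG : ContDiff ℝ 4 G) (c z : ℝ) :
    HasDerivAt (Vt c G) (Vt' c G z) z := by
  have o1 := hasDerivAt_om1' hG z
  have e0 := hasDerivAt_exp_neg' z
  unfold Vt
  refine (((e0.const_mul c).mul (hasDerivAt_Bst hG z)).sub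
    (((e0.pow 3).const_mul (5 * c)).mul (o1.pow 2))).congr_deriv ?_
  simp only [Vt', Pi.pow_apply]
  push_cast
  ring

/-- `Top` when `ρ = c e^{-z}` near `z` -/
theorem Top_exp {ρ : ℝ → ℝ} {c z : ℝ} (hρ : ρ =ᶠ[𝓝 z] fun s => c * exp (-s)) :
    ρ z = c * exp (-z) ∧ iteratedDeriv 1 ρ z = -(c * exp (-z)) ∧
      iteratedDeriv 2 ρ z = c * exp (-z) := by
  have d1 : ∀ s, deriv (fun s => c * exp (-s)) s = -(c * exp (-s)) := by
    intro s
    rw [((hasDerivAt_exp_neg' s).const_mul c).deriv]; ring
  refine ⟨hρ.eq_of_nhds, ?_, ?_⟩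
  · rw [hρ.iteratedDeriv_eq, iteratedDeriv_one, d1]
  · rw [hρ.iteratedDeriv_eq, iteratedDeriv_succ, iteratedDeriv_one]
    have : deriv (fun s => c * exp (-s)) = fun s => -(c * exp (-s)) := funext d1
    rw [this]
    have := (((hasDerivAt_exp_neg' z).const_mul c).neg).deriv
    simp only [Pi.neg_def] at this
    rw [this]
    ring

/-- the pointwise inequality on the far cell -/
theorem tail_pointwise {R ρ : ℝ → ℝ} {c z : ℝ} (hc : 0 < c)
    (hz : 256 ≤ exp z) (hρ : ρ =ᶠ[𝓝 z] fun s => c * exp (-s))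
    (hR1 : 8009 / 10000 ≤ R z) (hR2 : R z ≤ 8015 / 10000) (hk : |kap R z| ≤ 24) :
    0 ≤ FG R ρ (1 / 25) (1 / 40) G z + Vt' c G z := by
  have ez := exp_pos (-z)
  obtain ⟨r0, r1, r2⟩ := Top_exp hρ
  have hE : exp (-2 * z) = exp (-z) ^ 2 := by
    rw [← Real.exp_nat_mul]; congr 1; push_cast; ring
  have hh : exp (-z) ^ 2 ≤ 1 / 65536 := by
    have h1 : exp (-z) ≤ 1 / 256 := by
      rw [exp_neg, ← one_div]
      exact one_div_le_one_div_of_le (by norm_num) hz
    calc exp (-z) ^ 2 ≤ (1 / 256) ^ 2 := pow_le_pow_left₀ ez.le h1 2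
      _ = 1 / 65536 := by norm_num
  have hP1 : 6414 / 10000 ≤ R z ^ 2 := by nlinarith only [hR1]
  have hP2 : R z ^ 2 ≤ 6425 / 10000 := by nlinarith only [hR2, hR1]
  have hK : |R z * kap R z| ≤ 1924 / 100 := by
    rw [abs_mul, abs_of_pos (by linarith only [hR1] : 0 < R z)]
    calc R z * |kap R z| ≤ 8015 / 10000 * 24 := by (clear * - hR2 hk; gcongr)
      _ ≤ 1924 / 100 := by norm_num
  have hΦ := tail_alg1 (R z ^ 2) (R z * kap R z) (G z) (om G z) (iteratedDeriv 1 (om G) z)
    (iteratedDeriv 2 (om G) z + iteratedDeriv 1 (om G) z) hP1 hP2 hK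
  have key := tail_alg2 (exp (-z) ^ 2) _ (G z) (vG G z) (om G z) (by positivity) hh hΦ
  have hcw : 0 < c * exp (-z) := by positivity
  refine (mul_nonneg hcw.le key).trans (le_of_eq ?_)
  rw [FG, FH2, Vt', Bst, Bst', hE, r0, r1, r2]
  field_simp
  ring

/-- integrated form on one cell: if `0 ≤ F + V'` inside then `V(a) - V(b) ≤ ∫_a^b F` -/
theorem cell_le_Ioo {V V' F : ℝ → ℝ} {a b : ℝ} (hab : a ≤ b) (hF : Continuous F)
    (hV : ∀ z ∈ Icc a b, HasDerivAt V (V' z) z) (h : ∀ z ∈ Ioo a b, 0 ≤ F z + V' z) :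
    V a - V b ≤ ∫ z in a..b, F z := by
  have hmono : MonotoneOn (fun x => (∫ t in a..x, F t) + V x) (Icc a b) := by
    have hd : ∀ x ∈ Icc a b, HasDerivAt (fun x => (∫ t in a..x, F t) + V x) (F x + V' x) x :=
      fun x hx => ((hF.integral_hasStrictDerivAt a x).hasDerivAt).add (hV x hx)
    refine monotoneOn_of_deriv_nonneg (convex_Icc a b)
      (fun x hx => (hd x hx).continuousAt.continuousWithinAt) ?_ ?_
    · intro x hx
      rw [interior_Icc] at hx
      exact (hd x (Ioo_subset_Icc_self hx)).differentiableAt.differentiableWithinAt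
    · intro x hx
      rw [interior_Icc] at hx
      rw [(hd x (Ioo_subset_Icc_self hx)).deriv]
      exact h x hx
  have := hmono (left_mem_Icc.2 hab) (right_mem_Icc.2 hab) hab
  simp only [intervalIntegral.integral_same, zero_add] at this
  linarith

/-- the far cell, integrated -/
theorem tail_int {R ρ : ℝ → ℝ} {ν c₁ c₂ Rmin α c zc : ℝ} (hρW : Weight ρ ν c₁ c₂)
    (hRP : Profile R Rmin α) (hG : Adm G) (hc : 0 < c) (hzc : 256 ≤ exp zc)
    (hρ : ∀ z, zc < z → ρ z = c * exp (-z))
    (hR : ∀ z, zc < z → 8009 / 10000 ≤ R z ∧ R z ≤ 8015 / 10000)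
    (hk : ∀ z, zc < z → |kap R z| ≤ 24) :
    Vt c G zc ≤ ∫ z in Ioi zc, FG R ρ (1 / 25) (1 / 40) G z := by
  obtain ⟨Z, hZ⟩ := hG.right_iter
  set b : ℝ := max zc Z with hb
  have hcb : zc ≤ b := le_max_left _ _
  have hZb : Z ≤ b := le_max_right _ _
  have hcont : Continuous (FG R ρ (1 / 25) (1 / 40) G) := FG_continuous hρW hRP hG
  have h1 := cell_le_Ioo (V := Vt c G) (V' := Vt' c G) (F := FG R ρ (1 / 25) (1 / 40) G) hcb hcont
    (fun z _ => hasDerivAt_Vt hG.smooth c z) (fun z hz => by
      have hz1 : zc < z := hz.1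
      refine tail_pointwise hc (hzc.trans (exp_le_exp.2 hz1.le)) ?_ (hR z hz1).1 (hR z hz1).2
        (hk z hz1)
      filter_upwards [Ioi_mem_nhds hz1] with s hs
      exact hρ s hs)
  have hvz : ∀ z, Z ≤ z → FG R ρ (1 / 25) (1 / 40) G z = 0 := by
    intro z hz
    have a0 := (hZ 0 z hz).1
    have a1 := (hZ 1 z hz).1
    have b0 := (hZ 0 z hz).2
    have b1 := (hZ 1 z hz).2
    have b2 := (hZ 2 z hz).2
    rw [iteratedDeriv_zero] at a0 b0
    simp only [FG, FH2, one_div, vG, a1, a0, sub_self, add_zero, mul_zero, neg_mul, b2, b1, b0, iteratedDeriv_one, ne_eq, OfNat.ofNat_ne_zero, not_false_eq_true, zero_pow, zero_div]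
  have hVb : Vt c G b = 0 := by
    have a0 := (hZ 0 b hZb).1
    have a1 := (hZ 1 b hZb).1
    have b0 := (hZ 0 b hZb).2
    have b1 := (hZ 1 b hZb).2
    rw [iteratedDeriv_zero] at a0 b0
    simp [Vt, Bst, vG, a0, a1, b0, b1]
  rw [hVb, sub_zero, intervalIntegral.integral_of_le hcb] at h1
  have hs : ∫ z in Ioi zc, FG R ρ (1 / 25) (1 / 40) G z
      = ∫ z in Ioc zc b, FG R ρ (1 / 25) (1 / 40) G z := by
    refine setIntegral_eq_of_subset_of_forall_sdiff_eq_zero measurableSet_Ioi
      Ioc_subset_Ioi_self ?_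
    intro s hs
    have : b < s := by
      by_contra hcon
      exact hs.2 ⟨hs.1, not_lt.mp hcon⟩
    exact hvz s (hZb.trans this.le)
  rw [hs]
  exact h1

end P264.B
end
end

section

attribute [-instance] ProperSMul.toContinuousSMul IsTopologicalTorsor.toContinuousSMul IdemSemiring.toCanonicallyOrderedAdd IdemSemiring.toMulLeftMono IdemSemiring.toMulRightMono AddQuantale.instAddLeftMono AddQuantale.instAddRightMono Quantale.instMulLeftMono Quantale.instMulRightMono FiniteDimensional.rclike_to_real IsScalarTower.complexToReal FiniteDimensional.complexToReal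

section

section

section

/-!
Kaehler metrics and the Calabi flow on a complex torus `ℂⁿ / Λ`, where `Λ` is the lattice
spanned over `ℤ` by a real basis `b` of `ℂⁿ`. Tensors on the torus are `Λ`-periodic objects
on `ℂⁿ`.
-/

open scoped ContDiff ENNReal ComplexOrder

noncomputable section

namespace Vale.Agent.P264

/-- The complex vector space `ℂⁿ` with its standard Hermitian norm. -/
abbrev Cn (n : ℕ) : Type := EuclideanSpace ℂ (Fin n)

variable {n : ℕ} {ι : Type} [Fintype ι]

/-- The `j`-th standard unit vector times the complex number `a`. -/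
abbrev unit (j : Fin n) (a : ℂ) : Cn n := EuclideanSpace.single j a

/-- `∂f/∂z_j = (∂f/∂x_j - i ∂f/∂y_j)/2`. -/
def dz (j : Fin n) (f : Cn n → ℂ) (z : Cn n) : ℂ :=
  (fderiv ℝ f z (unit j 1) - Complex.I * fderiv ℝ f z (unit j Complex.I)) / 2

/-- `∂f/∂z̄_k = (∂f/∂x_k + i ∂f/∂y_k)/2`. -/
def dzbar (k : Fin n) (f : Cn n → ℂ) (z : Cn n) : ℂ :=
  (fderiv ℝ f z (unit k 1) + Complex.I * fderiv ℝ f z (unit k Complex.I)) / 2

/-- The complex Hessian `(∂²f/∂z_j ∂z̄_k)`, i.e. the coefficient matrix of `i∂∂̄f`. -/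
def cHess (f : Cn n → ℝ) (z : Cn n) : Matrix (Fin n) (Fin n) ℂ :=
  Matrix.of fun j k => dz j (dzbar k fun y => (f y : ℂ)) z

/-- Functions on the torus `ℂⁿ / Λ`. -/
def Periodic {F : Type*} (b : Module.Basis ι ℝ (Cn n)) (f : Cn n → F) : Prop :=
  ∀ i z, f (z + b i) = f z

/-- Scalar curvature `S = tr_ω Ric(ω) = - Σ g^{jk̄} ∂_j ∂_k̄ log det g`. -/
def scalarCurv (g : Cn n → Matrix (Fin n) (Fin n) ℂ) (z : Cn n) : ℝ :=
  -(((g z)⁻¹ * cHess (fun y => Real.log (g y).det.re) z).trace).re

end Vale.Agent.P264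
end
end
end
end
end
namespace AFast6682d1x7352a
@[reducible] def a0 {x1 : ℕ} : AddCommMonoid (Vale.Agent.P264.Cn x1) := inferInstance
@[reducible] def a1 {x1 : ℕ} : SMulZeroClass ℂ (Vale.Agent.P264.Cn x1) := inferInstance
@[reducible] def a2 {x1 : ℕ} : Module ℂ (Vale.Agent.P264.Cn x1) := inferInstance
@[reducible] def a3 {x1 : ℕ} : AddMonoid (Vale.Agent.P264.Cn x1) := inferInstance
@[reducible] def a4 {x1 : ℕ} : DistribSMul ℂ (Vale.Agent.P264.Cn x1) := inferInstance
@[reducible] def a5 {x1 : ℕ} : AddZero (Vale.Agent.P264.Cn x1) := inferInstance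
@[reducible] def a6 {x1 : ℕ} : AddZeroClass (Vale.Agent.P264.Cn x1) := inferInstance
@[reducible] noncomputable def a7 {x1 : ℕ} : SMul ℂ (Vale.Agent.P264.Cn x1 →L[ℝ] ℂ) := inferInstance
@[reducible] def a8 {x1 : ℕ} : SubNegMonoid (Vale.Agent.P264.Cn x1) := inferInstance
@[reducible] def a9 {x1 : ℕ} : AddGroup (Vale.Agent.P264.Cn x1) := inferInstance
theorem a10 {x1 : ℕ} : ContinuousAdd (Vale.Agent.P264.Cn x1) := inferInstance
end AFast6682d1x7352a
attribute [local instance] AFast6682d1x7352a.a0 AFast6682d1x7352a.a1 AFast6682d1x7352a.a2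
  AFast6682d1x7352a.a3 AFast6682d1x7352a.a4 AFast6682d1x7352a.a5 AFast6682d1x7352a.a6
  AFast6682d1x7352a.a7 AFast6682d1x7352a.a8 AFast6682d1x7352a.a9 AFast6682d1x7352a.a10
namespace AFast6682d1x7352b
theorem a0 {x1 : ℕ} : ContinuousSMul ℂ (Vale.Agent.P264.Cn x1) := inferInstance
theorem a1 {x1 : ℕ} : ContinuousSMul ℝ (Vale.Agent.P264.Cn x1) := inferInstance
end AFast6682d1x7352b
attribute [local instance] AFast6682d1x7352b.a0 AFast6682d1x7352b.a1

section

attribute [-instance] ProperSMul.toContinuousSMul IsTopologicalTorsor.toContinuousSMul IdemSemiring.toCanonicallyOrderedAdd IdemSemiring.toMulLeftMono IdemSemiring.toMulRightMono AddQuantale.instAddLeftMono AddQuantale.instAddRightMono Quantale.instMulLeftMono Quantale.instMulRightMono FiniteDimensional.rclike_to_real IsScalarTower.complexToReal FiniteDimensional.complexToReal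

section

section

section

open scoped ENNReal
open MeasureTheory

noncomputable section

namespace Vale.Agent.P264

section Conv

set_option linter.unusedSectionVars false
set_option linter.unusedVariables false

variable {Γ : Type*} [AddCommGroup Γ]

/-- admissible weights on the frequency group -/
structure IsWeight (w : Γ → ℝ≥0∞) : Prop where
  one_le : ∀ ξ, 1 ≤ w ξ
  ne_top : ∀ ξ, w ξ ≠ ⊤
  zero : w 0 = 1
  add_le : ∀ ξ η, w (ξ + η) ≤ w ξ * w η
  neg : ∀ ξ, w (-ξ) = w ξ

end Conv

end Vale.Agent.P264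
end
end
end
end
end

section

attribute [-instance] ProperSMul.toContinuousSMul IsTopologicalTorsor.toContinuousSMul IdemSemiring.toCanonicallyOrderedAdd IdemSemiring.toMulLeftMono IdemSemiring.toMulRightMono AddQuantale.instAddLeftMono AddQuantale.instAddRightMono Quantale.instMulLeftMono Quantale.instMulRightMono FiniteDimensional.rclike_to_real IsScalarTower.complexToReal FiniteDimensional.complexToReal

section

section

section

open scoped ENNReal
open MeasureTheory Set

noncomputable section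

namespace Vale.Agent.P264

section Duhamel

variable {V : Type*} [NormedAddCommGroup V] [NormedSpace ℝ V]

end Duhamel

end Vale.Agent.P264
end
end
end
end
end

section

attribute [-instance] ProperSMul.toContinuousSMul IsTopologicalTorsor.toContinuousSMul IdemSemiring.toCanonicallyOrderedAdd IdemSemiring.toMulLeftMono IdemSemiring.toMulRightMono AddQuantale.instAddLeftMono AddQuantale.instAddRightMono Quantale.instMulLeftMono Quantale.instMulRightMono FiniteDimensional.rclike_to_real IsScalarTower.complexToReal FiniteDimensional.complexToReal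

section

section

section

open scoped ENNReal
open MeasureTheory

noncomputable section

namespace Vale.Agent.P264

/-- operators on `ℂⁿ` -/
def Op (n : ℕ) : Type := Cn n →L[ℂ] Cn n

/-- the dual of `ℂⁿ` -/
def Dl (n : ℕ) : Type := Cn n →L[ℂ] ℂ

variable {n : ℕ}

instance : NormedAddCommGroup (Op n) := inferInstanceAs (NormedAddCommGroup (Cn n →L[ℂ] Cn n))
instance : NormedSpace ℂ (Op n) := inferInstanceAs (NormedSpace ℂ (Cn n →L[ℂ] Cn n))
instance : NormedSpace ℝ (Op n) := NormedSpace.restrictScalars ℝ ℂ (Op n)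
instance : IsScalarTower ℝ ℂ (Op n) := IsScalarTower.of_algebraMap_smul fun _ _ => rfl
instance : CompleteSpace (Op n) := inferInstanceAs (CompleteSpace (Cn n →L[ℂ] Cn n))
instance : NormedAddCommGroup (Dl n) := inferInstanceAs (NormedAddCommGroup (Cn n →L[ℂ] ℂ))
instance : NormedSpace ℂ (Dl n) := inferInstanceAs (NormedSpace ℂ (Cn n →L[ℂ] ℂ))
instance : NormedSpace ℝ (Dl n) := NormedSpace.restrictScalars ℝ ℂ (Dl n)
instance : IsScalarTower ℝ ℂ (Dl n) := IsScalarTower.of_algebraMap_smul fun _ _ => rfl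
instance : CompleteSpace (Dl n) := inferInstanceAs (CompleteSpace (Cn n →L[ℂ] ℂ))

/-- apply an operator -/
def Op.ap (B : Op n) (x : Cn n) : Cn n := (show Cn n →L[ℂ] Cn n from B) x
/-- composition -/
def Op.cp (A B : Op n) : Op n :=
  (show Cn n →L[ℂ] Cn n from A).comp (show Cn n →L[ℂ] Cn n from B)
/-- apply a functional -/
def Dl.ap (f : Dl n) (x : Cn n) : ℂ := (show Cn n →L[ℂ] ℂ from f) x
/-- identity -/
def Op.id : Op n := ContinuousLinearMap.id ℂ (Cn n)

lemma Op.norm_ap_le (B : Op n) (x : Cn n) : ‖B.ap x‖ ≤ ‖B‖ * ‖x‖ :=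
  ContinuousLinearMap.le_opNorm _ _
lemma Dl.norm_ap_le (B : Dl n) (x : Cn n) : ‖B.ap x‖ ≤ ‖B‖ * ‖x‖ :=
  ContinuousLinearMap.le_opNorm _ _
lemma Op.norm_cp_le (A B : Op n) : ‖A.cp B‖ ≤ ‖A‖ * ‖B‖ :=
  ContinuousLinearMap.opNorm_comp_le _ _
@[simp] lemma Op.add_ap (A B : Op n) (x : Cn n) : (A + B).ap x = A.ap x + B.ap x := rfl
@[simp] lemma Op.smul_ap (a : ℂ) (B : Op n) (x : Cn n) : (a • B).ap x = a • B.ap x := rfl
@[simp] lemma Op.rsmul_ap (a : ℝ) (B : Op n) (x : Cn n) : (a • B).ap x = (a : ℂ) • B.ap x := rfl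
@[simp] lemma Dl.smul_ap (a : ℂ) (B : Dl n) (x : Cn n) : (a • B).ap x = a * B.ap x := rfl
lemma Dl.ap_add (f : Dl n) (x y : Cn n) : f.ap (x + y) = f.ap x + f.ap y := map_add _ _ _
lemma Dl.ap_smul (f : Dl n) (a : ℂ) (x : Cn n) : f.ap (a • x) = a * f.ap x :=
  (map_smul _ _ _ : _ = a • _)
lemma Op.ap_add (f : Op n) (x y : Cn n) : f.ap (x + y) = f.ap x + f.ap y := map_add _ _ _
lemma Op.ap_smul (f : Op n) (a : ℂ) (x : Cn n) : f.ap (a • x) = a • f.ap x := map_smul _ _ _
@[simp] lemma Op.cp_ap (A B : Op n) (x : Cn n) : (A.cp B).ap x = A.ap (B.ap x) := rfl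
@[simp] lemma Op.id_ap (x : Cn n) : (Op.id : Op n).ap x = x := rfl
lemma Op.ext {A B : Op n} (h : ∀ x, A.ap x = B.ap x) : A = B := ContinuousLinearMap.ext h
lemma Dl.ext {A B : Dl n} (h : ∀ x, A.ap x = B.ap x) : A = B := ContinuousLinearMap.ext h

lemma Op.cp_add (A B C : Op n) : A.cp (B + C) = A.cp B + A.cp C := by
  apply Op.ext; intro x; simp [Op.ap_add]
lemma Op.cp_smul (A : Op n) (a : ℂ) (B : Op n) : A.cp (a • B) = a • A.cp B := by
  apply Op.ext; intro x; simp [Op.ap_smul]
lemma Op.rsmul_eq (a : ℝ) (B : Op n) : a • B = (a : ℂ) • B := rfl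
section Maps

/-- normalised vector -/
def nv (x : Cn n) : Cn n := ((‖x‖⁻¹ : ℝ) : ℂ) • x

lemma norm_nv_le (x : Cn n) : ‖nv x‖ ≤ 1 := by
  unfold nv
  rw [norm_smul, Complex.norm_real, Real.norm_eq_abs, abs_of_nonneg (by positivity)]
  by_cases h : ‖x‖ = 0
  · simp [h]
  · rw [inv_mul_cancel₀ h]

/-- rank one projection onto the line of `x` -/
def Pr (x : Cn n) : Op n := (innerSL ℂ (nv x)).smulRight (nv x)

/-- the functional `⟨x, ·⟩` -/
def Ri (x : Cn n) : Dl n := innerSL ℂ x

@[simp] lemma Pr_ap (x y : Cn n) : (Pr x).ap y = inner ℂ (nv x) y • nv x := rfl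
@[simp] lemma Ri_ap (x y : Cn n) : (Ri x).ap y = inner ℂ x y := rfl
lemma norm_Ri (x : Cn n) : ‖Ri x‖ = ‖x‖ := innerSL_apply_norm _ _

lemma norm_Pr_le (x : Cn n) : ‖Pr x‖ ≤ 1 := by
  apply ContinuousLinearMap.opNorm_le_bound _ zero_le_one
  intro y
  change ‖(Pr x).ap y‖ ≤ _
  rw [Pr_ap, norm_smul]
  calc ‖inner ℂ (nv x) y‖ * ‖nv x‖ ≤ (‖nv x‖ * ‖y‖) * ‖nv x‖ := by
        gcongr; exact norm_inner_le_norm _ _
    _ ≤ (1 * ‖y‖) * 1 := by
        gcongr <;> exact norm_nv_le x
    _ = 1 * ‖y‖ := by ring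

/-- `a, C ↦ a P_x C` -/
def L0 (x : Cn n) : ℂ →L[ℝ] Op n →L[ℝ] Op n :=
  LinearMap.mkContinuous₂
    (LinearMap.mk₂ ℝ (fun (a : ℂ) (C : Op n) => a • ((Pr x).cp C))
      (fun a b C => by rw [add_smul])
      (fun r a C => by rw [smul_assoc])
      (fun a C D => by rw [Op.cp_add, smul_add])
      (fun r a C => by rw [Op.rsmul_eq, Op.cp_smul, smul_comm, Op.rsmul_eq]))
    1 (by
      intro a C
      change ‖a • ((Pr x).cp C)‖ ≤ _
      rw [norm_smul, one_mul]
      gcongr
      calc ‖(Pr x).cp C‖ ≤ ‖Pr x‖ * ‖C‖ := Op.norm_cp_le _ _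
        _ ≤ 1 * ‖C‖ := by gcongr; exact norm_Pr_le x
        _ = ‖C‖ := one_mul _)

@[simp] lemma L0_apply (x : Cn n) (a : ℂ) (C : Op n) : L0 x a C = a • ((Pr x).cp C) := rfl

/-- `a, B ↦ a ⟨v_x, B v_x⟩ ⟨x, ·⟩` -/
def L1 (x : Cn n) : ℂ →L[ℝ] Op n →L[ℝ] Dl n :=
  LinearMap.mkContinuous₂
    (LinearMap.mk₂ ℝ (fun (a : ℂ) (B : Op n) =>
        (a * inner ℂ (nv x) (B.ap (nv x))) • Ri x)
      (fun a b C => by rw [add_mul, add_smul])
      (fun r a C => by
        rw [Complex.real_smul, mul_assoc, mul_smul]; rfl)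
      (fun a C D => by rw [Op.add_ap, inner_add_right, mul_add, add_smul])
      (fun r a C => by
        rw [Op.rsmul_ap, inner_smul_right, mul_left_comm, mul_smul]; rfl))
    ‖x‖ (by
      intro a B
      change ‖(a * inner ℂ (nv x) (B.ap (nv x))) • Ri x‖ ≤ _
      rw [norm_smul, norm_mul, norm_Ri]
      have h1 : ‖inner ℂ (nv x) (B.ap (nv x))‖ ≤ ‖B‖ := by
        calc ‖inner ℂ (nv x) (B.ap (nv x))‖ ≤ ‖nv x‖ * ‖B.ap (nv x)‖ := norm_inner_le_norm _ _
          _ ≤ 1 * (‖B‖ * 1) := by
              gcongr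
              · exact norm_nv_le x
              · exact (B.norm_ap_le _).trans (by gcongr; exact norm_nv_le x)
          _ = ‖B‖ := by ring
      calc ‖a‖ * ‖inner ℂ (nv x) (B.ap (nv x))‖ * ‖x‖ ≤ ‖a‖ * ‖B‖ * ‖x‖ := by gcongr
        _ = ‖x‖ * ‖a‖ * ‖B‖ := by ring)

@[simp] lemma L1_apply (x : Cn n) (a : ℂ) (B : Op n) :
    L1 x a B = (a * inner ℂ (nv x) (B.ap (nv x))) • Ri x := rfl

/-- `f, B ↦ f (B x)` -/
def L2 (x : Cn n) : Dl n →L[ℝ] Op n →L[ℝ] ℂ :=
  LinearMap.mkContinuous₂
    (LinearMap.mk₂ ℝ (fun (f : Dl n) (B : Op n) => f.ap (B.ap x))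
      (fun f g C => rfl)
      (fun r f C => rfl)
      (fun f C D => by rw [Op.add_ap, Dl.ap_add])
      (fun r f C => by
        rw [Op.rsmul_ap, Dl.ap_smul]; rfl))
    ‖x‖ (by
      intro f B
      change ‖f.ap (B.ap x)‖ ≤ _
      calc ‖f.ap (B.ap x)‖ ≤ ‖f‖ * (‖B‖ * ‖x‖) :=
            (f.norm_ap_le _).trans (by gcongr; exact B.norm_ap_le _)
        _ = ‖x‖ * ‖f‖ * ‖B‖ := by ring)

@[simp] lemma L2_apply (x : Cn n) (f : Dl n) (B : Op n) : L2 x f B = f.ap (B.ap x) := rfl

lemma norm_L0 (x : Cn n) : ‖L0 x‖ ≤ 1 := LinearMap.mkContinuous₂_norm_le _ zero_le_one _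
lemma norm_L1 (x : Cn n) : ‖L1 x‖ ≤ ‖x‖ := LinearMap.mkContinuous₂_norm_le _ (norm_nonneg _) _
lemma norm_L2 (x : Cn n) : ‖L2 x‖ ≤ ‖x‖ := LinearMap.mkContinuous₂_norm_le _ (norm_nonneg _) _

end Maps

end Vale.Agent.P264
end
end
end
end
end
namespace AFast6682d1x7605a
@[reducible] noncomputable def a0 {x1 : ℕ} : SMul ℂ (Vale.Agent.P264.Op x1) := inferInstance
@[reducible] noncomputable def a1 {x1 : ℕ} : SMul ℝ (Vale.Agent.P264.Op x1) := inferInstance
@[reducible] noncomputable def a2 {x1 : ℕ} : SMul ℂ (Vale.Agent.P264.Dl x1) := inferInstance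
@[reducible] noncomputable def a3 {x1 : ℕ} : SMul ℝ (Vale.Agent.P264.Dl x1) := inferInstance
@[reducible] noncomputable def a4 {x1 : ℕ} : AddCommMonoid (Vale.Agent.P264.Op x1) := inferInstance
end AFast6682d1x7605a
attribute [local instance] AFast6682d1x7605a.a0 AFast6682d1x7605a.a1 AFast6682d1x7605a.a2
  AFast6682d1x7605a.a3 AFast6682d1x7605a.a4

section

attribute [-instance] ProperSMul.toContinuousSMul IsTopologicalTorsor.toContinuousSMul IdemSemiring.toCanonicallyOrderedAdd IdemSemiring.toMulLeftMono IdemSemiring.toMulRightMono AddQuantale.instAddLeftMono AddQuantale.instAddRightMono Quantale.instMulLeftMono Quantale.instMulRightMono FiniteDimensional.rclike_to_real IsScalarTower.complexToReal FiniteDimensional.complexToReal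

section

section

section

open scoped ENNReal
open MeasureTheory

noncomputable section

namespace Vale.Agent.P264

section FinW

variable {Γ : Type*} {F : Type*} [NormedAddCommGroup F]

lemma enorm_le_ofReal {E : Type*} [NormedAddCommGroup E] {x : E} {c : ℝ} (h : ‖x‖ ≤ c) :
    ‖x‖ₑ ≤ ENNReal.ofReal c := by
  rw [← ofReal_norm]
  exact ENNReal.ofReal_le_ofReal h

lemma two_mul_ofReal (x : ℝ) : 2 * ENNReal.ofReal (x / 2) = ENNReal.ofReal x := by
  rw [show (2 : ℝ≥0∞) = ENNReal.ofReal 2 by simp, ← ENNReal.ofReal_mul (by norm_num)]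
  congr 1
  ring

/-- finiteness of weighted sums -/
def FinW (w : Γ → ℝ≥0∞) (f : Γ → F) : Prop := ∑' ξ, w ξ * ‖f ξ‖ₑ ≠ ⊤

end FinW

section tc

set_option linter.unusedSectionVars false

variable {Γ : Type*} [AddCommGroup Γ]
variable {F G H : Type*} [NormedAddCommGroup F] [NormedSpace ℝ F] [NormedAddCommGroup G]
  [NormedSpace ℝ G] [NormedAddCommGroup H] [NormedSpace ℝ H]

/-- twisted convolution -/
def tc (L : Γ → F →L[ℝ] G →L[ℝ] H) (f : Γ → F) (g : Γ → G) (ξ : Γ) : H :=
  ∑' η, L η (f η) (g (ξ - η))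

variable [CompleteSpace H]

end tc

end Vale.Agent.P264
end
end
end
end
end

section

attribute [-instance] ProperSMul.toContinuousSMul IsTopologicalTorsor.toContinuousSMul IdemSemiring.toCanonicallyOrderedAdd IdemSemiring.toMulLeftMono IdemSemiring.toMulRightMono AddQuantale.instAddLeftMono AddQuantale.instAddRightMono Quantale.instMulLeftMono Quantale.instMulRightMono FiniteDimensional.rclike_to_real IsScalarTower.complexToReal FiniteDimensional.complexToReal

section

section

section

open scoped ENNReal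
open MeasureTheory

noncomputable section

namespace Vale.Agent.P264

set_option linter.unusedSectionVars false

section Pw

variable {Γ : Type*} [AddCommGroup Γ] {X : Γ → ℝ≥0∞}

/-- polynomial weights -/
def pw (X : Γ → ℝ≥0∞) (k : ℕ) (ξ : Γ) : ℝ≥0∞ := (1 + X ξ) ^ k

end Pw

section Tri

variable {n : ℕ} {Γ : Type*} [AddCommGroup Γ] (q : Γ →+ Cn n)

/-- half length of the frequency -/
def Xs (ξ : Γ) : ℝ≥0∞ := ENNReal.ofReal (‖q ξ‖ / 2)

/-- `P a C` -/
def C0 (a : Γ → ℂ) (C : Γ → Op n) : Γ → Op n := tc (fun η => L0 (q η)) a C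
/-- gradient of `log det` -/
def C1 (a : Γ → ℂ) (B : Γ → Op n) : Γ → Dl n := tc (fun η => L1 (q η)) a B
/-- second contraction -/
def C2 (f : Γ → Dl n) (B : Γ → Op n) : Γ → ℂ := tc (fun η => L2 (q η)) f B
/-- the trilinear form giving the scalar curvature -/
def tri (a : Γ → ℂ) (B B' : Γ → Op n) (ξ : Γ) : ℂ := -(1 / 4) * C2 q (C1 q a B) B' ξ
/-- minus the complex Hessian -/
def PA (a : Γ → ℂ) (ξ : Γ) : Op n := a ξ • Pr (q ξ)
open Classical in
/-- unit -/
def one (ξ : Γ) : Op n := if ξ = 0 then Op.id else 0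
/-- symbol of minus the Laplacian -/
def lam (ξ : Γ) : ℝ := (‖q ξ‖ / 2) ^ 2
lemma hL0 (η : Γ) : ‖L0 (q η)‖ₑ ≤ (fun _ => 1) η := by
  have := enorm_le_ofReal (E := ℂ →L[ℝ] Op n →L[ℝ] Op n) (norm_L0 (q η))
  rwa [ENNReal.ofReal_one] at this

lemma hL1 (η : Γ) : ‖L1 (q η)‖ₑ ≤ (fun η => 2 * Xs q η) η := by
  unfold Xs
  dsimp only
  rw [two_mul_ofReal]
  exact enorm_le_ofReal (E := ℂ →L[ℝ] Op n →L[ℝ] Dl n) (norm_L1 (q η))

lemma hL2 (η : Γ) : ‖L2 (q η)‖ₑ ≤ (fun η => 2 * Xs q η) η := by
  unfold Xs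
  dsimp only
  rw [two_mul_ofReal]
  exact enorm_le_ofReal (E := Dl n →L[ℝ] Op n →L[ℝ] ℂ) (norm_L2 (q η))

variable {q}

end Tri

end Vale.Agent.P264
end
end
end
end
end

section

attribute [-instance] ProperSMul.toContinuousSMul IsTopologicalTorsor.toContinuousSMul IdemSemiring.toCanonicallyOrderedAdd IdemSemiring.toMulLeftMono IdemSemiring.toMulRightMono AddQuantale.instAddLeftMono AddQuantale.instAddRightMono Quantale.instMulLeftMono Quantale.instMulRightMono FiniteDimensional.rclike_to_real IsScalarTower.complexToReal FiniteDimensional.complexToReal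

section

section

section

open scoped ENNReal Topology
open MeasureTheory Filter

noncomputable section

namespace Vale.Agent.P264

set_option linter.unusedSectionVars false
set_option linter.unusedVariables false

section Lim

variable {Γ : Type*} {F : Type*} [NormedAddCommGroup F]

variable [CompleteSpace F]

end Lim

end Vale.Agent.P264
end
end
end
end
end

section

attribute [-instance] ProperSMul.toContinuousSMul IsTopologicalTorsor.toContinuousSMul IdemSemiring.toCanonicallyOrderedAdd IdemSemiring.toMulLeftMono IdemSemiring.toMulRightMono AddQuantale.instAddLeftMono AddQuantale.instAddRightMono Quantale.instMulLeftMono Quantale.instMulRightMono FiniteDimensional.rclike_to_real IsScalarTower.complexToReal FiniteDimensional.complexToReal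

section

section

section

open scoped ENNReal ContDiff
open MeasureTheory Set

noncomputable section

namespace Vale.Agent.P264

set_option linter.unusedSectionVars false
set_option linter.unusedVariables false

section Curve

variable {Γ : Type*}
variable {F G H : Type*} [NormedAddCommGroup F] [NormedSpace ℝ F] [NormedAddCommGroup G]
  [NormedSpace ℝ G] [NormedAddCommGroup H] [NormedSpace ℝ H]

/-- weighted finiteness with real weights -/
def FW (w : Γ → ℝ) (f : Γ → F) : Prop := ∑' ξ, ‖w ξ • f ξ‖ₑ ≠ ⊤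

variable [AddCommGroup Γ]

/-- a family of weights, increasing fast -/
structure WFam (p : Γ → ℝ) (W : ℕ → Γ → ℝ) : Prop where
  one_le : ∀ m ξ, 1 ≤ W m ξ
  sub : ∀ m ξ η, W m (ξ + η) ≤ W m ξ * W m η
  neg : ∀ m ξ, W m (-ξ) = W m ξ
  p_nonneg : ∀ ξ, 0 ≤ p ξ
  dom : ∀ m k, ∃ m' K, 1 ≤ K ∧ ∀ ξ, (1 + p ξ) ^ k * W m ξ ≤ K * W m' ξ

variable {p : Γ → ℝ} {W : ℕ → Γ → ℝ}

end Curve

end Vale.Agent.P264
end
end
end
end
end

section

section

/-! # P264 / Geo / Defs : auxiliary notions for the geometric part -/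

open scoped ContDiff ComplexOrder

noncomputable section

namespace P264.Geo

/-- `φ` is a smooth Calabi flow on the closed time interval `[0,T]` starting from
`ω₀ = i∂∂̄ log h₀` (normalised by an arbitrary additive constant `c`; the usual one is `c = S̄`):
`ω(t) = ω₀ + i∂∂̄φ(t) = i∂∂̄ log (h₀ exp φ(t)) > 0`, `φ(0) = 0`, `∂φ/∂t = S(ω(t)) - c`. -/
structure IsCalabiFlow (n : ℕ) (h₀ : Cm (n + 1) → ℝ) (c T : ℝ) (φ : ℝ → Cm (n + 1) → ℝ) : Prop where
  smooth : ContDiffOn ℝ ∞ (fun p : ℝ × Cm (n + 1) => φ p.1 p.2) (Set.Icc 0 T ×ˢ {Z | Z ≠ 0})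
  homog : ∀ t ∈ Set.Icc 0 T, ∀ (a : ℂ) Z, Z ≠ 0 → a ≠ 0 → φ t (a • Z) = φ t Z
  init : ∀ Z, Z ≠ 0 → φ 0 Z = 0
  kahler : ∀ t ∈ Set.Icc 0 T, IsKahler n fun Z => h₀ Z * Real.exp (φ t Z)
  flow : ∀ t ∈ Set.Icc 0 T, ∀ k z, HasDerivWithinAt (fun s => φ s (chart k z))
    (scalG (cHess (loc (fun Z => h₀ Z * Real.exp (φ t Z)) k)) z - c) (Set.Icc 0 T) t

/-- The final statement: there is a Kähler form `ω₀` on `ℙⁿ` and a finite `T` such that no smooth
Calabi flow from `ω₀` exists on `[0,T]`. -/
def Blowup (n : ℕ) : Prop :=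
  ∃ h₀ : Cm (n + 1) → ℝ, IsKahler n h₀ ∧ ∃ T : ℝ, 0 < T ∧ ∀ c φ, ¬ IsCalabiFlow n h₀ c T φ

/-! ## Auxiliary notions for the reduction -/

/-- `U(n)`-invariance (`U(n)` acts on the last `n` coordinates). -/
def Inv {n : ℕ} (h : Cm (n + 1) → ℝ) : Prop :=
  ∀ Z W : Cm (n + 1), Z ≠ 0 → W ≠ 0 → ‖Z 0‖ = ‖W 0‖ →
    ∑ i : Fin n, ‖Z i.succ‖ ^ 2 = ∑ i : Fin n, ‖W i.succ‖ ^ 2 → h Z = h W

/-- The real ray `s ↦ (1, s, 0, …, 0)`. -/
def ray {n : ℕ} (s : ℝ) : Cm (n + 1) := fun i => if (i : ℕ) = 0 then 1 else if (i : ℕ) = 1 then (s : ℂ) else 0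

/-- The moment coordinate `x = r d/dr log h`, `r = s²`, along the ray. -/
def mom {n : ℕ} (h : Cm (n + 1) → ℝ) (s : ℝ) : ℝ :=
  s / 2 * deriv (fun s => Real.log (h (ray s))) s

end P264.Geo

end
end
end

section

section

/-! # P264 / Geo / TimeSm : joint smoothness -/

open scoped ContDiff ComplexOrder
open TopologicalSpace (Opens)
open MeasureTheory Set

noncomputable section

namespace P264.Geo

variable {m : ℕ}

/-- space derivative of a jointly smooth function is jointly smooth (as a family of linear maps) -/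
theorem tsm_fderiv {V E : Type} [NormedAddCommGroup V] [NormedSpace ℝ V]
    [NormedAddCommGroup E] [NormedSpace ℝ E] {S : Set ℝ} (hS : UniqueDiffOn ℝ S)
    {Ω : Set V} (hΩ : IsOpen Ω) {f : ℝ → V → E}
    (hf : ContDiffOn ℝ ∞ (fun p : ℝ × V => f p.1 p.2) (S ×ˢ Ω)) :
    ContDiffOn ℝ ∞ (fun p : ℝ × V => fderiv ℝ (f p.1) p.2) (S ×ˢ Ω) := by
  have hU : UniqueDiffOn ℝ (S ×ˢ Ω) := hS.prod hΩ.uniqueDiffOn
  have h1 : ContDiffOn ℝ ∞ (fderivWithin ℝ (fun p : ℝ × V => f p.1 p.2) (S ×ˢ Ω)) (S ×ˢ Ω) :=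
    hf.fderivWithin hU (by simp)
  have h2 : ContDiffOn ℝ ∞ (fun p : ℝ × V =>
      (fderivWithin ℝ (fun p : ℝ × V => f p.1 p.2) (S ×ˢ Ω) p).comp
        (ContinuousLinearMap.inr ℝ ℝ V)) (S ×ˢ Ω) :=
    h1.clm_comp contDiffOn_const
  refine h2.congr ?_
  rintro ⟨t, Z⟩ ⟨ht, hZ⟩
  have h3 : HasFDerivWithinAt (fun p : ℝ × V => f p.1 p.2)
      (fderivWithin ℝ (fun p : ℝ × V => f p.1 p.2) (S ×ˢ Ω) (t, Z)) (S ×ˢ Ω) (t, Z) :=
    ((hf.differentiableOn (by simp)) (t, Z) ⟨ht, hZ⟩).hasFDerivWithinAt
  have h4 : HasFDerivWithinAt (fun Y : V => (t, Y)) (ContinuousLinearMap.inr ℝ ℝ V) Ω Z :=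
    (hasFDerivAt_prodMk_right t Z).hasFDerivWithinAt
  have h5 : HasFDerivWithinAt ((fun p : ℝ × V => f p.1 p.2) ∘ fun Y : V => (t, Y))
      ((fderivWithin ℝ (fun p : ℝ × V => f p.1 p.2) (S ×ˢ Ω) (t, Z)).comp
        (ContinuousLinearMap.inr ℝ ℝ V)) Ω Z :=
    HasFDerivWithinAt.comp Z h3 h4 (fun Y hY => ⟨ht, hY⟩)
  have h6 := h5.hasFDerivAt (hΩ.mem_nhds hZ)
  exact h6.fderiv

theorem tsm_fderiv_dir {V E : Type} [NormedAddCommGroup V] [NormedSpace ℝ V]
    [NormedAddCommGroup E] [NormedSpace ℝ E] {S : Set ℝ} (hS : UniqueDiffOn ℝ S)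
    {Ω : Set V} (hΩ : IsOpen Ω) {f : ℝ → V → E} (v : V)
    (hf : ContDiffOn ℝ ∞ (fun p : ℝ × V => f p.1 p.2) (S ×ˢ Ω)) :
    ContDiffOn ℝ ∞ (fun p : ℝ × V => fderiv ℝ (f p.1) p.2 v) (S ×ˢ Ω) :=
  (tsm_fderiv hS hΩ hf).clm_apply contDiffOn_const

theorem tsm_dz {S : Set ℝ} (hS : UniqueDiffOn ℝ S) {Ω : Set (Cm m)} (hΩ : IsOpen Ω)
    {f : ℝ → Cm m → ℂ} (j : Fin m)
    (hf : ContDiffOn ℝ ∞ (fun p : ℝ × Cm m => f p.1 p.2) (S ×ˢ Ω)) :
    ContDiffOn ℝ ∞ (fun p : ℝ × Cm m => dz j (f p.1) p.2) (S ×ˢ Ω) := by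
  unfold dz
  exact ((tsm_fderiv_dir hS hΩ _ hf).sub
    (contDiffOn_const.mul (tsm_fderiv_dir hS hΩ _ hf))).div_const _

theorem tsm_dzb {S : Set ℝ} (hS : UniqueDiffOn ℝ S) {Ω : Set (Cm m)} (hΩ : IsOpen Ω)
    {f : ℝ → Cm m → ℂ} (j : Fin m)
    (hf : ContDiffOn ℝ ∞ (fun p : ℝ × Cm m => f p.1 p.2) (S ×ˢ Ω)) :
    ContDiffOn ℝ ∞ (fun p : ℝ × Cm m => dzb j (f p.1) p.2) (S ×ˢ Ω) := by
  unfold dzb
  exact ((tsm_fderiv_dir hS hΩ _ hf).add
    (contDiffOn_const.mul (tsm_fderiv_dir hS hΩ _ hf))).div_const _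

theorem tsm_cHess {S : Set ℝ} (hS : UniqueDiffOn ℝ S) {Ω : Set (Cm m)} (hΩ : IsOpen Ω)
    {h : ℝ → Cm m → ℝ} (j k : Fin m)
    (hf : ContDiffOn ℝ ∞ (fun p : ℝ × Cm m => h p.1 p.2) (S ×ˢ Ω)) :
    ContDiffOn ℝ ∞ (fun p : ℝ × Cm m => cHess (h p.1) p.2 j k) (S ×ˢ Ω) := by
  have h0 : ContDiffOn ℝ ∞ (fun p : ℝ × Cm m => ((h p.1 p.2 : ℝ) : ℂ)) (S ×ˢ Ω) :=
    Complex.ofRealCLM.contDiff.comp_contDiffOn hf
  have h1 := tsm_dzb hS hΩ k (f := fun t Z => ((h t Z : ℝ) : ℂ)) h0
  exact tsm_dz hS hΩ j (f := fun t => dzb k fun Z => ((h t Z : ℝ) : ℂ)) h1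

theorem tsm_det {S : Set ℝ} (hS : UniqueDiffOn ℝ S) {Ω : Set (Cm m)} (hΩ : IsOpen Ω)
    {h : ℝ → Cm m → ℝ}
    (hf : ContDiffOn ℝ ∞ (fun p : ℝ × Cm m => h p.1 p.2) (S ×ˢ Ω)) :
    ContDiffOn ℝ ∞ (fun p : ℝ × Cm m => (cHess (h p.1) p.2).det.re) (S ×ˢ Ω) := by
  have h1 : ContDiffOn ℝ ∞ (fun p : ℝ × Cm m => (cHess (h p.1) p.2).det) (S ×ˢ Ω) := by
    simp only [Matrix.det_apply']
    refine ContDiffOn.sum fun σ _ => contDiffOn_const.mul ?_
    exact contDiffOn_prod fun i _ => tsm_cHess hS hΩ _ _ hf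
  exact Complex.reCLM.contDiff.comp_contDiffOn h1

theorem tsm_vR {S : Set ℝ} (hS : UniqueDiffOn ℝ S) {Ω : Set (Cm m)} (hΩ : IsOpen Ω)
    {h : ℝ → Cm m → ℝ} (M : Matrix (Fin m) (Fin m) ℂ)
    (hf : ContDiffOn ℝ ∞ (fun p : ℝ × Cm m => h p.1 p.2) (S ×ˢ Ω))
    (hpos : ∀ t ∈ S, ∀ Z ∈ Ω, 0 < h t Z) :
    ContDiffOn ℝ ∞ (fun p : ℝ × Cm m => vR M (h p.1) p.2) (S ×ˢ Ω) := by
  unfold vR
  have h1 : ContDiffOn ℝ ∞ (fun p : ℝ × Cm m => M.mulVec p.2) (S ×ˢ Ω) := by
    have h2 : ContDiff ℝ ∞ (fun Z : Cm m => M.mulVec Z) :=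
      ((LinearMap.toContinuousLinearMap (Matrix.mulVecLin M)).restrictScalars ℝ).contDiff
    exact (h2.comp contDiff_snd).contDiffOn
  have h3 := (tsm_fderiv hS hΩ hf).clm_apply h1
  exact h3.div hf fun p hp => (hpos p.1 hp.1 p.2 hp.2).ne'

/-- reduction of the closed interval to the two cases of a set of unique differentiability. -/
theorem tsm_cases {T : ℝ} {h : ℝ → Cm m → ℝ} {G : (Cm m → ℝ) → Cm m → ℝ}
    (hs : ContDiffOn ℝ ∞ (fun p : ℝ × Cm m => h p.1 p.2) (Icc 0 T ×ˢ {Z | Z ≠ 0}))
    (H : ∀ (S : Set ℝ) (k : ℝ → Cm m → ℝ), UniqueDiffOn ℝ S →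
      ContDiffOn ℝ ∞ (fun p : ℝ × Cm m => k p.1 p.2) (S ×ˢ {Z | Z ≠ 0}) →
      (∀ t ∈ S, ∃ s ∈ Icc 0 T, k t = h s) →
      ContDiffOn ℝ ∞ (fun p : ℝ × Cm m => G (k p.1) p.2) (S ×ˢ {Z | Z ≠ 0})) :
    ContDiffOn ℝ ∞ (fun p : ℝ × Cm m => G (h p.1) p.2) (Icc 0 T ×ˢ {Z | Z ≠ 0}) := by
  rcases lt_trichotomy T 0 with hT | hT | hT
  · rw [Icc_eq_empty (not_le.2 hT), empty_prod]
    exact contDiffOn_empty
  · subst hT
    have h1 : ContDiffOn ℝ ∞ (fun p : ℝ × Cm m => (fun _ : ℝ => h 0) p.1 p.2)
        (univ ×ˢ {Z | Z ≠ 0}) := by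
      have h2 : ContDiffOn ℝ ∞ (fun p : ℝ × Cm m => ((0 : ℝ), p.2)) (univ ×ˢ {Z | Z ≠ 0}) :=
        (contDiff_const.prodMk contDiff_snd).contDiffOn
      exact hs.comp h2 fun p hp => ⟨by simp, hp.2⟩
    have h3 := H univ (fun _ => h 0) uniqueDiffOn_univ h1 (fun t _ => ⟨0, by simp, rfl⟩)
    refine (h3.mono (prod_mono (subset_univ _) subset_rfl)).congr ?_
    rintro ⟨t, Z⟩ ⟨ht, hZ⟩
    have ht0 : t = 0 := by simpa using ht
    subst ht0
    rfl
  · exact H (Icc 0 T) h (uniqueDiffOn_Icc hT) hs fun t ht => ⟨t, ht, rfl⟩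

/-- `(t,Z) ↦ det (h_{ab̄})` is smooth. -/
theorem det_smooth_t {T : ℝ} (hT : 0 < T) {h : ℝ → Cm m → ℝ}
    (hs : ContDiffOn ℝ ∞ (fun p : ℝ × Cm m => h p.1 p.2) (Icc 0 T ×ˢ {Z | Z ≠ 0})) :
    ContDiffOn ℝ ∞ (fun p : ℝ × Cm m => (cHess (h p.1) p.2).det.re) (Icc 0 T ×ˢ {Z | Z ≠ 0}) :=
  tsm_cases (G := fun f Z => (cHess f Z).det.re) hs fun _ _ hS hk _ => tsm_det hS isOpen_ne hk

/-- `(t,Z) ↦ v` is smooth. -/
theorem vR_smooth_t {T : ℝ} (hT : 0 < T) {h : ℝ → Cm m → ℝ}
    (hs : ContDiffOn ℝ ∞ (fun p : ℝ × Cm m => h p.1 p.2) (Icc 0 T ×ˢ {Z | Z ≠ 0}))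
    (hc : ∀ t ∈ Icc 0 T, IsCone m (h t)) (M : Matrix (Fin m) (Fin m) ℂ) :
    ContDiffOn ℝ ∞ (fun p : ℝ × Cm m => vR M (h p.1) p.2) (Icc 0 T ×ˢ {Z | Z ≠ 0}) :=
  tsm_cases (G := fun f Z => vR M f Z) hs fun _ k hS hk hks =>
    tsm_vR hS isOpen_ne M hk fun t ht Z hZ => by
      obtain ⟨s, hs', he⟩ := hks t ht
      rw [he]
      exact (hc s hs').pos Z hZ

end P264.Geo

end
end
end

section

section

/-! # P264 / Geo / ChartPD : positivity in charts and on the cone -/

open scoped ContDiff ComplexOrder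
open TopologicalSpace (Opens)
open MeasureTheory Set

noncomputable section

namespace P264.Geo

section pd

variable {m : ℕ}

/-- the real second derivative -/
def pdB (f : Cm m → ℝ) (Z v w : Cm m) : ℝ := fderiv ℝ (fderiv ℝ f) Z v w

theorem pd_sub_diff {f : Cm m → ℝ} {Z : Cm m} (hf : ContDiffAt ℝ 2 f Z) :
    ∀ᶠ Y in nhds Z, DifferentiableAt ℝ f Y := by
  filter_upwards [hf.eventually (by simp)] with Y hY
  exact hY.differentiableAt (by simp)

theorem pd_diff2 {f : Cm m → ℝ} {Z : Cm m} (hf : ContDiffAt ℝ 2 f Z) :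
    DifferentiableAt ℝ (fderiv ℝ f) Z :=
  (hf.fderiv_right (m := 1) (by norm_num)).differentiableAt (by simp)

theorem pdB_symm {f : Cm m → ℝ} {Z : Cm m} (hf : ContDiffAt ℝ 2 f Z) (v w : Cm m) :
    pdB f Z v w = pdB f Z w v :=
  (hf.isSymmSndFDerivAt (by simp)).eq v w

theorem pdB_add_left (f : Cm m → ℝ) (Z v v' w : Cm m) :
    pdB f Z (v + v') w = pdB f Z v w + pdB f Z v' w := by simp [pdB]

theorem pdB_smul_left (f : Cm m → ℝ) (Z v w : Cm m) (c : ℝ) :
    pdB f Z (c • v) w = c * pdB f Z v w := by simp [pdB]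

/-- the first Wirtinger derivative near a point -/
theorem pd_dzb_eq {f : Cm m → ℝ} {Y : Cm m} (hf : DifferentiableAt ℝ f Y) (b : Fin m) :
    dzb b (fun y => (f y : ℂ)) Y =
      ((fderiv ℝ f Y (Pi.single b 1) : ℝ)
        + Complex.I * (fderiv ℝ f Y (Pi.single b Complex.I) : ℝ)) / 2 := by
  have h3 : HasFDerivAt (fun x => ((f x : ℝ) : ℂ)) (Complex.ofRealCLM.comp (fderiv ℝ f Y)) Y :=
    Complex.ofRealCLM.hasFDerivAt.comp Y hf.hasFDerivAt
  rw [dzb, h3.fderiv]
  simp only [ContinuousLinearMap.comp_apply, Complex.ofRealCLM_apply]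

/-- The sesquilinear form of the real second derivative. -/
def pdL (f : Cm m → ℝ) (Z v w : Cm m) : ℂ :=
  ((pdB f Z v w + pdB f Z (Complex.I • v) (Complex.I • w) : ℝ) : ℂ)
    + Complex.I * ((pdB f Z v (Complex.I • w) - pdB f Z (Complex.I • v) w : ℝ) : ℂ)

theorem pd_I_single (a : Fin m) :
    (Complex.I • (Pi.single a 1 : Cm m)) = Pi.single a Complex.I := by
  rw [← Pi.single_smul]
  simp

theorem pd_cHess_apply {f : Cm m → ℝ} {Z : Cm m} (hf : ContDiffAt ℝ 2 f Z) (a b : Fin m) :
    cHess f Z a b = pdL f Z (Pi.single a 1) (Pi.single b 1) / 4 := by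
  have h1 : dzb b (fun y => (f y : ℂ)) =ᶠ[nhds Z] fun Y =>
      ((fderiv ℝ f Y (Pi.single b 1) : ℝ)
        + Complex.I * (fderiv ℝ f Y (Pi.single b Complex.I) : ℝ)) / 2 := by
    filter_upwards [pd_sub_diff hf] with Y hY using pd_dzb_eq hY b
  have hd := pd_diff2 hf
  have key : ∀ w : Cm m, HasFDerivAt (fun Y => ((fderiv ℝ f Y w : ℝ) : ℂ))
      (Complex.ofRealCLM.comp
        ((ContinuousLinearMap.apply ℝ ℝ w).comp (fderiv ℝ (fderiv ℝ f) Z))) Z := by
    intro w
    have := (ContinuousLinearMap.apply ℝ ℝ w).hasFDerivAt.comp Z hd.hasFDerivAt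
    exact Complex.ofRealCLM.hasFDerivAt.comp Z this
  have h2 := ((key (Pi.single b 1)).add ((key (Pi.single b Complex.I)).const_mul
    Complex.I)).mul_const (2⁻¹ : ℂ)
  have h3 : HasFDerivAt (dzb b (fun y => (f y : ℂ))) _ Z :=
    h2.congr_of_eventuallyEq (h1.trans (by
      refine Filter.Eventually.of_forall fun Y => ?_
      simp only [div_eq_mul_inv, Pi.add_apply]))
  simp only [cHess, Matrix.of_apply, dz]
  rw [h3.fderiv]
  simp only [pdL, pdB, pd_I_single, smul_apply, add_apply,
    ContinuousLinearMap.comp_apply, ContinuousLinearMap.apply_apply, Complex.ofRealCLM_apply,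
    smul_eq_mul]
  push_cast
  ring_nf
  simp only [Complex.I_sq]
  ring

theorem pdL_conj {f : Cm m → ℝ} {Z : Cm m} (hf : ContDiffAt ℝ 2 f Z) (v w : Cm m) :
    star (pdL f Z v w) = pdL f Z w v := by
  simp only [pdL, Complex.star_def, map_add, map_mul, Complex.conj_ofReal, Complex.conj_I]
  rw [pdB_symm hf w v, pdB_symm hf (Complex.I • w) (Complex.I • v),
    pdB_symm hf w (Complex.I • v), pdB_symm hf (Complex.I • w) v]
  push_cast
  ring

theorem pdL_add (f : Cm m → ℝ) (Z v v' w : Cm m) :
    pdL f Z (v + v') w = pdL f Z v w + pdL f Z v' w := by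
  simp only [pdL, smul_add, pdB_add_left]
  push_cast
  ring

theorem pdL_smul (f : Cm m → ℝ) (Z v w : Cm m) (c : ℂ) :
    pdL f Z (c • v) w = c * pdL f Z v w := by
  have h1 : c • v = c.re • v + c.im • (Complex.I • v) := by
    ext i
    simp only [Pi.smul_apply, Pi.add_apply, smul_eq_mul, Complex.real_smul]
    linear_combination (-(v i)) * (Complex.re_add_im c)
  have h2 : Complex.I • (c • v) = c.re • (Complex.I • v) + (-c.im) • v := by
    ext i
    simp only [Pi.smul_apply, smul_eq_mul, Pi.add_apply, Complex.real_smul]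
    push_cast
    linear_combination (-(Complex.I * v i)) * (Complex.re_add_im c)
      + (c.im : ℂ) * v i * Complex.I_sq
  simp only [pdL]
  rw [h2, h1]
  simp only [pdB_add_left, pdB_smul_left]
  conv_rhs => rw [← Complex.re_add_im c]
  push_cast
  ring_nf
  simp only [Complex.I_sq]
  ring

/-- as a linear map -/
def pdLin (f : Cm m → ℝ) (Z w : Cm m) : Cm m →ₗ[ℂ] ℂ where
  toFun v := pdL f Z v w
  map_add' v v' := pdL_add f Z v v' w
  map_smul' c v := pdL_smul f Z v w c

theorem pdL_expand (f : Cm m → ℝ) (Z v w : Cm m) :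
    pdL f Z v w = ∑ a, v a * pdL f Z (Pi.single a 1) w := by
  have h := LinearMap.pi_apply_eq_sum_univ (pdLin f Z w) v
  have h2 : ∀ a : Fin m, (fun j => if a = j then (1 : ℂ) else 0) = Pi.single a 1 := by
    intro a
    ext j
    by_cases hj : a = j
    · subst hj; simp
    · rw [if_neg hj, Pi.single_eq_of_ne (Ne.symm hj)]
  simp only [h2, smul_eq_mul] at h
  exact h

theorem pd_form {f : Cm m → ℝ} {Z : Cm m} (hf : ContDiffAt ℝ 2 f Z) (x : Cm m) :
    star x ⬝ᵥ Matrix.mulVec (cHess f Z) x = pdL f Z (star x) (star x) / 4 := by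
  rw [pdL_expand, dotProduct, Finset.sum_div]
  refine Finset.sum_congr rfl fun a _ => ?_
  rw [Matrix.mulVec, dotProduct, ← pdL_conj hf, pdL_expand, star_sum, mul_div_assoc,
    Finset.sum_div]
  congr 1
  refine Finset.sum_congr rfl fun b _ => ?_
  rw [pd_cHess_apply hf, star_mul, pdL_conj hf]
  simp only [Pi.star_apply, RCLike.star_def, RingHomCompTriple.comp_apply, RingHom.id_apply]
  ring

theorem pdL_self {f : Cm m → ℝ} {Z : Cm m} (hf : ContDiffAt ℝ 2 f Z) (v : Cm m) :
    pdL f Z v v = ((pdB f Z v v + pdB f Z (Complex.I • v) (Complex.I • v) : ℝ) : ℂ) := by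
  rw [pdL, pdB_symm hf (Complex.I • v) v]
  simp

theorem pd_herm {f : Cm m → ℝ} {Z : Cm m} (hf : ContDiffAt ℝ 2 f Z) :
    (cHess f Z).IsHermitian := by
  ext a b
  rw [Matrix.conjTranspose_apply, pd_cHess_apply hf, pd_cHess_apply hf, star_div₀, pdL_conj hf]
  simp only [star_ofNat]

/-- Positivity of the complex Hessian in terms of the real second derivative. -/
theorem pd_posDef_iff {f : Cm m → ℝ} {Z : Cm m} (hf : ContDiffAt ℝ 2 f Z) :
    (cHess f Z).PosDef ↔ ∀ v : Cm m, v ≠ 0 →
      0 < pdB f Z v v + pdB f Z (Complex.I • v) (Complex.I • v) := by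
  rw [Matrix.posDef_iff_dotProduct_mulVec]
  have key : ∀ x : Cm m, (0 < star x ⬝ᵥ Matrix.mulVec (cHess f Z) x) ↔
      0 < pdB f Z (star x) (star x) + pdB f Z (Complex.I • star x) (Complex.I • star x) := by
    intro x
    rw [pd_form hf, pdL_self hf]
    have : ((pdB f Z (star x) (star x) + pdB f Z (Complex.I • star x) (Complex.I • star x) : ℝ)
        : ℂ) / 4 = (((pdB f Z (star x) (star x)
          + pdB f Z (Complex.I • star x) (Complex.I • star x)) / 4 : ℝ) : ℂ) := by
      push_cast
      ring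
    rw [this, Complex.zero_lt_real]
    constructor <;> intro h <;> linarith only [h]
  constructor
  · rintro ⟨-, h⟩ v hv
    have := (key (star v)).1 (h (by simpa only [ne_eq, star_eq_zero] using hv))
    simpa only [gt_iff_lt, star_star] using this
  · intro h
    exact ⟨pd_herm hf, fun x hx => (key x).2 (h _ (by simpa only [ne_eq, star_eq_zero] using hx))⟩

/-! ### Affine maps, logarithm, homogeneity -/

theorem pdB_congr {f g : Cm m → ℝ} {Z : Cm m} (h : f =ᶠ[nhds Z] g) (v w : Cm m) :
    pdB f Z v w = pdB g Z v w := by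
  rw [pdB, pdB, h.fderiv.fderiv_eq]

theorem pdB_affine {m' : ℕ} {f : Cm m' → ℝ} (A : Cm m →L[ℝ] Cm m') (b : Cm m') {Z : Cm m}
    (hf : ContDiffAt ℝ 2 f (A Z + b)) (v w : Cm m) :
    pdB (fun Y => f (A Y + b)) Z v w = pdB f (A Z + b) (A v) (A w) := by
  have hg : ∀ Y : Cm m, HasFDerivAt (fun Y => A Y + b) A Y := fun Y =>
    A.hasFDerivAt.add_const b
  have hev : ∀ᶠ Y in nhds Z, DifferentiableAt ℝ f (A Y + b) :=
    (hg Z).continuousAt.eventually (pd_sub_diff hf)
  have h1 : fderiv ℝ (fun Y => f (A Y + b)) =ᶠ[nhds Z] fun Y =>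
      (ContinuousLinearMap.compL ℝ (Cm m) (Cm m') ℝ).flip A (fderiv ℝ f (A Y + b)) := by
    filter_upwards [hev] with Y hY
    exact (hY.hasFDerivAt.comp Y (hg Y)).fderiv
  have h2 : HasFDerivAt (fun Y => (ContinuousLinearMap.compL ℝ (Cm m) (Cm m') ℝ).flip A
      (fderiv ℝ f (A Y + b))) (((ContinuousLinearMap.compL ℝ (Cm m) (Cm m') ℝ).flip A).comp
        ((fderiv ℝ (fderiv ℝ f) (A Z + b)).comp A)) Z :=
    ((ContinuousLinearMap.compL ℝ (Cm m) (Cm m') ℝ).flip A).hasFDerivAt.comp Z
      ((pd_diff2 hf).hasFDerivAt.comp Z (hg Z))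
  rw [pdB, h1.fderiv_eq, h2.fderiv]
  rfl

theorem pdB_const_mul {f : Cm m → ℝ} {Z : Cm m} (hf : ContDiffAt ℝ 2 f Z) (c : ℝ) (v w : Cm m) :
    pdB (fun Y => c * f Y) Z v w = c * pdB f Z v w := by
  have h1 : fderiv ℝ (fun Y => c * f Y) =ᶠ[nhds Z] fun Y => c • fderiv ℝ f Y := by
    filter_upwards [pd_sub_diff hf] with Y hY using fderiv_const_mul hY c
  rw [pdB, h1.fderiv_eq, fderiv_fun_const_smul (pd_diff2 hf)]
  rfl

theorem pd_log {h : Cm m → ℝ} {Z : Cm m} (hh : ContDiffAt ℝ 2 h Z) (h0 : 0 < h Z)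
    (v w : Cm m) :
    pdB (fun Y => Real.log (h Y)) Z v w
      = pdB h Z v w / h Z - fderiv ℝ h Z v * fderiv ℝ h Z w / h Z ^ 2 := by
  have hpos : ∀ᶠ Y in nhds Z, 0 < h Y := hh.continuousAt.eventually (lt_mem_nhds h0)
  have h1 : fderiv ℝ (fun Y => Real.log (h Y)) =ᶠ[nhds Z] fun Y => (h Y)⁻¹ • fderiv ℝ h Y := by
    filter_upwards [pd_sub_diff hh, hpos] with Y hY hp
    exact (hY.hasFDerivAt.log hp.ne').fderiv
  have hd : HasFDerivAt h (fderiv ℝ h Z) Z := (hh.differentiableAt (by simp)).hasFDerivAt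
  have h2 := ((hasDerivAt_inv h0.ne').comp_hasFDerivAt Z hd).fun_smul (pd_diff2 hh).hasFDerivAt
  rw [pdB, h1.fderiv_eq]
  have h3 := h2.fderiv
  simp only [Function.comp_apply] at h3
  rw [h3]
  simp only [add_apply, smul_apply, ContinuousLinearMap.smulRight_apply, smul_eq_mul, pdB]
  field_simp
  ring

/-- Euler relation, real form: `h'(Z)(wZ) = 2 Re(w) h(Z)`. -/
theorem pd_euler1 {h : Cm m → ℝ}
    (hom : ∀ (c : ℂ) Z, Z ≠ 0 → c ≠ 0 → h (c • Z) = ‖c‖ ^ 2 * h Z) {Z : Cm m} (hZ : Z ≠ 0)
    (hd : DifferentiableAt ℝ h Z) (w : ℂ) : fderiv ℝ h Z (w • Z) = 2 * w.re * h Z := by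
  have h1 : HasDerivAt (fun t : ℝ => Z + t • (w • Z)) (w • Z) 0 := by
    simpa using ((hasDerivAt_id (0 : ℝ)).smul_const (w • Z)).const_add Z
  have h2 : HasDerivAt (fun t : ℝ => h (Z + t • (w • Z))) (fderiv ℝ h Z (w • Z)) 0 := by
    have h0 : HasFDerivAt h (fderiv ℝ h Z) (Z + (0 : ℝ) • (w • Z)) := by
      simpa using hd.hasFDerivAt
    exact h0.comp_hasDerivAt (0 : ℝ) h1
  have h3 : (fun t : ℝ => h (Z + t • (w • Z))) =ᶠ[nhds 0] fun t =>
      ((1 + t * w.re) ^ 2 + (t * w.im) ^ 2) * h Z := by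
    have hne : ∀ᶠ t : ℝ in nhds 0, (1 : ℂ) + t * w ≠ 0 := by
      have hc : Continuous fun t : ℝ => (1 : ℂ) + t * w := by fun_prop
      have := hc.continuousAt (x := 0)
      exact this.eventually (isOpen_ne.mem_nhds (by simp))
    filter_upwards [hne] with t ht
    have h4 : Z + t • (w • Z) = ((1 : ℂ) + t * w) • Z := by
      ext i
      simp only [Pi.add_apply, Pi.smul_apply, smul_eq_mul, Complex.real_smul]
      ring
    rw [h4, hom _ _ hZ ht]
    congr 1
    rw [← Complex.normSq_eq_norm_sq, Complex.normSq_apply]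
    simp only [Complex.add_re, Complex.one_re, Complex.mul_re, Complex.ofReal_re, Complex.ofReal_im, zero_mul, sub_zero, Complex.add_im, Complex.one_im, Complex.mul_im, add_zero, zero_add]
    ring
  have h5 : HasDerivAt (fun t : ℝ => ((1 + t * w.re) ^ 2 + (t * w.im) ^ 2) * h Z)
      ((2 * w.re) * h Z) 0 := by
    have ha : HasDerivAt (fun t : ℝ => 1 + t * w.re) w.re 0 := by
      simpa using ((hasDerivAt_id (0 : ℝ)).mul_const w.re).const_add 1
    have hb : HasDerivAt (fun t : ℝ => t * w.im) w.im 0 := by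
      simpa only [id_eq, one_mul] using (hasDerivAt_id (0 : ℝ)).mul_const w.im
    have := ((ha.pow 2).add (hb.pow 2)).mul_const (h Z)
    simpa only [Pi.add_apply, Pi.pow_apply, Nat.cast_ofNat, zero_mul, add_zero, Nat.add_one_sub_one, one_pow,     mul_one, pow_one, mul_zero] using this
  exact h2.unique (h5.congr_of_eventuallyEq h3)

/-- Differentiated Euler relation: `B(v, wZ) = 2 Re(w) h'(v) - h'(w v)`. -/
theorem pd_euler2 {h : Cm m → ℝ} (hsm : ∀ Z : Cm m, Z ≠ 0 → ContDiffAt ℝ 2 h Z)
    (hom : ∀ (c : ℂ) Z, Z ≠ 0 → c ≠ 0 → h (c • Z) = ‖c‖ ^ 2 * h Z) {Z : Cm m} (hZ : Z ≠ 0)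
    (w : ℂ) (v : Cm m) :
    pdB h Z v (w • Z) = 2 * w.re * fderiv ℝ h Z v - fderiv ℝ h Z (w • v) := by
  let S : Cm m →L[ℝ] Cm m := w • ContinuousLinearMap.id ℝ (Cm m)
  have hS : ∀ Y, S Y = w • Y := fun Y => rfl
  have h1 : (fun Y => fderiv ℝ h Y (S Y)) =ᶠ[nhds Z] fun Y => (2 * w.re) * h Y := by
    filter_upwards [isOpen_ne.mem_nhds hZ] with Y hY
    rw [hS]
    exact pd_euler1 hom hY ((hsm Y hY).differentiableAt (by simp)) w
  have h2 : HasFDerivAt (fun Y => fderiv ℝ h Y (S Y))
      ((fderiv ℝ h Z).comp S + (fderiv ℝ (fderiv ℝ h) Z).flip (S Z)) Z :=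
    (pd_diff2 (hsm Z hZ)).hasFDerivAt.clm_apply S.hasFDerivAt
  have h3 : HasFDerivAt (fun Y => (2 * w.re) * h Y) ((2 * w.re) • fderiv ℝ h Z) Z :=
    ((hsm Z hZ).differentiableAt (by simp)).hasFDerivAt.const_mul _
  have h4 := (h2.congr_of_eventuallyEq h1.symm).unique h3
  have h5 := congrArg (fun L : Cm m →L[ℝ] ℝ => L v) h4
  simp only [add_apply, ContinuousLinearMap.comp_apply,
    ContinuousLinearMap.flip_apply, smul_apply, smul_eq_mul, hS] at h5
  rw [pdB]
  linarith only [h5]

/-- `Z` is in the kernel of the Levi form of `log h`. -/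
theorem pdL_log_kernel {h : Cm m → ℝ} (hsm : ∀ Z : Cm m, Z ≠ 0 → ContDiffAt ℝ 2 h Z)
    (pos : ∀ Z, Z ≠ 0 → 0 < h Z)
    (hom : ∀ (c : ℂ) Z, Z ≠ 0 → c ≠ 0 → h (c • Z) = ‖c‖ ^ 2 * h Z) {Z : Cm m} (hZ : Z ≠ 0)
    (v : Cm m) : pdL (fun Y => Real.log (h Y)) Z v Z = 0 := by
  have hd := (hsm Z hZ).differentiableAt (by simp)
  have e1 : ∀ v, pdB h Z v Z = fderiv ℝ h Z v := by
    intro v
    have := pd_euler2 hsm hom hZ 1 v
    simp only [one_smul, Complex.one_re] at this
    linarith only [this]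
  have e2 : ∀ v, pdB h Z v (Complex.I • Z) = - fderiv ℝ h Z (Complex.I • v) := by
    intro v
    have := pd_euler2 hsm hom hZ Complex.I v
    simp only [Complex.I_re] at this
    linarith only [this]
  have e3 : fderiv ℝ h Z Z = 2 * h Z := by
    have := pd_euler1 hom hZ hd 1
    simpa only [one_smul, Complex.one_re, mul_one] using this
  have e4 : fderiv ℝ h Z (Complex.I • Z) = 0 := by
    have := pd_euler1 hom hZ hd Complex.I
    simpa only [Complex.I_re, mul_zero, zero_mul] using this
  have e5 : Complex.I • (Complex.I • v) = -v := by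
    rw [smul_smul, Complex.I_mul_I]; simp
  have h0 := pos Z hZ
  have hl := fun v w => pd_log (hsm Z hZ) h0 v w
  simp only [pdL, hl, e1, e2, e3, e4, e5, map_neg]
  have hne : (h Z : ℂ) ≠ 0 := by exact_mod_cast h0.ne'
  push_cast
  field_simp
  ring

theorem pdL_log_shift {h : Cm m → ℝ} (hsm : ∀ Z : Cm m, Z ≠ 0 → ContDiffAt ℝ 2 h Z)
    (pos : ∀ Z, Z ≠ 0 → 0 < h Z)
    (hom : ∀ (c : ℂ) Z, Z ≠ 0 → c ≠ 0 → h (c • Z) = ‖c‖ ^ 2 * h Z) {Z : Cm m} (hZ : Z ≠ 0)
    (v : Cm m) (t : ℂ) :
    pdL (fun Y => Real.log (h Y)) Z (v + t • Z) (v + t • Z)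
      = pdL (fun Y => Real.log (h Y)) Z v v := by
  have hsl : ContDiffAt ℝ 2 (fun Y => Real.log (h Y)) Z := (hsm Z hZ).log (pos Z hZ).ne'
  have hk := pdL_log_kernel hsm pos hom hZ
  have hk' : ∀ w, pdL (fun Y => Real.log (h Y)) Z Z w = 0 := fun w => by
    rw [← pdL_conj hsl, hk, star_zero]
  have h1 : ∀ w, pdL (fun Y => Real.log (h Y)) Z (v + t • Z) w
      = pdL (fun Y => Real.log (h Y)) Z v w := fun w => by
    rw [pdL_add, pdL_smul, hk', mul_zero, add_zero]
  rw [h1, ← pdL_conj hsl, h1, pdL_conj hsl]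

/-- the real quadratic form `B(v,v) + B(iv,iv)` -/
def pdC (f : Cm m → ℝ) (Z v : Cm m) : ℝ :=
  pdB f Z v v + pdB f Z (Complex.I • v) (Complex.I • v)

theorem pdC_log_shift {h : Cm m → ℝ} (hsm : ∀ Z : Cm m, Z ≠ 0 → ContDiffAt ℝ 2 h Z)
    (pos : ∀ Z, Z ≠ 0 → 0 < h Z)
    (hom : ∀ (c : ℂ) Z, Z ≠ 0 → c ≠ 0 → h (c • Z) = ‖c‖ ^ 2 * h Z) {Z : Cm m} (hZ : Z ≠ 0)
    (v : Cm m) (t : ℂ) :
    pdC (fun Y => Real.log (h Y)) Z (v + t • Z) = pdC (fun Y => Real.log (h Y)) Z v := by
  have hsl : ContDiffAt ℝ 2 (fun Y => Real.log (h Y)) Z := (hsm Z hZ).log (pos Z hZ).ne'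
  have := pdL_log_shift hsm pos hom hZ v t
  rw [pdL_self hsl, pdL_self hsl] at this
  exact_mod_cast this

theorem pdC_log {h : Cm m → ℝ} {Z : Cm m} (hh : ContDiffAt ℝ 2 h Z) (h0 : 0 < h Z)
    (v : Cm m) : pdC (fun Y => Real.log (h Y)) Z v
      = pdC h Z v / h Z - (fderiv ℝ h Z v ^ 2 + fderiv ℝ h Z (Complex.I • v) ^ 2) / h Z ^ 2 := by
  rw [pdC, pdC, pd_log hh h0, pd_log hh h0]
  ring

/-- The linear part of the chart. -/
def pdA {n : ℕ} (k : Fin (n + 1)) : Cm n →L[ℝ] Cm (n + 1) :=
  LinearMap.toContinuousLinearMap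
    { toFun := fun v => k.insertNth (0 : ℂ) v
      map_add' := by
        intro v w
        ext i
        refine Fin.succAboveCases k ?_ (fun j => ?_) i
        · simp
        · simp
      map_smul' := by
        intro c v
        ext i
        refine Fin.succAboveCases k ?_ (fun j => ?_) i
        · simp
        · simp }

theorem pdA_apply {n : ℕ} (k : Fin (n + 1)) (v : Cm n) : pdA k v = k.insertNth (0 : ℂ) v := rfl

theorem pdA_I {n : ℕ} (k : Fin (n + 1)) (v : Cm n) :
    pdA k (Complex.I • v) = Complex.I • pdA k v := by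
  rw [pdA_apply, pdA_apply]
  ext i
  refine Fin.succAboveCases k ?_ (fun j => ?_) i
  · simp
  · simp

theorem pd_chart_eq {n : ℕ} (k : Fin (n + 1)) (z : Cm n) :
    chart k z = pdA k z + Pi.single k 1 := by
  rw [pdA_apply, chart]
  ext i
  refine Fin.succAboveCases k ?_ (fun j => ?_) i
  · simp
  · simp only [Fin.insertNth_apply_succAbove, Pi.add_apply, ne_eq, Fin.succAbove_ne k j, not_false_eq_true, Pi.single_eq_of_ne, add_zero]

theorem pd_chart_self {n : ℕ} (k : Fin (n + 1)) (z : Cm n) : chart k z k = 1 := by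
  simp [chart]

theorem pd_chart_ne {n : ℕ} (k : Fin (n + 1)) (z : Cm n) : chart k z ≠ 0 := by
  intro h
  have := pd_chart_self k z
  rw [h] at this
  simp at this

/-- Positivity in the chart at `z` and on the cone at `chart k z` are equivalent. -/
theorem pd_chart_iff {n : ℕ} {h : Cm (n + 1) → ℝ}
    (hsm : ∀ Z : Cm (n + 1), Z ≠ 0 → ContDiffAt ℝ 2 h Z)
    (pos : ∀ Z, Z ≠ 0 → 0 < h Z)
    (hom : ∀ (c : ℂ) Z, Z ≠ 0 → c ≠ 0 → h (c • Z) = ‖c‖ ^ 2 * h Z) (k : Fin (n + 1))
    (z : Cm n) : (cHess (loc h k) z).PosDef ↔ (cHess h (chart k z)).PosDef := by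
  set Z := chart k z with hZdef
  have hZ : Z ≠ 0 := pd_chart_ne k z
  have hZk : Z k = 1 := pd_chart_self k z
  have h0 := pos Z hZ
  have hd := (hsm Z hZ).differentiableAt (by simp)
  have hsl : ContDiffAt ℝ 2 (fun Y => Real.log (h Y)) Z := (hsm Z hZ).log h0.ne'
  have hloc : loc h k = fun y => (fun Y => Real.log (h Y)) (pdA k y + Pi.single k 1) := by
    funext y
    simp only [loc, pd_chart_eq]
  have hZ' : pdA k z + Pi.single k 1 = Z := (pd_chart_eq k z).symm
  have hsl' : ContDiffAt ℝ 2 (fun Y => Real.log (h Y)) (pdA k z + Pi.single k 1) := by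
    rw [hZ']; exact hsl
  have hsloc : ContDiffAt ℝ 2 (loc h k) z := by
    rw [hloc]
    exact hsl'.comp z ((pdA k).contDiff.add contDiff_const).contDiffAt
  have hform : ∀ v, pdC (loc h k) z v = pdC (fun Y => Real.log (h Y)) Z (pdA k v) := by
    intro v
    rw [pdC, pdC, hloc, pdB_affine (pdA k) (Pi.single k 1) hsl',
      pdB_affine (pdA k) (Pi.single k 1) hsl', hZ', pdA_I]
  have e1 : ∀ t : ℂ, fderiv ℝ h Z (t • Z) = 2 * t.re * h Z := pd_euler1 hom hZ hd
  have hA0 : ∀ v : Cm n, v ≠ 0 → pdA k v ≠ 0 := by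
    intro v hv h1
    apply hv
    ext j
    have := congrFun h1 (k.succAbove j)
    simpa only [Pi.zero_apply, pdA_apply, Fin.insertNth_apply_succAbove] using this
  have hAk : ∀ v : Cm n, pdA k v k = 0 := fun v => by simp [pdA_apply]
  rw [pd_posDef_iff hsloc, pd_posDef_iff (hsm Z hZ)]
  change (∀ v, v ≠ 0 → 0 < pdC (loc h k) z v) ↔ (∀ v, v ≠ 0 → 0 < pdC h Z v)
  constructor
  · intro H v hv
    set t : ℂ := v k with ht
    set x : Cm n := fun i => v (k.succAbove i) - t * Z (k.succAbove i) with hx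
    have hvx : v = pdA k x + t • Z := by
      ext i
      refine Fin.succAboveCases k ?_ (fun j => ?_) i
      · simp only [pdA_apply, ht, Pi.add_apply, Fin.insertNth_apply_same, Pi.smul_apply, hZk, smul_eq_mul, mul_one, zero_add]
      · simp [pdA_apply, hx]
    have hC : pdC h Z v = h Z * (pdC (fun Y => Real.log (h Y)) Z v
        + (fderiv ℝ h Z v ^ 2 + fderiv ℝ h Z (Complex.I • v) ^ 2) / h Z ^ 2) := by
      rw [pdC_log (hsm Z hZ) h0]
      field_simp
      ring
    rw [hC]
    apply mul_pos h0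
    have hC2 : pdC (fun Y => Real.log (h Y)) Z v = pdC (loc h k) z x := by
      conv_lhs => rw [hvx]
      rw [pdC_log_shift hsm pos hom hZ, hform]
    rw [hC2]
    by_cases hx0 : x = 0
    · have h1 : pdC (loc h k) z x = 0 := by simp [hx0, pdC, pdB]
      have h2 : v = t • Z := by rw [hvx, hx0]; simp only [map_zero, zero_add]
      have h3 : fderiv ℝ h Z v = 2 * t.re * h Z := by rw [h2, e1]
      have h4 : fderiv ℝ h Z (Complex.I • v) = -(2 * t.im * h Z) := by
        rw [h2, smul_smul, e1]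
        simp
      rw [h1, h3, h4, zero_add]
      apply div_pos _ (by (clear * - h0; positivity))
      have ht0 : t ≠ 0 := by
        rintro h5
        apply hv
        rw [h2, h5, zero_smul]
      have h6 : 0 < t.re ^ 2 + t.im ^ 2 := by
        have := Complex.normSq_pos.2 ht0
        rw [Complex.normSq_apply] at this
        linarith only [this]
      have h7 : (2 * t.re * h Z) ^ 2 + (-(2 * t.im * h Z)) ^ 2
          = 4 * (h Z) ^ 2 * (t.re ^ 2 + t.im ^ 2) := by ring
      rw [h7]
      (clear * - h0 h6; positivity)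
    · have := H x hx0
      (clear * - this h0; positivity)
  · intro H x hx
    set v := pdA k x with hv
    set t : ℂ := ⟨-(fderiv ℝ h Z v / (2 * h Z)), fderiv ℝ h Z (Complex.I • v) / (2 * h Z)⟩ with ht
    set ξ := v + t • Z with hξ
    have hξ0 : ξ ≠ 0 := by
      intro h1
      have h2 := congrFun h1 k
      rw [hξ] at h2
      simp only [hv, Pi.add_apply, hAk, Pi.smul_apply, hZk, smul_eq_mul, Pi.zero_apply] at h2
      have h3 : t = 0 := by simpa using h2
      apply hA0 x hx
      rw [hξ, h3, zero_smul, add_zero] at h1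
      exact h1
    have h1 : fderiv ℝ h Z ξ = 0 := by
      rw [hξ, map_add, e1, ht]
      simp only
      field_simp
      ring
    have h2 : fderiv ℝ h Z (Complex.I • ξ) = 0 := by
      rw [hξ, smul_add, map_add, smul_smul, e1]
      have : (Complex.I * t).re = -(fderiv ℝ h Z (Complex.I • v) / (2 * h Z)) := by
        simp only [ht, Complex.mul_re, Complex.I_re, mul_neg, zero_mul, neg_zero, Complex.I_im, one_mul, zero_sub]
      rw [this]
      field_simp
      ring
    have h3 : pdC (loc h k) z x = pdC h Z ξ / h Z := by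
      rw [hform, ← pdC_log_shift hsm pos hom hZ (pdA k x) t, ← hv, ← hξ,
        pdC_log (hsm Z hZ) h0, h1, h2]
      simp
    rw [h3]
    exact div_pos (H ξ hξ0) h0

/-- Scaling of the complex Hessian. -/
theorem pd_scale {h : Cm m → ℝ}
    (hsm : ∀ Z : Cm m, Z ≠ 0 → ContDiffAt ℝ 2 h Z)
    (hom : ∀ (c : ℂ) Z, Z ≠ 0 → c ≠ 0 → h (c • Z) = ‖c‖ ^ 2 * h Z) {Z : Cm m} (hZ : Z ≠ 0)
    {c : ℂ} (hc : c ≠ 0) (H : (cHess h Z).PosDef) : (cHess h (c • Z)).PosDef := by
  have hcZ : c • Z ≠ 0 := smul_ne_zero hc hZ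
  let S : Cm m →L[ℝ] Cm m := c • ContinuousLinearMap.id ℝ (Cm m)
  have hS : ∀ Y, S Y = c • Y := fun Y => rfl
  have hSZ : ContDiffAt ℝ 2 h (S Z + 0) := by rw [hS, add_zero]; exact hsm _ hcZ
  have h1 : (fun Y => h (S Y + 0)) =ᶠ[nhds Z] fun Y => ‖c‖ ^ 2 * h Y := by
    filter_upwards [isOpen_ne.mem_nhds hZ] with Y hY
    rw [hS, add_zero, hom c Y hY hc]
  have hB : ∀ v w, pdB h (c • Z) (c • v) (c • w) = ‖c‖ ^ 2 * pdB h Z v w := by
    intro v w
    have h2 := pdB_affine S 0 hSZ v w
    rw [pdB_congr h1, pdB_const_mul (hsm Z hZ), hS, hS, hS, add_zero] at h2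
    exact h2.symm
  rw [pd_posDef_iff (hsm _ hcZ)]
  rw [pd_posDef_iff (hsm _ hZ)] at H
  intro v hv
  have hv2 : v = c • (c⁻¹ • v) := by rw [smul_smul, mul_inv_cancel₀ hc, one_smul]
  have h3 := H (c⁻¹ • v) (smul_ne_zero (inv_ne_zero hc) hv)
  have h4 : Complex.I • v = c • (Complex.I • (c⁻¹ • v)) := by
    rw [smul_smul, smul_smul, mul_comm c Complex.I, mul_assoc, mul_inv_cancel₀ hc, mul_one]
  rw [h4]
  conv_rhs =>
    arg 1
    rw [hv2]
  rw [hB, hB, ← mul_add]
  have : 0 < ‖c‖ := norm_pos_iff.2 hc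
  (clear * - hc h3; positivity)

end pd

variable {n : ℕ}

/-- Positivity in the charts implies positivity on the cone: for `Z` with `Z_k ≠ 0` (scale to
`Z_k = 1`), `ξ = ξ_k Z + η` with `η_k = 0`, `H(ξ,ξ) = |∂h(ξ)|²/h + h G(η,η)`. -/
theorem isCone_of_isKahler {h : Cm (n + 1) → ℝ} (hh : IsKahler n h) : IsCone (n + 1) h := by
  have hsm : ∀ Z : Cm (n + 1), Z ≠ 0 → ContDiffAt ℝ 2 h Z := fun Z hZ =>
    (hh.smooth.contDiffAt (isOpen_ne.mem_nhds hZ)).of_le (WithTop.coe_le_coe.2 le_top)
  refine ⟨hh.smooth, hh.pos, hh.homog, fun Z hZ => ?_⟩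
  obtain ⟨k, hk⟩ : ∃ k, Z k ≠ 0 := by
    by_contra hc
    push Not at hc
    exact hZ (funext hc)
  set z : Cm n := fun i => (Z k)⁻¹ * Z (k.succAbove i) with hz
  have h1 : Z = Z k • chart k z := by
    ext i
    refine Fin.succAboveCases k ?_ (fun j => ?_) i
    · simp [chart]
    · simp only [chart, hz, Pi.smul_apply, Fin.insertNth_apply_succAbove, smul_eq_mul, ne_eq, hk, not_false_eq_true, mul_inv_cancel_left₀]
  rw [h1]
  exact pd_scale hsm hh.homog (pd_chart_ne k z) hk
    ((pd_chart_iff hsm hh.pos hh.homog k z).1 (hh.posDef k z))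

end P264.Geo

end
end
end

section

section

/-!
# P264 / H3 / TabData : tables for the Green kernel bound `bsq` (helper288)

`mtab` : lower bounds (times `2^48`) of `rh8` on `[y_j, ∞)`, for the 120 cells of `rcells8.tail`
and for `y ≥ 256`; `ttab` : upper bounds (times `2^40`) of `√(bsq)` on the 120 cells.
-/

namespace P264.H3

/-- lower bounds of `rh8`, times `2^48` -/
def mtab : List ℤ := [
  281467635654656, 281467635654656, 281467635654656, 281467897286656, 281526248796160, 282007144279040,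
  282421710097408, 283084745328640, 284108966598656, 285644587347968, 287887958984704, 291376371693568,
  293475492405760, 295944857558272, 298837334493184, 302211661680896, 306132925130240, 310673057627904,
  315911365975040, 321935082693888, 328839944977152, 336730801826048, 345722247395840, 355939285248512,
  367518018772224, 380606374337280, 395364852599040, 411967311301632, 430601779493376, 451471302677248,
  474794822084608, 500808083787008, 529764584099072, 561936545710592, 597615930045184, 637115482363392,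
  680769811927552, 728936505943296, 781997281001216, 840359166469376, 904455725002496, 974748307228416,
  1051727343309312, 1135913665886208, 1227859872196352, 1328151716765696, 1437409540712960, 1547901452149760,
  1816140521081856, 2131581142926336, 2500918614884352, 2931575676952576, 3431756277024768, 4010500706744320,
  4677741777751040, 5444361656869888, 6322248877007872, 7324354962784256, 8464749998964736, 9758676358577152,
  11222599684899840, 12874256079906816, 14732694314740736, 16818311716935680, 19152882228627456, 21759574983211008,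
  24662961561380864, 27601121202282496, 35085821700325376, 44203105872601088, 55207210828218368, 68367766905204736,
  83964072010895360, 102277284750794752, 123580205208449024, 148124964027793408, 176128784499236864, 207758470556389376,
  243111489990332416, 279556590585118720, 369052681868214272, 471587837943087104, 583676794894368768, 700059046636519424,
  815862046017912832, 927195199176867840, 1030533060570939392, 1123608118564159488, 1205355855531737088, 1275780444682715136,
  1335532391914962944, 1385658284390760448, 1427372644568989696, 1461901973256224768, 1490392088407441408, 1513863026722734080,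
  1533194164256636928, 1549127294039621632, 1562278961357520896, 1573156533903556608, 1589671681328152576, 1601147532430278656,
  1609217949106962432, 1614963490370355200, 1619103647656574976, 1622122058772905984, 1624347361147355136, 1626005422816886784,
  1627253268810825728, 1628201300985380864, 1628927993630162944, 1629489715255181312, 1630758568837775360, 1631276013995163648,
  1631618193085169664, 1631705653556019200, 1631733007647768576, 1631746986357555200, 1631749660619046912, 1631750089478045696,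
  1631750695880753152
  ]

/-- upper bounds of `√bsq`, times `2^40` -/
def ttab : List ℤ := [
  569275413663, 620819411385, 633343667141, 620269373475, 589674751894, 527337358054,
  505262927547, 481575671290, 456733852737, 431154795262, 405218311353, 374243939512,
  361656018691, 349160471475, 336791551155, 324581220373, 312559095132, 300752385422,
  289185836690, 277881676533, 266859571022, 256136594996, 245727220365, 235643325950,
  225894231692, 216486759159, 207425319185, 198712026347, 190346838766, 182327720643,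
  174650823945, 167310684929, 160300430737, 153611991090, 147236310260, 141163554847,
  135383313472, 129884785199, 124656954291, 119688749674, 114969188233, 110487501696,
  106233247411, 102196403706, 98367450827, 94737438570, 91298041798, 88642578523,
  82594414154, 77191589798, 72368201343, 68064643268, 64227255035, 60807869177,
  57763320807, 55054957921, 52648176594, 50511994117, 48618665534, 46943344035,
  45463782561, 44160072352, 43014413482, 42010912421, 41135402103, 40375280590,
  39719365156, 39499754950, 38605813159, 37989390499, 37591312636, 37364653501,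
  37272419420, 37285579368, 37381424911, 37542231109, 37754180822, 38006511444,
  38290844368, 39068565258, 39731371255, 40445791267, 41189417068, 41948084408,
  42712769543, 43477685386, 44239111778, 44994672056, 45742873579, 46482810314,
  47213967881, 47936094477, 48649114478, 49353070052, 50048081387, 50734319426,
  51411987093, 52081306324, 52742509111, 54043077149, 55311927572, 56553001493,
  57767873353, 58958024632, 60124833103, 61269572522, 62393417362, 63497449722,
  64582666963, 65649989302, 66700267004, 70746155454, 74572593151, 81689987062,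
  88235121467, 94327273451, 105461082744, 115526818497, 124783224063, 133398877342
  ]

end P264.H3
end
end

section

section

/-!
# P264 / B / Far / Bootstrap : abstract bootstrap (D15a)
-/

open Set Filter Topology

namespace P264.B

/-- (D15a) Abstract bootstrap with one scalar and one family over a compact set. -/
theorem bootstrap_compact {s₀ σ Ns M : ℝ} {f : ℝ → ℝ} {e : ℝ × ℝ → ℝ} {K : Set (ℝ × ℝ)}
    (hK : IsCompact K) (hKs : ∀ p ∈ K, p.2 ∈ Icc s₀ σ)
    (hf : ContinuousOn f (Icc s₀ σ)) (he : ContinuousOn e K)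
    (hstep : ∀ s ∈ Icc s₀ σ, (∀ s' ∈ Ico s₀ s, f s' ≤ Ns ∧ ∀ c, (c, s') ∈ K → e (c, s') ≤ M) →
      f s < Ns ∧ ∀ c, (c, s) ∈ K → e (c, s) < M) :
    ∀ s ∈ Icc s₀ σ, f s < Ns ∧ ∀ c, (c, s) ∈ K → e (c, s) < M := by
  have hB1 : IsCompact (Icc s₀ σ ∩ f ⁻¹' Ici Ns) :=
    isCompact_Icc.of_isClosed_subset
      (hf.preimage_isClosed_of_isClosed isClosed_Icc isClosed_Ici) inter_subset_left
  have hB2 : IsCompact (K ∩ e ⁻¹' Ici M) :=
    hK.of_isClosed_subset
      (he.preimage_isClosed_of_isClosed hK.isClosed isClosed_Ici) inter_subset_left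
  have hB : IsCompact ((Icc s₀ σ ∩ f ⁻¹' Ici Ns) ∪ Prod.snd '' (K ∩ e ⁻¹' Ici M)) :=
    hB1.union (hB2.image continuous_snd)
  set B : Set ℝ := (Icc s₀ σ ∩ f ⁻¹' Ici Ns) ∪ Prod.snd '' (K ∩ e ⁻¹' Ici M) with hBdef
  have hgood : ∀ s ∈ Icc s₀ σ, s ∉ B → f s < Ns ∧ ∀ c, (c, s) ∈ K → e (c, s) < M := by
    intro s hs hsB
    refine ⟨?_, ?_⟩
    · by_contra hcon
      exact hsB (Or.inl ⟨hs, not_lt.1 hcon⟩)
    · intro c hc
      by_contra hcon
      exact hsB (Or.inr ⟨(c, s), ⟨hc, not_lt.1 hcon⟩, rfl⟩)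
  have hempty : ¬ B.Nonempty := by
    intro hne
    obtain ⟨s, hsB, hmin⟩ := hB.exists_isLeast hne
    have hsI : s ∈ Icc s₀ σ := by
      rcases hsB with h | ⟨p, hp, rfl⟩
      · exact h.1
      · exact hKs p hp.1
    obtain ⟨h1, h2⟩ := hstep s hsI (by
      intro s' hs'
      have hs'B : s' ∉ B := fun h => absurd (hmin h) (not_le.2 hs'.2)
      obtain ⟨g1, g2⟩ := hgood s' ⟨hs'.1, hs'.2.le.trans hsI.2⟩ hs'B
      exact ⟨g1.le, fun c hc => (g2 c hc).le⟩)
    rcases hsB with h | ⟨p, hp, hps⟩
    · exact absurd h.2 (not_le.2 h1)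
    · obtain ⟨c, t⟩ := p
      simp only at hps
      subst hps
      exact absurd hp.2 (not_le.2 (h2 c hp.1))
  intro s hs
  exact hgood s hs fun h => hempty ⟨s, h⟩

end P264.B
end
end

section

section

/-!
# P264 / B / Far / BlockCont : joint continuity of the block energy (D3')
-/

open MeasureTheory Set Filter Real
open scoped ContDiff Topology

namespace P264.B

open Aa

variable {R χ : ℝ → ℝ} {Rmin α : ℝ} {T X s z : ℝ} {U₀ : ℝ → ℝ} {U φ : ℝ → ℝ → ℝ}

/-- Jets of `GG` in the region where `χ = 1`. -/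
theorem om_GG_far (hR : Profile R Rmin α) (hφ : IsFlowU 8 T U₀ U φ) (hχ : Cutoff χ X)
    (hs : exp (-s) ≤ T) (hz : xx s z < X / 2) :
    om (GG χ R φ T s) z = (hj T φ s 2 z - 3 * hj T φ s 1 z + 2 * hj T φ s 0 z) - om R z := by
  have hX1 : X / 2 < 1 := by have := hχ.X_lt; have := hχ.X_pos; linarith
  have hV : IsOpen {y : ℝ | xx s y < X / 2} :=
    isOpen_lt (by unfold xx; fun_prop) continuous_const
  have h0 : ∀ y ∈ {y : ℝ | xx s y < X / 2}, GG χ R φ T s y = hj T φ s 0 y - R y := by
    intro y hy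
    have hy' : xx s y ≤ X / 2 := le_of_lt hy
    rw [GG, hχ.one _ hy', one_mul]
    rfl
  have hRd : Differentiable ℝ R := hR.smooth.differentiable (by norm_num)
  have hRd2 : Differentiable ℝ (deriv R) := by
    have h : ContDiff ℝ 3 (deriv R) := by
      have := hR.smooth
      exact ((contDiff_succ_iff_deriv (n := 3)).1 (by norm_num; exact this)).2.2
    exact h.differentiable (by norm_num)
  have h1 : ∀ y ∈ {y : ℝ | xx s y < X / 2}, deriv (GG χ R φ T s) y = hj T φ s 1 y - deriv R y := by
    intro y hy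
    have e : GG χ R φ T s =ᶠ[𝓝 y] fun y => hj T φ s 0 y - R y := by
      filter_upwards [hV.mem_nhds hy] with w hw
      exact h0 w hw
    rw [e.deriv_eq]
    have hy1 : xx s y < 1 := lt_trans hy hX1
    exact ((hj_hasDerivAt hφ hs le_rfl hy1 (k := 0) (by norm_num)).sub (hRd y).hasDerivAt).deriv
  have h2 : deriv (deriv (GG χ R φ T s)) z = hj T φ s 2 z - deriv (deriv R) z := by
    have e : deriv (GG χ R φ T s) =ᶠ[𝓝 z] fun y => hj T φ s 1 y - deriv R y := by
      filter_upwards [hV.mem_nhds hz] with w hw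
      exact h1 w hw
    rw [e.deriv_eq]
    have hy1 : xx s z < 1 := lt_trans hz hX1
    exact ((hj_hasDerivAt hφ hs le_rfl hy1 (k := 1) (by norm_num)).sub (hRd2 z).hasDerivAt).deriv
  unfold om
  rw [iteratedDeriv_two', iteratedDeriv_two', iteratedDeriv_one, iteratedDeriv_one, h2, h1 z hz,
    h0 z hz]
  ring

/-- Continuity of parametric interval integrals on a closed set of `ℝ × ℝ`. -/
theorem continuousOn_integral_closed {S : Set (ℝ × ℝ)} (hS : IsClosed S) {f : ℝ × ℝ → ℝ → ℝ}
    {a b : ℝ} (hab : a ≤ b)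
    (hf : ContinuousOn (fun q : (ℝ × ℝ) × ℝ => f q.1 q.2) (S ×ˢ Icc a b)) :
    ContinuousOn (fun q => ∫ u in a..b, f q u) S := by
  intro p hp
  have hK : IsCompact (S ∩ Metric.closedBall p 1) := (isCompact_closedBall p 1).inter_left hS
  have h1 := P264.Cal.continuousOn_integral hK hab
    (hf.mono (prod_mono_left inter_subset_left)) p ⟨hp, Metric.mem_closedBall_self zero_le_one⟩
  exact h1.mono_of_mem_nhdsWithin
    (inter_mem self_mem_nhdsWithin
      (mem_nhdsWithin_of_mem_nhds (Metric.closedBall_mem_nhds p one_pos)))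

/-- **(D3')** Joint continuity of the block energy. -/
theorem blockE_cont (hR : Profile R Rmin α) {U₀ : ℝ → ℝ} {U φ : ℝ → ℝ → ℝ} {T X : ℝ}
    (hφ : IsFlowU 8 T U₀ U φ) (hT : 0 < T) (hχ : Cutoff χ X) :
    ContinuousOn (fun p : ℝ × ℝ => blockE χ R φ T p.1 p.2)
      {p | exp (-p.2) ≤ T ∧ exp (p.1 + 1) ≤ X / 2} := by
  set S : Set (ℝ × ℝ) := {p | exp (-p.2) ≤ T ∧ exp (p.1 + 1) ≤ X / 2} with hSdef
  have hX1 : X / 2 < 1 := by have := hχ.X_lt; have := hχ.X_pos; linarith
  have hSc : IsClosed S := by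
    have h1 : IsClosed {p : ℝ × ℝ | exp (-p.2) ≤ T} := isClosed_le (by fun_prop) continuous_const
    have h2 : IsClosed {p : ℝ × ℝ | exp (p.1 + 1) ≤ X / 2} :=
      isClosed_le (by fun_prop) continuous_const
    exact h1.inter h2
  have hxx : ∀ c s u : ℝ, xx s (c + s / 2 + u) = exp (c + u) := by
    intro c s u
    unfold xx
    congr 1
    ring
  -- the integrand in terms of jets
  set F : (ℝ × ℝ) × ℝ → ℝ := fun q =>
    (exp (q.1.1 + q.2) * dx T 2 (fun p : ℝ × ℝ => φ p.1 p.2) (tt T q.1.2, exp (q.1.1 + q.2))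
      - 4 * dx T 1 (fun p : ℝ × ℝ => φ p.1 p.2) (tt T q.1.2, exp (q.1.1 + q.2))
      + 6 * (dx T 0 (fun p : ℝ × ℝ => φ p.1 p.2) (tt T q.1.2, exp (q.1.1 + q.2))
        / exp (q.1.1 + q.2)))
      - om R (q.1.1 + q.1.2 / 2 + q.2) with hFdef
  have hJ : ∀ k, ContinuousOn (fun q : (ℝ × ℝ) × ℝ =>
      dx T k (fun p : ℝ × ℝ => φ p.1 p.2) (tt T q.1.2, exp (q.1.1 + q.2))) (S ×ˢ Icc (-1) 1) := by
    intro k
    have hc : Continuous fun q : (ℝ × ℝ) × ℝ => ((tt T q.1.2, exp (q.1.1 + q.2)) : ℝ × ℝ) := by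
      unfold tt
      fun_prop
    refine (smooth_dx hT hφ.sφ k).continuousOn.comp hc.continuousOn ?_
    rintro ⟨⟨c, s⟩, u⟩ ⟨⟨h1, h2⟩, h3⟩
    refine ⟨tt_mem h1 le_rfl, (exp_pos _).le, ?_⟩
    have h4 : exp (c + u) ≤ exp (c + 1) := exp_le_exp.2 (by have := h3.2; simp only at this; linarith only [this])
    simp only at h2 ⊢
    linarith only [hX1, h2, h4]
  have hE : Continuous fun q : (ℝ × ℝ) × ℝ => exp (q.1.1 + q.2) := by fun_prop
  have hoR : Continuous (om R) := (om_contDiff hR.smooth).continuous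
  have hF : ContinuousOn F (S ×ˢ Icc (-1) 1) := by
    refine (((hE.continuousOn.mul (hJ 2)).sub (continuousOn_const.mul (hJ 1))).add
      (continuousOn_const.mul ((hJ 0).div hE.continuousOn fun q _ => (exp_pos _).ne'))).sub ?_
    exact (hoR.comp (by fun_prop : Continuous fun q : (ℝ × ℝ) × ℝ =>
      q.1.1 + q.1.2 / 2 + q.2)).continuousOn
  have hfin : ContinuousOn (fun q : ℝ × ℝ => ∫ u in (-1 : ℝ)..1, (1 - u ^ 2) ^ 4 * F (q, u) ^ 2)
      S := by
    apply continuousOn_integral_closed hSc (by norm_num)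
      (f := fun q u => (1 - u ^ 2) ^ 4 * F (q, u) ^ 2)
    exact (by fun_prop : Continuous fun q : (ℝ × ℝ) × ℝ => (1 - q.2 ^ 2) ^ 4).continuousOn.mul
      (hF.pow 2)
  refine hfin.congr ?_
  rintro ⟨c, s⟩ ⟨h1, h2⟩
  simp only at h1 h2
  simp only [blockE]
  apply intervalIntegral.integral_congr
  intro u hu
  rw [uIcc_of_le (by norm_num)] at hu
  simp only
  rcases eq_or_lt_of_le hu.2 with h | h
  · rw [h]; norm_num
  · have h3 : xx s (c + s / 2 + u) < X / 2 := by
      rw [hxx]
      exact lt_of_lt_of_le (exp_lt_exp.2 (by linarith only [h])) h2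
    rw [om_GG_far hR hφ hχ h1 h3]
    simp only [hj_e0, hj_e1, hj_e2, hFdef, hxx]
    ring

end P264.B
end
end

section

section

/-! # P264 / Geo / TimeDefs : the flow in cone form -/

open scoped ContDiff ComplexOrder
open TopologicalSpace (Opens)
open MeasureTheory Set

noncomputable section

namespace P264.Geo

variable {m : ℕ}

/-- Calabi flow in cone form, `∂_t h = h σ(h)`. -/
structure ConeFlow (m : ℕ) (T : ℝ) (h : ℝ → Cm m → ℝ) : Prop where
  smooth : ContDiffOn ℝ ∞ (fun p : ℝ × Cm m => h p.1 p.2) (Icc 0 T ×ˢ {Z | Z ≠ 0})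
  cone : ∀ t ∈ Icc 0 T, IsCone m (h t)
  flow : ∀ t ∈ Icc 0 T, ∀ Z, Z ≠ 0 →
    HasDerivWithinAt (fun s => h s Z) (h t Z * sigR (h t) Z) (Icc 0 T) t

end P264.Geo

end
end
end

section

section

/-! # P264 / Geo / TimeDet : time derivative of the volume density -/

open scoped ContDiff ComplexOrder
open TopologicalSpace (Opens)
open MeasureTheory Set

noncomputable section

namespace P264.Geo

variable {m : ℕ}

/-- `(0,T) × (ℂᵐ ∖ 0)` -/
def tdO (m : ℕ) (T : ℝ) : Opens (ℝ × Cm m) :=
  ⟨Ioo 0 T ×ˢ {Z | Z ≠ 0}, isOpen_Ioo.prod isOpen_ne⟩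

theorem td_mem {T : ℝ} {s : ℝ} (hs : s ∈ Ioo 0 T) {Z : Cm m} (hZ : Z ≠ 0) :
    ((s, Z) : ℝ × Cm m) ∈ tdO m T := ⟨hs, hZ⟩

theorem td_slice_smooth {T : ℝ} {s : ℝ} (hs : s ∈ Ioo 0 T) (F : Sm (tdO m T)) :
    ContDiffOn ℝ ∞ (fun Z : Cm m => Sm.fn F (s, Z)) (Om m) := by
  have h1 : ContDiffOn ℝ ∞ (fun Z : Cm m => ((s, Z) : ℝ × Cm m)) (Om m) :=
    contDiffOn_const.prodMk contDiffOn_id
  exact (Sm.fn_smooth F).comp h1 fun Z hZ => td_mem hs hZ

/-- restriction to the slice `{s} × (ℂᵐ ∖ 0)` -/
def tdSl {T : ℝ} {s : ℝ} (hs : s ∈ Ioo 0 T) : Sm (tdO m T) →ₐ[ℂ] SA m where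
  toFun F := Sm.mk (fun Z => Sm.fn F (s, Z)) (td_slice_smooth hs F)
  map_one' := by
    apply Sm.ext'
    intro x hx
    rw [Sm.mk_fn _ _ hx, Sm.fn_one hx, Sm.fn_one (td_mem hs hx)]
  map_mul' := by
    intro F G
    apply Sm.ext'
    intro x hx
    rw [Sm.fn_mul _ _ hx, Sm.mk_fn _ _ hx, Sm.mk_fn _ _ hx, Sm.mk_fn _ _ hx,
      Sm.fn_mul _ _ (td_mem hs hx)]
  map_zero' := by
    apply Sm.ext'
    intro x hx
    rw [Sm.mk_fn _ _ hx, Sm.fn_zero hx, Sm.fn_zero (td_mem hs hx)]
  map_add' := by
    intro F G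
    apply Sm.ext'
    intro x hx
    rw [Sm.fn_add _ _ hx, Sm.mk_fn _ _ hx, Sm.mk_fn _ _ hx, Sm.mk_fn _ _ hx,
      Sm.fn_add _ _ (td_mem hs hx)]
  commutes' := by
    intro c
    apply Sm.ext'
    intro x hx
    rw [Sm.mk_fn _ _ hx, Algebra.algebraMap_eq_smul_one, Algebra.algebraMap_eq_smul_one,
      Sm.fn_smul _ _ hx, Sm.fn_smul _ _ (td_mem hs hx), Sm.fn_one hx, Sm.fn_one (td_mem hs hx)]

theorem tdSl_fn {T : ℝ} {s : ℝ} (hs : s ∈ Ioo 0 T) (F : Sm (tdO m T)) {Z : Cm m} (hZ : Z ≠ 0) :
    Sm.fn (tdSl hs F) Z = Sm.fn F (s, Z) := Sm.mk_fn _ (td_slice_smooth hs F) hZ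

theorem tdSl_D {T : ℝ} {s : ℝ} (hs : s ∈ Ioo 0 T) (F : Sm (tdO m T)) (v : Cm m) :
    tdSl hs (Sm.D ((0, v) : ℝ × Cm m) F) = Sm.D v (tdSl hs F) := by
  apply Sm.ext'
  intro Z hZ
  rw [tdSl_fn hs _ hZ, Sm.D_fn _ _ (td_mem hs hZ), Sm.D_fn _ _ hZ]
  have h1 : Sm.fn (tdSl hs F) =ᶠ[nhds Z] fun Y => Sm.fn F (s, Y) :=
    Sm.mk_eventuallyEq _ (td_slice_smooth hs F) hZ
  rw [h1.fderiv_eq]
  have h2 : HasFDerivAt (Sm.fn F) (fderiv ℝ (Sm.fn F) (s, Z)) (s, Z) :=
    (Sm.differentiableAt F (td_mem hs hZ)).hasFDerivAt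
  have h3 : HasFDerivAt (fun Y : Cm m => ((s, Y) : ℝ × Cm m))
      ((0 : Cm m →L[ℝ] ℝ).prod (ContinuousLinearMap.id ℝ (Cm m))) Z :=
    (hasFDerivAt_const s Z).prodMk (hasFDerivAt_id Z)
  have h4 := h2.comp Z h3
  have h5 : HasFDerivAt (fun Y : Cm m => Sm.fn F (s, Y)) ((fderiv ℝ (Sm.fn F) (s, Z)).comp
      ((0 : Cm m →L[ℝ] ℝ).prod (ContinuousLinearMap.id ℝ (Cm m)))) Z := h4
  rw [h5.fderiv]
  simp

/-- `∂_a` in space -/
def tdd {T : ℝ} (a : Fin m) : Derivation ℂ (Sm (tdO m T)) (Sm (tdO m T)) :=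
  (1 / 2 : ℂ) • (Sm.D (0, Pi.single a 1) - Complex.I • Sm.D (0, Pi.single a Complex.I))

/-- `∂̄_a` in space -/
def tdb {T : ℝ} (a : Fin m) : Derivation ℂ (Sm (tdO m T)) (Sm (tdO m T)) :=
  (1 / 2 : ℂ) • (Sm.D (0, Pi.single a 1) + Complex.I • Sm.D (0, Pi.single a Complex.I))

theorem tdSl_dd {T : ℝ} {s : ℝ} (hs : s ∈ Ioo 0 T) (a : Fin m) (F : Sm (tdO m T)) :
    tdSl hs (tdd a F) = dA a (tdSl hs F) := by
  simp only [tdd, dA, Derivation.smul_apply, Derivation.sub_apply, map_smul, map_sub, tdSl_D]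

theorem tdSl_db {T : ℝ} {s : ℝ} (hs : s ∈ Ioo 0 T) (a : Fin m) (F : Sm (tdO m T)) :
    tdSl hs (tdb a F) = dbA a (tdSl hs F) := by
  simp only [tdb, dbA, Derivation.smul_apply, Derivation.add_apply, map_smul, map_add, tdSl_D]

/-- `∂_t` -/
def tdt (m : ℕ) (T : ℝ) : Derivation ℂ (Sm (tdO m T)) (Sm (tdO m T)) := Sm.D (1, 0)

theorem tdt_dd {T : ℝ} (a : Fin m) (F : Sm (tdO m T)) :
    tdt m T (tdd a F) = tdd a (tdt m T F) := by
  have e1 := Sm.D_comm ((1, 0) : ℝ × Cm m) (0, Pi.single a 1) F
  have e2 := Sm.D_comm ((1, 0) : ℝ × Cm m) (0, Pi.single a Complex.I) F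
  simp only [tdd, tdt, Derivation.smul_apply, Derivation.sub_apply, map_sub,
    Derivation.map_smul]
  rw [e1, e2]

theorem tdt_db {T : ℝ} (a : Fin m) (F : Sm (tdO m T)) :
    tdt m T (tdb a F) = tdb a (tdt m T F) := by
  have e1 := Sm.D_comm ((1, 0) : ℝ × Cm m) (0, Pi.single a 1) F
  have e2 := Sm.D_comm ((1, 0) : ℝ × Cm m) (0, Pi.single a Complex.I) F
  simp only [tdb, tdt, Derivation.smul_apply, Derivation.add_apply, map_add,
    Derivation.map_smul]
  rw [e1, e2]

theorem td_h_smooth {T : ℝ} {h : ℝ → Cm m → ℝ} (hf : ConeFlow m T h) :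
    ContDiffOn ℝ ∞ (fun p : ℝ × Cm m => h p.1 p.2) (tdO m T) :=
  hf.smooth.mono (prod_mono Ioo_subset_Icc_self subset_rfl)

/-- `h` on space-time -/
def tdH {T : ℝ} {h : ℝ → Cm m → ℝ} (hf : ConeFlow m T h) : Sm (tdO m T) :=
  Sm.ofR (fun p : ℝ × Cm m => h p.1 p.2) (td_h_smooth hf)

theorem tdSl_H {T : ℝ} {h : ℝ → Cm m → ℝ} (hf : ConeFlow m T h) {s : ℝ} (hs : s ∈ Ioo 0 T) :
    tdSl hs (tdH hf) = hA (hf.cone s ⟨hs.1.le, hs.2.le⟩) := by
  apply Sm.ext'
  intro Z hZ
  rw [tdSl_fn hs _ hZ, tdH, Sm.ofR_fn _ _ (td_mem hs hZ), hA, Sm.ofR_fn _ _ hZ]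

/-- time derivative of a smooth function along a slice -/
theorem td_hasDeriv {T : ℝ} (F : Sm (tdO m T)) {t : ℝ} (ht : t ∈ Ioo 0 T) {Z : Cm m}
    (hZ : Z ≠ 0) :
    HasDerivAt (fun s : ℝ => Sm.fn F (s, Z)) (Sm.fn (tdt m T F) (t, Z)) t := by
  have h2 : HasFDerivAt (Sm.fn F) (fderiv ℝ (Sm.fn F) (t, Z)) (t, Z) :=
    (Sm.differentiableAt F (td_mem ht hZ)).hasFDerivAt
  have h3 : HasDerivAt (fun s : ℝ => ((s, Z) : ℝ × Cm m)) (1, 0) t :=
    (hasDerivAt_id t).prodMk (hasDerivAt_const t Z)
  have h4 := h2.comp_hasDerivAt t h3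
  rw [tdt, Sm.D_fn _ _ (td_mem ht hZ)]
  exact h4

theorem tdSl_tH {T : ℝ} {h : ℝ → Cm m → ℝ} (hf : ConeFlow m T h) {t : ℝ} (ht : t ∈ Ioo 0 T) :
    tdSl ht (tdt m T (tdH hf)) =
      (coneOf (hf.cone t ⟨ht.1.le, ht.2.le⟩)).h * (coneOf (hf.cone t ⟨ht.1.le, ht.2.le⟩)).sig := by
  apply Sm.ext'
  intro Z hZ
  rw [tdSl_fn ht _ hZ, Sm.fn_mul _ _ hZ, fn_sig _ hZ]
  have h1 : Sm.fn (coneOf (hf.cone t ⟨ht.1.le, ht.2.le⟩)).h Z = (h t Z : ℂ) :=
    Sm.ofR_fn (h t) (hf.cone t ⟨ht.1.le, ht.2.le⟩).smooth hZ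
  rw [h1]
  have h2 := td_hasDeriv (tdH hf) ht hZ
  have h3 : HasDerivAt (fun s => h s Z) (h t Z * sigR (h t) Z) t :=
    (hf.flow t ⟨ht.1.le, ht.2.le⟩ Z hZ).hasDerivAt (Icc_mem_nhds ht.1 ht.2)
  have h4 : HasDerivAt (fun s => ((h s Z : ℝ) : ℂ)) ((h t Z * sigR (h t) Z : ℝ) : ℂ) t :=
    h3.ofReal_comp
  have h5 : (fun s : ℝ => Sm.fn (tdH hf) (s, Z)) =ᶠ[nhds t] fun s => ((h s Z : ℝ) : ℂ) := by
    filter_upwards [isOpen_Ioo.mem_nhds ht] with s hs
    exact Sm.ofR_fn _ _ (td_mem hs hZ)
  have h6 := (h4.congr_of_eventuallyEq h5).unique h2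
  rw [← h6]
  push_cast
  ring

/-- the matrix `h_{ab̄}` on space-time -/
def tdM {T : ℝ} {h : ℝ → Cm m → ℝ} (hf : ConeFlow m T h) :
    Matrix (Fin m) (Fin m) (Sm (tdO m T)) :=
  Matrix.of fun a b => tdd a (tdb b (tdH hf))

theorem tdSl_M {T : ℝ} {h : ℝ → Cm m → ℝ} (hf : ConeFlow m T h) {s : ℝ} (hs : s ∈ Ioo 0 T) :
    (tdSl hs).toRingHom.mapMatrix (tdM hf) = HA (hf.cone s ⟨hs.1.le, hs.2.le⟩) := by
  ext1 a b
  simp only [RingHom.mapMatrix_apply, Matrix.map_apply, tdM, HA, Matrix.of_apply]
  show tdSl hs (tdd a (tdb b (tdH hf))) = _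
  rw [tdSl_dd, tdSl_db, tdSl_H]

theorem tdSl_det {T : ℝ} {h : ℝ → Cm m → ℝ} (hf : ConeFlow m T h) {s : ℝ} (hs : s ∈ Ioo 0 T) :
    tdSl hs (tdM hf).det = (HA (hf.cone s ⟨hs.1.le, hs.2.le⟩)).det := by
  rw [← tdSl_M hf hs]
  exact RingHom.map_det (tdSl hs).toRingHom (tdM hf)

theorem tdSl_adj {T : ℝ} {h : ℝ → Cm m → ℝ} (hf : ConeFlow m T h) {s : ℝ} (hs : s ∈ Ioo 0 T)
    (a b : Fin m) :
    tdSl hs ((tdM hf).adjugate a b) = (HA (hf.cone s ⟨hs.1.le, hs.2.le⟩)).adjugate a b := by
  rw [← tdSl_M hf hs, ← RingHom.map_adjugate (tdSl hs).toRingHom (tdM hf)]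
  rfl

theorem td_main {T : ℝ} {h : ℝ → Cm m → ℝ} (hf : ConeFlow m T h) {t : ℝ} (ht : t ∈ Ioo 0 T) :
    tdSl ht (tdt m T (tdM hf).det) = (coneOf (hf.cone t ⟨ht.1.le, ht.2.le⟩)).μ *
        (coneOf (hf.cone t ⟨ht.1.le, ht.2.le⟩)).lap
          ((coneOf (hf.cone t ⟨ht.1.le, ht.2.le⟩)).h *
            (coneOf (hf.cone t ⟨ht.1.le, ht.2.le⟩)).sig) := by
  rw [der_det, map_sum, Cone.lap, Finset.mul_sum]
  refine Finset.sum_congr rfl fun a _ => ?_
  rw [map_sum, Finset.mul_sum]
  refine Finset.sum_congr rfl fun b _ => ?_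
  rw [map_mul, tdSl_adj, ← mul_assoc]
  have hu := isUnit_det_HA (hf.cone t ⟨ht.1.le, ht.2.le⟩)
  congr 1
  · show _ = (HA (hf.cone t ⟨ht.1.le, ht.2.le⟩)).det * (HA (hf.cone t ⟨ht.1.le, ht.2.le⟩))⁻¹ b a
    rw [Matrix.nonsing_inv_apply _ hu, Matrix.smul_apply, smul_eq_mul, ← mul_assoc,
      IsUnit.mul_val_inv, one_mul]
  · rw [tdM, Matrix.of_apply, tdt_dd, tdt_db, tdSl_dd, tdSl_db, tdSl_tH]
    rfl

/-- Time derivative of `det (h_{ab̄})`: `μ Δ(hσ)` (Jacobi's formula and commutation of `∂_t` with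
`∂_a ∂̄_b`). -/
theorem det_deriv_t {T : ℝ} {h : ℝ → Cm m → ℝ} (hf : ConeFlow m T h) {t : ℝ} (ht : t ∈ Ioo 0 T)
    {Z : Cm m} (hZ : Z ≠ 0) :
    (((deriv (fun s => (cHess (h s) Z).det.re) t : ℝ)) : ℂ) =
      Sm.fn ((coneOf (hf.cone t ⟨ht.1.le, ht.2.le⟩)).μ *
        (coneOf (hf.cone t ⟨ht.1.le, ht.2.le⟩)).lap
          ((coneOf (hf.cone t ⟨ht.1.le, ht.2.le⟩)).h *
            (coneOf (hf.cone t ⟨ht.1.le, ht.2.le⟩)).sig)) Z := by
  rw [← td_main hf ht, tdSl_fn ht _ hZ]
  have h1 := td_hasDeriv (tdM hf).det ht hZ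
  have h2 : (fun s : ℝ => Sm.fn (tdM hf).det (s, Z)) =ᶠ[nhds t]
      fun s => (((cHess (h s) Z).det.re : ℝ) : ℂ) := by
    filter_upwards [isOpen_Ioo.mem_nhds ht] with s hs
    rw [← tdSl_fn hs _ hZ, tdSl_det, fn_det_HA _ hZ]
    have h3 := ((hf.cone s ⟨hs.1.le, hs.2.le⟩).posDef Z hZ).det_pos
    have h4 := (Complex.pos_iff.1 h3).2
    apply Complex.ext
    · simp only [Complex.ofReal_re]
    · simp only [Complex.ofReal_im, h4]
  have h5 := h1.congr_of_eventuallyEq h2.symm
  have h6 : HasDerivAt (fun s : ℝ => (cHess (h s) Z).det.re)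
      (Sm.fn (tdt m T (tdM hf).det) (t, Z)).re t := by
    have h7 := (Complex.reCLM.hasFDerivAt (x := (((cHess (h t) Z).det.re : ℝ) : ℂ))).comp_hasDerivAt
      t h5
    exact h7
  have h8 : HasDerivAt (fun _ : ℝ => (0 : ℝ))
      (Sm.fn (tdt m T (tdM hf).det) (t, Z)).im t := by
    have h7 := (Complex.imCLM.hasFDerivAt (x := (((cHess (h t) Z).det.re : ℝ) : ℂ))).comp_hasDerivAt
      t h5
    exact h7
  have h9 := h8.unique (hasDerivAt_const t (0 : ℝ))
  rw [h6.deriv]
  apply Complex.ext
  · simp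
  · simp [h9]

end P264.Geo

end
end
end
namespace AFast6682d1x9142b
theorem a0 {x1 : ℕ} {x2 : ℝ} : MulActionSemiHomClass (↥(P264.Geo.Sm (P264.Geo.tdO x1 x2)) →ₐ[ℂ] P264.Geo.SA x1) (⇑(RingHom.id ℂ)) (↥(P264.Geo.Sm (P264.Geo.tdO x1 x2))) (P264.Geo.SA x1) := inferInstance
theorem a1 {x1 : ℕ} {x2 : ℝ} : LinearMapClass (↥(P264.Geo.Sm (P264.Geo.tdO x1 x2)) →ₐ[ℂ] P264.Geo.SA x1) ℂ (↥(P264.Geo.Sm (P264.Geo.tdO x1 x2))) (P264.Geo.SA x1) := inferInstance
@[reducible] noncomputable def a2 {x1 : ℕ} {x2 : ℝ} : SMulZeroClass ℂ ↥(P264.Geo.Sm (P264.Geo.tdO x1 x2)) := inferInstance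
@[reducible] noncomputable def a3 {x1 : ℕ} {x2 : ℝ} : DistribSMul ℂ ↥(P264.Geo.Sm (P264.Geo.tdO x1 x2)) := inferInstance
end AFast6682d1x9142b
attribute [local instance] AFast6682d1x9142b.a0 AFast6682d1x9142b.a1 AFast6682d1x9142b.a2
  AFast6682d1x9142b.a3

section

section

/-! # P264 / Geo / AlgB : Piola identity and contracted Bianchi identity -/

noncomputable section

namespace P264.Geo.Cone

variable {m : ℕ} {A : Type} [CommRing A] [Algebra ℂ A] (C : Cone m A)

omit [Algebra ℂ A] in
theorem algB_rev3 (F : Fin m → Fin m → Fin m → A) :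
    ∑ x, ∑ y, ∑ z, F x y z = ∑ z, ∑ y, ∑ x, F x y z := by
  calc ∑ x, ∑ y, ∑ z, F x y z = ∑ x, ∑ z, ∑ y, F x y z :=
        Finset.sum_congr rfl fun x _ => Finset.sum_comm
    _ = ∑ z, ∑ x, ∑ y, F x y z := Finset.sum_comm
    _ = ∑ z, ∑ y, ∑ x, F x y z := Finset.sum_congr rfl fun z _ => Finset.sum_comm

omit [Algebra ℂ A] in
theorem algB_rev4 (F : Fin m → Fin m → Fin m → Fin m → A) :
    ∑ x, ∑ y, ∑ z, ∑ w, F x y z w = ∑ w, ∑ z, ∑ y, ∑ x, F x y z w := by
  calc ∑ x, ∑ y, ∑ z, ∑ w, F x y z w = ∑ x, ∑ w, ∑ z, ∑ y, F x y z w :=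
        Finset.sum_congr rfl fun x _ => algB_rev3 (F x)
    _ = ∑ w, ∑ x, ∑ z, ∑ y, F x y z w := Finset.sum_comm
    _ = ∑ w, ∑ z, ∑ x, ∑ y, F x y z w := Finset.sum_congr rfl fun w _ => Finset.sum_comm
    _ = ∑ w, ∑ z, ∑ y, ∑ x, F x y z w :=
        Finset.sum_congr rfl fun w _ => Finset.sum_congr rfl fun z _ => Finset.sum_comm

/-- Piola identity `∂_a (μ h^{ab̄}) = 0` in the form divided by `μ`. -/
theorem piola (b : Fin m) : ∑ a, C.d a (C.P a b) = -∑ a, C.P a b * C.d a C.L := by
  have h1 : ∀ a, C.d a (C.P a b) =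
      -∑ c, ∑ e, C.P c b * (C.P a e * C.d c (C.d a (C.db e C.h))) := by
    intro a
    rw [der_P]
    congr 1
    refine Finset.sum_congr rfl fun c _ => Finset.sum_congr rfl fun e _ => ?_
    rw [hs, C.dd a c]
    ring
  rw [Finset.sum_congr rfl fun a _ => h1 a, Finset.sum_neg_distrib, Finset.sum_comm]
  congr 1
  refine Finset.sum_congr rfl fun c _ => ?_
  rw [C.dL c, Finset.mul_sum]
  refine Finset.sum_congr rfl fun a _ => ?_
  rw [Finset.mul_sum]

theorem piolab (a : Fin m) : ∑ b, C.db b (C.P a b) = -∑ b, C.P a b * C.db b C.L := by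
  have h1 : ∀ b, C.db b (C.P a b) =
      -∑ c, ∑ e, C.P a e * (C.P c b * C.db e (C.d c (C.db b C.h))) := by
    intro b
    rw [der_P]
    congr 1
    refine Finset.sum_congr rfl fun c _ => Finset.sum_congr rfl fun e _ => ?_
    rw [hs, C.dbc c b, C.bb b e, ← C.dbc c e]
    ring
  rw [Finset.sum_congr rfl fun b _ => h1 b, Finset.sum_neg_distrib, algB_rev3]
  congr 1
  refine Finset.sum_congr rfl fun e _ => ?_
  rw [C.bL e, Finset.mul_sum]
  refine Finset.sum_congr rfl fun c _ => ?_
  rw [Finset.mul_sum]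

theorem piola_μ (b : Fin m) : ∑ a, C.d a (C.μ * C.P a b) = 0 := by
  have h1 : ∀ a, C.d a (C.μ * C.P a b) =
      C.μ * C.d a (C.P a b) + C.μ * (C.P a b * C.d a C.L) := by
    intro a
    rw [Derivation.leibniz, C.dμ a, smul_eq_mul, smul_eq_mul]
    ring
  rw [Finset.sum_congr rfl fun a _ => h1 a, Finset.sum_add_distrib, ← Finset.mul_sum,
    ← Finset.mul_sum, piola]
  ring

theorem piolab_μ (a : Fin m) : ∑ b, C.db b (C.μ * C.P a b) = 0 := by
  have h1 : ∀ b, C.db b (C.μ * C.P a b) =
      C.μ * C.db b (C.P a b) + C.μ * (C.P a b * C.db b C.L) := by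
    intro b
    rw [Derivation.leibniz, C.bμ b, smul_eq_mul, smul_eq_mul]
    ring
  rw [Finset.sum_congr rfl fun b _ => h1 b, Finset.sum_add_distrib, ← Finset.mul_sum,
    ← Finset.mul_sum, piolab]
  ring

theorem algB_swap (e : Fin m) :
    ∑ c, ∑ b, ∑ a, C.P c b * (C.d c (C.P a e) * C.hs C.L a b) =
      ∑ a, ∑ c, ∑ b, C.P a e * (C.d a (C.P c b) * C.hs C.L c b) := by
  have h1 : ∀ c b a, C.P c b * (C.d c (C.P a e) * C.hs C.L a b) =
      ∑ p, ∑ q, -(C.P c b * C.P a q * C.P p e * C.d c (C.d p (C.db q C.h)) * C.hs C.L a b) := by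
    intro c b a
    rw [der_P, neg_mul, mul_neg, Finset.sum_mul, Finset.mul_sum,
      ← Finset.sum_neg_distrib]
    refine Finset.sum_congr rfl fun p _ => ?_
    rw [Finset.sum_mul, Finset.mul_sum, ← Finset.sum_neg_distrib]
    refine Finset.sum_congr rfl fun q _ => ?_
    rw [hs]
    ring
  have h2 : ∀ a c b, C.P a e * (C.d a (C.P c b) * C.hs C.L c b) =
      ∑ p, ∑ q, -(C.P p b * C.P c q * C.P a e * C.d p (C.d a (C.db q C.h)) * C.hs C.L c b) := by
    intro a c b
    rw [der_P, neg_mul, mul_neg, Finset.sum_mul, Finset.mul_sum,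
      ← Finset.sum_neg_distrib]
    refine Finset.sum_congr rfl fun p _ => ?_
    rw [Finset.sum_mul, Finset.mul_sum, ← Finset.sum_neg_distrib]
    refine Finset.sum_congr rfl fun q _ => ?_
    rw [hs, C.dd a p]
    ring
  simp only [h1, h2]
  exact algB_rev4 fun c b a p => ∑ q, -(C.P c b * C.P a q * C.P p e *
    C.d c (C.d p (C.db q C.h)) * C.hs C.L a b)

/-- Contracted second Bianchi identity `∂_c (μ T^{cē}) = μ h^{aē} ∂_a (Δ L)`.
PROOF: `T c e = Σ_b P c b * G b` with `G b = Σ_a P a e * L_{ab̄}`; use `piola_μ` for `∂_c (μ P c b)`,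
then `∂_c L_{ab̄} = ∂_a L_{cb̄}` and, by `der_P` and `∂_c h_{ab̄} = ∂_a h_{cb̄}`,
`Σ P c b ∂_c(P a e) L_{ab̄} = Σ P a e ∂_a(P c b) L_{cb̄}`. -/
theorem bianchi (e : Fin m) :
    ∑ c, C.d c (C.μ * C.T c e) = C.μ * ∑ a, C.P a e * C.d a (C.lap C.L) := by
  have hT : ∀ c, C.d c (C.μ * C.T c e) =
      ∑ b, C.d c (C.μ * C.P c b) * (∑ a, C.P a e * C.hs C.L a b) +
      (C.μ * (∑ b, ∑ a, C.P c b * (C.d c (C.P a e) * C.hs C.L a b)) +
       C.μ * (∑ b, ∑ a, C.P a e * (C.P c b * C.d c (C.hs C.L a b)))) := by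
    intro c
    have h0 : C.μ * C.T c e = ∑ b, (C.μ * C.P c b) * (∑ a, C.P a e * C.hs C.L a b) := by
      rw [T, Finset.sum_comm, Finset.mul_sum]
      refine Finset.sum_congr rfl fun b _ => ?_
      rw [Finset.mul_sum, Finset.mul_sum]
      refine Finset.sum_congr rfl fun a _ => ?_
      ring
    rw [h0, map_sum, Finset.mul_sum, Finset.mul_sum, ← Finset.sum_add_distrib,
      ← Finset.sum_add_distrib]
    refine Finset.sum_congr rfl fun b _ => ?_
    rw [Derivation.leibniz, smul_eq_mul, smul_eq_mul, map_sum, add_comm]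
    congr 1
    · ring
    · rw [Finset.mul_sum, Finset.mul_sum, Finset.mul_sum, ← Finset.sum_add_distrib]
      refine Finset.sum_congr rfl fun a _ => ?_
      rw [Derivation.leibniz, smul_eq_mul, smul_eq_mul]
      ring
  have hR : ∀ a, C.P a e * C.d a (C.lap C.L) =
      (∑ c, ∑ b, C.P a e * (C.d a (C.P c b) * C.hs C.L c b)) +
      ∑ c, ∑ b, C.P a e * (C.P c b * C.d a (C.hs C.L c b)) := by
    intro a
    rw [lap, map_sum, Finset.mul_sum, ← Finset.sum_add_distrib]
    refine Finset.sum_congr rfl fun c _ => ?_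
    rw [map_sum, Finset.mul_sum, ← Finset.sum_add_distrib]
    refine Finset.sum_congr rfl fun b _ => ?_
    rw [Derivation.leibniz, smul_eq_mul, smul_eq_mul]
    ring
  have hz : ∑ c, ∑ b, C.d c (C.μ * C.P c b) * (∑ a, C.P a e * C.hs C.L a b) = 0 := by
    rw [Finset.sum_comm]
    refine Finset.sum_eq_zero fun b _ => ?_
    rw [← Finset.sum_mul, piola_μ, zero_mul]
  have h3 : ∑ c, ∑ b, ∑ a, C.P a e * (C.P c b * C.d c (C.hs C.L a b)) =
      ∑ a, ∑ c, ∑ b, C.P a e * (C.P c b * C.d a (C.hs C.L c b)) := by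
    have : ∀ a c b, C.P a e * (C.P c b * C.d a (C.hs C.L c b)) =
        C.P a e * (C.P c b * C.d c (C.hs C.L a b)) := by
      intro a c b
      rw [hs, hs, C.dd a c]
    rw [Finset.sum_congr rfl fun a _ => Finset.sum_congr rfl fun c _ =>
      Finset.sum_congr rfl fun b _ => this a c b, algB_rev3]
    exact Finset.sum_congr rfl fun a _ => Finset.sum_comm
  rw [Finset.sum_congr rfl fun c _ => hT c, Finset.sum_add_distrib, hz, zero_add,
    Finset.sum_add_distrib, ← Finset.mul_sum, ← Finset.mul_sum, ← mul_add,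
    Finset.sum_congr rfl fun a _ => hR a, Finset.sum_add_distrib, algB_swap, h3]

end P264.Geo.Cone

end
end
end

section

section

/-!
# P264 / Prof / Rel : relative residual, range bounds, tail (helper608)
-/

namespace P264.Prof

/-- `c_0 - ∑_{k≥1} |c_k|` : lower bound of the polynomial on `[-1,1]`. -/
def lowB : List ℤ → ℤ
  | [] => 0
  | a :: l => a - sabs l

/-- `c_0 + ∑_{k≥1} |c_k|` : upper bound of the polynomial on `[-1,1]`. -/
def highB : List ℤ → ℤ
  | [] => 0
  | a :: l => a + sabs l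

theorem lowB_le (l : List ℤ) {v : ℝ} (hv : |v| ≤ 1) : (lowB l : ℝ) ≤ ev l v := by
  cases l with
  | nil => simp [lowB]
  | cons a l =>
    have h := abs_ev_le l hv
    have h2 : |v * ev l v| ≤ (sabs l : ℝ) := by
      rw [abs_mul]
      calc |v| * |ev l v| ≤ 1 * (sabs l : ℝ) :=
            mul_le_mul hv h (abs_nonneg _) (by norm_num)
        _ = _ := by ring
    have h3 := (abs_le.1 h2).1
    simp only [lowB, ev_cons]; push_cast; linarith

theorem le_highB (l : List ℤ) {v : ℝ} (hv : |v| ≤ 1) : ev l v ≤ (highB l : ℝ) := by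
  cases l with
  | nil => simp [highB]
  | cons a l =>
    have h := abs_ev_le l hv
    have h2 : |v * ev l v| ≤ (sabs l : ℝ) := by
      rw [abs_mul]
      calc |v| * |ev l v| ≤ 1 * (sabs l : ℝ) :=
            mul_le_mul hv h (abs_nonneg _) (by norm_num)
        _ = _ := by ring
    have h3 := (abs_le.1 h2).2
    simp only [highB, ev_cons]; push_cast; linarith

/-! ## range of `R` -/

def rangeB (M : ℕ) (lo hi q : ℤ) (s : Cell) : Bool :=
  decide (lo * 2 ^ M ≤ q * lowB s.c) && decide (q * highB s.c ≤ hi * 2 ^ M)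

theorem range_of_rangeB {M : ℕ} {lo hi q : ℤ} (hq : 0 < q) {s : Cell}
    (h : rangeB M lo hi q s = true) (y : ℝ) (hy : |(16 * y - s.C) / s.H| ≤ 1) :
    (lo : ℝ) / q ≤ s.val M 0 y ∧ s.val M 0 y ≤ (hi : ℝ) / q := by
  simp only [rangeB, Bool.and_eq_true, decide_eq_true_eq] at h
  obtain ⟨h1, h2⟩ := h
  have hq' : (0 : ℝ) < q := by exact_mod_cast hq
  have h1' : (lo : ℝ) * 2 ^ M ≤ q * (lowB s.c : ℝ) := by exact_mod_cast h1
  have h2' : (q : ℝ) * (highB s.c : ℝ) ≤ hi * 2 ^ M := by exact_mod_cast h2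
  have ha := lowB_le s.c hy
  have hb := le_highB s.c hy
  simp only [Cell.val, pow_zero, one_mul, pderk]
  constructor
  · rw [div_le_div_iff₀ hq' (by positivity)]
    linarith only [mul_nonneg (le_of_lt (sub_pos.2 hq')) (sub_nonneg.2 ha), h1']
  · rw [div_le_div_iff₀ (by positivity) hq']
    linarith only [mul_nonneg (le_of_lt (sub_pos.2 hq')) (sub_nonneg.2 hb), h2']

/-! ## tail -/

/-- numerator of `P(D)(R-1)` on the tail, over `2^B` -/
def GT (B : ℕ) (b : List ℤ) : List ℤ :=
  padd (tlist b 4) (padd (psmul 18 (tlist b 3)) (padd (psmul 56 (tlist b 2))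
    (padd (psmul (-112) (tlist b 1)) (padd (psmul 112 (tlist b 0)) [-112 * 2 ^ B]))))

theorem tval_pow (B : ℕ) (Y : ℤ) (b : List ℤ) (k : ℕ) {y : ℝ} (hy : 0 < y) :
    y ^ k * tval B Y b k y = ev (tlist b k) (((Y : ℝ) / y) ^ 2) / 2 ^ B := by
  have : y ^ k ≠ 0 := by positivity
  rw [tval]; field_simp

theorem ev_GT (B : ℕ) (Y : ℤ) (b : List ℤ) {y : ℝ} (hy : 0 < y) :
    ev (GT B b) (((Y : ℝ) / y) ^ 2) = Gop y (fun k => tval B Y b k y) * 2 ^ B := by
  have h := fun k => tval_pow B Y b k hy
  have h' : ∀ k, ev (tlist b k) (((Y : ℝ) / y) ^ 2) = y ^ k * tval B Y b k y * 2 ^ B := by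
    intro k; rw [h k]; field_simp
  simp only [GT, ev_padd, ev_psmul, h', ev_cons, ev_nil, Gop]
  push_cast
  ring

/-- numerator of `y² eps` on the tail, over `2^(3B+1)` (with `tlist b 1 = 0 :: l`). -/
def resT (B : ℕ) (Y : ℤ) (b l : List ℤ) : List ℤ :=
  padd (psmul (-Y ^ 2 * 2 ^ (2 * B)) l) (psmul (-2) (pmul (pmul b b) (GT B b)))

theorem ev_resT (B : ℕ) (Y : ℤ) (b l : List ℤ) (hl : tlist b 1 = 0 :: l) {y : ℝ} (hy : 0 < y) :
    ev (resT B Y b l) (((Y : ℝ) / y) ^ 2) =
      resy2 y (fun k => tval B Y b k y) * 2 ^ (3 * B + 1) := by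
  have h0 : ev b (((Y : ℝ) / y) ^ 2) = tval B Y b 0 y * 2 ^ B := by
    simp only [tval, tlist, pow_zero, mul_one]; field_simp
  have h1 := tval_pow B Y b 1 hy
  rw [hl, ev_cons] at h1
  have e3 : (2 : ℝ) ^ (3 * B + 1) = 2 * (2 ^ B) ^ 3 := by
    rw [pow_succ, mul_comm 3 B, pow_mul]; ring
  have e2 : (2 : ℝ) ^ (2 * B) = (2 ^ B) ^ 2 := by rw [mul_comm, pow_mul]
  have h2 : (Y : ℝ) ^ 2 * ev l (((Y : ℝ) / y) ^ 2) = y ^ 3 * tval B Y b 1 y * 2 ^ B := by
    have hy2 : y ^ 2 ≠ 0 := by positivity
    have : y ^ 3 * tval B Y b 1 y = y ^ 2 * (y ^ 1 * tval B Y b 1 y) := by ring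
    rw [this, h1]
    push_cast
    field_simp
    ring
  rw [resT, ev_padd, ev_psmul, ev_psmul, ev_pmul, ev_pmul, ev_GT B Y b hy, h0, resy2, e3]
  push_cast
  rw [e2]
  have : -(Y : ℝ) ^ 2 * (2 ^ B) ^ 2 * ev l (((Y : ℝ) / y) ^ 2) =
      -(2 ^ B) ^ 2 * (y ^ 3 * tval B Y b 1 y * 2 ^ B) := by rw [← h2]; ring
  rw [this]
  ring

theorem tail_range {B : ℕ} {Y : ℤ} {b : List ℤ} (hY : 0 < Y)
    {lo hi q : ℤ} (hq : 0 < q) (h1 : lo * 2 ^ B ≤ q * lowB b) (h2 : q * highB b ≤ hi * 2 ^ B)
    {y : ℝ} (hy : (Y : ℝ) ≤ y) :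
    (lo : ℝ) / q ≤ tval B Y b 0 y ∧ tval B Y b 0 y ≤ (hi : ℝ) / q := by
  have hY' : (0 : ℝ) < Y := by exact_mod_cast hY
  have hy0 : 0 < y := hY'.trans_le hy
  have hw : |((Y : ℝ) / y) ^ 2| ≤ 1 := by
    rw [abs_of_nonneg (by positivity)]
    have : (Y : ℝ) / y ≤ 1 := (div_le_one hy0).2 hy
    exact pow_le_one₀ (by positivity) this
  have ha := lowB_le b hw
  have hb := le_highB b hw
  have hq' : (0 : ℝ) < q := by exact_mod_cast hq
  have h1' : (lo : ℝ) * 2 ^ B ≤ q * (lowB b : ℝ) := by exact_mod_cast h1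
  have h2' : (q : ℝ) * (highB b : ℝ) ≤ hi * 2 ^ B := by exact_mod_cast h2
  simp only [tval, tlist, pow_zero, mul_one]
  constructor
  · rw [div_le_div_iff₀ hq' (by positivity)]
    linarith only [mul_nonneg (sub_nonneg.2 ha) (le_of_lt (sub_pos.2 hq')), h1']
  · rw [div_le_div_iff₀ (by positivity) hq']
    nlinarith only [h2', hb, hq']

end P264.Prof
end
end

section

section

/-!
# P264 / H3 / Force : call-by-value helpers for kernel evaluation (helper288)

`forceN`, `forceI`, `forceL` make the kernel evaluate their argument before substituting it.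
-/

open P264.Prof

namespace P264.H3

universe u

/-- evaluate `n`, then continue -/
def forceN {α : Type u} (n : ℕ) (k : ℕ → α) : α :=
  match n with
  | 0 => k 0
  | m + 1 => k (m + 1)

theorem forceN_eq {α : Type u} (n : ℕ) (k : ℕ → α) : forceN n k = k n := by
  cases n <;> rfl

/-- evaluate `a`, then continue -/
def forceI {α : Type u} (a : ℤ) (k : ℤ → α) : α :=
  match a with
  | Int.ofNat n => forceN n fun m => k (Int.ofNat m)
  | Int.negSucc n => forceN n fun m => k (Int.negSucc m)

theorem forceI_eq {α : Type u} (a : ℤ) (k : ℤ → α) : forceI a k = k a := by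
  cases a <;> simp only [forceI, forceN_eq]

/-- evaluate the list `l`, then continue -/
def forceL {α : Type u} : List ℤ → (List ℤ → α) → α
  | [], k => k []
  | a :: l, k => forceI a fun a' => forceL l fun l' => k (a' :: l')

theorem forceL_eq {α : Type u} (l : List ℤ) (k : List ℤ → α) : forceL l k = k l := by
  induction l generalizing k with
  | nil => rfl
  | cons a l ih => simp only [forceL, forceI_eq, ih]

/-! ### fast derivative -/

/-- `k a₀, (k+1) a₁, …` -/
def fder : ℤ → List ℤ → List ℤ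
  | _, [] => []
  | k, a :: l => (k * a) :: fder (k + 1) l

/-! ### Bernstein bounds -/

end P264.H3
end
end

section

section

/-!
# P264 / H3 / CellB : cellwise bounds of the integrands of (H3) (helper288)

`R = s.val M 0`, `k = t.val K 0`, `ψ = R² k = (gc s t).val (2M+K) 0`.
-/

open P264.Prof

namespace P264.H3

/-- bound for the integrand of (H3q) -/
def Bq (M K S T : ℕ) (s t : Cell) (τ : ℤ) : ℤ :=
  cdiv (sabs t.c * τ ^ 2 * 2 ^ M * 2 ^ S) (2 ^ K * 2 ^ (2 * T) * lowB s.c)

/-- bound for the integrand of (H32) -/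
def B2 (M S T P : ℕ) (s : Cell) (u τ : ℤ) : ℤ :=
  cdiv ((sabs (GP M s) : ℤ) ^ 2 * u * 4096 * τ ^ 2 * 2 ^ S)
    (s.H ^ 8 * 2 ^ (2 * M) * 2 ^ P * (s.C - s.H) ^ 3 * 2 ^ (2 * T))

theorem low_le (M : ℕ) (s : Cell) {y : ℝ} (hv : |(16 * y - s.C) / s.H| ≤ 1) :
    (lowB s.c : ℝ) / 2 ^ M ≤ s.val M 0 y := by
  have := lowB_le s.c hv
  simp only [Cell.val, pow_zero, one_mul, pderk]
  gcongr

theorem Bq_le {M K S T : ℕ} {s t : Cell} (hC : t.C = s.C) (hH' : t.H = s.H)
    (hlow : 0 < lowB s.c) {τ : ℤ} {y b : ℝ} (hb0 : 0 ≤ b)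
    (hb : b ≤ ((τ : ℝ) / 2 ^ T) ^ 2) (hv : |(16 * y - s.C) / s.H| ≤ 1) :
    |s.val M 0 y ^ 2 * t.val K 0 y| * b / s.val M 0 y ^ 3 ≤ (Bq M K S T s t τ : ℝ) / 2 ^ S := by
  have hl : (0 : ℝ) < (lowB s.c : ℝ) := by exact_mod_cast hlow
  have hR := low_le M s hv
  have hR0 : 0 < (lowB s.c : ℝ) / 2 ^ M := by positivity
  have hRp : 0 < s.val M 0 y := hR0.trans_le hR
  have h1 : |t.val K 0 y| ≤ (sabs t.c : ℝ) / 2 ^ K := by
    have := abs_ev_le t.c hv
    simp only [Cell.val, pow_zero, one_mul, pderk, hC, hH']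
    rw [abs_div, abs_of_pos (by positivity : (0 : ℝ) < 2 ^ K)]
    (clear * - this; gcongr)
  have e : |s.val M 0 y ^ 2 * t.val K 0 y| * b / s.val M 0 y ^ 3 =
      |t.val K 0 y| * b / s.val M 0 y := by
    rw [abs_mul, abs_of_pos (by positivity : 0 < s.val M 0 y ^ 2)]
    (clear * - hRp; field_simp)
  rw [e]
  have h2 : |t.val K 0 y| * b / s.val M 0 y ≤
      (sabs t.c : ℝ) / 2 ^ K * ((τ : ℝ) / 2 ^ T) ^ 2 / ((lowB s.c : ℝ) / 2 ^ M) := by
    (clear * - h1 hb hb0 hlow hR; gcongr)
  refine h2.trans ?_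
  have h3 := le_cdiv (sabs t.c * τ ^ 2 * 2 ^ M * 2 ^ S) (d := 2 ^ K * 2 ^ (2 * T) * lowB s.c)
    (by positivity)
  rw [Bq, le_div_iff₀ (by positivity)]
  refine le_trans (le_of_eq ?_) h3
  push_cast
  have e3 : (2 : ℝ) ^ (2 * T) = 2 ^ T * 2 ^ T := by rw [two_mul, pow_add]
  rw [e3]
  (clear * - hlow; field_simp)

theorem B2_le {M S T P : ℕ} {s : Cell} (hH : 0 < s.H) (hCH : 0 < s.C - s.H)
    {u τ : ℤ} {y b σ : ℝ} (hb0 : 0 ≤ b) (hb : b ≤ ((τ : ℝ) / 2 ^ T) ^ 2)
    (hσ0 : 0 ≤ σ) (hσ : σ ≤ (u : ℝ) / 2 ^ P)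
    (hy : ((s.C - s.H : ℤ) : ℝ) ≤ 16 * y) (hv : |(16 * y - s.C) / s.H| ≤ 1) :
    Gop y (fun k => s.val M k y) ^ 2 * σ / y ^ 3 * b ≤ (B2 M S T P s u τ : ℝ) / 2 ^ S := by
  have hHr : (0 : ℝ) < s.H := by exact_mod_cast hH
  have hCHr : (0 : ℝ) < ((s.C - s.H : ℤ) : ℝ) := by exact_mod_cast hCH
  have h1 : |ev (GP M s) ((16 * y - s.C) / s.H)| ≤ (((sabs (GP M s) : ℕ) : ℤ) : ℝ) := by
    exact_mod_cast abs_ev_le (GP M s) hv
  rw [ev_GP M s hH y, abs_mul] at h1
  rw [B2]
  generalize ((sabs (GP M s) : ℕ) : ℤ) = β at h1 ⊢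
  generalize Gop y (fun k => s.val M k y) = X at h1 ⊢
  have hpos : (0 : ℝ) < (s.H : ℝ) ^ 4 * 2 ^ M := by positivity
  rw [abs_of_pos hpos] at h1
  have hβ : (0 : ℝ) ≤ β := le_trans (by positivity) h1
  have hX2 : X ^ 2 ≤ ((β : ℝ) / ((s.H : ℝ) ^ 4 * 2 ^ M)) ^ 2 := by
    rw [← sq_abs X]
    have h2 : |X| ≤ (β : ℝ) / ((s.H : ℝ) ^ 4 * 2 ^ M) := by
      rw [le_div_iff₀ hpos]; exact h1
    exact pow_le_pow_left₀ (abs_nonneg X) h2 2
  have hy' : ((s.C - s.H : ℤ) : ℝ) / 16 ≤ y := by linarith only [hy]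
  have hy0 : 0 < y := lt_of_lt_of_le (by positivity) hy'
  have hy3 : (((s.C - s.H : ℤ) : ℝ) / 16) ^ 3 ≤ y ^ 3 :=
    pow_le_pow_left₀ (by positivity) hy' 3
  have h2 : X ^ 2 * σ / y ^ 3 * b ≤ ((β : ℝ) / ((s.H : ℝ) ^ 4 * 2 ^ M)) ^ 2 *
      ((u : ℝ) / 2 ^ P) / (((s.C - s.H : ℤ) : ℝ) / 16) ^ 3 * ((τ : ℝ) / 2 ^ T) ^ 2 := by
    have hu : 0 ≤ (u : ℝ) / 2 ^ P := hσ0.trans hσ
    have ha : X ^ 2 * σ ≤ ((β : ℝ) / ((s.H : ℝ) ^ 4 * 2 ^ M)) ^ 2 * ((u : ℝ) / 2 ^ P) :=
      mul_le_mul hX2 hσ hσ0 (sq_nonneg _)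
    have hc : X ^ 2 * σ / y ^ 3 ≤ ((β : ℝ) / ((s.H : ℝ) ^ 4 * 2 ^ M)) ^ 2 * ((u : ℝ) / 2 ^ P) /
        (((s.C - s.H : ℤ) : ℝ) / 16) ^ 3 :=
      div_le_div₀ (mul_nonneg (sq_nonneg _) hu) ha (by positivity) hy3
    exact mul_le_mul hc hb hb0
      (div_nonneg (mul_nonneg (sq_nonneg _) hu) (by positivity))
  refine h2.trans ?_
  have h3 := le_cdiv (β ^ 2 * u * 4096 * τ ^ 2 * 2 ^ S)
    (d := s.H ^ 8 * 2 ^ (2 * M) * 2 ^ P * (s.C - s.H) ^ 3 * 2 ^ (2 * T)) (by positivity)
  rw [le_div_iff₀ (by positivity)]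
  refine le_trans (le_of_eq ?_) h3
  have e2 : (2 : ℝ) ^ (2 * M) = 2 ^ M * 2 ^ M := by rw [two_mul, pow_add]
  have e3 : (2 : ℝ) ^ (2 * T) = 2 ^ T * 2 ^ T := by rw [two_mul, pow_add]
  push_cast at hCHr ⊢
  rw [e2, e3]
  generalize (s.C : ℝ) - s.H = c at hCHr ⊢
  generalize (s.H : ℝ) = h at hHr ⊢
  field_simp
  ring

end P264.H3
end
end

section

section

/-!
# P264 / Lin / Kron : polynomial inequalities by Kronecker substitution (helper868)

An integer polynomial `E` is evaluated at `B = 2^K` (one big integer), its coefficients are then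
the signed base-`B` digits, provided `‖E‖₁` is small compared with `B`.  All kernel computations
are a few operations on big integer literals.
-/

namespace P264.Prof

open Polynomial

/-! ### lists and polynomials -/

/-- evaluation of an integer polynomial at a real number -/
noncomputable def evP (p : ℤ[X]) (v : ℝ) : ℝ := p.eval₂ (Int.castRingHom ℝ) v

theorem evP_add (p q : ℤ[X]) (v : ℝ) : evP (p + q) v = evP p v + evP q v := by
  simp [evP, eval₂_add]

theorem evP_mul (p q : ℤ[X]) (v : ℝ) : evP (p * q) v = evP p v * evP q v := by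
  simp [evP, eval₂_mul]

theorem evP_sub (p q : ℤ[X]) (v : ℝ) : evP (p - q) v = evP p v - evP q v := by
  simp [evP, eval₂_sub]

theorem evP_C (a : ℤ) (v : ℝ) : evP (C a) v = a := by rw [evP, eval₂_C]; rfl

theorem evP_X (v : ℝ) : evP X v = v := by simp [evP]

theorem evP_zero (v : ℝ) : evP 0 v = 0 := by simp [evP]

theorem evP_one (v : ℝ) : evP 1 v = 1 := by simp [evP]

theorem evP_pow (p : ℤ[X]) (n : ℕ) (v : ℝ) : evP (p ^ n) v = evP p v ^ n := by
  simp [evP, eval₂_pow]

/-! ### the `ℓ¹` norm -/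

/-- sum of the absolute values of the coefficients -/
noncomputable def nrm1 (p : ℤ[X]) : ℕ := ∑ i ∈ p.support, (p.coeff i).natAbs

theorem nrm1_eq_of_subset {p : ℤ[X]} {s : Finset ℕ} (h : p.support ⊆ s) :
    nrm1 p = ∑ i ∈ s, (p.coeff i).natAbs := by
  unfold nrm1
  refine Finset.sum_subset h fun i _ hi => ?_
  rw [notMem_support_iff.1 hi, Int.natAbs_zero]

theorem nrm1_zero : nrm1 0 = 0 := by simp [nrm1]

theorem nrm1_neg (p : ℤ[X]) : nrm1 (-p) = nrm1 p := by
  simp only [nrm1, support_neg, coeff_neg, Int.natAbs_neg]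

theorem nrm1_add_le (p q : ℤ[X]) : nrm1 (p + q) ≤ nrm1 p + nrm1 q := by
  classical
  have hs := support_add (p := p) (q := q)
  rw [nrm1_eq_of_subset hs, nrm1_eq_of_subset (Finset.subset_union_left (s₂ := q.support)),
    nrm1_eq_of_subset (Finset.subset_union_right (s₁ := p.support)), ← Finset.sum_add_distrib]
  refine Finset.sum_le_sum fun i _ => ?_
  rw [coeff_add]
  exact Int.natAbs_add_le _ _

theorem nrm1_sub_le (p q : ℤ[X]) : nrm1 (p - q) ≤ nrm1 p + nrm1 q := by
  have := nrm1_add_le p (-q)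
  rwa [nrm1_neg, ← sub_eq_add_neg] at this

theorem nrm1_sum_le {ι : Type*} (s : Finset ι) (f : ι → ℤ[X]) :
    nrm1 (∑ i ∈ s, f i) ≤ ∑ i ∈ s, nrm1 (f i) := by
  classical
  induction s using Finset.induction_on with
  | empty => simp [nrm1_zero]
  | insert a s ha ih =>
    rw [Finset.sum_insert ha, Finset.sum_insert ha]
    exact (nrm1_add_le _ _).trans (by omega)

theorem nrm1_monomial_mul (n : ℕ) (a : ℤ) (q : ℤ[X]) :
    nrm1 (monomial n a * q) ≤ a.natAbs * nrm1 q := by
  classical
  have hsub : (monomial n a * q).support ⊆ q.support.image (· + n) := by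
    intro i hi
    rw [mem_support_iff, ← C_mul_X_pow_eq_monomial, mul_assoc, coeff_C_mul,
      coeff_X_pow_mul'] at hi
    split_ifs at hi with h
    · refine Finset.mem_image.2 ⟨i - n, ?_, Nat.sub_add_cancel h⟩
      rw [mem_support_iff]
      intro h0
      exact hi (by rw [h0, mul_zero])
    · exact absurd (mul_zero _) hi
  rw [nrm1_eq_of_subset hsub, Finset.sum_image (by intro x _ y _ h; simpa using h), nrm1,
    Finset.mul_sum]
  refine Finset.sum_le_sum fun i _ => ?_
  rw [coeff_monomial_mul, Int.natAbs_mul]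

theorem nrm1_mul_le (p q : ℤ[X]) : nrm1 (p * q) ≤ nrm1 p * nrm1 q := by
  conv_lhs => rw [p.as_sum_support, Finset.sum_mul]
  refine (nrm1_sum_le _ _).trans ?_
  rw [nrm1, Finset.sum_mul]
  exact Finset.sum_le_sum fun i _ => nrm1_monomial_mul _ _ _

theorem nrm1_C (a : ℤ) : nrm1 (C a) ≤ a.natAbs := by
  have h : (C a : ℤ[X]).support ⊆ {0} := support_C_subset a
  rw [nrm1_eq_of_subset h]
  simp

theorem nrm1_X : nrm1 X ≤ 1 := by
  have h : (X : ℤ[X]).support ⊆ {1} := by rw [support_X]
  rw [nrm1_eq_of_subset h]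
  simp

theorem natAbs_coeff_le (p : ℤ[X]) (i : ℕ) : (p.coeff i).natAbs ≤ nrm1 p := by
  by_cases h : i ∈ p.support
  · exact Finset.single_le_sum (f := fun i => (p.coeff i).natAbs) (fun _ _ => Nat.zero_le _) h
  · rw [notMem_support_iff.1 h]; simp

theorem nrm1_divX_le (p : ℤ[X]) : nrm1 p.divX ≤ nrm1 p := by
  classical
  have hsub : p.divX.support ⊆ p.support.image (fun i => i - 1) := by
    intro i hi
    rw [mem_support_iff, coeff_divX] at hi
    exact Finset.mem_image.2 ⟨i + 1, mem_support_iff.2 hi, by simp only [add_tsub_cancel_right]⟩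
  calc nrm1 p.divX = ∑ i ∈ p.divX.support, (p.coeff (i + 1)).natAbs := by
        simp [nrm1, coeff_divX]
    _ = ∑ j ∈ p.divX.support.image (· + 1), (p.coeff j).natAbs := by
        rw [Finset.sum_image (by intro x _ y _ h; simpa using h)]
    _ ≤ nrm1 p := by
        refine Finset.sum_le_sum_of_subset fun j hj => ?_
        obtain ⟨i, hi, rfl⟩ := Finset.mem_image.1 hj
        rw [mem_support_iff, coeff_divX] at hi
        exact mem_support_iff.2 hi

/-! ### digits -/

/-- `H (1 + B + ⋯ + B^(n-1))` -/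
def offN (B H n : ℕ) : ℕ := Nat.rec (motive := fun _ => ℕ) 0 (fun _ ih => Nat.add H (Nat.mul B ih)) n

theorem offN_succ (B H n : ℕ) : offN B H (n + 1) = H + B * offN B H n := rfl

end P264.Prof
end
end

section

section

/-!
# P264 / Lin / BernK : Bernstein nonnegativity by Kronecker substitution (helper868)

A function `f` on `[-1,1]` (polynomial of degree `≤ d`) is represented by the integer polynomial
`P` with `f((w-1)/(w+1)) (1+w)^d = P(w)` (its coefficients are the Bernstein coefficients times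
binomials), and `P` by the single integer `N = P(2^K)`.  All Bernstein coefficients are `≥ 0` iff the
top bits of all digits of `N + off` are set: one `Nat.land`.
-/

namespace P264.Prof

open Polynomial

/-! ### the bit test -/

theorem evalB_split (P : ℤ[X]) (B : ℤ) : P.eval B = P.coeff 0 + B * P.divX.eval B := by
  conv_lhs => rw [← P.divX_mul_X_add]
  simp only [eq_intCast, eval_add, eval_mul, eval_X, eval_intCast, Int.cast_eq]
  ring

theorem coeff_nonneg_of_land (K : ℕ) (hK : 0 < K) : ∀ (n : ℕ) (P : ℤ[X]), P.natDegree < n →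
    nrm1 P < 2 ^ (K - 1) →
    (P.eval (2 ^ K) + (offN (2 ^ K) (2 ^ (K - 1)) n : ℤ)).toNat &&&
      offN (2 ^ K) (2 ^ (K - 1)) n = offN (2 ^ K) (2 ^ (K - 1)) n →
    (0 ≤ P.eval (2 ^ K) + (offN (2 ^ K) (2 ^ (K - 1)) n : ℤ)) ∧ ∀ i, 0 ≤ P.coeff i := by
  intro n
  induction n with
  | zero => intro P h; omega
  | succ n ih =>
    intro P hdeg hb hland
    set H : ℕ := 2 ^ (K - 1) with hH
    have hB2 : (2 : ℕ) ^ K = 2 * H := by
      rw [hH, ← pow_succ']
      congr 1
      omega
    have hHpos : 0 < H := by positivity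
    have hsplit := evalB_split P (2 ^ K)
    have hoff : offN (2 ^ K) H (n + 1) = H + 2 ^ K * offN (2 ^ K) H n := offN_succ _ _ _
    have hc : |P.coeff 0| < (H : ℤ) := by
      rw [Int.abs_eq_natAbs]
      exact_mod_cast lt_of_le_of_lt (natAbs_coeff_le P 0) hb
    obtain ⟨hc1, hc2⟩ := abs_lt.1 hc
    -- the tail
    have hQb : nrm1 P.divX < H := lt_of_le_of_lt (nrm1_divX_le P) hb
    -- sizes
    have hval : P.eval (2 ^ K) + (offN (2 ^ K) H (n + 1) : ℤ) = (P.coeff 0 + H)
        + 2 ^ K * (P.divX.eval (2 ^ K) + (offN (2 ^ K) H n : ℤ)) := by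
      rw [hsplit, hoff]
      push_cast
      ring
    rcases Nat.eq_zero_or_pos n with hn | hn
    · subst hn
      have hdeg0 : P.natDegree = 0 := by omega
      have hPC : P = C (P.coeff 0) := eq_C_of_natDegree_eq_zero hdeg0
      have hdx : P.divX = 0 := by rw [hPC, divX_C]
      have e1 : P.eval (2 ^ K) + (offN (2 ^ K) H (0 + 1) : ℤ) = P.coeff 0 + H := by
        rw [hval, hdx]
        simp [offN]
      have e2 : offN (2 ^ K) H (0 + 1) = H := by rw [hoff]; simp [offN]
      refine ⟨by rw [e1]; linarith only [hc1], fun i => ?_⟩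
      rw [e1, e2] at hland
      rcases Nat.eq_zero_or_pos i with hi | hi
      · subst hi
        have h1 : H ≤ (P.coeff 0 + H).toNat := by
          conv_lhs => rw [← hland]
          exact Nat.and_le_left
        omega
      · rw [coeff_eq_zero_of_natDegree_lt (by omega)]
    · have hdegQ : P.divX.natDegree < n := by
        rw [natDegree_divX_eq_natDegree_tsub_one]; omega
      -- positivity of the tail value
      have hQpos : ∀ (m : ℕ) (Q : ℤ[X]), Q.natDegree < m → nrm1 Q < H →
          0 ≤ Q.eval (2 ^ K) + (offN (2 ^ K) H m : ℤ) := by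
        intro m
        induction m with
        | zero => intro Q hQ; omega
        | succ m ihm =>
          intro Q hQ hQb
          have s1 := evalB_split Q (2 ^ K)
          have s2 : offN (2 ^ K) H (m + 1) = H + 2 ^ K * offN (2 ^ K) H m := offN_succ _ _ _
          have c1 : |Q.coeff 0| < (H : ℤ) := by
            rw [Int.abs_eq_natAbs]
            exact_mod_cast lt_of_le_of_lt (natAbs_coeff_le Q 0) hQb
          obtain ⟨c2, c3⟩ := abs_lt.1 c1
          have c4 : 0 ≤ Q.divX.eval (2 ^ K) + (offN (2 ^ K) H m : ℤ) := by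
            rcases Nat.eq_zero_or_pos m with hm | hm
            · subst hm
              have : Q.divX = 0 := by
                rw [eq_C_of_natDegree_eq_zero (p := Q) (by omega), divX_C]
              rw [this]; simp
            · exact ihm Q.divX (by rw [natDegree_divX_eq_natDegree_tsub_one]; omega)
                (lt_of_le_of_lt (nrm1_divX_le Q) hQb)
          have e : Q.eval (2 ^ K) + (offN (2 ^ K) H (m + 1) : ℤ) = (Q.coeff 0 + H)
              + 2 ^ K * (Q.divX.eval (2 ^ K) + (offN (2 ^ K) H m : ℤ)) := by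
            rw [s1, s2]; push_cast; ring
          rw [e]
          have : 0 ≤ (2 : ℤ) ^ K * (Q.divX.eval (2 ^ K) + (offN (2 ^ K) H m : ℤ)) := by (clear * - c4; positivity)
          linarith only [c2, this]
      have hQ0 := hQpos n P.divX hdegQ hQb
      have hP0 := hQpos (n + 1) P hdeg hb
      -- natural number form
      set M : ℕ := (P.eval (2 ^ K) + (offN (2 ^ K) H (n + 1) : ℤ)).toNat with hM
      set M' : ℕ := (P.divX.eval (2 ^ K) + (offN (2 ^ K) H n : ℤ)).toNat with hM'
      set δ : ℕ := (P.coeff 0 + H).toNat with hδ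
      have hMe : (M : ℤ) = P.eval (2 ^ K) + (offN (2 ^ K) H (n + 1) : ℤ) := Int.toNat_of_nonneg hP0
      have hMe' : (M' : ℤ) = P.divX.eval (2 ^ K) + (offN (2 ^ K) H n : ℤ) :=
        Int.toNat_of_nonneg hQ0
      have hδe : (δ : ℤ) = P.coeff 0 + H := Int.toNat_of_nonneg (by linarith only [hc1])
      have hMd : M = δ + 2 ^ K * M' := by
        have : (M : ℤ) = δ + 2 ^ K * M' := by rw [hMe, hMe', hδe, hval]
        exact_mod_cast this
      have hδB : δ < 2 ^ K := by
        have : (δ : ℤ) < 2 * H := by rw [hδe]; linarith only [hc2]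
        rw [hB2]
        exact_mod_cast this
      have hHB : H < 2 ^ K := by rw [hB2]; omega
      have m1 : M % 2 ^ K = δ := by rw [hMd, Nat.add_mul_mod_self_left, Nat.mod_eq_of_lt hδB]
      have m2 : M / 2 ^ K = M' := by
        rw [hMd, Nat.add_mul_div_left _ _ (by positivity), Nat.div_eq_of_lt hδB, zero_add]
      have o1 : offN (2 ^ K) H (n + 1) % 2 ^ K = H := by
        rw [hoff, Nat.add_mul_mod_self_left, Nat.mod_eq_of_lt hHB]
      have o2 : offN (2 ^ K) H (n + 1) / 2 ^ K = offN (2 ^ K) H n := by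
        rw [hoff, Nat.add_mul_div_left _ _ (by positivity), Nat.div_eq_of_lt hHB, zero_add]
      have l1 : δ &&& H = H := by
        have := congrArg (fun t => t % 2 ^ K) hland
        simp only [Nat.and_mod_two_pow] at this
        rwa [m1, o1] at this
      have l2 : M' &&& offN (2 ^ K) H n = offN (2 ^ K) H n := by
        have := congrArg (fun t => t / 2 ^ K) hland
        simp only [Nat.and_div_two_pow] at this
        rwa [m2, o2] at this
      obtain ⟨_, hrec⟩ := ih P.divX hdegQ hQb l2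
      refine ⟨hP0, fun i => ?_⟩
      rcases Nat.eq_zero_or_pos i with hi | hi
      · subst hi
        have h1 : H ≤ δ := by
          conv_lhs => rw [← l1]
          exact Nat.and_le_left
        omega
      · obtain ⟨j, rfl⟩ : ∃ j, i = j + 1 := ⟨i - 1, by omega⟩
        have := hrec j
        rwa [coeff_divX] at this

/-! ### representations -/

/-- packed homogenised polynomial: value at `B`, bound of the `ℓ¹` norm, degree -/
structure HK where
  N : ℤ
  b : ℕ
  d : ℕ

/-- `x` represents `f` -/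
def RH (B : ℤ) (f : ℝ → ℝ) (x : HK) : Prop :=
  Continuous f ∧ ∃ P : ℤ[X], P.eval B = x.N ∧ nrm1 P ≤ x.b ∧ P.natDegree ≤ x.d ∧
    ∀ w : ℝ, 0 ≤ w → f ((w - 1) / (w + 1)) * (w + 1) ^ x.d = evP P w

theorem evP_nonneg {P : ℤ[X]} (h : ∀ i, 0 ≤ P.coeff i) {w : ℝ} (hw : 0 ≤ w) : 0 ≤ evP P w := by
  rw [evP, eval₂_eq_sum, Polynomial.sum]
  refine Finset.sum_nonneg fun i _ => ?_
  have : (0 : ℝ) ≤ (Int.castRingHom ℝ) (P.coeff i) := by
    simpa only [eq_intCast, Int.cast_nonneg_iff] using h i
  positivity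

/-- the test -/
def hkTest (K : ℕ) (x : HK) : Bool :=
  Nat.blt x.b (Nat.pow 2 (K - 1)) &&
    Nat.beq (Nat.land (Int.toNat (Int.add x.N (Int.ofNat (offN (2 ^ K) (2 ^ (K - 1)) (x.d + 1)))))
      (offN (2 ^ K) (2 ^ (K - 1)) (x.d + 1))) (offN (2 ^ K) (2 ^ (K - 1)) (x.d + 1))

theorem RH.nonneg {K : ℕ} (hK : 0 < K) {f : ℝ → ℝ} {x : HK} (h : RH (2 ^ K) f x)
    (ht : hkTest K x = true) {v : ℝ} (hv : |v| ≤ 1) : 0 ≤ f v := by
  obtain ⟨hc, P, hN, hb, hd, hP⟩ := h
  simp only [hkTest, Bool.and_eq_true, Nat.blt_eq, Nat.pow_eq] at ht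
  obtain ⟨h1, h2⟩ := ht
  have h2' := Nat.eq_of_beq_eq_true h2
  have hco := (coeff_nonneg_of_land K hK (x.d + 1) P (by omega) (lt_of_le_of_lt hb h1)
    (by rw [hN]; exact h2')).2
  have hop : ∀ u : ℝ, -1 ≤ u → u < 1 → 0 ≤ f u := by
    intro u hu1 hu2
    have h1u : 0 < 1 - u := by linarith only [hu2]
    have hw : 0 ≤ (1 + u) / (1 - u) := div_nonneg (by linarith only [hu1]) h1u.le
    have e1 : ((1 + u) / (1 - u) - 1) / ((1 + u) / (1 - u) + 1) = u := by
      field_simp
      ring
    have h3 := hP _ hw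
    rw [e1] at h3
    have h4 := evP_nonneg hco hw
    rw [← h3] at h4
    have h5 : 0 < ((1 + u) / (1 - u) + 1) ^ x.d := by (clear * - hw; positivity)
    exact nonneg_of_mul_nonneg_left h4 h5
  obtain ⟨hv1, hv2⟩ := abs_le.1 hv
  rcases hv2.lt_or_eq with h | h
  · exact hop v hv1 h
  · subst h
    have hcl : (1 : ℝ) ∈ closure (Set.Ico (-1) 1) := by
      rw [closure_Ico (by norm_num)]
      exact ⟨by norm_num, le_rfl⟩
    have hclosed : IsClosed {u : ℝ | 0 ≤ f u} := isClosed_le continuous_const hc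
    exact hclosed.closure_subset_iff.2 (fun u hu => hop u hu.1 hu.2) hcl

/-! ### operations -/

def HK.mul (x y : HK) : HK := ⟨Int.mul x.N y.N, Nat.mul x.b y.b, Nat.add x.d y.d⟩

/-- degree elevation by `e` -/
def HK.up (B1 : ℤ) (e : ℕ) (x : HK) : HK :=
  ⟨Int.mul x.N (B1 ^ e), Nat.mul x.b (Nat.pow 2 e), Nat.add x.d e⟩

/-- sum (degrees are made equal by elevation); `B1 = B + 1` -/
def HK.add (B1 : ℤ) (x y : HK) : HK :=
  ⟨Int.add (Int.mul x.N (B1 ^ (y.d - x.d))) (Int.mul y.N (B1 ^ (x.d - y.d))),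
    Nat.add (Nat.mul x.b (Nat.pow 2 (y.d - x.d))) (Nat.mul y.b (Nat.pow 2 (x.d - y.d))),
    Nat.add x.d (y.d - x.d)⟩

def HK.smul (s : ℤ) (x : HK) : HK := ⟨Int.mul s x.N, Nat.mul s.natAbs x.b, x.d⟩

/-- constant -/
def HK.const (c : ℤ) : HK := ⟨c, c.natAbs, 0⟩

/-- `c + h v` -/
def HK.lin (B c h : ℤ) : HK :=
  ⟨c * (B + 1) + h * (B - 1), Nat.add (2 * c.natAbs) (2 * h.natAbs), 1⟩

theorem nrm1_pow_le (p : ℤ[X]) (n : ℕ) : nrm1 (p ^ n) ≤ nrm1 p ^ n := by
  induction n with
  | zero =>
    rw [pow_zero, pow_zero, ← C_1]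
    exact nrm1_C 1
  | succ n ih =>
    rw [pow_succ, pow_succ]
    exact (nrm1_mul_le _ _).trans (Nat.mul_le_mul_right _ ih)

theorem nrm1_one : nrm1 1 ≤ 1 := by
  rw [← C_1]; exact nrm1_C 1

theorem nrm1_X_add_one : nrm1 (X + 1) ≤ 2 :=
  (nrm1_add_le _ _).trans (Nat.add_le_add nrm1_X nrm1_one)

theorem nrm1_X_sub_one : nrm1 (X - 1) ≤ 2 :=
  (nrm1_sub_le _ _).trans (Nat.add_le_add nrm1_X nrm1_one)

theorem natDegree_X_add_one_pow (e : ℕ) : ((X + 1 : ℤ[X]) ^ e).natDegree ≤ e := by
  refine (natDegree_pow_le).trans ?_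
  have : (X + 1 : ℤ[X]).natDegree ≤ 1 := by
    rw [← C_1]; exact natDegree_X_add_C 1 |>.le
  nlinarith

theorem RH.mul {B : ℤ} {f g : ℝ → ℝ} {x y : HK} (hx : RH B f x) (hy : RH B g y) :
    RH B (fun v => f v * g v) (HK.mul x y) := by
  obtain ⟨c1, P, n1, b1, d1, e1⟩ := hx
  obtain ⟨c2, Q, n2, b2, d2, e2⟩ := hy
  refine ⟨c1.mul c2, P * Q, ?_, ?_, ?_, fun w hw => ?_⟩
  · rw [eval_mul, n1, n2]; rfl
  · exact (nrm1_mul_le _ _).trans (Nat.mul_le_mul b1 b2)
  · exact natDegree_mul_le.trans (Nat.add_le_add d1 d2)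
  · rw [evP_mul, ← e1 w hw, ← e2 w hw]
    show _ * (w + 1) ^ (x.d + y.d) = _
    rw [pow_add]; ring

theorem RH.up {B : ℤ} {f : ℝ → ℝ} {x : HK} (e : ℕ) (hx : RH B f x) :
    RH B f (HK.up (B + 1) e x) := by
  obtain ⟨c1, P, n1, b1, d1, e1⟩ := hx
  refine ⟨c1, P * (X + 1) ^ e, ?_, ?_, ?_, fun w hw => ?_⟩
  · rw [eval_mul, n1, eval_pow]
    show _ = x.N * (B + 1) ^ e
    simp
  · exact (nrm1_mul_le _ _).trans (Nat.mul_le_mul b1
      ((nrm1_pow_le _ _).trans (Nat.pow_le_pow_left nrm1_X_add_one e)))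
  · exact natDegree_mul_le.trans (Nat.add_le_add d1 (natDegree_X_add_one_pow e))
  · rw [evP_mul, evP_pow, evP_add, evP_X, evP_one, ← e1 w hw]
    show _ * (w + 1) ^ (x.d + e) = _
    rw [pow_add]; ring

theorem RH.add {B : ℤ} {f g : ℝ → ℝ} {x y : HK} (hx : RH B f x) (hy : RH B g y) :
    RH B (fun v => f v + g v) (HK.add (B + 1) x y) := by
  obtain ⟨c1, P, n1, b1, d1, e1⟩ := hx.up (y.d - x.d)
  obtain ⟨c2, Q, n2, b2, d2, e2⟩ := hy.up (x.d - y.d)
  have hd : y.d + (x.d - y.d) = x.d + (y.d - x.d) := by omega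
  refine ⟨c1.add c2, P + Q, ?_, ?_, ?_, fun w hw => ?_⟩
  · rw [eval_add, n1, n2]; rfl
  · exact (nrm1_add_le _ _).trans (Nat.add_le_add b1 b2)
  · refine (natDegree_add_le _ _).trans (max_le d1 (d2.trans ?_))
    show y.d + (x.d - y.d) ≤ x.d + (y.d - x.d)
    omega
  · have h1 := e1 w hw
    have h2 := e2 w hw
    rw [evP_add, ← h1, ← h2]
    show _ * (w + 1) ^ (x.d + (y.d - x.d)) = f _ * (w + 1) ^ (x.d + (y.d - x.d))
      + g _ * (w + 1) ^ (y.d + (x.d - y.d))
    rw [hd]; ring

theorem RH.smul {B : ℤ} {f : ℝ → ℝ} {x : HK} (s : ℤ) (hx : RH B f x) :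
    RH B (fun v => (s : ℝ) * f v) (HK.smul s x) := by
  obtain ⟨c1, P, n1, b1, d1, e1⟩ := hx
  refine ⟨continuous_const.mul c1, C s * P, ?_, ?_, ?_, fun w hw => ?_⟩
  · rw [eval_mul, eval_C, n1]; rfl
  · exact (nrm1_mul_le _ _).trans (Nat.mul_le_mul (nrm1_C s) b1)
  · exact (natDegree_C_mul_le _ _).trans d1
  · rw [evP_mul, evP_C, ← e1 w hw]
    show _ * (w + 1) ^ x.d = _
    ring

theorem RH.const (B c : ℤ) : RH B (fun _ => (c : ℝ)) (HK.const c) := by
  refine ⟨continuous_const, C c, eval_C, nrm1_C c, (natDegree_C c).le, fun w _ => ?_⟩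
  rw [evP_C]
  show (c : ℝ) * (w + 1) ^ 0 = c
  simp

theorem RH.lin (B c h : ℤ) : RH B (fun v => (c : ℝ) + h * v) (HK.lin B c h) := by
  refine ⟨by fun_prop, C c * (X + 1) + C h * (X - 1), ?_, ?_, ?_, fun w hw => ?_⟩
  · simp only [eq_intCast, eval_add, eval_mul, eval_intCast, Int.cast_eq, eval_X, eval_one, eval_sub, HK.lin, Nat.add_eq]
  · refine (nrm1_add_le _ _).trans (Nat.add_le_add ?_ ?_)
    · refine (nrm1_mul_le _ _).trans ?_
      have := Nat.mul_le_mul (nrm1_C c) nrm1_X_add_one
      omega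
    · refine (nrm1_mul_le _ _).trans ?_
      have := Nat.mul_le_mul (nrm1_C h) nrm1_X_sub_one
      omega
  · refine (natDegree_add_le _ _).trans (max_le ?_ ?_)
    · refine (natDegree_C_mul_le _ _).trans ?_
      rw [← C_1]; exact (natDegree_X_add_C 1).le
    · refine (natDegree_C_mul_le _ _).trans ?_
      rw [← C_1]; exact (natDegree_X_sub_C 1).le
  · simp only [evP_add, evP_sub, evP_mul, evP_C, evP_X, evP_one]
    show _ * (w + 1) ^ 1 = _
    field_simp

theorem RH.congr {B : ℤ} {f g : ℝ → ℝ} {x : HK} (hx : RH B f x) (h : ∀ v, f v = g v) :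
    RH B g x := by
  have : f = g := funext h
  rwa [← this]

/-- accumulator evaluation of `∑ c_k (B-1)^k (B+1)^(d-k)` -/
def hf (B : ℤ) : List ℤ → ℤ → ℤ → ℤ
  | [], acc, _ => acc
  | a :: l, acc, p => hf B l (Int.add (Int.mul acc (B + 1)) (Int.mul a p)) (Int.mul p (B - 1))

/-- the polynomial behind `hf` -/
noncomputable def hP : List ℤ → ℤ[X] → ℤ[X] → ℤ[X]
  | [], acc, _ => acc
  | a :: l, acc, p => hP l (acc * (X + 1) + C a * p) (p * (X - 1))

/-- bound of the `ℓ¹` norm -/
def hb (l : List ℤ) : ℕ := Nat.mul (sabs l) (Nat.pow 2 (l.length - 1))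

/-- the representation of a coefficient list -/
def HK.ofList (B : ℤ) (l : List ℤ) : HK := ⟨hf B l 0 1, hb l, l.length - 1⟩

theorem eval_hP (B : ℤ) (l : List ℤ) (acc p : ℤ[X]) :
    (hP l acc p).eval B = hf B l (acc.eval B) (p.eval B) := by
  induction l generalizing acc p with
  | nil => rfl
  | cons a l ih =>
    rw [hP, hf, ih]
    congr 1
    · simp only [eq_intCast, eval_add, eval_mul, eval_X, eval_one, eval_intCast, Int.cast_eq, Int.mul_def, Int.add_def]
    · simp

theorem evP_hP (l : List ℤ) (acc p : ℤ[X]) {w : ℝ} (hw : 0 ≤ w) :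
    evP (hP l acc p) w = (w + 1) ^ l.length *
      (evP acc w + evP p w / (w + 1) * ev l ((w - 1) / (w + 1))) := by
  have h1 : w + 1 ≠ 0 := by positivity
  induction l generalizing acc p with
  | nil => simp [hP]
  | cons a l ih =>
    rw [hP, ih, ev_cons, List.length_cons]
    simp only [evP_add, evP_sub, evP_mul, evP_C, evP_X, evP_one]
    field_simp
    ring

theorem nrm1_hP (l : List ℤ) (acc p : ℤ[X]) :
    nrm1 (hP l acc p) ≤ nrm1 acc * 2 ^ l.length + nrm1 p * hb l := by
  induction l generalizing acc p with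
  | nil => simp only [hP, List.length_nil, pow_zero, mul_one, le_add_iff_nonneg_right, zero_le]
  | cons a l ih =>
    rw [hP]
    refine (ih _ _).trans ?_
    have e1 : nrm1 (acc * (X + 1) + C a * p) ≤ nrm1 acc * 2 + a.natAbs * nrm1 p :=
      (nrm1_add_le _ _).trans (Nat.add_le_add
        ((nrm1_mul_le _ _).trans (Nat.mul_le_mul_left _ nrm1_X_add_one))
        ((nrm1_mul_le _ _).trans (Nat.mul_le_mul_right _ (nrm1_C a))))
    have e2 : nrm1 (p * (X - 1)) ≤ nrm1 p * 2 :=
      (nrm1_mul_le _ _).trans (Nat.mul_le_mul_left _ nrm1_X_sub_one)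
    have e3 : 2 * hb l ≤ sabs l * 2 ^ l.length := by
      cases l with
      | nil => simp [hb, sabs]
      | cons b l =>
        simp only [hb, Nat.mul_eq, Nat.pow_eq, List.length_cons, Nat.add_sub_cancel, pow_succ]
        exact le_of_eq (by ring)
    have e4 : hb (a :: l) = (a.natAbs + sabs l) * 2 ^ l.length := by
      simp only [hb, sabs, Nat.mul_eq, Nat.pow_eq, List.length_cons, Nat.add_sub_cancel]
    calc nrm1 (acc * (X + 1) + C a * p) * 2 ^ l.length + nrm1 (p * (X - 1)) * hb l
        ≤ (nrm1 acc * 2 + a.natAbs * nrm1 p) * 2 ^ l.length + nrm1 p * 2 * hb l :=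
          Nat.add_le_add (Nat.mul_le_mul_right _ e1) (Nat.mul_le_mul_right _ e2)
      _ = nrm1 acc * (2 ^ l.length * 2) + nrm1 p * (a.natAbs * 2 ^ l.length + 2 * hb l) := by ring
      _ ≤ nrm1 acc * (2 ^ l.length * 2)
          + nrm1 p * (a.natAbs * 2 ^ l.length + sabs l * 2 ^ l.length) := by gcongr
      _ = _ := by rw [e4, List.length_cons, pow_succ]; ring

theorem natDegree_X_add_one_le : (X + 1 : ℤ[X]).natDegree ≤ 1 := by
  rw [← C_1]; exact (natDegree_X_add_C 1).le

theorem natDegree_X_sub_one_le : (X - 1 : ℤ[X]).natDegree ≤ 1 := by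
  rw [← C_1]; exact (natDegree_X_sub_C 1).le

theorem natDegree_hP (l : List ℤ) (acc p : ℤ[X]) (k : ℕ) (h1 : acc.natDegree ≤ k)
    (h2 : p.natDegree ≤ k + 1) : (hP l acc p).natDegree ≤ k + l.length := by
  induction l generalizing acc p k with
  | nil => simpa [hP] using h1
  | cons a l ih =>
    rw [hP, List.length_cons]
    refine (ih _ _ (k + 1) ?_ ?_).trans (by omega)
    · refine (natDegree_add_le _ _).trans (max_le ?_ ?_)
      · exact natDegree_mul_le.trans (Nat.add_le_add h1 natDegree_X_add_one_le)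
      · exact (natDegree_C_mul_le _ _).trans h2
    · exact natDegree_mul_le.trans (Nat.add_le_add h2 natDegree_X_sub_one_le)

theorem RH.ofList (B : ℤ) (l : List ℤ) : RH B (ev l) (HK.ofList B l) := by
  refine ⟨continuous_ev l, hP l 0 1, ?_, ?_, ?_, fun w hw => ?_⟩
  · rw [eval_hP]; simp [HK.ofList]
  · refine (nrm1_hP l 0 1).trans ?_
    have := Nat.mul_le_mul_right (hb l) nrm1_one
    show _ ≤ hb l
    rw [nrm1_zero]
    omega
  · cases l with
    | nil => simp [hP]
    | cons a l =>
      rw [hP]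
      refine (natDegree_hP l _ _ 0 ?_ ?_).trans ?_
      · simp
      · rw [one_mul]; exact natDegree_X_sub_one_le
      · show 0 + l.length ≤ (a :: l).length - 1
        simp only [zero_add, List.length_cons, add_tsub_cancel_right, Std.le_refl]
  · rw [evP_hP l 0 1 hw, evP_zero, evP_one, zero_add]
    have h1 : w + 1 ≠ 0 := by positivity
    show ev l _ * (w + 1) ^ (l.length - 1) = _
    cases l with
    | nil => simp
    | cons a l =>
      simp only [List.length_cons, Nat.add_sub_cancel]
      field_simp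
      ring

end P264.Prof
end
end

section

section

/-!
# P264 / Prof / ResK : the residual polynomial in packed Bernstein form (helper868)
-/

namespace P264.Prof

/-- `y^k R^{(k)} H^4 2^M` -/
def ydK (B : ℤ) (s : Cell) (k : ℕ) : HK :=
  HK.smul (s.H ^ (4 - k)) (HK.mul ⟨(HK.lin B s.C s.H).N ^ k, (HK.lin B s.C s.H).b ^ k, k⟩
    (HK.ofList B (pdk k s.c)))

theorem RH.pow {B : ℤ} {f : ℝ → ℝ} {x : HK} (hd : x.d = 1) (hx : RH B f x) (k : ℕ) :
    RH B (fun v => f v ^ k) ⟨x.N ^ k, x.b ^ k, k⟩ := by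
  obtain ⟨c1, P, n1, b1, d1, e1⟩ := hx
  refine ⟨c1.pow k, P ^ k, ?_, ?_, ?_, fun w hw => ?_⟩
  · rw [Polynomial.eval_pow, n1]
  · exact (nrm1_pow_le _ _).trans (Nat.pow_le_pow_left b1 k)
  · refine Polynomial.natDegree_pow_le.trans ?_
    rw [hd] at d1
    show k * P.natDegree ≤ k
    nlinarith only [d1]
  · have h := e1 w hw
    rw [hd, pow_one] at h
    rw [evP_pow, ← h]
    show _ ^ k * (w + 1) ^ k = _
    rw [mul_pow]

theorem RH.yd (B : ℤ) (s : Cell) (k : ℕ) : RH B (ev (ydP s k)) (ydK B s k) := by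
  have h1 := ((RH.lin B s.C s.H).pow rfl k).mul (RH.ofList B (pdk k s.c))
  refine (h1.smul (s.H ^ (4 - k))).congr fun v => ?_
  rw [ydP, ev_psmul, ev_pmul, ev_ppow, ev_pdk]
  simp only [yP, ev_cons, ev_nil]
  ring

def GK (B : ℤ) (M : ℕ) (s : Cell) : HK :=
  HK.add (B + 1) (ydK B s 4) (HK.add (B + 1) (HK.smul 18 (ydK B s 3))
    (HK.add (B + 1) (HK.smul 56 (ydK B s 2)) (HK.add (B + 1) (HK.smul (-112) (ydK B s 1))
      (HK.add (B + 1) (HK.smul 112 (ydK B s 0)) (HK.const (-112 * s.H ^ 4 * 2 ^ M))))))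

theorem RH.G (B : ℤ) (M : ℕ) (s : Cell) : RH B (ev (GP M s)) (GK B M s) := by
  refine ((RH.yd B s 4).add (((RH.yd B s 3).smul 18).add (((RH.yd B s 2).smul 56).add
    (((RH.yd B s 1).smul (-112)).add (((RH.yd B s 0).smul 112).add
      (RH.const B (-112 * s.H ^ 4 * 2 ^ M))))))).congr fun v => ?_
  simp only [GP, ev_padd, ev_psmul, ev_cons, ev_nil]
  push_cast
  ring

def resK (B : ℤ) (M : ℕ) (s : Cell) : HK :=
  HK.add (B + 1) (HK.smul (2 ^ (2 * M)) (HK.mul (HK.mul (HK.lin B s.C s.H) (HK.lin B s.C s.H))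
      (ydK B s 1)))
    (HK.smul (2 ^ 9) (HK.mul (HK.mul (HK.ofList B s.c) (HK.ofList B s.c)) (GK B M s)))

theorem RH.res (B : ℤ) (M : ℕ) (s : Cell) : RH B (ev (resP M s)) (resK B M s) := by
  have hl := RH.lin B s.C s.H
  have hc := RH.ofList B s.c
  refine ((((hl.mul hl).mul (RH.yd B s 1)).smul (2 ^ (2 * M))).add
    (((hc.mul hc).mul (RH.G B M s)).smul (2 ^ 9))).congr fun v => ?_
  simp only [resP, ev_padd, ev_psmul, ev_pmul, ev_ppow, yP, ev_cons, ev_nil]
  ring

/-- `|E| ≤ p/q` on `[-1,1]` -/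
def absK (K : ℕ) (p q : ℤ) (x : HK) : Bool :=
  hkTest K (HK.add (2 ^ K + 1) (HK.smul q x) (HK.const p)) &&
    hkTest K (HK.add (2 ^ K + 1) (HK.smul (-q) x) (HK.const p))

theorem abs_of_absK {K : ℕ} (hK : 0 < K) {p q : ℤ} (hq : 0 < q) {f : ℝ → ℝ} {x : HK}
    (hx : RH (2 ^ K) f x) (h : absK K p q x = true) {v : ℝ} (hv : |v| ≤ 1) :
    |f v| ≤ (p : ℝ) / q := by
  simp only [absK, Bool.and_eq_true] at h
  have h1 := ((hx.smul q).add (RH.const _ p)).nonneg hK h.1 hv
  have h2 := ((hx.smul (-q)).add (RH.const _ p)).nonneg hK h.2 hv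
  have hq' : (0 : ℝ) < q := by exact_mod_cast hq
  push_cast at h1 h2
  rw [le_div_iff₀ hq']
  have e : |f v| * q = |f v * q| := by rw [abs_mul, abs_of_pos hq']
  rw [e, abs_le]
  constructor <;> linarith only [h1, h2]

end P264.Prof
end
end

section

section

/-!
# P264 / LC / Resh : re-expansion of a cell polynomial on a sub-cell (helper602)

`resh lm s p` is the coefficient list of `m^(len p - 1) * p((v+s)/m)`, `m = 2^lm`.
-/

namespace P264.LC

open P264.Prof

/-- coefficients of `c + (v + s) q(v)` -/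
def shAux (s : ℤ) : ℤ → List ℤ → List ℤ
  | c, [] => [c]
  | c, b :: q => (c + s * b) :: shAux s b q

/-- coefficients of `(2^lm)^(len p - 1) * p((v+s)/2^lm)` -/
def resh (lm : ℕ) (s : ℤ) : List ℤ → List ℤ
  | [] => []
  | a :: l => shAux s (2 ^ (lm * l.length) * a) (resh lm s l)

theorem ev_shAux (s c : ℤ) (q : List ℤ) (v : ℝ) :
    ev (shAux s c q) v = (c : ℝ) + (v + s) * ev q v := by
  induction q generalizing c with
  | nil => simp [shAux]
  | cons b q ih =>
    rw [shAux, ev_cons, ih, ev_cons]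
    push_cast
    ring

theorem ev_resh (lm : ℕ) (s : ℤ) (p : List ℤ) (v : ℝ) :
    ev (resh lm s p) v = ((2 : ℝ) ^ lm) ^ (p.length - 1) * ev p ((v + s) / 2 ^ lm) := by
  induction p with
  | nil => simp only [resh, ev_nil, List.length_nil, zero_tsub, pow_zero, mul_zero]
  | cons a l ih =>
    rw [resh, ev_shAux, ih, ev_cons, List.length_cons, Nat.add_sub_cancel]
    have h2 : ((2 : ℝ) ^ lm) ≠ 0 := by positivity
    rcases Nat.eq_zero_or_pos l.length with h | h
    · have hl : l = [] := List.length_eq_zero_iff.1 h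
      subst hl
      simp
    · obtain ⟨n, hn⟩ : ∃ n, l.length = n + 1 := ⟨l.length - 1, by omega⟩
      rw [hn, Nat.add_sub_cancel]
      push_cast
      rw [pow_mul, pow_succ ((2 : ℝ) ^ lm) n]
      field_simp

theorem val_resh {M lm : ℕ} {s : ℤ} {P : Cell} {C H : ℤ} (hH : 0 < H) (hP : P.H = H * 2 ^ lm)
    (hC : C = P.C + s * H) (k : ℕ) (y : ℝ) :
    (Cell.mk C H (resh lm s P.c)).val (M + lm * (P.c.length - 1)) k y = P.val M k y := by
  have hPH : 0 < P.H := by rw [hP]; positivity
  induction k generalizing y with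
  | zero =>
    have hHr : (H : ℝ) ≠ 0 := by exact_mod_cast hH.ne'
    have h2 : ((2 : ℝ) ^ lm) ≠ 0 := by positivity
    have e : ((16 * y - (C : ℝ)) / (H : ℝ) + (s : ℝ)) / 2 ^ lm = (16 * y - (P.C : ℝ)) / (P.H : ℝ) := by
      rw [hP, hC]
      push_cast
      field_simp
      ring
    simp only [Cell.val, pderk, pow_zero, one_mul]
    rw [ev_resh, e, pow_add, pow_mul]
    have h3 : ((2 : ℝ) ^ lm) ^ (P.c.length - 1) ≠ 0 := by positivity
    have h4 : ((2 : ℝ) ^ M) ≠ 0 := by positivity
    (clear * - h3 h4; field_simp)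
  | succ k ih =>
    have h1 := (Cell.mk C H (resh lm s P.c)).hasDerivAt (M + lm * (P.c.length - 1)) hH k y
    have h2 := P.hasDerivAt M hPH k y
    have e : (Cell.mk C H (resh lm s P.c)).val (M + lm * (P.c.length - 1)) k = P.val M k :=
      funext ih
    rw [e] at h1
    exact h1.unique h2

end P264.LC
end
end

section

section

/-!
# P264 / Tool / Box : calculus of functions that are smooth up to the boundary of the closed box
`[0,T] × [0,1]`, averages `∫₀¹ θᵏ H(t,θx) dθ`, smooth division by `x` (helper602)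
-/

open Set MeasureTheory Filter Topology
open scoped ContDiff

namespace P264.B

theorem mem_rect {T : ℝ} {p : ℝ × ℝ} :
    p ∈ rect T ↔ (0 ≤ p.1 ∧ p.1 ≤ T) ∧ (0 ≤ p.2 ∧ p.2 ≤ 1) := Iff.rfl

theorem convex_rect (T : ℝ) : Convex ℝ (rect T) := (convex_Icc 0 T).prod (convex_Icc 0 1)

theorem isCompact_rect (T : ℝ) : IsCompact (rect T) := isCompact_Icc.prod isCompact_Icc

section basic
variable {T : ℝ} {F : ℝ × ℝ → ℝ} {m n : WithTop ℕ∞}

theorem contDiffOn_pt' (hT : 0 < T) (hF : ContDiffOn ℝ n F (rect T)) (hmn : m + 1 ≤ n) :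
    ContDiffOn ℝ m (pt T F) (rect T) :=
  (hF.fderivWithin (uniqueDiffOn_rect hT) hmn).clm_apply contDiffOn_const

theorem contDiffOn_px' (hT : 0 < T) (hF : ContDiffOn ℝ n F (rect T)) (hmn : m + 1 ≤ n) :
    ContDiffOn ℝ m (px T F) (rect T) :=
  (hF.fderivWithin (uniqueDiffOn_rect hT) hmn).clm_apply contDiffOn_const

theorem hasFDerivWithinAt_rect (hF : ContDiffOn ℝ n F (rect T)) (hn : 1 ≤ n) {p : ℝ × ℝ}
    (hp : p ∈ rect T) :
    HasFDerivWithinAt F (pt T F p • ContinuousLinearMap.fst ℝ ℝ ℝ +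
      px T F p • ContinuousLinearMap.snd ℝ ℝ ℝ) (rect T) p := by
  have h := ((hF.differentiableOn (by positivity)) p hp).hasFDerivWithinAt
  have e : pt T F p • ContinuousLinearMap.fst ℝ ℝ ℝ +
      px T F p • ContinuousLinearMap.snd ℝ ℝ ℝ = fderivWithin ℝ F (rect T) p := by
    ext
    · simp only [pt, ContinuousLinearMap.add_comp, ContinuousLinearMap.smul_comp, ContinuousLinearMap.fst_comp_inl, ContinuousLinearMap.snd_comp_inl, smul_zero, add_zero, smul_apply, ContinuousLinearMap.id_apply, smul_eq_mul, mul_one, ContinuousLinearMap.comp_apply, ContinuousLinearMap.inl_apply]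
    · simp only [px, ContinuousLinearMap.add_comp, ContinuousLinearMap.smul_comp, ContinuousLinearMap.fst_comp_inr, smul_zero, ContinuousLinearMap.snd_comp_inr, zero_add, smul_apply, ContinuousLinearMap.id_apply, smul_eq_mul, mul_one, ContinuousLinearMap.comp_apply, ContinuousLinearMap.inr_apply]
  rw [e]
  exact h

theorem hasDerivWithinAt_px' (hF : ContDiffOn ℝ n F (rect T)) (hn : 1 ≤ n) {t x : ℝ}
    (ht : t ∈ Icc 0 T) (hx : x ∈ Icc (0 : ℝ) 1) :
    HasDerivWithinAt (fun x => F (t, x)) (px T F (t, x)) (Icc 0 1) x := by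
  have h := hasFDerivWithinAt_rect hF hn (p := (t, x)) ⟨ht, hx⟩
  have h2 : HasDerivWithinAt (fun x : ℝ => (t, x)) ((0 : ℝ), (1 : ℝ)) (Icc 0 1) x :=
    (hasDerivWithinAt_const x _ t).prodMk (hasDerivWithinAt_id x _)
  have h3 := h.comp_hasDerivWithinAt x h2 (fun y hy => ⟨ht, hy⟩)
  have e : (pt T F (t, x) • ContinuousLinearMap.fst ℝ ℝ ℝ +
      px T F (t, x) • ContinuousLinearMap.snd ℝ ℝ ℝ) ((0 : ℝ), (1 : ℝ)) = px T F (t, x) := by
    simp only [add_apply, smul_apply, ContinuousLinearMap.coe_fst', smul_eq_mul, mul_zero, ContinuousLinearMap.coe_snd', mul_one, zero_add]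
  rw [e] at h3
  exact h3

theorem hasDerivWithinAt_pt' (hF : ContDiffOn ℝ n F (rect T)) (hn : 1 ≤ n) {t x : ℝ}
    (ht : t ∈ Icc 0 T) (hx : x ∈ Icc (0 : ℝ) 1) :
    HasDerivWithinAt (fun t => F (t, x)) (pt T F (t, x)) (Icc 0 T) t := by
  have h := hasFDerivWithinAt_rect hF hn (p := (t, x)) ⟨ht, hx⟩
  have h2 : HasDerivWithinAt (fun t : ℝ => (t, x)) ((1 : ℝ), (0 : ℝ)) (Icc 0 T) t :=
    (hasDerivWithinAt_id t _).prodMk (hasDerivWithinAt_const t _ x)
  have h3 := HasFDerivWithinAt.comp_hasDerivWithinAt (t := rect T) t h h2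
    (fun y hy => ⟨hy, hx⟩)
  have e : (pt T F (t, x) • ContinuousLinearMap.fst ℝ ℝ ℝ +
      px T F (t, x) • ContinuousLinearMap.snd ℝ ℝ ℝ) ((1 : ℝ), (0 : ℝ)) = pt T F (t, x) := by
    simp
  rw [e] at h3
  exact h3

theorem hasDerivAt_px (hF : ContDiffOn ℝ n F (rect T)) (hn : 1 ≤ n) {t x : ℝ}
    (ht : t ∈ Icc 0 T) (hx : x ∈ Ioo (0 : ℝ) 1) :
    HasDerivAt (fun x => F (t, x)) (px T F (t, x)) x :=
  (hasDerivWithinAt_px' hF hn ht (Ioo_subset_Icc_self hx)).hasDerivAt (Icc_mem_nhds hx.1 hx.2)

theorem bounded_rect (hF : ContinuousOn F (rect T)) : ∃ C : ℝ, 0 ≤ C ∧ ∀ p ∈ rect T, |F p| ≤ C := by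
  obtain ⟨C, hC⟩ := (isCompact_rect T).exists_bound_of_continuousOn hF
  exact ⟨max C 0, le_max_right _ _, fun p hp => by
    have := hC p hp
    rw [Real.norm_eq_abs] at this
    exact this.trans (le_max_left _ _)⟩

/-- uniqueness of the derivative in `x` on the closed box -/
theorem px_eq_of_hasDerivWithinAt (hF : ContDiffOn ℝ n F (rect T)) (hn : 1 ≤ n) {t x d : ℝ}
    (ht : t ∈ Icc 0 T) (hx : x ∈ Icc (0 : ℝ) 1)
    (h : HasDerivWithinAt (fun x => F (t, x)) d (Icc 0 1) x) : px T F (t, x) = d :=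
  (uniqueDiffOn_Icc zero_lt_one x hx).eq_deriv _ (hasDerivWithinAt_px' hF hn ht hx) h

theorem pt_eq_of_hasDerivWithinAt (hT : 0 < T) (hF : ContDiffOn ℝ n F (rect T)) (hn : 1 ≤ n)
    {t x d : ℝ} (ht : t ∈ Icc 0 T) (hx : x ∈ Icc (0 : ℝ) 1)
    (h : HasDerivWithinAt (fun t => F (t, x)) d (Icc 0 T) t) : pt T F (t, x) = d :=
  (uniqueDiffOn_Icc hT t ht).eq_deriv _ (hasDerivWithinAt_pt' hF hn ht hx) h

end basic

/-! ### averages -/

/-- `avg k H (t,x) = ∫₀¹ θᵏ H(t, θ x) dθ` -/
noncomputable def avg (k : ℕ) (H : ℝ × ℝ → ℝ) (p : ℝ × ℝ) : ℝ :=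
  ∫ θ in (0 : ℝ)..1, θ ^ k * H (p.1, θ * p.2)

theorem rect_scale {T : ℝ} {p : ℝ × ℝ} (hp : p ∈ rect T) {θ : ℝ} (hθ : θ ∈ Icc (0 : ℝ) 1) :
    (p.1, θ * p.2) ∈ rect T := by
  rw [mem_rect] at hp ⊢
  refine ⟨hp.1, mul_nonneg hθ.1 hp.2.1, ?_⟩
  calc θ * p.2 ≤ 1 * 1 := mul_le_mul hθ.2 hp.2.2 hp.2.1 zero_le_one
    _ = 1 := one_mul 1

theorem intervalIntegrable_avg {T : ℝ} {H : ℝ × ℝ → ℝ} (hH : ContinuousOn H (rect T)) (k : ℕ)
    {p : ℝ × ℝ} (hp : p ∈ rect T) :
    IntervalIntegrable (fun θ => θ ^ k * H (p.1, θ * p.2)) volume 0 1 := by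
  apply ContinuousOn.intervalIntegrable
  rw [uIcc_of_le zero_le_one]
  apply ContinuousOn.mul (by fun_prop)
  apply hH.comp (by fun_prop)
  intro θ hθ
  exact rect_scale hp hθ

theorem continuousOn_avg {T : ℝ} (hT : 0 ≤ T) {H : ℝ × ℝ → ℝ} (hH : ContinuousOn H (rect T))
    (k : ℕ) : ContinuousOn (avg k H) (rect T) := by
  set r : ℝ × ℝ → ℝ × ℝ := fun p => (max 0 (min p.1 T), max 0 (min p.2 1)) with hr
  have hrc : Continuous r := by fun_prop
  have hrm : ∀ p, r p ∈ rect T := by
    intro p
    rw [mem_rect]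
    exact ⟨⟨le_max_left _ _, max_le hT (min_le_right _ _)⟩,
      ⟨le_max_left _ _, max_le zero_le_one (min_le_right _ _)⟩⟩
  have hri : ∀ p ∈ rect T, r p = p := by
    intro p hp
    rw [mem_rect] at hp
    simp only [hr, min_eq_left hp.1.2, max_eq_right hp.1.1, min_eq_left hp.2.2, max_eq_right hp.2.1, Prod.mk.eta]
  have hHr : Continuous (fun p => H (r p)) := hH.comp_continuous hrc hrm
  have hc : Continuous (avg k (fun p => H (r p))) := by
    unfold avg
    apply intervalIntegral.continuous_parametric_intervalIntegral_of_continuous'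
    have : Continuous (fun q : (ℝ × ℝ) × ℝ => (q.1.1, q.2 * q.1.2)) := by fun_prop
    exact Continuous.mul (by fun_prop) (hHr.comp this)
  apply hc.continuousOn.congr
  intro p hp
  unfold avg
  apply intervalIntegral.integral_congr
  intro θ hθ
  rw [uIcc_of_le zero_le_one] at hθ
  simp only
  rw [hri _ (rect_scale hp hθ)]

theorem uniform_taylor {T : ℝ} {H : ℝ × ℝ → ℝ} (hT : 0 < T) (hH : ContDiffOn ℝ 1 H (rect T))
    {ε : ℝ} (hε : 0 < ε) : ∃ δ > 0, ∀ p ∈ rect T, ∀ q ∈ rect T, ‖q - p‖ < δ →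
      |H q - H p - (pt T H p * (q.1 - p.1) + px T H p * (q.2 - p.2))| ≤ ε * ‖q - p‖ := by
  set H' : ℝ × ℝ → (ℝ × ℝ →L[ℝ] ℝ) := fderivWithin ℝ H (rect T) with hH'
  have hc : ContinuousOn H' (rect T) :=
    hH.continuousOn_fderivWithin (uniqueDiffOn_rect hT) (by simp)
  have huc := (isCompact_rect T).uniformContinuousOn_of_continuous hc
  rw [Metric.uniformContinuousOn_iff] at huc
  obtain ⟨δ, hδ, h⟩ := huc ε hε
  refine ⟨δ, hδ, fun p hp q hq hpq => ?_⟩
  have hconv : Convex ℝ (rect T ∩ Metric.ball p δ) := (convex_rect T).inter (convex_ball p δ)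
  have key := hconv.norm_image_sub_le_of_norm_hasFDerivWithin_le' (f := H) (f' := H')
    (φ := H' p) (C := ε) (x := p) (y := q)
    (fun z hz => (((hH.differentiableOn (by simp)) z hz.1).hasFDerivWithinAt).mono
      inter_subset_left)
    (fun z hz => by
      have := h z hz.1 p hp hz.2
      rw [dist_eq_norm] at this
      exact this.le)
    ⟨hp, Metric.mem_ball_self hδ⟩ ⟨hq, by rwa [Metric.mem_ball, dist_eq_norm]⟩
  have e : H' p (q - p) = pt T H p * (q.1 - p.1) + px T H p * (q.2 - p.2) := by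
    have : q - p = (q.1 - p.1) • ((1 : ℝ), (0 : ℝ)) + (q.2 - p.2) • ((0 : ℝ), (1 : ℝ)) := by
      ext <;> simp
    rw [this, map_add, map_smul, map_smul]
    simp only [pt, px, hH', smul_eq_mul]
    ring
  rw [← e, ← Real.norm_eq_abs]
  exact key

theorem hasFDerivWithinAt_avg {T : ℝ} (hT : 0 < T) {H : ℝ × ℝ → ℝ}
    (hH : ContDiffOn ℝ 1 H (rect T)) (k : ℕ) {p : ℝ × ℝ} (hp : p ∈ rect T) :
    HasFDerivWithinAt (avg k H) (avg k (pt T H) p • ContinuousLinearMap.fst ℝ ℝ ℝ +
      avg (k + 1) (px T H) p • ContinuousLinearMap.snd ℝ ℝ ℝ) (rect T) p := by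
  rw [hasFDerivWithinAt_iff_isLittleO, Asymptotics.isLittleO_iff]
  intro ε hε
  obtain ⟨δ, hδ, h⟩ := uniform_taylor hT hH hε
  have hcT : ContinuousOn (pt T H) (rect T) :=
    (contDiffOn_pt' (m := 0) hT hH (by simp)).continuousOn
  have hcX : ContinuousOn (px T H) (rect T) :=
    (contDiffOn_px' (m := 0) hT hH (by simp)).continuousOn
  have hball : Metric.ball p δ ∩ rect T ∈ 𝓝[rect T] p :=
    inter_mem (mem_nhdsWithin_of_mem_nhds (Metric.ball_mem_nhds p hδ)) self_mem_nhdsWithin
  filter_upwards [hball] with q hq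
  obtain ⟨hq1, hq⟩ := hq
  rw [Metric.mem_ball, dist_eq_norm] at hq1
  have e : avg k H q - avg k H p - (avg k (pt T H) p • ContinuousLinearMap.fst ℝ ℝ ℝ +
      avg (k + 1) (px T H) p • ContinuousLinearMap.snd ℝ ℝ ℝ) (q - p) =
      ∫ θ in (0 : ℝ)..1, θ ^ k * (H (q.1, θ * q.2) - H (p.1, θ * p.2) -
        (pt T H (p.1, θ * p.2) * (q.1 - p.1) + px T H (p.1, θ * p.2) * (θ * q.2 - θ * p.2))) := by
    have i1 := intervalIntegrable_avg hH.continuousOn k hq
    have i2 := intervalIntegrable_avg hH.continuousOn k hp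
    have i3 := (intervalIntegrable_avg hcT k hp).mul_const (q.1 - p.1)
    have i4 := (intervalIntegrable_avg hcX (k + 1) hp).mul_const (q.2 - p.2)
    have : (fun θ : ℝ => θ ^ k * (H (q.1, θ * q.2) - H (p.1, θ * p.2) -
        (pt T H (p.1, θ * p.2) * (q.1 - p.1) + px T H (p.1, θ * p.2) * (θ * q.2 - θ * p.2)))) =
        fun θ : ℝ => ((θ ^ k * H (q.1, θ * q.2) - θ ^ k * H (p.1, θ * p.2)) -
          (θ ^ k * pt T H (p.1, θ * p.2) * (q.1 - p.1))) -
          (θ ^ (k + 1) * px T H (p.1, θ * p.2) * (q.2 - p.2)) := by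
      funext θ
      ring
    rw [this, intervalIntegral.integral_sub ((i1.sub i2).sub i3) i4,
      intervalIntegral.integral_sub (i1.sub i2) i3, intervalIntegral.integral_sub i1 i2,
      intervalIntegral.integral_mul_const, intervalIntegral.integral_mul_const]
    simp only [avg, _root_.add_apply, _root_.smul_apply,
      ContinuousLinearMap.coe_fst', ContinuousLinearMap.coe_snd', Prod.fst_sub, Prod.snd_sub,
      smul_eq_mul]
    ring
  rw [e]
  have hb : ∀ θ ∈ uIoc (0 : ℝ) 1, ‖θ ^ k * (H (q.1, θ * q.2) - H (p.1, θ * p.2) -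
        (pt T H (p.1, θ * p.2) * (q.1 - p.1) + px T H (p.1, θ * p.2) * (θ * q.2 - θ * p.2)))‖ ≤
        ε * ‖q - p‖ := by
    intro θ hθ
    rw [uIoc_of_le zero_le_one] at hθ
    have hθ' : θ ∈ Icc (0 : ℝ) 1 := ⟨hθ.1.le, hθ.2⟩
    have hn : ‖((q.1, θ * q.2) : ℝ × ℝ) - (p.1, θ * p.2)‖ ≤ ‖q - p‖ := by
      simp only [Prod.norm_def, Prod.fst_sub, Prod.snd_sub, Real.norm_eq_abs]
      apply max_le_max le_rfl
      rw [← mul_sub, abs_mul, abs_of_nonneg hθ'.1]
      exact mul_le_of_le_one_left (abs_nonneg _) hθ'.2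
    have h1 := h _ (rect_scale hp hθ') _ (rect_scale hq hθ') (hn.trans_lt hq1)
    rw [norm_mul, Real.norm_eq_abs, Real.norm_eq_abs, abs_pow, abs_of_nonneg hθ'.1]
    calc θ ^ k * _ ≤ 1 * (ε * ‖((q.1, θ * q.2) : ℝ × ℝ) - (p.1, θ * p.2)‖) :=
          mul_le_mul (pow_le_one₀ hθ'.1 hθ'.2) h1 (abs_nonneg _) zero_le_one
      _ ≤ ε * ‖q - p‖ := by
          rw [one_mul]
          exact mul_le_mul_of_nonneg_left hn hε.le
  have := intervalIntegral.norm_integral_le_of_norm_le_const hb
  simpa only [Real.norm_eq_abs, ge_iff_le, sub_zero, abs_one, mul_one] using this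

theorem contDiffOn_avg {T : ℝ} (hT : 0 < T) (m : ℕ) : ∀ (k : ℕ) (H : ℝ × ℝ → ℝ),
    ContDiffOn ℝ m H (rect T) → ContDiffOn ℝ m (avg k H) (rect T) := by
  induction m with
  | zero =>
    intro k H hH
    rw [Nat.cast_zero, contDiffOn_zero] at hH ⊢
    exact continuousOn_avg hT.le hH k
  | succ m ih =>
    intro k H hH
    have h1 : ContDiffOn ℝ 1 H (rect T) := hH.of_le (by simp only [Nat.cast_add, Nat.cast_one, self_le_add_left])
    rw [Nat.cast_succ, contDiffOn_succ_iff_hasFDerivWithinAt_of_uniqueDiffOn (uniqueDiffOn_rect hT)]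
    refine ⟨fun h => absurd h (by simp), _, ?_, fun p hp => hasFDerivWithinAt_avg hT h1 k hp⟩
    exact ((ih k _ (contDiffOn_pt' hT hH (by simp))).smul contDiffOn_const).add
      ((ih (k + 1) _ (contDiffOn_px' hT hH (by simp))).smul contDiffOn_const)

theorem smooth_avg {T : ℝ} (hT : 0 < T) (k : ℕ) {H : ℝ × ℝ → ℝ}
    (hH : ContDiffOn ℝ ∞ H (rect T)) : ContDiffOn ℝ ∞ (avg k H) (rect T) := by
  rw [contDiffOn_infty]
  intro m
  exact contDiffOn_avg hT m k H (hH.of_le (by exact_mod_cast le_top))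

/-- smooth division by `x` on the closed box -/
theorem eq_mul_avg {T : ℝ} (hT : 0 < T) {F : ℝ × ℝ → ℝ} (hF : ContDiffOn ℝ ∞ F (rect T))
    (h0 : ∀ t ∈ Icc 0 T, F (t, 0) = 0) {p : ℝ × ℝ} (hp : p ∈ rect T) :
    F p = p.2 * avg 0 (px T F) p := by
  obtain ⟨t, x⟩ := p
  have ht : t ∈ Icc 0 T := hp.1
  have hx : x ∈ Icc (0 : ℝ) 1 := hp.2
  have h1 : ∀ θ ∈ Icc (0 : ℝ) 1, HasDerivWithinAt (fun θ => F (t, θ * x))
      (x * px T F (t, θ * x)) (Icc 0 1) θ := by
    intro θ hθ
    have hm : θ * x ∈ Icc (0 : ℝ) 1 := (rect_scale hp hθ).2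
    have h2 := hasDerivWithinAt_px' hF (by simp only [WithTop.one_le_coe, le_top]) ht hm
    have h3 : HasDerivWithinAt (fun θ : ℝ => θ * x) x (Icc 0 1) θ := by
      simpa only [id_eq, one_mul] using (hasDerivWithinAt_id θ (Icc (0 : ℝ) 1)).mul_const x
    have h4 := h2.comp θ h3 (fun θ' hθ' => (rect_scale hp hθ').2)
    rw [mul_comm]
    exact h4
  have hc : ContinuousOn (px T F) (rect T) := (contDiffOn_px hT hF).continuousOn
  have h2 : IntervalIntegrable (fun θ => x * px T F (t, θ * x)) volume 0 1 := by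
    have := (intervalIntegrable_avg hc 0 hp).const_mul x
    simpa only [pow_zero, one_mul] using this
  have h3 : ∫ θ in (0 : ℝ)..1, x * px T F (t, θ * x) = F (t, 1 * x) - F (t, 0 * x) :=
    intervalIntegral.integral_eq_sub_of_hasDerivAt_of_le zero_le_one
      (fun θ hθ => (h1 θ hθ).continuousWithinAt)
      (fun θ hθ => (h1 θ (Ioo_subset_Icc_self hθ)).hasDerivAt (Icc_mem_nhds hθ.1 hθ.2)) h2
  rw [one_mul, zero_mul, h0 t ht, sub_zero] at h3
  rw [← h3, intervalIntegral.integral_const_mul]
  simp only [avg, pow_zero, one_mul]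

/-- the quotient `F / x` for `F` smooth on the closed box, vanishing on `x = 0` -/
theorem exists_div {T : ℝ} (hT : 0 < T) {F : ℝ × ℝ → ℝ} (hF : ContDiffOn ℝ ∞ F (rect T))
    (h0 : ∀ t ∈ Icc 0 T, F (t, 0) = 0) : ∃ G : ℝ × ℝ → ℝ, ContDiffOn ℝ ∞ G (rect T) ∧
      ∀ p ∈ rect T, F p = p.2 * G p :=
  ⟨_, smooth_avg hT 0 (contDiffOn_px hT hF), fun _ hp => eq_mul_avg hT hF h0 hp⟩

end P264.B
end
end

section

section

/-!
# P264 / B / Near / NNcore : explicit jets of `G(s,z)` and the derivative of the energy (helper602)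
-/

open MeasureTheory Set Filter Real
open scoped ContDiff Topology

namespace P264.B.NNd

/-! ### smooth quotient -/

theorem _root_.P264.B.IsFlowU.exists_kd {n : ℕ} {T : ℝ} {U₀ : ℝ → ℝ} {U φ : ℝ → ℝ → ℝ} (hT : 0 < T)
    (hφ : IsFlowU n T U₀ U φ) : ∃ k : ℝ × ℝ → ℝ, ContDiffOn ℝ ∞ k (rect T) ∧
      ∀ t ∈ Icc (0 : ℝ) T, ∀ x ∈ Icc (0 : ℝ) 1, φ t x = x * (1 + x * k (t, x)) := by
  obtain ⟨g, hg, he⟩ := exists_div hT (F := fun p => φ p.1 p.2) hφ.smooth
    (fun t ht => (hφ.profile t ht).left0)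
  have hg1 : ∀ t ∈ Icc 0 T, g (t, 0) = 1 := by
    intro t ht
    have h1 : HasDerivWithinAt (fun x => x * g (t, x)) (1 * g (t, 0) + 0 * px T g (t, 0))
        (Icc 0 1) 0 :=
      (hasDerivWithinAt_id (0 : ℝ) (Icc 0 1)).fun_mul
        (hasDerivWithinAt_px hg ht (left_mem_Icc.mpr zero_le_one))
    have h2 : HasDerivWithinAt (φ t) (1 * g (t, 0) + 0 * px T g (t, 0)) (Icc 0 1) 0 := by
      refine h1.congr_of_mem ?_ (left_mem_Icc.mpr zero_le_one)
      intro x hx
      exact he (t, x) ⟨ht, hx⟩
    have h3 := h2.derivWithin (uniqueDiffOn_Icc zero_lt_one 0 (left_mem_Icc.mpr zero_le_one))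
    rw [(hφ.profile t ht).left1] at h3
    linarith only [h3]
  obtain ⟨k, hk, hek⟩ := exists_div hT (F := fun p => g p - 1) (hg.sub contDiffOn_const)
    (fun t ht => by rw [hg1 t ht, sub_self])
  refine ⟨k, hk, fun t ht x hx => ?_⟩
  have h1 := he (t, x) ⟨ht, hx⟩
  have h2 := hek (t, x) ⟨ht, hx⟩
  simp only at h1 h2
  rw [h1]
  have : g (t, x) = 1 + x * k (t, x) := by linarith only [h2]
  rw [this]

/-! ### the profile -/

variable {R ρ χ : ℝ → ℝ} {ν c₁ c₂ Rmin α : ℝ}

theorem _root_.P264.B.Profile.smooth' (hR : Profile R Rmin α) : ContDiff ℝ (4 : ℕ) R := hR.smooth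

theorem om_of_hasDerivAt {g g1 g2 : ℝ → ℝ} (h0 : ∀ z, HasDerivAt g (g1 z) z)
    (h1 : ∀ z, HasDerivAt g1 (g2 z) z) (z : ℝ) : om g z = g2 z - 3 * g1 z + 2 * g z := by
  have e1 : iteratedDeriv 1 g = g1 := by
    rw [iteratedDeriv_one]
    exact funext fun z => (h0 z).deriv
  have e2 : iteratedDeriv 2 g = g2 := by
    rw [iteratedDeriv_succ, e1]
    exact funext fun z => (h1 z).deriv
  rw [om, e1, e2]

/-- `θ² - 3θ + 2` kills `1`-constant-free parts of degree `≤ 2`. -/
theorem om_eval_exp_bound (p : Polynomial ℝ) (h0 : p.coeff 0 = 0) :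
    ∃ C : ℝ, 0 ≤ C ∧ ∀ z ≤ (0 : ℝ), |om (fun z => p.eval (exp z)) z| ≤ C * exp (3 * z) := by
  set q : Polynomial ℝ := theta^[2] p - Polynomial.C 3 * theta^[1] p + Polynomial.C 2 * p with hq
  have hdvd : Polynomial.X ^ 3 ∣ q := by
    rw [Polynomial.X_pow_dvd_iff]
    intro d hd
    have : q.coeff d = ((d : ℝ) ^ 2 - 3 * d + 2) * p.coeff d := by
      simp only [hq, Polynomial.coeff_add, Polynomial.coeff_sub, Polynomial.coeff_C_mul,
        theta_iter_coeff]
      ring
    rw [this]
    interval_cases d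
    · simp only [CharP.cast_eq_zero, ne_eq, OfNat.ofNat_ne_zero, not_false_eq_true, zero_pow, mul_zero, sub_self, zero_add, h0]
    · (clear * -; norm_num)
    · norm_num
  obtain ⟨C, hC, hb⟩ := eval_exp_bound q 3 hdvd
  refine ⟨C, hC, fun z hz => ?_⟩
  have e : om (fun z => p.eval (exp z)) z = q.eval (exp z) := by
    unfold om
    simp only [iteratedDeriv_eval_exp, hq]
    simp only [Function.iterate_succ, Function.iterate_one, Function.comp_apply, Polynomial.eval_add, Polynomial.eval_sub, Polynomial.eval_mul, Polynomial.eval_C]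
  rw [e]
  have := hb z hz
  push_cast at this
  exact this

/-- bounds for `R - 1` and its derivatives -/
theorem _root_.P264.B.Profile.bounds₃ (hR : Profile R Rmin α) : ∃ C : ℝ, 0 ≤ C ∧ ∀ z,
    |R z - 1| ≤ C ∧ |R z - 1| ≤ C * exp z ∧
    |iteratedDeriv 1 R z| ≤ C ∧ |iteratedDeriv 1 R z| ≤ C * exp z ∧
    |iteratedDeriv 2 R z| ≤ C ∧ |iteratedDeriv 2 R z| ≤ C * exp z ∧
    |iteratedDeriv 2 R z - 3 * iteratedDeriv 1 R z + 2 * (R z - 1)| ≤ C * exp (3 * z) := by
  obtain ⟨p, hp0, Z, hZ⟩ := hR.left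
  obtain ⟨C1, hC1⟩ := hR.right
  have hc0 : Continuous R := hR.smooth.continuous
  have hc1 : Continuous (iteratedDeriv 1 R) := contIter (n := 4) hR.smooth' (by norm_num)
  have hc2 : Continuous (iteratedDeriv 2 R) := contIter (n := 4) hR.smooth' (by norm_num)
  -- left representation
  have hloc : ∀ z < Z, ∀ j, iteratedDeriv j (fun s => R s - 1) z
      = iteratedDeriv j (fun s => (p - 1).eval (exp s)) z := by
    intro z hz j
    have he : (fun s => R s - 1) =ᶠ[𝓝 z] fun s => (p - 1).eval (exp s) := by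
      filter_upwards [Iio_mem_nhds hz] with s hs
      simp only [hZ s (le_of_lt hs), Polynomial.eval_sub, Polynomial.eval_one]
    exact he.iteratedDeriv_eq j
  have hsub : ∀ j, 1 ≤ j → ∀ z, iteratedDeriv j (fun s => R s - 1) z = iteratedDeriv j R z := by
    intro j hj z
    obtain ⟨i, rfl⟩ : ∃ i, j = i + 1 := ⟨j - 1, by omega⟩
    rw [iteratedDeriv_succ', iteratedDeriv_succ']
    congr 1
    funext y
    simp
  have hsubα : ∀ j, 1 ≤ j → ∀ z, iteratedDeriv j (fun s => R s - α) z = iteratedDeriv j R z := by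
    intro j hj z
    obtain ⟨i, rfl⟩ : ∃ i, j = i + 1 := ⟨j - 1, by omega⟩
    rw [iteratedDeriv_succ', iteratedDeriv_succ']
    congr 1
    funext y
    simp only [deriv_sub_const_fun]
  have hcoef : (p - 1).coeff 0 = 0 := by simp [Polynomial.coeff_zero_eq_eval_zero, hp0]
  have hdv : ∀ j, Polynomial.X ^ 1 ∣ theta^[j] (p - 1) := by
    intro j
    rw [Polynomial.X_pow_dvd_iff]
    intro d hd
    have : d = 0 := by omega
    subst this
    rw [theta_iter_coeff, hcoef, mul_zero]
  obtain ⟨A0, hA0, hb0⟩ := eval_exp_bound _ 1 (hdv 0)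
  obtain ⟨A1, hA1, hb1⟩ := eval_exp_bound _ 1 (hdv 1)
  obtain ⟨A2, hA2, hb2⟩ := eval_exp_bound _ 1 (hdv 2)
  obtain ⟨A3, hA3, hb3⟩ := om_eval_exp_bound (p - 1) hcoef
  have om1 : ∀ z, om (fun s => R s - 1) z
      = iteratedDeriv 2 R z - 3 * iteratedDeriv 1 R z + 2 * (R z - 1) := by
    intro z
    unfold om
    rw [hsub 2 (by norm_num), hsub 1 le_rfl]
  -- compact middle part
  set Z' := min Z 0 with hZ'
  set m1 := fun z => |R z - 1| + |iteratedDeriv 1 R z| + |iteratedDeriv 2 R z| with hm1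
  have hmc : Continuous m1 := by
    have h1 : Continuous fun z => R z - 1 := hc0.sub continuous_const
    exact (h1.abs.add hc1.abs).add hc2.abs
  obtain ⟨B, hB⟩ := isCompact_Icc.exists_bound_of_continuousOn
    (s := Icc (Z' - 1) 0) (f := m1) hmc.continuousOn
  have hB' : ∀ z ∈ Icc (Z' - 1) 0, m1 z ≤ B := fun z hz => (le_abs_self _).trans (hB z hz)
  have hZ0 : Z' ≤ 0 := min_le_right _ _
  have hB0 : 0 ≤ B := by
    have : 0 ≤ m1 0 := by (clear * -; positivity)
    exact this.trans (hB' 0 ⟨by linarith only [hZ0], le_rfl⟩)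
  -- right part
  have hα : ∀ z, 0 ≤ z → |R z - α| ≤ C1 := by
    intro z hz
    have := hC1 0 (by norm_num) z hz
    rw [iteratedDeriv_zero] at this
    refine this.trans ?_
    have hC10 : 0 ≤ C1 := by
      have h := (abs_nonneg _).trans this
      exact nonneg_of_mul_nonneg_left h (exp_pos _)
    exact mul_le_of_le_one_right hC10 (exp_le_one_iff.mpr (by linarith only [hz]))
  have hC10 : 0 ≤ C1 := (abs_nonneg _).trans (hα 0 le_rfl)
  have hr1 : ∀ z, 0 ≤ z → |iteratedDeriv 1 R z| ≤ C1 := by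
    intro z hz
    have := hC1 1 (by norm_num) z hz
    rw [hsubα 1 le_rfl] at this
    exact this.trans (mul_le_of_le_one_right hC10 (exp_le_one_iff.mpr (by linarith only [hz])))
  have hr2 : ∀ z, 0 ≤ z → |iteratedDeriv 2 R z| ≤ C1 := by
    intro z hz
    have := hC1 2 (by norm_num) z hz
    rw [hsubα 2 (by norm_num)] at this
    exact this.trans (mul_le_of_le_one_right hC10 (exp_le_one_iff.mpr (by linarith only [hz])))
  have hr0 : ∀ z, 0 ≤ z → |R z - 1| ≤ C1 + |α - 1| := by
    intro z hz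
    have e : R z - 1 = (R z - α) + (α - 1) := by ring
    rw [e]
    exact (abs_add_le _ _).trans (add_le_add_left (hα z hz) _)
  set E := exp (3 * (1 - Z')) with hE
  have hE1 : 1 ≤ E := one_le_exp (by linarith only [hZ0])
  set D := A0 + A1 + A2 + A3 + 6 * B * E + 6 * (C1 + |α - 1|) with hD
  have hD0 : 0 ≤ D := by (clear * - hA0 hA1 hA2 hA3 hB0 hC10; positivity)
  -- three cases
  refine ⟨D, hD0, fun z => ?_⟩
  rcases lt_or_ge z Z' with hz | hz
  · have hzZ : z < Z := hz.trans_le (min_le_left _ _)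
    have hz0 : z ≤ 0 := hz.le.trans hZ0
    have e1 : exp z ≤ 1 := exp_le_one_iff.mpr hz0
    have f0 : |R z - 1| ≤ A0 * exp z := by
      have := hb0 z hz0
      have h := hloc z hzZ 0
      rw [iteratedDeriv_zero, iteratedDeriv_zero] at h
      simp only [Function.iterate_zero, id_eq, Nat.cast_one, one_mul] at this
      rw [h]
      exact this
    have f1 : |iteratedDeriv 1 R z| ≤ A1 * exp z := by
      have := hb1 z hz0
      rw [← hsub 1 le_rfl, hloc z hzZ 1, iteratedDeriv_eval_exp]
      simpa only [Function.iterate_one, ge_iff_le, Nat.cast_one, one_mul] using this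
    have f2 : |iteratedDeriv 2 R z| ≤ A2 * exp z := by
      have := hb2 z hz0
      rw [← hsub 2 (by norm_num), hloc z hzZ 2, iteratedDeriv_eval_exp]
      simpa only [Function.iterate_succ, Function.iterate_one, Function.comp_apply, ge_iff_le, Nat.cast_one,     one_mul] using this
    have f3 : |iteratedDeriv 2 R z - 3 * iteratedDeriv 1 R z + 2 * (R z - 1)|
        ≤ A3 * exp (3 * z) := by
      have := hb3 z hz0
      rw [← om1 z]
      have h : om (fun s => R s - 1) z = om (fun s => (p - 1).eval (exp s)) z := by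
        unfold om
        rw [hloc z hzZ 2, hloc z hzZ 1]
        have h0 := hloc z hzZ 0
        rw [iteratedDeriv_zero, iteratedDeriv_zero] at h0
        change _ + 2 * (R z - 1) = _
        rw [h0]
      rw [h]
      exact this
    have hBE : 0 ≤ B * E := by (clear * - hB0; positivity)
    have hCa : 0 ≤ C1 + |α - 1| := by (clear * - hC10; positivity)
    have g0 : A0 * exp z ≤ D * exp z := mul_le_mul_of_nonneg_right (by linarith only [hA1, hA2, hA3, hBE, hCa]) (exp_pos z).le
    have g1 : A1 * exp z ≤ D * exp z := mul_le_mul_of_nonneg_right (by linarith only [hA0, hA2, hA3, hBE, hCa]) (exp_pos z).le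
    have g2 : A2 * exp z ≤ D * exp z := mul_le_mul_of_nonneg_right (by linarith) (exp_pos z).le
    have g3 : A3 * exp (3 * z) ≤ D * exp (3 * z) :=
      mul_le_mul_of_nonneg_right (by linarith only [hA0, hA1, hA2, hBE, hCa]) (exp_pos _).le
    have g4 : D * exp z ≤ D := mul_le_of_le_one_right hD0 e1
    exact ⟨by linarith only [f0, g0, g4], by linarith only [f0, g0], by linarith only [f1, g1, g4], by linarith only [f1, g1], by linarith only [f2, g2, g4], by linarith only [f2, g2],
      by linarith only [f3, g3]⟩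
  · -- here all three jets are bounded by `B'` and `exp` bounded below
    rcases le_total z 0 with hz0 | hz0
    · have hm := hB' z ⟨by linarith only [hz], hz0⟩
      have a0 : |R z - 1| ≤ B := by
        have h1 := abs_nonneg (iteratedDeriv 1 R z); have h2 := abs_nonneg (iteratedDeriv 2 R z)
        simp only [hm1] at hm; linarith only [h1, h2, hm]
      have a1 : |iteratedDeriv 1 R z| ≤ B := by
        have h1 := abs_nonneg (R z - 1); have h2 := abs_nonneg (iteratedDeriv 2 R z)
        simp only [hm1] at hm; linarith only [h1, h2, hm]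
      have a2 : |iteratedDeriv 2 R z| ≤ B := by
        have h1 := abs_nonneg (iteratedDeriv 1 R z); have h2 := abs_nonneg (R z - 1)
        simp only [hm1] at hm; linarith only [h1, h2, hm]
      have a3 : |iteratedDeriv 2 R z - 3 * iteratedDeriv 1 R z + 2 * (R z - 1)| ≤ 6 * B := by
        rw [abs_le] at a0 a1 a2 ⊢
        constructor <;> linarith only [a0, a1, a2]
      have k1 : 1 ≤ E * exp z := by
        rw [hE, ← exp_add]
        apply one_le_exp
        linarith only [hZ0, hz]
      have k3 : 1 ≤ E * exp (3 * z) := by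
        rw [hE, ← exp_add]
        apply one_le_exp
        linarith only [hz]
      have hBD : B ≤ D := by
        have : B ≤ B * E := le_mul_of_one_le_right hB0 hE1
        have : 0 ≤ B * E := by (clear * - hB0; positivity)
        have : 0 ≤ C1 + |α - 1| := by (clear * - hC10; positivity)
        linarith
      have hBe : B ≤ D * exp z := by
        calc B ≤ B * (E * exp z) := le_mul_of_one_le_right hB0 k1
          _ = (B * E) * exp z := by ring
          _ ≤ D * exp z := by
            apply mul_le_mul_of_nonneg_right _ (exp_pos z).le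
            have : 0 ≤ B * E := by (clear * - hB0; positivity)
            have : 0 ≤ C1 + |α - 1| := by (clear * - hC10; positivity)
            linarith only [hA0, hA1, hA2, hA3, hD0, this]
      have hB3 : 6 * B ≤ D * exp (3 * z) := by
        calc 6 * B ≤ 6 * B * (E * exp (3 * z)) := le_mul_of_one_le_right (by (clear * - hB0; positivity)) k3
          _ = (6 * B * E) * exp (3 * z) := by ring
          _ ≤ D * exp (3 * z) := by
            apply mul_le_mul_of_nonneg_right _ (exp_pos _).le
            have : 0 ≤ C1 + |α - 1| := by (clear * - hC10; positivity)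
            linarith only [hA0, hA1, hA2, hA3, this]
      exact ⟨a0.trans hBD, a0.trans hBe, a1.trans hBD, a1.trans hBe, a2.trans hBD,
        a2.trans hBe, a3.trans hB3⟩
    · have a0 := hr0 z hz0
      have a1 := (hr1 z hz0).trans (le_add_of_nonneg_right (abs_nonneg (α - 1)))
      have a2 := (hr2 z hz0).trans (le_add_of_nonneg_right (abs_nonneg (α - 1)))
      set Q := C1 + |α - 1| with hQ
      have hQ0 : 0 ≤ Q := by (clear * - hC10; positivity)
      have a3 : |iteratedDeriv 2 R z - 3 * iteratedDeriv 1 R z + 2 * (R z - 1)| ≤ 6 * Q := by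
        rw [abs_le] at a0 a1 a2 ⊢
        constructor <;> linarith only [a0, a1, a2]
      have k1 : 1 ≤ exp z := one_le_exp hz0
      have k3 : 1 ≤ exp (3 * z) := one_le_exp (by linarith only [hz0])
      have hBE : 0 ≤ B * E := by (clear * - hB0; positivity)
      have hQD : Q ≤ D := by linarith only [hA0, hA1, hA2, hA3, hD0, hBE]
      have hQe : Q ≤ D * exp z := hQD.trans (le_mul_of_one_le_right hD0 k1)
      have hQ3 : 6 * Q ≤ D * exp (3 * z) :=
        (show 6 * Q ≤ D by linarith only [hA0, hA1, hA2, hA3, hBE]).trans (le_mul_of_one_le_right hD0 k3)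
      exact ⟨a0.trans hQD, a0.trans hQe, a1.trans hQD, a1.trans hQe, a2.trans hQD,
        a2.trans hQe, a3.trans hQ3⟩

end P264.B.NNd
end
end

section

section

/-!
# P264 / B / Data2 : the two-parameter family `m_b` of initial profiles in the log variable
-/

open Set Real MeasureTheory Filter
open scoped ContDiff Topology

namespace P264.B

theorem abs_integral_mul_le {ψ g : ℝ → ℝ} (hψ : Continuous ψ) (hc : HasCompactSupport ψ)
    (_hg : Continuous g) {τ : ℝ} (hgb : ∀ z, |g z| ≤ τ) :
    |∫ z, ψ z * g z| ≤ (∫ z, |ψ z|) * τ := by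
  have h1 : Integrable (fun z => |ψ z|) := (hψ.integrable_of_hasCompactSupport hc).abs
  calc |∫ z, ψ z * g z| ≤ ∫ z, |ψ z * g z| := abs_integral_le_integral_abs
    _ ≤ ∫ z, |ψ z| * τ := by
        refine integral_mono_of_nonneg (Eventually.of_forall fun z => abs_nonneg _)
          (h1.mul_const _) (Eventually.of_forall fun z => ?_)
        simp only [abs_mul]
        exact mul_le_mul_of_nonneg_left (hgb z) (abs_nonneg _)
    _ = _ := by rw [integral_mul_const]

/-- Inverse of a `2 × 2` matrix close to the identity. -/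
theorem exists_inverse {M : Fin 2 → Fin 2 → ℝ}
    (hM : ∀ i j, |M i j - (if i = j then 1 else 0)| ≤ 1 / 6) :
    ∃ N : Fin 2 → Fin 2 → ℝ, (∀ i j, ∑ k, M i k * N k j = if i = j then 1 else 0) ∧
      ∀ k, ∑ j, |N k j| ≤ 2 := by
  have h00 := abs_le.1 (hM 0 0)
  have h01 := abs_le.1 (hM 0 1)
  have h10 := abs_le.1 (hM 1 0)
  have h11 := abs_le.1 (hM 1 1)
  simp only [one_div, Fin.isValue, ↓reduceIte, neg_le_sub_iff_le_add, tsub_le_iff_right, zero_ne_one, sub_zero, one_ne_zero] at h00 h01 h10 h11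
  set a := M 0 0
  set b := M 0 1
  set c := M 1 0
  set d := M 1 1
  have hdet : 2 / 3 ≤ a * d - b * c := by nlinarith
  have hdet0 : 0 < a * d - b * c := by linarith only [hdet]
  refine ⟨![![d / (a * d - b * c), -b / (a * d - b * c)],
    ![-c / (a * d - b * c), a / (a * d - b * c)]], ?_, ?_⟩
  · intro i j
    fin_cases i <;> fin_cases j <;> simp [Fin.sum_univ_two]
    · change a * (d / (a * d - b * c)) + b * (-c / (a * d - b * c)) = 1
      field_simp
      ring
    · change a * (-b / (a * d - b * c)) + b * (a / (a * d - b * c)) = 0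
      field_simp
      ring
    · change c * (d / (a * d - b * c)) + d * (-c / (a * d - b * c)) = 0
      field_simp
      ring
    · change c * (-b / (a * d - b * c)) + d * (a / (a * d - b * c)) = 1
      have : c * (-b / (a * d - b * c)) + d * (a / (a * d - b * c))
          = (a * d - b * c) / (a * d - b * c) := by ring
      rw [this, div_self hdet0.ne']
  · intro k
    fin_cases k <;> simp [Fin.sum_univ_two, abs_div, abs_of_pos hdet0]
    · rw [← add_div, div_le_iff₀ hdet0]
      have : |d| ≤ 7 / 6 := abs_le.2 ⟨by linarith only [h11], by linarith only [h11]⟩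
      have : |b| ≤ 1 / 6 := abs_le.2 ⟨by linarith only [h01], by linarith only [h01]⟩
      linarith
    · rw [← add_div, div_le_iff₀ hdet0]
      have : |c| ≤ 1 / 6 := abs_le.2 ⟨by linarith only [h10], by linarith only [h10]⟩
      have : |a| ≤ 7 / 6 := abs_le.2 ⟨by linarith only [h00], by linarith only [h00]⟩
      linarith

theorem inv_contDiffAt {R : ℝ → ℝ} {n : WithTop ℕ∞} {z : ℝ} (h : ContDiffAt ℝ n R z)
    (h0 : R z ≠ 0) : ContDiffAt ℝ n (fun z => 1 / R z) z := by
  simp_rw [one_div]
  exact h.inv h0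

end P264.B
end
end

section

section

section

section

open scoped ENNReal
open MeasureTheory

noncomputable section

namespace Vale.Agent.P264

set_option linter.unusedSectionVars false

section Gen

variable {Γ : Type*} [AddCommGroup Γ] [Countable Γ]

end Gen

section StepBound

variable {n : ℕ} {Γ : Type*} [AddCommGroup Γ] [Countable Γ] (q : Γ →+ Cn n)

/-- good weights -/
structure Good (w : Γ → ℝ≥0∞) : Prop where
  wt : IsWeight w
  dom : ∃ c : ℝ≥0∞, c ≠ ⊤ ∧ ∀ ξ, pw (Xs q) 2 ξ ≤ c * w ξ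

variable {q}

end StepBound

end Vale.Agent.P264
end
end
end
end
end

section

section

section

section

open scoped ENNReal
open MeasureTheory

noncomputable section

namespace Vale.Agent.P264

set_option linter.unusedSectionVars false
set_option linter.unusedVariables false

section Iter

variable {n : ℕ} {Γ : Type*} [AddCommGroup Γ] [Countable Γ] {q : Γ →+ Cn n}

end Iter

end Vale.Agent.P264
end
end
end
end
end

section

section

section

section

open scoped ENNReal ContDiff Topology
open MeasureTheory Set Filter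

noncomputable section

namespace Vale.Agent.P264

set_option linter.unusedSectionVars false
set_option linter.unusedVariables false

section Ch

variable {n : ℕ}

/-- the real functional `z ↦ Re Σ η_j z_j` -/
def prL (η : Cn n) : Cn n →L[ℝ] ℝ :=
  ∑ j, Complex.reCLM.comp
    (((η j) • (EuclideanSpace.proj j : Cn n →L[ℂ] ℂ)).restrictScalars ℝ)

lemma prL_apply (η z : Cn n) : prL η z = ∑ j, (η j * z j).re := by
  unfold prL
  rw [sum_apply]
  rfl

lemma prL_add (η ζ z : Cn n) : prL (η + ζ) z = prL η z + prL ζ z := by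
  rw [prL_apply, prL_apply, prL_apply, ← Finset.sum_add_distrib]
  congr 1
  funext j
  simp only [PiLp.add_apply, add_mul, Complex.add_re, Complex.mul_re]

lemma prL_neg (η z : Cn n) : prL (-η) z = -prL η z := by
  rw [prL_apply, prL_apply, ← Finset.sum_neg_distrib]
  congr 1
  funext j
  simp only [PiLp.neg_apply, neg_mul, Complex.neg_re, Complex.mul_re, neg_sub]

lemma norm_prL_le (η : Cn n) : ‖prL η‖ ≤ ‖η‖ := by
  apply ContinuousLinearMap.opNorm_le_bound _ (norm_nonneg _)
  intro z
  rw [prL_apply]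
  calc ‖∑ j, (η j * z j).re‖ ≤ ∑ j, ‖(η j * z j).re‖ := norm_sum_le _ _
    _ ≤ ∑ j, ‖η j‖ * ‖z j‖ := by
        apply Finset.sum_le_sum
        intro j _
        rw [← norm_mul]
        exact Complex.abs_re_le_norm _
    _ ≤ ‖η‖ * ‖z‖ := by
        have h := Finset.sum_mul_sq_le_sq_mul_sq Finset.univ (fun j => ‖η j‖) (fun j => ‖z j‖)
        rw [← EuclideanSpace.norm_sq_eq, ← EuclideanSpace.norm_sq_eq, ← mul_pow] at h
        exact le_of_sq_le_sq h (by (clear * -; positivity))

/-- characters -/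
def ch (η z : Cn n) : ℂ := Complex.exp (Complex.I * (prL η z : ℂ))

lemma ch_add (η ζ z : Cn n) : ch (η + ζ) z = ch η z * ch ζ z := by
  unfold ch
  rw [← Complex.exp_add, prL_add]
  push_cast
  ring_nf

lemma norm_ch (η z : Cn n) : ‖ch η z‖ = 1 := by
  unfold ch
  rw [mul_comm]
  exact Complex.norm_exp_ofReal_mul_I _

lemma ch_neg (η z : Cn n) : ch (-η) z = (starRingEnd ℂ) (ch η z) := by
  unfold ch
  rw [← Complex.exp_conj, prL_neg, map_mul, Complex.conj_I, Complex.conj_ofReal]
  push_cast
  ring_nf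

/-- complexified functional -/
def cpL (η : Cn n) : Cn n →L[ℝ] ℂ := Complex.I • (Complex.ofRealCLM.comp (prL η))

lemma cpL_apply (η z : Cn n) : cpL η z = Complex.I * (prL η z : ℂ) := rfl

lemma norm_cpL_le (η : Cn n) : ‖cpL η‖ ≤ ‖η‖ := by
  apply ContinuousLinearMap.opNorm_le_bound _ (norm_nonneg _)
  intro z
  rw [cpL_apply, norm_mul, Complex.norm_I, one_mul, Complex.norm_real]
  exact ((prL η).le_opNorm z).trans (by gcongr; exact norm_prL_le η)

lemma hasFDerivAt_ch (η z : Cn n) : HasFDerivAt (ch η) (ch η z • cpL η) z := by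
  have h1 : HasFDerivAt (fun z => cpL η z) (cpL η) z := (cpL η).hasFDerivAt
  exact h1.cexp

lemma prL_unit_one (η : Cn n) (j : Fin n) : prL η (unit j 1) = (η j).re := by
  classical
  rw [prL_apply, Finset.sum_eq_single j]
  · simp
  · intro i _ hi
    simp [hi]
  · simp only [Finset.mem_univ, not_true_eq_false, PiLp.single_eq_same, mul_one, IsEmpty.forall_iff]

lemma prL_unit_I (η : Cn n) (j : Fin n) : prL η (unit j Complex.I) = -(η j).im := by
  classical
  rw [prL_apply, Finset.sum_eq_single j]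
  · simp only [PiLp.single_eq_same, Complex.mul_re, Complex.I_re, mul_zero, Complex.I_im, mul_one, zero_sub]
  · intro i _ hi
    simp [hi]
  · simp only [Finset.mem_univ, not_true_eq_false, PiLp.single_eq_same, Complex.mul_re, Complex.I_re, mul_zero, Complex.I_im, mul_one, zero_sub, neg_eq_zero, IsEmpty.forall_iff]

lemma dz_ch (η : Cn n) (j : Fin n) (z : Cn n) :
    dz j (ch η) z = (Complex.I / 2) * η j * ch η z := by
  unfold dz
  rw [(hasFDerivAt_ch η z).fderiv]
  change (ch η z * cpL η (unit j 1) - Complex.I * (ch η z * cpL η (unit j Complex.I))) / 2 = _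
  rw [cpL_apply, cpL_apply, prL_unit_one, prL_unit_I]
  have h : η j = (η j).re + (η j).im * Complex.I := (Complex.re_add_im _).symm
  have h2 : (Complex.I / 2) * η j * ch η z =
    (Complex.I / 2) * ((η j).re + (η j).im * Complex.I) * ch η z := by rw [← h]
  rw [h2]
  push_cast
  ring

lemma dzbar_ch (η : Cn n) (j : Fin n) (z : Cn n) :
    dzbar j (ch η) z = (Complex.I / 2) * (starRingEnd ℂ) (η j) * ch η z := by
  unfold dzbar
  rw [(hasFDerivAt_ch η z).fderiv]
  change (ch η z * cpL η (unit j 1) + Complex.I * (ch η z * cpL η (unit j Complex.I))) / 2 = _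
  rw [cpL_apply, cpL_apply, prL_unit_one, prL_unit_I]
  have h : η j = (η j).re + (η j).im * Complex.I := (Complex.re_add_im _).symm
  have h3 : (starRingEnd ℂ) (η j) = (η j).re - (η j).im * Complex.I := by
    apply Complex.ext <;> simp
  rw [h3]
  push_cast
  ring

end Ch

section Sy

variable {n : ℕ} {Γ : Type*} [AddCommGroup Γ] (q : Γ →+ Cn n)
variable {V V' V'' : Type*} [NormedAddCommGroup V] [NormedSpace ℂ V] [NormedSpace ℝ V]
  [IsScalarTower ℝ ℂ V] [CompleteSpace V]
  [NormedAddCommGroup V'] [NormedSpace ℂ V'] [NormedSpace ℝ V']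
  [IsScalarTower ℝ ℂ V'] [CompleteSpace V']
  [NormedAddCommGroup V''] [NormedSpace ℂ V''] [NormedSpace ℝ V'']
  [IsScalarTower ℝ ℂ V''] [CompleteSpace V'']

/-- rapid decay -/
def RD (f : Γ → V) : Prop := ∀ N : ℕ, Summable fun ξ => (1 + ‖q ξ‖) ^ N * ‖f ξ‖

/-- synthesis -/
def sy (f : Γ → V) (z : Cn n) : V := ∑' ξ, ch (q ξ) z • f ξ

variable {q}

lemma RD.summable_norm {f : Γ → V} (hf : RD q f) : Summable fun ξ => ‖f ξ‖ := by
  simpa only [pow_zero, one_mul] using hf 0

lemma norm_ch_smul (f : Γ → V) (ξ : Γ) (z : Cn n) : ‖ch (q ξ) z • f ξ‖ = ‖f ξ‖ := by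
  rw [norm_smul, norm_ch, one_mul]

lemma RD.summable {f : Γ → V} (hf : RD q f) (z : Cn n) : Summable fun ξ => ch (q ξ) z • f ξ := by
  apply Summable.of_norm
  simp_rw [norm_ch_smul]
  exact hf.summable_norm

lemma RD.bound {f : Γ → V} (hf : RD q f) {g : Γ → V'} {K : ℝ} {d : ℕ}
    (h : ∀ ξ, ‖g ξ‖ ≤ K * (1 + ‖q ξ‖) ^ d * ‖f ξ‖) : RD q g := by
  intro N
  refine Summable.of_nonneg_of_le (fun ξ => by (clear * -; positivity)) (fun ξ => ?_) ((hf (N + d)).mul_left K)
  calc (1 + ‖q ξ‖) ^ N * ‖g ξ‖ ≤ (1 + ‖q ξ‖) ^ N * (K * (1 + ‖q ξ‖) ^ d * ‖f ξ‖) := by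
        gcongr; exact h ξ
    _ = _ := by ring

lemma RD.add {f g : Γ → V} (hf : RD q f) (hg : RD q g) : RD q (fun ξ => f ξ + g ξ) := by
  intro N
  refine Summable.of_nonneg_of_le (fun ξ => by (clear * -; positivity)) (fun ξ => ?_) ((hf N).add (hg N))
  rw [← mul_add]
  gcongr
  exact norm_add_le _ _

lemma sy_add {f g : Γ → V} (hf : RD q f) (hg : RD q g) (z : Cn n) :
    sy q (fun ξ => f ξ + g ξ) z = sy q f z + sy q g z := by
  unfold sy
  rw [← (hf.summable z).tsum_add (hg.summable z)]
  simp_rw [smul_add]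

/-- synthesis of twisted convolutions -/
lemma sy_tc {L : Γ → V →L[ℝ] V' →L[ℝ] V''} {K : ℝ} {d : ℕ}
    (hL : ∀ ξ, ‖L ξ‖ ≤ K * (1 + ‖q ξ‖) ^ d)
    (hC : ∀ η x (c : ℂ) y, L η x (c • y) = c • L η x y)
    {f : Γ → V} {g : Γ → V'} (hf : RD q f) (hg : RD q g) (z : Cn n) :
    sy q (tc L f g) z = ∑' η, ch (q η) z • L η (f η) (sy q g z) := by
  have hK : 0 ≤ K * (1 + ‖q 0‖) ^ d := (norm_nonneg (L 0)).trans (hL 0)
  have hK' : 0 ≤ K := by
    by_contra h
    push Not at h
    have : 0 < (1 + ‖q (0 : Γ)‖) ^ d := by (clear * -; positivity)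
    linarith only [mul_pos (sub_pos.2 h) (sub_pos.2 this), hK]
  set G : Γ × Γ → V'' := fun p => (ch (q p.1) z * ch (q p.2) z) • L p.1 (f p.1) (g p.2) with hG
  have hGs : Summable G := by
    apply Summable.of_norm
    have h1 := Summable.mul_of_nonneg (f := fun η => K * ((1 + ‖q η‖) ^ d * ‖f η‖))
      (g := fun ζ => ‖g ζ‖) ((hf d).mul_left K) hg.summable_norm
      (fun ξ => mul_nonneg hK' (mul_nonneg (pow_nonneg (add_nonneg zero_le_one
        (norm_nonneg _)) _) (norm_nonneg _))) (fun ξ => norm_nonneg _)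
    refine Summable.of_nonneg_of_le (fun p => norm_nonneg _) (fun p => ?_) h1
    rw [hG]
    dsimp only
    rw [norm_smul, norm_mul, norm_ch, norm_ch, one_mul, one_mul]
    calc ‖L p.1 (f p.1) (g p.2)‖ ≤ ‖L p.1‖ * ‖f p.1‖ * ‖g p.2‖ := (L p.1).le_opNorm₂ _ _
      _ ≤ (K * (1 + ‖q p.1‖) ^ d) * ‖f p.1‖ * ‖g p.2‖ := by gcongr; exact hL p.1
      _ = _ := by ring
  let e : Γ × Γ ≃ Γ × Γ :=
    { toFun := fun p => (p.2, p.1 - p.2)
      invFun := fun p => (p.1 + p.2, p.1)
      left_inv := fun p => by ext <;> simp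
      right_inv := fun p => by ext <;> simp }
  have hGe : Summable (G ∘ e) := (e.summable_iff).2 hGs
  have h1 : ∑' p, (G ∘ e) p = ∑' p, G p := e.tsum_eq G
  rw [hGe.tsum_prod, hGs.tsum_prod] at h1
  have h2 : sy q (tc L f g) z = ∑' ξ, ∑' η, (G ∘ e) (ξ, η) := by
    unfold sy tc
    congr 1
    funext ξ
    have hs : Summable fun η => L η (f η) (g (ξ - η)) := by
      have h3 := hGe.prod_factor ξ
      have h4 := h3.const_smul (ch (q ξ) z)⁻¹
      refine h4.congr fun η => ?_
      change (ch (q ξ) z)⁻¹ • ((ch (q η) z * ch (q (ξ - η)) z) • L η (f η) (g (ξ - η))) = _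
      rw [← ch_add, ← map_add, add_sub_cancel, smul_smul, inv_mul_cancel₀, one_smul]
      rw [← norm_ne_zero_iff, norm_ch]
      exact one_ne_zero
    rw [← hs.tsum_const_smul]
    congr 1
    funext η
    change _ = (ch (q η) z * ch (q (ξ - η)) z) • L η (f η) (g (ξ - η))
    rw [← ch_add, ← map_add, add_sub_cancel]
  rw [h2, h1]
  congr 1
  funext η
  unfold sy
  rw [(L η (f η)).map_tsum (hg.summable z)]
  have hs : Summable fun ζ => L η (f η) (ch (q ζ) z • g ζ) := by
    exact (hg.summable z).map (L η (f η)) (L η (f η)).continuous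
  rw [← hs.tsum_const_smul]
  congr 1
  funext ζ
  rw [hC, smul_smul]

/-- derivative of a synthesis -/
lemma hasFDerivAt_sy {f : Γ → ℂ} (hf : RD q f) (z : Cn n) :
    HasFDerivAt (sy q f) (∑' ξ, (f ξ * ch (q ξ) z) • cpL (q ξ)) z := by
  have hu : Summable fun ξ => ‖f ξ‖ * ‖q ξ‖ := by
    refine Summable.of_nonneg_of_le (fun ξ => by (clear * -; positivity)) (fun ξ => ?_) (hf 1)
    rw [pow_one, mul_comm]
    gcongr
    linarith only []
  have h := hasFDerivAt_tsum (𝕜 := ℝ) (f := fun ξ z => ch (q ξ) z • f ξ)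
    (f' := fun ξ z => (f ξ * ch (q ξ) z) • cpL (q ξ)) hu
    (fun ξ x => by
      have h1 := (hasFDerivAt_ch (q ξ) x).mul_const (f ξ)
      convert! h1 using 1
      rw [smul_smul])
    (fun ξ x => by
      refine ContinuousLinearMap.opNorm_le_bound _ (by (clear * -; positivity)) fun v => ?_
      change ‖(f ξ * ch (q ξ) x) * cpL (q ξ) v‖ ≤ _
      rw [norm_mul, norm_mul, norm_ch, mul_one, mul_assoc]
      gcongr
      exact ((cpL (q ξ)).le_opNorm v).trans (by gcongr; exact norm_cpL_le _))
    (x₀ := z) (hf.summable z) z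
  exact h

lemma summable_fd {f : Γ → ℂ} (hf : RD q f) (z : Cn n) :
    Summable fun ξ => (f ξ * ch (q ξ) z) • cpL (q ξ) := by
  apply Summable.of_norm_bounded (g := fun ξ => (1 + ‖q ξ‖) ^ 1 * ‖f ξ‖) (hf 1)
  intro ξ
  refine ContinuousLinearMap.opNorm_le_bound _ (by (clear * -; positivity)) fun v => ?_
  change ‖(f ξ * ch (q ξ) z) * cpL (q ξ) v‖ ≤ _
  rw [norm_mul, norm_mul, norm_ch, mul_one, pow_one]
  calc ‖f ξ‖ * ‖cpL (q ξ) v‖ ≤ ‖f ξ‖ * (‖q ξ‖ * ‖v‖) := by
        gcongr
        exact ((cpL (q ξ)).le_opNorm v).trans (by gcongr; exact norm_cpL_le _)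
    _ = ‖q ξ‖ * ‖f ξ‖ * ‖v‖ := by ring
    _ ≤ _ := by gcongr; linarith only []

lemma fderiv_sy {f : Γ → ℂ} (hf : RD q f) (z v : Cn n) :
    fderiv ℝ (sy q f) z v = ∑' ξ, f ξ * (ch (q ξ) z * cpL (q ξ) v) := by
  rw [(hasFDerivAt_sy hf z).fderiv]
  have h1 := (ContinuousLinearMap.apply ℝ ℂ v).map_tsum (summable_fd hf z)
  refine Eq.trans h1 ?_
  congr 1
  funext ξ
  change (f ξ * ch (q ξ) z) * cpL (q ξ) v = _
  ring

lemma summable_fd2 {f : Γ → ℂ} (hf : RD q f) (z v : Cn n) :
    Summable fun ξ => f ξ * (ch (q ξ) z * cpL (q ξ) v) := by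
  have h1 := (summable_fd hf z).map (ContinuousLinearMap.apply ℝ ℂ v)
    (ContinuousLinearMap.apply ℝ ℂ v).continuous
  refine h1.congr fun ξ => ?_
  change (f ξ * ch (q ξ) z) * cpL (q ξ) v = _
  ring

lemma dz_sy {f : Γ → ℂ} (hf : RD q f) (j : Fin n) (z : Cn n) :
    dz j (sy q f) z = sy q (fun ξ => (Complex.I / 2) * (q ξ) j * f ξ) z := by
  unfold dz
  rw [fderiv_sy hf, fderiv_sy hf, ← tsum_mul_left,
    ← (summable_fd2 hf z _).tsum_sub ((summable_fd2 hf z _).mul_left _), ← tsum_div_const]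
  unfold sy
  congr 1
  funext ξ
  have h := dz_ch (q ξ) j z
  unfold dz at h
  rw [(hasFDerivAt_ch (q ξ) z).fderiv] at h
  change (ch (q ξ) z * cpL (q ξ) (unit j 1) -
    Complex.I * (ch (q ξ) z * cpL (q ξ) (unit j Complex.I))) / 2 = _ at h
  rw [smul_eq_mul]
  linear_combination (f ξ) * h

lemma dzbar_sy {f : Γ → ℂ} (hf : RD q f) (j : Fin n) (z : Cn n) :
    dzbar j (sy q f) z = sy q (fun ξ => (Complex.I / 2) * (starRingEnd ℂ) ((q ξ) j) * f ξ) z := by
  unfold dzbar
  rw [fderiv_sy hf, fderiv_sy hf, ← tsum_mul_left,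
    ← (summable_fd2 hf z _).tsum_add ((summable_fd2 hf z _).mul_left _), ← tsum_div_const]
  unfold sy
  congr 1
  funext ξ
  have h := dzbar_ch (q ξ) j z
  unfold dzbar at h
  rw [(hasFDerivAt_ch (q ξ) z).fderiv] at h
  change (ch (q ξ) z * cpL (q ξ) (unit j 1) +
    Complex.I * (ch (q ξ) z * cpL (q ξ) (unit j Complex.I))) / 2 = _ at h
  rw [smul_eq_mul]
  linear_combination (f ξ) * h

end Sy

end Vale.Agent.P264
end
end
end
end
end

section

section

section

section

open scoped ENNReal ContDiff Topology ComplexOrder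
open MeasureTheory Set Filter

noncomputable section

namespace Vale.Agent.P264

set_option linter.unusedSectionVars false
set_option linter.unusedVariables false

section Weights

variable {n : ℕ} {Γ : Type*} [AddCommGroup Γ] [Countable Γ] (q : Γ →+ Cn n)

variable {q}

end Weights

end Vale.Agent.P264
end
end
end
end
end

section

section

set_option linter.all false

/-! # P264 / Geo / AlgC : the linearisation on functions of degree zero -/

noncomputable section

namespace P264.Geo.Cone

variable {m : ℕ} {A : Type} [CommRing A] [Algebra ℂ A] (C : Cone m A)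

theorem algC_hs_mul (F G : A) (a b : Fin m) :
    C.hs (F * G) a b = F * C.hs G a b + G * C.hs F a b + C.d a F * C.db b G
      + C.d a G * C.db b F := by
  unfold hs
  simp only [Derivation.leibniz, smul_eq_mul, map_add]
  ring

theorem algC_hs_add (F G : A) (a b : Fin m) :
    C.hs (F + G) a b = C.hs F a b + C.hs G a b := by
  unfold hs
  simp only [map_add]

theorem algC_lap_add (F G : A) : C.lap (F + G) = C.lap F + C.lap G := by
  unfold lap
  rw [← Finset.sum_add_distrib]
  refine Finset.sum_congr rfl fun a _ => ?_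
  rw [← Finset.sum_add_distrib]
  refine Finset.sum_congr rfl fun b _ => ?_
  rw [algC_hs_add]
  ring

theorem algC_lap_natCast (n : ℕ) (F : A) : C.lap ((n : A) * F) = (n : A) * C.lap F := by
  unfold lap hs
  rw [Finset.mul_sum]
  refine Finset.sum_congr rfl fun a _ => ?_
  rw [Finset.mul_sum]
  refine Finset.sum_congr rfl fun b _ => ?_
  simp only [Derivation.leibniz, smul_eq_mul, map_add, Derivation.map_natCast, mul_zero, add_zero]
  ring

/-- Product rule for the Laplacian. -/
theorem lap_mul (F G : A) :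
    C.lap (F * G) = F * C.lap G + G * C.lap F + C.ip F G + C.ip G F := by
  unfold lap ip
  simp only [Finset.mul_sum, ← Finset.sum_add_distrib]
  refine Finset.sum_congr rfl fun a _ => Finset.sum_congr rfl fun b _ => ?_
  rw [algC_hs_mul]
  ring

/-- `⟨∂h, ∂̄G⟩ = Ē G`. -/
theorem ip_h_left (G : A) : C.ip C.h G = C.Eb G := by
  rw [Eb_apply]
  unfold ip
  rw [Finset.sum_comm]
  refine Finset.sum_congr rfl fun b _ => ?_
  rw [← C.hP b, Finset.sum_mul]
  refine Finset.sum_congr rfl fun a _ => ?_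
  ring

/-- `⟨∂F, ∂̄h⟩ = E F`. -/
theorem ip_h_right (F : A) : C.ip F C.h = C.E F := by
  rw [E_apply]
  unfold ip
  refine Finset.sum_congr rfl fun a _ => ?_
  rw [← C.hbP a, Finset.sum_mul]
  refine Finset.sum_congr rfl fun b _ => ?_
  ring

/-- `Δ(h v) = h Δ v + m v` for `v` of degree `0`. -/
theorem lap_h_mul (v : A) (hv : C.E v = 0) (hv' : C.Eb v = 0) :
    C.lap (C.h * v) = C.h * C.lap v + (m : A) * v := by
  rw [lap_mul, ip_h_left, ip_h_right, hv, hv', lap_h]
  ring

theorem T_hsh : ∑ c, ∑ e, C.T c e * C.hs C.h c e = C.lap C.L := by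
  have h1 : ∀ c, ∑ e, C.T c e * C.hs C.h c e
      = ∑ a, ∑ b, C.P c b * C.hs C.L a b * (if c = a then 1 else 0) := by
    intro c
    have h2 : ∀ e, C.T c e * C.hs C.h c e
        = ∑ a, ∑ b, C.P c b * C.hs C.L a b * (C.d c (C.db e C.h) * C.P a e) := by
      intro e
      unfold T
      rw [Finset.sum_mul]
      refine Finset.sum_congr rfl fun a _ => ?_
      rw [Finset.sum_mul]
      refine Finset.sum_congr rfl fun b _ => ?_
      unfold hs
      ring
    simp only [h2]
    rw [Finset.sum_comm]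
    refine Finset.sum_congr rfl fun a _ => ?_
    rw [Finset.sum_comm]
    refine Finset.sum_congr rfl fun b _ => ?_
    rw [← Finset.mul_sum, C.PH1 c a]
  simp only [h1]
  unfold lap
  refine Finset.sum_congr rfl fun c _ => ?_
  rw [Finset.sum_eq_single c]
  · simp only [↓reduceIte, mul_one]
  · intro a _ hac
    simp only [Ne.symm hac, ↓reduceIte, mul_zero, Finset.sum_const_zero]
  · intro h; exact absurd (Finset.mem_univ c) h

/-- `Σ_c h_c T^{cē} = 0`. -/
theorem h_T (e : Fin m) : ∑ c, C.d c C.h * C.T c e = 0 := by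
  have h1 : ∀ c, C.d c C.h * C.T c e
      = ∑ a, ∑ b, C.P a e * C.hs C.L a b * (C.d c C.h * C.P c b) := by
    intro c
    unfold T
    rw [Finset.mul_sum]
    refine Finset.sum_congr rfl fun a _ => ?_
    rw [Finset.mul_sum]
    refine Finset.sum_congr rfl fun b _ => ?_
    ring
  simp only [h1]
  rw [Finset.sum_comm]
  refine Finset.sum_eq_zero fun a _ => ?_
  rw [Finset.sum_comm]
  have h2 : ∀ b, ∑ c, C.P a e * C.hs C.L a b * (C.d c C.h * C.P c b)
      = C.P a e * (C.W b * C.hs C.L a b) := by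
    intro b
    rw [← Finset.mul_sum, C.hP b]
    ring
  simp only [h2]
  rw [← Finset.mul_sum, C.W_hs C.L C.Eb_L a, mul_zero]

/-- `Σ_e h_ē T^{cē} = 0`. -/
theorem hb_T (c : Fin m) : ∑ e, C.db e C.h * C.T c e = 0 := by
  have h1 : ∀ e, C.db e C.h * C.T c e
      = ∑ b, ∑ a, C.P c b * C.hs C.L a b * (C.db e C.h * C.P a e) := by
    intro e
    unfold T
    rw [Finset.sum_comm, Finset.mul_sum]
    refine Finset.sum_congr rfl fun a _ => ?_
    rw [Finset.mul_sum]
    refine Finset.sum_congr rfl fun b _ => ?_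
    ring
  simp only [h1]
  rw [Finset.sum_comm]
  refine Finset.sum_eq_zero fun b _ => ?_
  rw [Finset.sum_comm]
  have h2 : ∀ a, ∑ e, C.P c b * C.hs C.L a b * (C.db e C.h * C.P a e)
      = C.P c b * (C.Z a * C.hs C.L a b) := by
    intro a
    rw [← Finset.mul_sum, C.hbP a]
    ring
  simp only [h2]
  rw [← Finset.mul_sum, C.Z_hs C.L C.E_L b, mul_zero]

/-- The linearisation in the direction `h v`, `v` of degree `0`:
`h² T^{cē} v_{cē} - hΔ(hΔv) - m hΔv`. -/
theorem Lin_h_mul (v : A) (hv : C.E v = 0) (hv' : C.Eb v = 0) :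
    C.Lin (C.h * v) = C.h ^ 2 * (∑ c, ∑ e, C.T c e * C.hs v c e)
      - C.h * C.lap (C.h * C.lap v) - (m : A) * (C.h * C.lap v) := by
  have h1 : ∑ c, ∑ e, C.T c e * C.hs (C.h * v) c e
      = C.h * (∑ c, ∑ e, C.T c e * C.hs v c e) + v * C.lap C.L := by
    have e1 : ∀ c e, C.T c e * C.hs (C.h * v) c e
        = (C.h * (C.T c e * C.hs v c e) + v * (C.T c e * C.hs C.h c e))
          + (C.db e v * (C.d c C.h * C.T c e) + C.d c v * (C.db e C.h * C.T c e)) := by
      intro c e
      rw [algC_hs_mul]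
      ring
    simp only [e1, Finset.sum_add_distrib]
    have e2 : ∑ c, ∑ e, C.db e v * (C.d c C.h * C.T c e) = 0 := by
      rw [Finset.sum_comm]
      refine Finset.sum_eq_zero fun e _ => ?_
      rw [← Finset.mul_sum, h_T, mul_zero]
    have e3 : ∑ c, ∑ e, C.d c v * (C.db e C.h * C.T c e) = 0 := by
      refine Finset.sum_eq_zero fun c _ => ?_
      rw [← Finset.mul_sum, hb_T, mul_zero]
    rw [e2, e3]
    simp only [← Finset.mul_sum]
    rw [T_hsh]
    ring
  unfold Lin
  rw [h1, lap_h_mul C v hv hv', algC_lap_add, algC_lap_natCast]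
  ring

end P264.Geo.Cone

end
end
end
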