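import Mathlib.Algebra.BigOperators.Fin
import Mathlib.Analysis.Normed.Module.FiniteDimension
import Mathlib.Data.Fintype.BigOperators
import Mathlib.Data.Fintype.Pi
import Mathlib.Data.Int.Interval
import Mathlib.Data.ZMod.Basic
import Mathlib.LinearAlgebra.Dimension.Finrank
import Mathlib.Topology.Order.Lattice
import Mathlib.Topology.UniformSpace.HeineCantor
import Vale.Agent.P264.Bdl.B1
import Vale.Agent.P264.MathlibUsed
attribute [-instance] Vector.instHMul Pi.preorder Std.Time.WallTime.instHAddOffset_1 Std.Time.Duration.instHMulInt_1 Std.Time.WallTime.instHSubDuration_1 System.FilePath.instHDivString IntermediateField.instNontriviallyNormedFieldSubtypeMem AddGrpCat.str ModuleCat.instAddCommGroupCarrierMkOfSMul' Valued.toUniformSpace UpgradedStandardBorel.toTopologicalSpace Pi.instLattice LinOrd.str ModuleCat.isModule IdemCommSemiring.toIdemSemiring KleeneAlgebra.toIdemSemiring BoxIntegral.Box.instMembershipForallReal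 instCoeT -- iprune

set_option linter.all false

namespace AFastfec814x14a
theorem a0 : CovariantClass ℝ ℝ (Function.swap fun x1 x2 => x1 + x2) fun x1 x2 => x1 ≤ x2 := inferInstance
@[reducible] noncomputable def a1 : NormedSpace ℝ ℝ := inferInstance
theorem a2 : CharZero ℝ := inferInstance
theorem a3 : ContinuousSMul ℝ ℝ := inferInstance
theorem a4 : AddRightReflectLE ℝ := inferInstance
@[reducible] def a5 : SMulZeroClass ℝ ℝ := inferInstance
@[reducible] noncomputable def a6 : Module ℝ ℂ := inferInstance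
theorem a7 : IsRightCancelAdd ℝ := inferInstance
theorem a8 : AddLeftMono ℝ := inferInstance
@[reducible] def a9 : DistribMulAction ℝ ℝ := inferInstance
theorem a10 : AddRightStrictMono ℝ := inferInstance
theorem a11 : OrderClosedTopology ℝ := inferInstance
theorem a12 : AddLeftReflectLE ℝ := inferInstance
theorem a13 : ContravariantClass ℝ ℝ (fun x1 x2 => x1 + x2) fun x1 x2 => x1 < x2 := inferInstance
theorem a14 : PosMulReflectLT ℝ := inferInstance
@[reducible] noncomputable def a15 {x1 : ℕ} : SMul ℂ (Vale.Agent.P264.Op x1) := inferInstance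
theorem a16 : ContravariantClass ℝ ℝ (Function.swap fun x1 x2 => x1 + x2) fun x1 x2 => x1 < x2 := inferInstance
@[reducible] noncomputable def a17 {x1 : ℕ} : SMulZeroClass ℂ (Vale.Agent.P264.Op x1) := inferInstance
@[reducible] noncomputable def a18 : NormedSpace ℝ (ℝ × ℝ) := inferInstance
theorem a19 : IsBoundedSMul ℝ ℝ := inferInstance
theorem a20 : IsLeftCancelAdd ℝ := inferInstance
@[reducible] noncomputable def a21 {x1 : ℕ} : MeasureTheory.MeasureSpace (Fin x1 → ℂ) := inferInstance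
@[reducible] def a22 {x1 : ℕ} : AddZero (Vale.Agent.P264.Cn x1) := inferInstance
theorem a23 : IsModuleTopology ℝ ℝ := inferInstance
@[reducible] def a24 {x1 : ℕ} : AddZeroClass (Vale.Agent.P264.Cn x1) := inferInstance
@[reducible] def a25 {x1 : ℕ} : AddMonoid (Vale.Agent.P264.Cn x1) := inferInstance
@[reducible] noncomputable def a26 {x1 : ℕ} : DistribSMul ℂ (Vale.Agent.P264.Op x1) := inferInstance
theorem a27 : ContinuousSub ℝ := inferInstance
theorem a28 : PosMulStrictMono ℝ := inferInstance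
theorem a29 : PosMulReflectLE ℝ := inferInstance
@[reducible] noncomputable def a30 {x1 : ℕ} : DistribMulAction ℂ (Vale.Agent.P264.Op x1) := inferInstance
@[reducible] noncomputable def a31 {x1 : ℕ} : SMul ℝ (Vale.Agent.P264.Op x1) := inferInstance
@[reducible] noncomputable def a32 {x1 : ℕ} : AddCommMonoid (Vale.Agent.P264.Op x1) := inferInstance
@[reducible] noncomputable def a33 : NormedSpace ℝ ℂ := inferInstance
@[reducible] noncomputable def a34 {x1 : ℕ} : SMulZeroClass ℝ (Vale.Agent.P264.Op x1) := inferInstance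
@[reducible] noncomputable def a35 {x1 : ℕ} : Module ℝ (Vale.Agent.P264.Op x1) := inferInstance
@[reducible] def a36 {x1 : ℕ} : SubNegMonoid (Vale.Agent.P264.Cn x1) := inferInstance
@[reducible] def a37 {x1 : ℕ} : SMulZeroClass ℂ (Vale.Agent.P264.Cn x1) := inferInstance
@[reducible] def a38 {x1 : ℕ} : AddGroup (Vale.Agent.P264.Cn x1) := inferInstance
theorem a39 {x1 : ℕ} : OpensMeasurableSpace (Fin x1 → ℂ) := inferInstance
theorem a40 : IsOrderedModule ℝ ℝ := inferInstance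
@[reducible] def a41 : AddMonoidWithOne ENNReal := inferInstance
@[reducible] noncomputable def a42 {x1 : ℕ} : SMul ℝ (Vale.Agent.P264.Dl x1) := inferInstance
@[reducible] noncomputable def a43 {x1 : ℕ} : DistribMulAction ℝ (Vale.Agent.P264.Dl x1) := inferInstance
@[reducible] noncomputable def a44 {x1 : ℕ} : DistribMulAction ℝ (Vale.Agent.P264.Op x1) := inferInstance
@[reducible] noncomputable def a45 {x1 : ℕ} : DistribSMul ℝ (Vale.Agent.P264.Op x1) := inferInstance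
theorem a46 : TopologicalSpace.SeparableSpace ℂ := inferInstance
theorem a47 : SecondCountableTopology ℂ := inferInstance
theorem a48 : SigmaCompactSpace ℂ := inferInstance
@[reducible] noncomputable def a49 {x1 : ℕ} : AddCommGroup (Vale.Agent.P264.Op x1) := inferInstance
@[reducible] noncomputable def a50 {x1 : ℕ} : AddCommMagma (Vale.Agent.P264.Op x1) := inferInstance
@[reducible] noncomputable def a51 {x1 : ℕ} : SMulZeroClass ℝ (Vale.Agent.P264.Dl x1) := inferInstance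
@[reducible] noncomputable def a52 {x1 : ℕ} : AddCommSemigroup (Vale.Agent.P264.Op x1) := inferInstance
@[reducible] noncomputable def a53 {x1 : ℕ} : Module ℝ (Vale.Agent.P264.Dl x1) := inferInstance
theorem a54 : ClosedIciTopology ℝ := inferInstance
@[reducible] def a55 {x1 : ℕ} : DistribSMul ℂ (Vale.Agent.P264.Cn x1) := inferInstance
@[reducible] noncomputable def a56 {x1 : ℕ} : Module ℝ (Fin x1 → ℂ) := inferInstance
theorem a57 : IsCancelMulZero ℝ := inferInstance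
theorem a58 : ClosedIicTopology ℝ := inferInstance
theorem a59 {x1 : ℕ} : SMulCommClass ℝ ℝ (Vale.Agent.P264.Dl x1) := inferInstance
@[reducible] noncomputable def a60 {x1 : ℕ} : DistribSMul ℝ (Vale.Agent.P264.Dl x1) := inferInstance
theorem a61 : IsLeftCancelMulZero ℝ := inferInstance
@[reducible] noncomputable def a62 {x1 : ℕ} : MulAction ℝ (Vale.Agent.P264.Dl x1) := inferInstance
@[reducible] def a63.{u1} {x1 : Type u1} [x2 : LE x1] : LE (WithTop x1) := inferInstance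
@[reducible] noncomputable def a64 : MeasureTheory.MeasureSpace ℂ := inferInstance
@[reducible] noncomputable def a65 {x1 : ℕ} : Module ℂ (Vale.Agent.P264.Op x1) := inferInstance
@[reducible] noncomputable def a66 {x1 : ℕ} : Module ℝ (Vale.Agent.P264.Op x1 →L[ℝ] ℂ) := inferInstance
theorem a67 : ContinuousAdd ℂ := inferInstance
@[reducible] noncomputable def a68 : SMulZeroClass ℝ ℂ := inferInstance
@[reducible] noncomputable def a69 : DistribMulAction ℝ ℂ := inferInstance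
@[reducible] noncomputable def a70.{u1} {x1 : Type u1} {x2 : ℕ} : Add (x1 → Vale.Agent.P264.Op x2) := inferInstance
@[reducible] noncomputable def a71 {x1 : ℕ} : Add (Vale.Agent.P264.Op x1) := inferInstance
theorem a72 : IsSemitopologicalSemiring ℂ := inferInstance
theorem a73 : IsSemitopologicalRing ℂ := inferInstance
theorem a74 {x1 : ℕ} : SMulCommClass ℝ ℝ (Vale.Agent.P264.Op x1) := inferInstance
theorem a75 : IsTopologicalAddGroup ℂ := inferInstance
@[reducible] noncomputable def a76 : DistribSMul ℝ ℂ := inferInstance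
@[reducible] noncomputable def a77 {x1 : ℕ} : MulAction ℝ (Vale.Agent.P264.Op x1) := inferInstance
@[reducible] noncomputable def a78 {x1 : ℕ} : NormedSpace ℝ (Fin x1 → ℂ) := inferInstance
theorem a79 : WeaklyLocallyCompactSpace ℂ := inferInstance
theorem a80 : LocallyCompactSpace ℂ := inferInstance
@[reducible] noncomputable def a81 {x1 : ℕ} : AddZeroClass (Vale.Agent.P264.Op x1) := inferInstance
theorem a82 : IsTopologicalRing ℂ := inferInstance
@[reducible] noncomputable def a83 {x1 : ℕ} : AddMonoid (Vale.Agent.P264.Op x1) := inferInstance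
theorem a84 : MulPosReflectLE ℝ := inferInstance
@[reducible] noncomputable def a85 {x1 : ℕ} : AddZero (Vale.Agent.P264.Op x1) := inferInstance
@[reducible] noncomputable def a86 {x1 : ℕ} : AddCommMonoid (Vale.Agent.P264.Op x1 →L[ℝ] Vale.Agent.P264.Dl x1) := inferInstance
@[reducible] noncomputable def a87 {x1 : ℕ} : AddCommMonoid (Vale.Agent.P264.Op x1 →L[ℝ] Vale.Agent.P264.Op x1) := inferInstance
theorem a88 : SMulCommClass ℝ ℝ ℂ := inferInstance
theorem a89 : MulPosReflectLT ℝ := inferInstance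
@[reducible] noncomputable def a90 {x1 : ℕ} : AddCommMonoid (Vale.Agent.P264.Dl x1) := inferInstance
@[reducible] noncomputable def a91 {x1 : ℕ} : Module ℝ (P264.Geo.Cm x1) := inferInstance
@[reducible] noncomputable def a92 {x1 : ℕ} : NormedSpace ℝ (ℝ × P264.Geo.Cm x1) := inferInstance
theorem a93 : MulHomClass (ℂ →+* ℂ) ℂ ℂ := inferInstance
end AFastfec814x14a
attribute [local instance] AFastfec814x14a.a0 AFastfec814x14a.a1 AFastfec814x14a.a2
  AFastfec814x14a.a3 AFastfec814x14a.a4 AFastfec814x14a.a5 AFastfec814x14a.a6 AFastfec814x14a.a7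
  AFastfec814x14a.a8 AFastfec814x14a.a9 AFastfec814x14a.a10 AFastfec814x14a.a11
  AFastfec814x14a.a12 AFastfec814x14a.a13 AFastfec814x14a.a14 AFastfec814x14a.a15
  AFastfec814x14a.a16 AFastfec814x14a.a17 AFastfec814x14a.a18 AFastfec814x14a.a19
  AFastfec814x14a.a20 AFastfec814x14a.a21 AFastfec814x14a.a22 AFastfec814x14a.a23
  AFastfec814x14a.a24 AFastfec814x14a.a25 AFastfec814x14a.a26 AFastfec814x14a.a27
  AFastfec814x14a.a28 AFastfec814x14a.a29 AFastfec814x14a.a30 AFastfec814x14a.a31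
  AFastfec814x14a.a32 AFastfec814x14a.a33 AFastfec814x14a.a34 AFastfec814x14a.a35
  AFastfec814x14a.a36 AFastfec814x14a.a37 AFastfec814x14a.a38 AFastfec814x14a.a39
  AFastfec814x14a.a40 AFastfec814x14a.a41 AFastfec814x14a.a42 AFastfec814x14a.a43
  AFastfec814x14a.a44 AFastfec814x14a.a45 AFastfec814x14a.a46 AFastfec814x14a.a47
  AFastfec814x14a.a48 AFastfec814x14a.a49 AFastfec814x14a.a50 AFastfec814x14a.a51
  AFastfec814x14a.a52 AFastfec814x14a.a53 AFastfec814x14a.a54 AFastfec814x14a.a55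
  AFastfec814x14a.a56 AFastfec814x14a.a57 AFastfec814x14a.a58 AFastfec814x14a.a59
  AFastfec814x14a.a60 AFastfec814x14a.a61 AFastfec814x14a.a62 AFastfec814x14a.a63
  AFastfec814x14a.a64 AFastfec814x14a.a65 AFastfec814x14a.a66 AFastfec814x14a.a67
  AFastfec814x14a.a68 AFastfec814x14a.a69 AFastfec814x14a.a70 AFastfec814x14a.a71
  AFastfec814x14a.a72 AFastfec814x14a.a73 AFastfec814x14a.a74 AFastfec814x14a.a75
  AFastfec814x14a.a76 AFastfec814x14a.a77 AFastfec814x14a.a78 AFastfec814x14a.a79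
  AFastfec814x14a.a80 AFastfec814x14a.a81 AFastfec814x14a.a82 AFastfec814x14a.a83
  AFastfec814x14a.a84 AFastfec814x14a.a85 AFastfec814x14a.a86 AFastfec814x14a.a87
  AFastfec814x14a.a88 AFastfec814x14a.a89 AFastfec814x14a.a90 AFastfec814x14a.a91
  AFastfec814x14a.a92 AFastfec814x14a.a93
namespace AFastfec814x14b
theorem a0 {x1 : Nat} : @MeasureTheory.IsFiniteMeasureOnCompacts (Fin x1 → Complex) (@MeasureTheory.MeasureSpace.toMeasurableSpace (Fin x1 → Complex) (@MeasureTheory.MeasureSpace.pi (Fin x1) (Fin.fintype x1) (fun a => Complex) fun i => @measureSpaceOfInnerProductSpace Complex Complex.instNormedAddCommGroup instInnerProductSpaceRealComplex Complex.instFiniteDimensionalReal Complex.measurableSpace Complex.borelSpace)) (@Pi.topologicalSpace (Fin x1) (fun a => Complex) fun i => @UniformSpace.toTopologicalSpace Complex (@PseudoMetricSpace.toUniformSpace Complex (@SeminormedRing.toPseudoMetricSpace Complex (@SeminormedCommRing.toSeminormedRing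 Complex (@NormedCommRing.toSeminormedCommRing Complex (@CommCStarAlgebra.toNormedCommRing Complex instCommCStarAlgebraComplex)))))) (@MeasureTheory.volume (Fin x1 → Complex) (@MeasureTheory.MeasureSpace.pi (Fin x1) (Fin.fintype x1) (fun a => Complex) fun i => @measureSpaceOfInnerProductSpace Complex Complex.instNormedAddCommGroup instInnerProductSpaceRealComplex Complex.instFiniteDimensionalReal Complex.measurableSpace Complex.borelSpace)) := inferInstance
@[reducible] noncomputable def a1 {x1 : ℕ} : Module ℝ (Vale.Agent.P264.Op x1 →L[ℝ] Vale.Agent.P264.Dl x1) := inferInstance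
@[reducible] noncomputable def a2 {x1 : ℕ} : Module ℝ (Vale.Agent.P264.Op x1 →L[ℝ] Vale.Agent.P264.Op x1) := inferInstance
@[reducible] noncomputable def a3 {x1 : ℕ} : Norm (ℂ →L[ℝ] Vale.Agent.P264.Op x1 →L[ℝ] Vale.Agent.P264.Dl x1) := inferInstance
theorem a4 {x1 : ℕ} : ContinuousSMul ℝ (Fin x1 → ℂ) := inferInstance
theorem a5 : ContinuousSMul ℝ ℂ := inferInstance
end AFastfec814x14b
attribute [local instance] AFastfec814x14b.a0 AFastfec814x14b.a1 AFastfec814x14b.a2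
  AFastfec814x14b.a3 AFastfec814x14b.a4 AFastfec814x14b.a5
section

section

/-! # P264 / Geo / FuncBase : cut-offs -/

open scoped ContDiff ComplexOrder
open TopologicalSpace (Opens)
open MeasureTheory Set

noncomputable section

namespace P264.Geo

variable {m : ℕ}

/-- Cut-off functions of `h`: smooth, nonnegative, supported in a compact interval of `(0,∞)`. -/
structure IsCut (κ : ℝ → ℝ) : Prop where
  smooth : ContDiff ℝ ∞ κ
  nonneg : ∀ x, 0 ≤ κ x
  supp : ∃ α β : ℝ, 0 < α ∧ ∀ x, κ x ≠ 0 → α ≤ x ∧ x ≤ β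

/-- There is a cut-off function which is positive at `1`. -/
theorem exists_cut : ∃ κ : ℝ → ℝ, IsCut κ ∧ 0 < κ 1 := by
  let f : ContDiffBump (1 : ℝ) := ⟨1 / 4, 1 / 2, by norm_num, by norm_num⟩
  refine ⟨f, ⟨f.contDiff, fun x => f.nonneg, 1 / 2, 3 / 2, by norm_num, fun x hx => ?_⟩, ?_⟩
  · have h1 : x ∈ Function.support (f : ℝ → ℝ) := hx
    rw [f.support_eq, Metric.mem_ball, Real.dist_eq, abs_lt] at h1
    have h2 : f.rOut = 1 / 2 := rfl
    rw [h2] at h1
    constructor <;> linarith only [h1]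
  · have : f 1 = 1 := f.one_of_mem_closedBall (Metric.mem_closedBall_self f.rIn_pos.le)
    rw [this]
    norm_num

/-- A cone potential is comparable with `|Z|²` (sup norm): compactness of the unit sphere and
homogeneity. -/
theorem cone_bounds {h : Cm m → ℝ} (hh : IsCone m h) :
    ∃ a b : ℝ, 0 < a ∧ 0 < b ∧ ∀ Z, Z ≠ 0 → a * ‖Z‖ ^ 2 ≤ h Z ∧ h Z ≤ b * ‖Z‖ ^ 2 := by
  by_cases hne : ∃ Z : Cm m, Z ≠ 0
  · obtain ⟨Z0, hZ0⟩ := hne
    have hscale : ∀ Z : Cm m, Z ≠ 0 → ‖((‖Z‖⁻¹ : ℝ) : ℂ) • Z‖ = 1 := by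
      intro Z hZ
      rw [norm_smul, Complex.norm_real, norm_inv, norm_norm]
      exact inv_mul_cancel₀ (norm_ne_zero_iff.2 hZ)
    have hcomp : IsCompact (Metric.sphere (0 : Cm m) 1) := isCompact_sphere 0 1
    have hnon : (Metric.sphere (0 : Cm m) 1).Nonempty :=
      ⟨_, by simpa only [mem_sphere_iff_norm, sub_zero, Complex.ofReal_inv] using hscale Z0 hZ0⟩
    have hsub : Metric.sphere (0 : Cm m) 1 ⊆ (Om m : Set (Cm m)) := by
      intro Z hZ
      have h1 : ‖Z‖ = 1 := by simpa only [mem_sphere_iff_norm, sub_zero] using hZ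
      have : Z ≠ 0 := by
        rintro rfl
        simp at h1
      exact this
    have hcont : ContinuousOn h (Metric.sphere (0 : Cm m) 1) :=
      hh.smooth.continuousOn.mono hsub
    obtain ⟨Zmin, hmin1, hmin2⟩ := hcomp.exists_isMinOn hnon hcont
    obtain ⟨Zmax, hmax1, hmax2⟩ := hcomp.exists_isMaxOn hnon hcont
    refine ⟨h Zmin, h Zmax, hh.pos _ (hsub hmin1), hh.pos _ (hsub hmax1), fun Z hZ => ?_⟩
    have hn : ‖Z‖ ≠ 0 := norm_ne_zero_iff.2 hZ
    have hn' : 0 < ‖Z‖ := norm_pos_iff.2 hZ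
    have h1 : h Z = ‖Z‖ ^ 2 * h (((‖Z‖⁻¹ : ℝ) : ℂ) • Z) := by
      rw [hh.homog _ Z hZ (by
        rw [Ne, Complex.ofReal_eq_zero]
        exact inv_ne_zero hn)]
      rw [Complex.norm_real, norm_inv, norm_norm]
      (clear * - hn; field_simp)
    have hmem : ((‖Z‖⁻¹ : ℝ) : ℂ) • Z ∈ Metric.sphere (0 : Cm m) 1 := by
      simpa only [Complex.ofReal_inv, mem_sphere_iff_norm, sub_zero] using hscale Z hZ
    have h2 := hmin2 hmem
    have h3 := hmax2 hmem
    rw [Set.mem_ofPred_eq] at h2 h3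
    rw [h1]
    constructor
    · rw [mul_comm]
      exact mul_le_mul_of_nonneg_left h2 (by positivity)
    · rw [mul_comm (h Zmax)]
      exact mul_le_mul_of_nonneg_left h3 (by positivity)
  · push Not at hne
    exact ⟨1, 1, one_pos, one_pos, fun Z hZ => absurd (hne Z) hZ⟩

/-- `κ(h) F` (extended by zero) is smooth with compact support. -/
theorem cut_smooth {h : Cm m → ℝ} (hh : IsCone m h) {η : ℝ → ℝ} (hη : ContDiff ℝ ∞ η)
    (hs : ∃ α β : ℝ, 0 < α ∧ ∀ x, η x ≠ 0 → α ≤ x ∧ x ≤ β) (F : SA m) :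
    ContDiff ℝ ∞ (fun Z => ((η (h Z) : ℝ) : ℂ) * Sm.fn F Z) ∧
      HasCompactSupport (fun Z => ((η (h Z) : ℝ) : ℂ) * Sm.fn F Z) := by
  obtain ⟨α, β, hα, hsupp⟩ := hs
  obtain ⟨a, b, ha, hb, hab⟩ := cone_bounds hh
  have hfn0 : Sm.fn F 0 = 0 := by
    have : (0 : Cm m) ∉ Om m := fun h => h rfl
    simp [Sm.fn, ext, this]
  -- vanishing near zero
  have hzero : ∀ Z : Cm m, b * ‖Z‖ ^ 2 < α → ((η (h Z) : ℝ) : ℂ) * Sm.fn F Z = 0 := by
    intro Z hZ
    by_cases h0 : Z = 0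
    · rw [h0, hfn0, mul_zero]
    · have : η (h Z) = 0 := by
        by_contra hne
        have h1 := (hsupp _ hne).1
        have h2 := (hab Z h0).2
        linarith only [hZ, h1, h2]
      rw [this]
      simp
  constructor
  · rw [contDiff_iff_contDiffAt]
    intro Z
    by_cases h0 : Z = 0
    · subst h0
      have hev : (fun Z => ((η (h Z) : ℝ) : ℂ) * Sm.fn F Z) =ᶠ[nhds (0 : Cm m)]
          fun _ => (0 : ℂ) := by
        have hc : Continuous fun Z : Cm m => b * ‖Z‖ ^ 2 := by fun_prop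
        have : ∀ᶠ Z in nhds (0 : Cm m), b * ‖Z‖ ^ 2 < α := by
          apply hc.continuousAt.eventually_lt continuousAt_const
          simpa only [norm_zero, ne_eq, OfNat.ofNat_ne_zero, not_false_eq_true, zero_pow, mul_zero] using hα
        filter_upwards [this] with Z hZ using hzero Z hZ
      exact contDiffAt_const.congr_of_eventuallyEq hev
    · have h1 : ContDiffAt ℝ ∞ h Z := hh.smooth.contDiffAt ((Om m).isOpen.mem_nhds h0)
      have h2 : ContDiffAt ℝ ∞ (Sm.fn F) Z :=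
        (Sm.fn_smooth F).contDiffAt ((Om m).isOpen.mem_nhds h0)
      have h3 : ContDiffAt ℝ ∞ (fun Z => ((η (h Z) : ℝ) : ℂ)) Z :=
        Complex.ofRealCLM.contDiff.contDiffAt.comp Z (hη.contDiffAt.comp Z h1)
      exact h3.mul h2
  · apply HasCompactSupport.intro (isCompact_closedBall (0 : Cm m) (Real.sqrt (|β| / a)))
    intro Z hZ
    rw [mem_closedBall_zero_iff, not_le] at hZ
    have h0 : Z ≠ 0 := by
      rintro rfl
      rw [norm_zero] at hZ
      exact absurd hZ (not_lt.2 (Real.sqrt_nonneg _))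
    have h1 : |β| / a < ‖Z‖ ^ 2 := by
      have := (Real.sqrt_lt' (norm_pos_iff.2 h0)).1 hZ
      exact this
    have : η (h Z) = 0 := by
      by_contra hne
      have h2 := (hsupp _ hne).2
      have h3 := (hab Z h0).1
      have h4 : |β| < a * ‖Z‖ ^ 2 := by
        rw [div_lt_iff₀ ha] at h1
        linarith only [h1]
      have h5 := le_abs_self β
      linarith only [h2, h3, h4, h5]
    rw [this]
    simp

theorem cut_integrable {h : Cm m → ℝ} (hh : IsCone m h) {η : ℝ → ℝ} (hη : ContDiff ℝ ∞ η)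
    (hs : ∃ α β : ℝ, 0 < α ∧ ∀ x, η x ≠ 0 → α ≤ x ∧ x ≤ β) (F : SA m) :
    Integrable (fun Z => ((η (h Z) : ℝ) : ℂ) * Sm.fn F Z) :=
  (cut_smooth hh hη hs F).1.continuous.integrable_of_hasCompactSupport (cut_smooth hh hη hs F).2

theorem funcBase_integral_fderiv {f : Cm m → ℂ} (hf : ContDiff ℝ ∞ f) (hc : HasCompactSupport f)
    (v : Cm m) : Integrable (fun Z => fderiv ℝ f Z v) ∧ ∫ Z, fderiv ℝ f Z v = 0 := by
  have hcont : Continuous fun Z => fderiv ℝ f Z v :=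
    (hf.continuous_fderiv (by simp)).clm_apply continuous_const
  have hcs : HasCompactSupport fun Z => fderiv ℝ f Z v := hc.fderiv_apply ℝ v
  have hint : Integrable (fun Z => fderiv ℝ f Z v) :=
    hcont.integrable_of_hasCompactSupport hcs
  refine ⟨hint, ?_⟩
  have h1 := integral_mul_fderiv_eq_neg_fderiv_mul_of_integrable (μ := (volume : Measure (Cm m)))
    (f := fun _ : Cm m => (1 : ℂ)) (g := f) (v := v) (by simp only [fderiv_fun_const, Pi.zero_apply, zero_apply, zero_mul, integrable_fun_zero])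
    (by simpa only [one_mul] using hint)
    (by simpa only [one_mul] using hf.continuous.integrable_of_hasCompactSupport hc)
    (fun x _ => differentiableAt_const _)
    (fun x _ => hf.differentiable (by simp) x)
  simpa only [one_mul, fderiv_fun_const, Pi.zero_apply, zero_apply, zero_mul, integral_zero, neg_zero] using h1

/-- the integral of a derivative of a smooth compactly supported function vanishes. -/
theorem integral_dz_zero {f : Cm m → ℂ} (hf : ContDiff ℝ ∞ f) (hc : HasCompactSupport f)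
    (a : Fin m) : ∫ Z, dz a f Z = 0 ∧ ∫ Z, dzb a f Z = 0 := by
  obtain ⟨i1, e1⟩ := funcBase_integral_fderiv hf hc (Pi.single a 1)
  obtain ⟨i2, e2⟩ := funcBase_integral_fderiv hf hc (Pi.single a Complex.I)
  constructor
  · simp only [dz]
    rw [integral_div, integral_sub i1 (i2.const_mul _), integral_const_mul, e1, e2]
    simp
  · simp only [dzb]
    rw [integral_div, integral_add i1 (i2.const_mul _), integral_const_mul, e1, e2]
    simp

theorem IsCut.deriv_cut {κ : ℝ → ℝ} (hκ : IsCut κ) :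
    ContDiff ℝ ∞ (deriv κ) ∧ ∃ α β : ℝ, 0 < α ∧ ∀ x, deriv κ x ≠ 0 → α ≤ x ∧ x ≤ β := by
  constructor
  · have h1 : ContDiff ℝ (∞ + 1) κ := by
      simpa using hκ.smooth
    exact (contDiff_succ_iff_deriv.1 h1).2.2
  · obtain ⟨α, β, hα, hs⟩ := hκ.supp
    refine ⟨α, β, hα, fun x hx => ?_⟩
    by_contra hcon
    rw [not_and_or, not_le, not_le] at hcon
    apply hx
    have hev : κ =ᶠ[nhds x] fun _ => (0 : ℝ) := by
      rcases hcon with h | h
      · filter_upwards [Iio_mem_nhds h] with y hy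
        by_contra hne
        exact absurd (hs y hne).1 (not_le.2 hy)
      · filter_upwards [Ioi_mem_nhds h] with y hy
        by_contra hne
        exact absurd (hs y hne).2 (not_le.2 hy)
    rw [hev.deriv_eq]
    simp

end P264.Geo

end
end
end

section

attribute [-instance] ProperSMul.toContinuousSMul IsTopologicalTorsor.toContinuousSMul IdemSemiring.toCanonicallyOrderedAdd IdemSemiring.toMulLeftMono IdemSemiring.toMulRightMono AddQuantale.instAddLeftMono AddQuantale.instAddRightMono Quantale.instMulLeftMono Quantale.instMulRightMono FiniteDimensional.rclike_to_real IsScalarTower.complexToReal FiniteDimensional.complexToReal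

section

/-!
# P264 / B / Near / Green : (B1), (B2), (B2'), (C) of the skeleton (helper602)
-/

open MeasureTheory Set Filter Real
open scoped ContDiff

namespace P264.B

variable {ρ : ℝ → ℝ} {ν c₁ c₂ : ℝ}

/-- (B2) -/
theorem green_bound (hρ : Weight ρ ν c₁ c₂) {G : ℝ → ℝ} (hG : Adm G) (z : ℝ) :
    G z ^ 2 ≤ bsq ρ z * NN ρ G := hG.sq_le hρ z

/-- (B2') -/
theorem bsq_facts (hρ : Weight ρ ν c₁ c₂) :
    Continuous (bsq ρ) ∧ (∀ z, 0 ≤ bsq ρ z) ∧ ∃ C, ∀ z, bsq ρ z ≤ C * exp (2 * ν * z) := by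
  obtain ⟨C, -, hC⟩ := hρ.bsq_le
  exact ⟨hρ.continuous_bsq, bsq_nonneg hρ.pos, C, hC⟩

/-- (C) -/
theorem parts (hρ : Weight ρ ν c₁ c₂) {G f : ℝ → ℝ} (hG : Adm G) (hf : ContDiff ℝ 2 f)
    (_hf1 : ∃ Z, ∀ z, Z ≤ z → f z = 0)
    (hf2 : ∃ C, ∀ z ≤ (0 : ℝ), |f z| ≤ C * exp z ∧ |deriv f z| ≤ C * exp z ∧
      |deriv (deriv f) z| ≤ C * exp z) :
    ∫ z, ρ z * om G z * (deriv (deriv f) z - 3 * deriv f z + 2 * f z)
      = ∫ z, f z * Top ρ G z := by
  obtain ⟨C, hC⟩ := hf2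
  have h1 : ContDiff ℝ 1 (deriv f) := by
    have : ContDiff ℝ (1 + 1) f := by
      convert hf using 1
      norm_num
    exact (contDiff_succ_iff_deriv.1 this).2.2
  exact (hG.parts hρ (fun z => (hf.differentiable (by norm_num) z).hasDerivAt)
    (fun z => (h1.differentiable (by norm_num) z).hasDerivAt)
    (h1.continuous_deriv le_rfl) (fun z hz => (hC z hz).1) (fun z hz => (hC z hz).2.1)
    (fun z hz => (hC z hz).2.2)).2.2

end P264.B
end
end

section

attribute [-instance] ProperSMul.toContinuousSMul IsTopologicalTorsor.toContinuousSMul IdemSemiring.toCanonicallyOrderedAdd IdemSemiring.toMulLeftMono IdemSemiring.toMulRightMono AddQuantale.instAddLeftMono AddQuantale.instAddRightMono Quantale.instMulLeftMono Quantale.instMulRightMono FiniteDimensional.rclike_to_real IsScalarTower.complexToReal FiniteDimensional.complexToReal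

section
set_option linter.all false
/-!
# P264 / Cal : calculus of smooth functions on a closed box (product rules, FTC, integration by
parts, extension of identities to the closed box)
-/
open Set MeasureTheory Filter Topology Function
open scoped ContDiff

namespace P264.Cal

section Box
variable {a b c d : ℝ}

theorem diffWithinAt_box {f : ℝ × ℝ → ℝ} (hf : ContDiffOn ℝ ∞ f (Icc a b ×ˢ Icc c d))
    {p : ℝ × ℝ} (hp : p ∈ Icc a b ×ˢ Icc c d) :
    DifferentiableWithinAt ℝ f (Icc a b ×ˢ Icc c d) p :=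
  (hf.differentiableOn (by simp)) p hp

theorem pdx_mul (hab : a < b) (hcd : c < d) {f g : ℝ × ℝ → ℝ}
    (hf : ContDiffOn ℝ ∞ f (Icc a b ×ˢ Icc c d)) (hg : ContDiffOn ℝ ∞ g (Icc a b ×ˢ Icc c d))
    {p : ℝ × ℝ} (hp : p ∈ Icc a b ×ˢ Icc c d) :
    pdx (Icc a b ×ˢ Icc c d) (fun q => f q * g q) p =
      pdx (Icc a b ×ˢ Icc c d) f p * g p + f p * pdx (Icc a b ×ˢ Icc c d) g p := by
  unfold pdx
  rw [fderivWithin_fun_mul (uniqueDiffOn_box hab hcd p hp) (diffWithinAt_box hf hp)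
    (diffWithinAt_box hg hp)]
  simp only [Icc_prod_Icc, add_apply, smul_apply, smul_eq_mul]
  ring

theorem pdt_mul (hab : a < b) (hcd : c < d) {f g : ℝ × ℝ → ℝ}
    (hf : ContDiffOn ℝ ∞ f (Icc a b ×ˢ Icc c d)) (hg : ContDiffOn ℝ ∞ g (Icc a b ×ˢ Icc c d))
    {p : ℝ × ℝ} (hp : p ∈ Icc a b ×ˢ Icc c d) :
    pdt (Icc a b ×ˢ Icc c d) (fun q => f q * g q) p =
      pdt (Icc a b ×ˢ Icc c d) f p * g p + f p * pdt (Icc a b ×ˢ Icc c d) g p := by
  unfold pdt
  rw [fderivWithin_fun_mul (uniqueDiffOn_box hab hcd p hp) (diffWithinAt_box hf hp)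
    (diffWithinAt_box hg hp)]
  simp only [Icc_prod_Icc, add_apply, smul_apply, smul_eq_mul]
  ring

theorem pdx_sub (hab : a < b) (hcd : c < d) {f g : ℝ × ℝ → ℝ}
    (hf : ContDiffOn ℝ ∞ f (Icc a b ×ˢ Icc c d)) (hg : ContDiffOn ℝ ∞ g (Icc a b ×ˢ Icc c d))
    {p : ℝ × ℝ} (hp : p ∈ Icc a b ×ˢ Icc c d) :
    pdx (Icc a b ×ˢ Icc c d) (fun q => f q - g q) p =
      pdx (Icc a b ×ˢ Icc c d) f p - pdx (Icc a b ×ˢ Icc c d) g p := by
  unfold pdx
  rw [fderivWithin_fun_sub (uniqueDiffOn_box hab hcd p hp) (diffWithinAt_box hf hp)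
    (diffWithinAt_box hg hp)]
  simp only [Icc_prod_Icc, sub_apply]

theorem pdt_sub (hab : a < b) (hcd : c < d) {f g : ℝ × ℝ → ℝ}
    (hf : ContDiffOn ℝ ∞ f (Icc a b ×ˢ Icc c d)) (hg : ContDiffOn ℝ ∞ g (Icc a b ×ˢ Icc c d))
    {p : ℝ × ℝ} (hp : p ∈ Icc a b ×ˢ Icc c d) :
    pdt (Icc a b ×ˢ Icc c d) (fun q => f q - g q) p =
      pdt (Icc a b ×ˢ Icc c d) f p - pdt (Icc a b ×ˢ Icc c d) g p := by
  unfold pdt
  rw [fderivWithin_fun_sub (uniqueDiffOn_box hab hcd p hp) (diffWithinAt_box hf hp)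
    (diffWithinAt_box hg hp)]
  simp only [Icc_prod_Icc, sub_apply]

theorem pdx_neg (hab : a < b) (hcd : c < d) {f : ℝ × ℝ → ℝ}
    {p : ℝ × ℝ} (hp : p ∈ Icc a b ×ˢ Icc c d) :
    pdx (Icc a b ×ˢ Icc c d) (fun q => -f q) p = -pdx (Icc a b ×ˢ Icc c d) f p := by
  unfold pdx
  rw [fderivWithin_fun_neg (uniqueDiffOn_box hab hcd p hp)]
  simp only [Icc_prod_Icc, neg_apply]

theorem contDiffOn_snd {g : ℝ → ℝ} (hg : ContDiff ℝ ∞ g) :
    ContDiffOn ℝ ∞ (fun p : ℝ × ℝ => g p.2) (Icc a b ×ˢ Icc c d) :=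
  (hg.comp contDiff_snd).contDiffOn

theorem pdt_snd (hab : a < b) (hcd : c < d) {g : ℝ → ℝ} (hg : ContDiff ℝ ∞ g)
    {p : ℝ × ℝ} (hp : p ∈ Icc a b ×ˢ Icc c d) :
    pdt (Icc a b ×ˢ Icc c d) (fun p => g p.2) p = 0 := by
  obtain ⟨t, x⟩ := p
  have h : HasDerivWithinAt (fun _ : ℝ => g x) 0 (Icc a b) t := hasDerivWithinAt_const _ _ _
  exact pdt_eq (f := fun p : ℝ × ℝ => g p.2) hab (contDiffOn_snd hg) hp.1 hp.2 h

theorem pdx_snd (hab : a < b) (hcd : c < d) {g : ℝ → ℝ} (hg : ContDiff ℝ ∞ g)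
    {p : ℝ × ℝ} (hp : p ∈ Icc a b ×ˢ Icc c d) :
    pdx (Icc a b ×ˢ Icc c d) (fun p => g p.2) p = deriv g p.2 := by
  obtain ⟨t, x⟩ := p
  exact pdx_eq hcd (contDiffOn_snd hg) hp.1 hp.2
    ((hg.differentiable (by simp)) x).hasDerivAt.hasDerivWithinAt

/-- Two continuous functions agreeing for `x` in the open interval agree on the closed box. -/
theorem eq_of_eq_Ioo (hcd : c < d) {f g : ℝ × ℝ → ℝ}
    (hf : ContinuousOn f (Icc a b ×ˢ Icc c d)) (hg : ContinuousOn g (Icc a b ×ˢ Icc c d))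
    (h : ∀ t ∈ Icc a b, ∀ x ∈ Ioo c d, f (t, x) = g (t, x)) :
    ∀ p ∈ Icc a b ×ˢ Icc c d, f p = g p := by
  have h1 : EqOn f g (Icc a b ×ˢ Ioo c d) := by
    rintro ⟨t, x⟩ ⟨ht, hx⟩
    exact h t ht x hx
  have h2 := h1.of_subset_closure hf hg (prod_mono_right Ioo_subset_Icc_self) (by
    rw [closure_prod_eq, closure_Ioo hcd.ne, closure_Icc])
  exact fun p hp => h2 hp

theorem continuousOn_sec {f : ℝ × ℝ → ℝ} (hf : ContinuousOn f (Icc a b ×ˢ Icc c d)) {t : ℝ}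
    (ht : t ∈ Icc a b) : ContinuousOn (fun x => f (t, x)) (Icc c d) :=
  hf.comp (f := fun x : ℝ => ((t, x) : ℝ × ℝ)) (by fun_prop) (fun x hx => ⟨ht, hx⟩)

theorem intervalIntegrable_sec {f : ℝ × ℝ → ℝ} (hf : ContinuousOn f (Icc a b ×ˢ Icc c d)) {t : ℝ}
    (ht : t ∈ Icc a b) {x y : ℝ} (hx : x ∈ Icc c d) (hy : y ∈ Icc c d) :
    IntervalIntegrable (fun x => f (t, x)) volume x y := by
  apply ContinuousOn.intervalIntegrable
  exact (continuousOn_sec hf ht).mono (uIcc_subset_Icc hx hy)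

/-- Fundamental theorem of calculus in `x`. -/
theorem integral_pdx {f : ℝ × ℝ → ℝ} (hab : a < b) (hcd : c < d)
    (hf : ContDiffOn ℝ ∞ f (Icc a b ×ˢ Icc c d)) {t : ℝ} (ht : t ∈ Icc a b)
    {x y : ℝ} (hx : x ∈ Icc c d) (hy : y ∈ Icc c d) (hxy : x ≤ y) :
    ∫ z in x..y, pdx (Icc a b ×ˢ Icc c d) f (t, z) = f (t, y) - f (t, x) := by
  have hsub : Icc x y ⊆ Icc c d := Icc_subset_Icc hx.1 hy.2
  apply intervalIntegral.integral_eq_sub_of_hasDerivAt_of_le (f := fun z => f (t, z)) hxy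
  · exact (continuousOn_sec hf.continuousOn ht).mono hsub
  · intro z hz
    exact hasDerivAt_pdx hf ht ⟨lt_of_le_of_lt hx.1 hz.1, lt_of_lt_of_le hz.2 hy.2⟩
  · exact intervalIntegrable_sec (contDiffOn_pdx hab hcd hf).continuousOn ht hx hy

/-- Integration by parts, twice. -/
theorem integral_mul_pdx_pdx (hab : a < b) (hcd : c < d) {f A : ℝ × ℝ → ℝ}
    (hf : ContDiffOn ℝ ∞ f (Icc a b ×ˢ Icc c d)) (hA : ContDiffOn ℝ ∞ A (Icc a b ×ˢ Icc c d))
    {t : ℝ} (ht : t ∈ Icc a b) {x y : ℝ} (hx : x ∈ Icc c d) (hy : y ∈ Icc c d) (hxy : x ≤ y) :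
    ∫ z in x..y, f (t, z) * pdx (Icc a b ×ˢ Icc c d) (pdx (Icc a b ×ˢ Icc c d) A) (t, z) =
      (∫ z in x..y, pdx (Icc a b ×ˢ Icc c d) (pdx (Icc a b ×ˢ Icc c d) f) (t, z) * A (t, z))
      + ((f (t, y) * pdx (Icc a b ×ˢ Icc c d) A (t, y)
          - pdx (Icc a b ×ˢ Icc c d) f (t, y) * A (t, y))
        - (f (t, x) * pdx (Icc a b ×ˢ Icc c d) A (t, x)
          - pdx (Icc a b ×ˢ Icc c d) f (t, x) * A (t, x))) := by
  set K := Icc a b ×ˢ Icc c d with hK
  have hf1 : ContDiffOn ℝ ∞ (pdx K f) K := contDiffOn_pdx hab hcd hf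
  have hf2 : ContDiffOn ℝ ∞ (pdx K (pdx K f)) K := contDiffOn_pdx hab hcd hf1
  have hA1 : ContDiffOn ℝ ∞ (pdx K A) K := contDiffOn_pdx hab hcd hA
  have hA2 : ContDiffOn ℝ ∞ (pdx K (pdx K A)) K := contDiffOn_pdx hab hcd hA1
  have hH : ContDiffOn ℝ ∞ (fun q => f q * pdx K A q - pdx K f q * A q) K :=
    (hf.mul hA1).sub (hf1.mul hA)
  have key := integral_pdx hab hcd hH ht hx hy hxy
  have hcong : ∫ z in x..y, pdx K (fun q => f q * pdx K A q - pdx K f q * A q) (t, z) =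
      ∫ z in x..y, (f (t, z) * pdx K (pdx K A) (t, z) - pdx K (pdx K f) (t, z) * A (t, z)) := by
    apply intervalIntegral.integral_congr
    intro z hz
    rw [uIcc_of_le hxy] at hz
    have hp : ((t, z) : ℝ × ℝ) ∈ K := ⟨ht, Icc_subset_Icc hx.1 hy.2 hz⟩
    show pdx K (fun q => f q * pdx K A q - pdx K f q * A q) (t, z) = _
    rw [pdx_sub hab hcd (hf.mul hA1) (hf1.mul hA) hp, pdx_mul hab hcd hf hA1 hp,
      pdx_mul hab hcd hf1 hA hp]
    ring
  rw [hcong, intervalIntegral.integral_sub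
    (intervalIntegrable_sec (hf.mul hA2).continuousOn ht hx hy)
    (intervalIntegrable_sec (hf2.mul hA).continuousOn ht hx hy)] at key
  linarith only [key]

theorem deriv_sec {f : ℝ × ℝ → ℝ} (hf : ContDiffOn ℝ ∞ f (Icc a b ×ˢ Icc c d)) {t x : ℝ}
    (ht : t ∈ Icc a b) (hx : x ∈ Ioo c d) :
    deriv (fun y => f (t, y)) x = pdx (Icc a b ×ˢ Icc c d) f (t, x) :=
  (hasDerivAt_pdx hf ht hx).deriv

theorem deriv_deriv_sec (hab : a < b) (hcd : c < d) {f : ℝ × ℝ → ℝ}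
    (hf : ContDiffOn ℝ ∞ f (Icc a b ×ˢ Icc c d)) {t x : ℝ}
    (ht : t ∈ Icc a b) (hx : x ∈ Ioo c d) :
    deriv (deriv (fun y => f (t, y))) x =
      pdx (Icc a b ×ˢ Icc c d) (pdx (Icc a b ×ˢ Icc c d) f) (t, x) := by
  have h : deriv (fun y => f (t, y)) =ᶠ[𝓝 x] fun y => pdx (Icc a b ×ˢ Icc c d) f (t, y) := by
    filter_upwards [isOpen_Ioo.mem_nhds hx] with y hy
    exact deriv_sec hf ht hy
  rw [h.deriv_eq]
  exact deriv_sec (contDiffOn_pdx hab hcd hf) ht hx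

/-- Cauchy–Schwarz for continuous functions on an interval. -/
theorem cauchy_schwarz (hcd : c ≤ d) {f g : ℝ → ℝ} (hf : ContinuousOn f (Icc c d))
    (hg : ContinuousOn g (Icc c d)) :
    (∫ x in c..d, f x * g x) ^ 2 ≤ (∫ x in c..d, f x ^ 2) * (∫ x in c..d, g x ^ 2) := by
  have i1 : IntervalIntegrable (fun x => f x ^ 2) volume c d := by
    apply ContinuousOn.intervalIntegrable; rw [uIcc_of_le hcd]; exact hf.pow 2
  have i2 : IntervalIntegrable (fun x => g x ^ 2) volume c d := by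
    apply ContinuousOn.intervalIntegrable; rw [uIcc_of_le hcd]; exact hg.pow 2
  have i3 : IntervalIntegrable (fun x => f x * g x) volume c d := by
    apply ContinuousOn.intervalIntegrable; rw [uIcc_of_le hcd]; exact hf.mul hg
  have key : ∀ r : ℝ, 0 ≤ (∫ x in c..d, g x ^ 2) * (r * r) + (2 * ∫ x in c..d, f x * g x) * r
      + ∫ x in c..d, f x ^ 2 := by
    intro r
    have h : ∫ x in c..d, (f x + r * g x) ^ 2 = (∫ x in c..d, g x ^ 2) * (r * r)
        + (2 * ∫ x in c..d, f x * g x) * r + ∫ x in c..d, f x ^ 2 := by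
      have e : ∀ x, (f x + r * g x) ^ 2 = (f x ^ 2 + (2 * r) * (f x * g x)) + r ^ 2 * g x ^ 2 := by
        intro x; ring
      simp_rw [e]
      rw [intervalIntegral.integral_add (i1.add (i3.const_mul _)) (i2.const_mul _),
        intervalIntegral.integral_add i1 (i3.const_mul _), intervalIntegral.integral_const_mul,
        intervalIntegral.integral_const_mul]
      ring
    rw [← h]
    exact intervalIntegral.integral_nonneg hcd (fun x _ => sq_nonneg _)
  have hd := discrim_le_zero key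
  unfold discrim at hd
  linarith

end Box

end P264.Cal
end
end

section

attribute [-instance] ProperSMul.toContinuousSMul IsTopologicalTorsor.toContinuousSMul IdemSemiring.toCanonicallyOrderedAdd IdemSemiring.toMulLeftMono IdemSemiring.toMulRightMono AddQuantale.instAddLeftMono AddQuantale.instAddRightMono Quantale.instMulLeftMono Quantale.instMulRightMono FiniteDimensional.rclike_to_real IsScalarTower.complexToReal FiniteDimensional.complexToReal

section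
set_option linter.all false
/-!
# P264 / B / Calabi : (local) Calabi energy along the one-dimensional flow (helper376, M4b)
-/
open Set MeasureTheory Filter Topology Function
open scoped ContDiff

namespace P264.B

open P264.Cal

/-- The closed box `[0,T] × [0,1]`. -/
abbrev KT (T : ℝ) : Set (ℝ × ℝ) := Icc 0 T ×ˢ Icc 0 1

/-- Smooth extension of the scalar curvature to the closed box: `S = -U_t`. -/
noncomputable def Sf (T : ℝ) (U : ℝ → ℝ → ℝ) : ℝ × ℝ → ℝ :=
  fun p => -pdt (KT T) (fun p => U p.1 p.2) p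

/-- `S_x`. -/
noncomputable def Sx (T : ℝ) (U : ℝ → ℝ → ℝ) : ℝ × ℝ → ℝ := pdx (KT T) (Sf T U)

/-- `S_xx`. -/
noncomputable def Sxx (T : ℝ) (U : ℝ → ℝ → ℝ) : ℝ × ℝ → ℝ := pdx (KT T) (Sx T U)

/-- `F = x^{n-1} φ`. -/
noncomputable def Ff (n : ℕ) (φ : ℝ → ℝ → ℝ) : ℝ × ℝ → ℝ := fun p => p.2 ^ (n - 1) * φ p.1 p.2

/-- `A = x^{n-1} φ² S_xx`. -/
noncomputable def Af (n : ℕ) (T : ℝ) (U φ : ℝ → ℝ → ℝ) : ℝ × ℝ → ℝ :=
  fun p => p.2 ^ (n - 1) * (φ p.1 p.2) ^ 2 * Sxx T U p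

section
variable {n : ℕ} {T : ℝ} {U₀ : ℝ → ℝ} {U φ : ℝ → ℝ → ℝ}

theorem contDiffOn_Sf (hT : 0 < T) (H : IsFlowU n T U₀ U φ) : ContDiffOn ℝ ∞ (Sf T U) (KT T) :=
  (contDiffOn_pdt hT one_pos H.smoothU).neg

theorem contDiffOn_Sx (hT : 0 < T) (H : IsFlowU n T U₀ U φ) : ContDiffOn ℝ ∞ (Sx T U) (KT T) :=
  contDiffOn_pdx hT one_pos (contDiffOn_Sf hT H)

theorem contDiffOn_Sxx (hT : 0 < T) (H : IsFlowU n T U₀ U φ) : ContDiffOn ℝ ∞ (Sxx T U) (KT T) :=
  contDiffOn_pdx hT one_pos (contDiffOn_Sx hT H)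

theorem contDiffOn_xpow (m : ℕ) : ContDiffOn ℝ ∞ (fun p : ℝ × ℝ => p.2 ^ m) (KT T) :=
  contDiffOn_snd (g := fun x => x ^ m) (contDiff_id.pow m)

theorem contDiffOn_Ff (H : IsFlowU n T U₀ U φ) : ContDiffOn ℝ ∞ (Ff n φ) (KT T) :=
  (contDiffOn_xpow (n - 1)).mul H.smooth

theorem contDiffOn_Af (hT : 0 < T) (H : IsFlowU n T U₀ U φ) :
    ContDiffOn ℝ ∞ (Af n T U φ) (KT T) :=
  ((contDiffOn_xpow (n - 1)).mul (H.smooth.pow 2)).mul (contDiffOn_Sxx hT H)

/-- `S` is the scalar curvature for `0 < x < 1`. -/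
theorem Sf_eq_scal (hT : 0 < T) (H : IsFlowU n T U₀ U φ) {t x : ℝ} (ht : t ∈ Icc 0 T)
    (hx : x ∈ Ioo (0 : ℝ) 1) : Sf T U (t, x) = scal n (φ t) x := by
  have h := pdt_eq (f := fun p : ℝ × ℝ => U p.1 p.2) hT H.smoothU ht (Ioo_subset_Icc_self hx)
    (H.flow t ht x hx)
  unfold Sf
  rw [h, neg_neg]

/-- `x^{n-1} S = n(n-1) x^{n-2} - (x^{n-1} φ)_xx` on the closed box. -/
theorem xS_eq (hn : 2 ≤ n) (hT : 0 < T) (H : IsFlowU n T U₀ U φ) :
    ∀ p ∈ KT T, p.2 ^ (n - 1) * Sf T U p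
      = (n : ℝ) * (n - 1) * p.2 ^ (n - 2) - pdx (KT T) (pdx (KT T) (Ff n φ)) p := by
  have hF := contDiffOn_Ff H
  have hFx := contDiffOn_pdx hT one_pos hF
  have hFxx := contDiffOn_pdx hT one_pos hFx
  apply eq_of_eq_Ioo one_pos
  · exact ((contDiffOn_xpow (n - 1)).mul (contDiffOn_Sf hT H)).continuousOn
  · exact ((contDiffOn_const.mul (contDiffOn_xpow (n - 2))).sub hFxx).continuousOn
  · intro t ht x hx
    show x ^ (n - 1) * Sf T U (t, x) = (n : ℝ) * (n - 1) * x ^ (n - 2) - _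
    rw [Sf_eq_scal hT H ht hx, scal]
    have h2 := deriv_deriv_sec hT one_pos hF ht hx
    have h3 : (fun y => Ff n φ (t, y)) = fun y => y ^ (n - 1) * φ t y := rfl
    rw [h3] at h2
    rw [h2]
    have hx0 : x ≠ 0 := hx.1.ne'
    obtain ⟨m, rfl⟩ : ∃ m, n = m + 2 := ⟨n - 2, by omega⟩
    have e1 : m + 2 - 1 = m + 1 := rfl
    have e2 : m + 2 - 2 = m := rfl
    rw [e1, e2]
    field_simp
    ring

/-- `φ_t = φ² S_xx` on the closed box. -/
theorem phi_t_eq (hT : 0 < T) (H : IsFlowU n T U₀ U φ) :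
    ∀ p ∈ KT T, pdt (KT T) (fun p => φ p.1 p.2) p = (φ p.1 p.2) ^ 2 * Sxx T U p := by
  have hU := H.smoothU
  have hUx := contDiffOn_pdx hT one_pos hU
  have hUxx := contDiffOn_pdx hT one_pos hUx
  have hUt := contDiffOn_pdt hT one_pos hU
  apply eq_of_eq_Ioo one_pos
  · exact (contDiffOn_pdt hT one_pos H.smooth).continuousOn
  · exact ((H.smooth.pow 2).mul (contDiffOn_Sxx hT H)).continuousOn
  · intro t ht x hx
    have hx' : x ∈ Icc (0 : ℝ) 1 := Ioo_subset_Icc_self hx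
    set W : ℝ × ℝ → ℝ := pdx (KT T) (pdx (KT T) (fun p => U p.1 p.2)) with hW
    have hrel : ∀ τ ∈ Icc 0 T, φ τ x * (W (τ, x) + 1 / x + 1 / (1 - x)) = 1 := by
      intro τ hτ
      have := H.rel τ hτ x hx
      rw [show (U τ) = fun y => (fun p : ℝ × ℝ => U p.1 p.2) (τ, y) from rfl,
        deriv_deriv_sec hT one_pos hU hτ hx] at this
      exact this
    have h1 := hasDerivWithinAt_pdt H.smooth ht hx'
    have h2 := ((hasDerivWithinAt_pdt hUxx ht hx').add_const (1 / x)).add_const (1 / (1 - x))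
    have h3 := h1.mul h2
    have h4 : HasDerivWithinAt (fun τ => φ τ x * (W (τ, x) + 1 / x + 1 / (1 - x))) 0 (Icc 0 T) t := by
      refine (hasDerivWithinAt_const t (Icc 0 T) (1 : ℝ)).congr ?_ ?_
      · intro τ hτ; exact hrel τ hτ
      · exact hrel t ht
    have h5 := (uniqueDiffOn_Icc hT t ht).eq_deriv _ h3 h4
    -- commute derivatives
    have hp : ((t, x) : ℝ × ℝ) ∈ KT T := ⟨ht, hx'⟩
    have c1 : pdt (KT T) W (t, x) = -Sxx T U (t, x) := by
      rw [hW, ← pdx_pdt_comm hT one_pos hUx hp]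
      have : pdx (KT T) (pdt (KT T) (pdx (KT T) (fun p => U p.1 p.2))) (t, x) =
          pdx (KT T) (pdx (KT T) (pdt (KT T) (fun p => U p.1 p.2))) (t, x) := by
        apply pdx_congr (fun q hq => (pdx_pdt_comm hT one_pos hU hq).symm) hp
      rw [this]
      have e : Sxx T U (t, x) = -pdx (KT T) (pdx (KT T) (pdt (KT T) (fun p => U p.1 p.2))) (t, x) := by
        rw [Sxx, ← pdx_neg hT one_pos hp]
        apply pdx_congr _ hp
        intro q hq
        rw [Sx, ← pdx_neg hT one_pos hq]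
        rfl
      rw [e, neg_neg]
    have hr := hrel t ht
    set Q := W (t, x) + 1 / x + 1 / (1 - x) with hQ
    have hφ : φ t x ≠ 0 := by
      intro h0
      rw [h0, zero_mul] at hr
      exact zero_ne_one hr
    have hQ' : Q = 1 / φ t x := by
      field_simp
      linarith only [hr]
    show pdt (KT T) (fun p => φ p.1 p.2) (t, x) = (φ t x) ^ 2 * Sxx T U (t, x)
    have h6 : pdt (KT T) (fun p => φ p.1 p.2) (t, x) * Q + φ t x * pdt (KT T) W (t, x) = 0 := h5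
    rw [c1, hQ'] at h6
    field_simp at h6
    linarith only [h6]

/-- `x^{n-1} S_t = - (x^{n-1} φ² S_xx)_xx` on the closed box. -/
theorem xSt_eq (hn : 2 ≤ n) (hT : 0 < T) (H : IsFlowU n T U₀ U φ) :
    ∀ p ∈ KT T, p.2 ^ (n - 1) * pdt (KT T) (Sf T U) p
      = -pdx (KT T) (pdx (KT T) (Af n T U φ)) p := by
  intro p hp
  have hF := contDiffOn_Ff H
  have hFx := contDiffOn_pdx hT one_pos hF
  have hFxx := contDiffOn_pdx hT one_pos hFx
  have hS := contDiffOn_Sf hT H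
  have h1 : pdt (KT T) (fun q => q.2 ^ (n - 1) * Sf T U q) p =
      pdt (KT T) (fun q => (n : ℝ) * (n - 1) * q.2 ^ (n - 2)
        - pdx (KT T) (pdx (KT T) (Ff n φ)) q) p := pdt_congr (xS_eq hn hT H) hp
  have hg : ContDiff ℝ ∞ (fun x : ℝ => (n : ℝ) * (n - 1) * x ^ (n - 2)) := by fun_prop
  have hg1 : ContDiff ℝ ∞ (fun x : ℝ => x ^ (n - 1)) := by fun_prop
  have e1 : pdt (KT T) (fun q : ℝ × ℝ => q.2 ^ (n - 1)) p = 0 :=
    pdt_snd (g := fun x : ℝ => x ^ (n - 1)) hT one_pos hg1 hp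
  have e2 : pdt (KT T) (fun q : ℝ × ℝ => (n : ℝ) * (n - 1) * q.2 ^ (n - 2)) p = 0 :=
    pdt_snd (g := fun x : ℝ => (n : ℝ) * (n - 1) * x ^ (n - 2)) hT one_pos hg hp
  rw [pdt_mul (f := fun q : ℝ × ℝ => q.2 ^ (n - 1)) (g := Sf T U) hT one_pos
      (contDiffOn_snd hg1) hS hp,
    pdt_sub (f := fun q : ℝ × ℝ => (n : ℝ) * (n - 1) * q.2 ^ (n - 2)) hT one_pos
      (contDiffOn_snd hg) hFxx hp, e1, e2] at h1
  have h2 : pdt (KT T) (pdx (KT T) (pdx (KT T) (Ff n φ))) p =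
      pdx (KT T) (pdx (KT T) (pdt (KT T) (Ff n φ))) p := by
    rw [← pdx_pdt_comm hT one_pos hFx hp]
    exact pdx_congr (fun q hq => (pdx_pdt_comm hT one_pos hF hq).symm) hp
  have h3 : ∀ q ∈ KT T, pdt (KT T) (Ff n φ) q = Af n T U φ q := by
    intro q hq
    have e3 : pdt (KT T) (fun q : ℝ × ℝ => q.2 ^ (n - 1)) q = 0 :=
      pdt_snd (g := fun x : ℝ => x ^ (n - 1)) hT one_pos hg1 hq
    have := pdt_mul (f := fun q : ℝ × ℝ => q.2 ^ (n - 1)) (g := fun q => φ q.1 q.2) hT one_pos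
      (contDiffOn_snd hg1) H.smooth hq
    rw [e3, phi_t_eq hT H q hq] at this
    unfold Af
    rw [show Ff n φ = fun q : ℝ × ℝ => q.2 ^ (n - 1) * φ q.1 q.2 from rfl, this]
    ring
  have h4 : pdx (KT T) (pdx (KT T) (pdt (KT T) (Ff n φ))) p =
      pdx (KT T) (pdx (KT T) (Af n T U φ)) p := by
    apply pdx_congr _ hp
    intro q hq
    exact pdx_congr h3 hq
  rw [h2, h4] at h1
  linarith only [h1]

/-- boundary values -/
theorem phi_zero (H : IsFlowU n T U₀ U φ) {t : ℝ} (ht : t ∈ Icc 0 T) : φ t 0 = 0 :=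
  (H.profile t ht).left0

theorem phi_one (H : IsFlowU n T U₀ U φ) {t : ℝ} (ht : t ∈ Icc 0 T) : φ t 1 = 0 :=
  (H.profile t ht).right0

theorem Af_zero (H : IsFlowU n T U₀ U φ) {t : ℝ} (ht : t ∈ Icc 0 T) : Af n T U φ (t, 0) = 0 := by
  simp only [Af, phi_zero H ht, ne_eq, OfNat.ofNat_ne_zero, not_false_eq_true, zero_pow, mul_zero, zero_mul]

theorem Af_one (H : IsFlowU n T U₀ U φ) {t : ℝ} (ht : t ∈ Icc 0 T) : Af n T U φ (t, 1) = 0 := by
  simp only [Af, one_pow, phi_one H ht, ne_eq, OfNat.ofNat_ne_zero, not_false_eq_true, zero_pow, mul_zero, zero_mul]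

theorem pdx_Af_of_phi_zero (hT : 0 < T) (H : IsFlowU n T U₀ U φ) {t x : ℝ} (ht : t ∈ Icc 0 T)
    (hx : x ∈ Icc (0 : ℝ) 1) (h0 : φ t x = 0) : pdx (KT T) (Af n T U φ) (t, x) = 0 := by
  have hB : ContDiffOn ℝ ∞ (fun q : ℝ × ℝ => q.2 ^ (n - 1) * φ q.1 q.2 * Sxx T U q) (KT T) :=
    ((contDiffOn_xpow (n - 1)).mul H.smooth).mul (contDiffOn_Sxx hT H)
  have e : Af n T U φ = fun q => φ q.1 q.2 * (q.2 ^ (n - 1) * φ q.1 q.2 * Sxx T U q) := by
    funext q; unfold Af; ring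
  have hp : ((t, x) : ℝ × ℝ) ∈ KT T := ⟨ht, hx⟩
  rw [e, pdx_mul (f := fun q => φ q.1 q.2) hT one_pos H.smooth hB hp]
  simp only [Icc_prod_Icc, h0, mul_zero, zero_mul, add_zero]

/-- The (local) Calabi energy `∫ ζ x^{n-1} S²`. -/
noncomputable def Ecal (n : ℕ) (T : ℝ) (U : ℝ → ℝ → ℝ) (ζ : ℝ → ℝ) (t : ℝ) : ℝ :=
  ∫ x in (0 : ℝ)..1, ζ x * x ^ (n - 1) * Sf T U (t, x) ^ 2

/-- **Local Calabi energy identity.**
`d/dt ∫ ζ x^{n-1} S² = -2 ∫ (ζ S)_xx x^{n-1} φ² S_xx`. -/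
theorem hasDerivWithinAt_Ecal (hn : 2 ≤ n) (hT : 0 < T) (H : IsFlowU n T U₀ U φ) {ζ : ℝ → ℝ}
    (hζ : ContDiff ℝ ∞ ζ) {t : ℝ} (ht : t ∈ Icc 0 T) :
    HasDerivWithinAt (Ecal n T U ζ)
      (-2 * ∫ x in (0 : ℝ)..1, pdx (KT T) (pdx (KT T) (fun q => ζ q.2 * Sf T U q)) (t, x)
        * (x ^ (n - 1) * (φ t x) ^ 2 * Sxx T U (t, x))) (Icc 0 T) t := by
  have hS := contDiffOn_Sf hT H
  have hζ' : ContDiffOn ℝ ∞ (fun q : ℝ × ℝ => ζ q.2) (KT T) := contDiffOn_snd hζ
  have hg1 : ContDiff ℝ ∞ (fun x : ℝ => ζ x * x ^ (n - 1)) := hζ.mul (contDiff_id.pow _)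
  have hw : ContDiffOn ℝ ∞ (fun q : ℝ × ℝ => ζ q.2 * q.2 ^ (n - 1)) (KT T) := contDiffOn_snd hg1
  have hf : ContDiffOn ℝ ∞ (fun q : ℝ × ℝ => ζ q.2 * q.2 ^ (n - 1) * Sf T U q ^ 2) (KT T) :=
    hw.mul (hS.pow 2)
  have h := hasDerivWithinAt_integral one_pos hf hT ht
  have hζS : ContDiffOn ℝ ∞ (fun q : ℝ × ℝ => ζ q.2 * Sf T U q) (KT T) := hζ'.mul hS
  have hA := contDiffOn_Af hT H
  have key : ∫ x in (0 : ℝ)..1, pdt (KT T) (fun q : ℝ × ℝ => ζ q.2 * q.2 ^ (n - 1) * Sf T U q ^ 2)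
      (t, x) = -2 * ∫ x in (0 : ℝ)..1, pdx (KT T) (pdx (KT T) (fun q => ζ q.2 * Sf T U q)) (t, x)
        * (x ^ (n - 1) * (φ t x) ^ 2 * Sxx T U (t, x)) := by
    have h1 : ∫ x in (0 : ℝ)..1, pdt (KT T) (fun q : ℝ × ℝ => ζ q.2 * q.2 ^ (n - 1) * Sf T U q ^ 2)
      (t, x) = ∫ x in (0 : ℝ)..1, -2 * ((fun q : ℝ × ℝ => ζ q.2 * Sf T U q) (t, x) *
        pdx (KT T) (pdx (KT T) (Af n T U φ)) (t, x)) := by
      apply intervalIntegral.integral_congr
      intro x hx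
      rw [uIcc_of_le zero_le_one] at hx
      have hp : ((t, x) : ℝ × ℝ) ∈ KT T := ⟨ht, hx⟩
      have e1 : pdt (KT T) (fun q : ℝ × ℝ => ζ q.2 * q.2 ^ (n - 1)) (t, x) = 0 :=
        pdt_snd (g := fun x : ℝ => ζ x * x ^ (n - 1)) hT one_pos hg1 hp
      have e2 : pdt (KT T) (fun q : ℝ × ℝ => Sf T U q ^ 2) (t, x) =
          2 * Sf T U (t, x) * pdt (KT T) (Sf T U) (t, x) := by
        have := pdt_mul hT one_pos hS hS hp
        rw [show (fun q : ℝ × ℝ => Sf T U q ^ 2) = fun q => Sf T U q * Sf T U q from by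
          funext q; ring, this]
        ring
      show pdt (KT T) (fun q : ℝ × ℝ => ζ q.2 * q.2 ^ (n - 1) * Sf T U q ^ 2) (t, x) =
        -2 * (ζ x * Sf T U (t, x) * pdx (KT T) (pdx (KT T) (Af n T U φ)) (t, x))
      have hm := pdt_mul (f := fun q : ℝ × ℝ => ζ q.2 * q.2 ^ (n - 1))
        (g := fun q => Sf T U q ^ 2) hT one_pos hw (hS.pow 2) hp
      rw [hm, e1, e2]
      have h3 := xSt_eq hn hT H (t, x) hp
      simp only at h3 ⊢
      linear_combination (2 * ζ x * Sf T U (t, x)) * h3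
    rw [h1, intervalIntegral.integral_const_mul]
    congr 1
    have h2 := integral_mul_pdx_pdx hT one_pos hζS hA ht (x := 0) (y := 1)
      ⟨le_rfl, zero_le_one⟩ ⟨zero_le_one, le_rfl⟩ zero_le_one
    rw [h2, Af_zero H ht, Af_one H ht, pdx_Af_of_phi_zero hT H ht ⟨le_rfl, zero_le_one⟩
      (phi_zero H ht), pdx_Af_of_phi_zero hT H ht ⟨zero_le_one, le_rfl⟩ (phi_one H ht)]
    simp only [Icc_prod_Icc, Af, mul_zero, sub_self, add_zero]
  rw [key] at h
  exact h

/-- The Calabi energy `∫ x^{n-1} S²`. -/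
noncomputable def E0 (n : ℕ) (T : ℝ) (U : ℝ → ℝ → ℝ) (t : ℝ) : ℝ :=
  ∫ x in (0 : ℝ)..1, x ^ (n - 1) * Sf T U (t, x) ^ 2

/-- The dissipation `∫ x^{n-1} φ² S_xx²`. -/
noncomputable def Dcal (n : ℕ) (T : ℝ) (U φ : ℝ → ℝ → ℝ) (t : ℝ) : ℝ :=
  ∫ x in (0 : ℝ)..1, x ^ (n - 1) * (φ t x) ^ 2 * Sxx T U (t, x) ^ 2

theorem hasDerivWithinAt_E0 (hn : 2 ≤ n) (hT : 0 < T) (H : IsFlowU n T U₀ U φ)
    {t : ℝ} (ht : t ∈ Icc 0 T) :
    HasDerivWithinAt (E0 n T U) (-2 * Dcal n T U φ t) (Icc 0 T) t := by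
  have h := hasDerivWithinAt_Ecal hn hT H (ζ := fun _ => 1) contDiff_const ht
  have e1 : Ecal n T U (fun _ => 1) = E0 n T U := by
    funext t; simp only [Ecal, one_mul, E0]
  rw [e1] at h
  convert h using 2
  unfold Dcal
  apply intervalIntegral.integral_congr
  intro x hx
  simp only [one_mul]
  show _ = Sxx T U (t, x) * _
  ring

theorem Dcal_nonneg {t : ℝ} (H : IsFlowU n T U₀ U φ) : 0 ≤ Dcal n T U φ t := by
  unfold Dcal
  apply intervalIntegral.integral_nonneg zero_le_one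
  intro x hx
  have := hx.1
  (clear * - this; positivity)

theorem continuousOn_Dcal (hT : 0 < T) (H : IsFlowU n T U₀ U φ) :
    ContinuousOn (Dcal n T U φ) (Icc 0 T) := by
  apply continuousOn_integral isCompact_Icc zero_le_one
  exact (((contDiffOn_xpow (n - 1)).mul (H.smooth.pow 2)).mul
    ((contDiffOn_Sxx hT H).pow 2)).continuousOn

theorem E0_antitone (hn : 2 ≤ n) (hT : 0 < T) (H : IsFlowU n T U₀ U φ) :
    AntitoneOn (E0 n T U) (Icc 0 T) := by
  apply antitoneOn_of_deriv_nonpos (convex_Icc 0 T)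
  · intro t ht
    exact (hasDerivWithinAt_E0 hn hT H ht).continuousWithinAt
  · intro t ht
    rw [interior_Icc] at ht
    exact ((hasDerivWithinAt_E0 hn hT H (Ioo_subset_Icc_self ht)).hasDerivAt
      (Icc_mem_nhds ht.1 ht.2)).differentiableAt.differentiableWithinAt
  · intro t ht
    rw [interior_Icc] at ht
    rw [((hasDerivWithinAt_E0 hn hT H (Ioo_subset_Icc_self ht)).hasDerivAt
      (Icc_mem_nhds ht.1 ht.2)).deriv]
    have := Dcal_nonneg (t := t) H
    linarith only [this]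

theorem E0_nonneg {t : ℝ} : 0 ≤ E0 n T U t := by
  unfold E0
  apply intervalIntegral.integral_nonneg zero_le_one
  intro x hx
  have := hx.1
  (clear * - this; positivity)

theorem E0_le (hn : 2 ≤ n) (hT : 0 < T) (H : IsFlowU n T U₀ U φ) {t : ℝ} (ht : t ∈ Icc 0 T) :
    E0 n T U t ≤ E0 n T U 0 :=
  E0_antitone hn hT H ⟨le_rfl, hT.le⟩ ht ht.1

/-- Time-integrated dissipation identity. -/
theorem integral_Dcal (hn : 2 ≤ n) (hT : 0 < T) (H : IsFlowU n T U₀ U φ) {s t : ℝ}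
    (hs : s ∈ Icc 0 T) (ht : t ∈ Icc 0 T) (hst : s ≤ t) :
    ∫ τ in s..t, Dcal n T U φ τ = (E0 n T U s - E0 n T U t) / 2 := by
  have hsub : Icc s t ⊆ Icc 0 T := Icc_subset_Icc hs.1 ht.2
  have h : ∫ τ in s..t, (-2 * Dcal n T U φ τ) = E0 n T U t - E0 n T U s := by
    apply intervalIntegral.integral_eq_sub_of_hasDerivAt_of_le hst
    · intro τ hτ
      exact ((hasDerivWithinAt_E0 hn hT H (hsub hτ)).continuousWithinAt).mono hsub
    · intro τ hτ
      exact (hasDerivWithinAt_E0 hn hT H (hsub (Ioo_subset_Icc_self hτ))).hasDerivAt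
        (Icc_mem_nhds (lt_of_le_of_lt hs.1 hτ.1) (lt_of_lt_of_le hτ.2 ht.2))
    · apply ContinuousOn.intervalIntegrable
      rw [uIcc_of_le hst]
      exact continuousOn_const.mul ((continuousOn_Dcal hT H).mono hsub)
  rw [intervalIntegral.integral_const_mul] at h
  linarith only [h]

end

end P264.B
end
end

section

attribute [-instance] ProperSMul.toContinuousSMul IsTopologicalTorsor.toContinuousSMul IdemSemiring.toCanonicallyOrderedAdd IdemSemiring.toMulLeftMono IdemSemiring.toMulRightMono AddQuantale.instAddLeftMono AddQuantale.instAddRightMono Quantale.instMulLeftMono Quantale.instMulRightMono FiniteDimensional.rclike_to_real IsScalarTower.complexToReal FiniteDimensional.complexToReal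

section

/-!
# P264 / B / Near / Static : the energy inequality at a fixed time, pointwise part
-/

open MeasureTheory Set Filter Real
open scoped ContDiff Topology

namespace P264.B

/-- Young's inequality with a weight. -/
theorem young_w {a x y : ℝ} (ha : 0 < a) : |x| * |y| ≤ a * y ^ 2 + x ^ 2 / (4 * a) := by
  have h : 0 ≤ (2 * a * |y| - |x|) ^ 2 / (4 * a) := by positivity
  have h2 : (2 * a * |y| - |x|) ^ 2 / (4 * a) = a * y ^ 2 + x ^ 2 / (4 * a) - |x| * |y| := by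
    rw [← sq_abs y, ← sq_abs x]
    field_simp
    ring
  linarith

/-- Pointwise bound of the nonlinear and forcing terms. -/
theorem pointwise_bound {R ρ G : ℝ → ℝ} {κ η z gl f : ℝ}
    (hκ : 0 < κ) (hη : 0 ≤ η) (hR : 0 < R z) (hρ : 0 < ρ z)
    (hb : |gl| ≤ exp (-2 * z) * (κ * R z ^ 2 * |piD G z| + η * R z * |kap R z| * |G z|)
      + |f|) :
    |gl * Top ρ G z| ≤ κ *
        (exp (-2 * z) * R z ^ 2 * (1 / 2 * (ρ z * piD G z ^ 2) + 2 * (Top ρ G z ^ 2 / ρ z)))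
      + η ^ 2 / (2 * κ) * (exp (-2 * z) * kap R z ^ 2 * ρ z * G z ^ 2)
      + 1 / (2 * κ) * (exp (2 * z) * ρ z * f ^ 2 / R z ^ 2) := by
  set t := Top ρ G z with ht
  set e := exp (-2 * z) with he
  have hepos : 0 < e := exp_pos _
  have hexp2 : exp (2 * z) = 1 / e := by
    rw [he, one_div, ← exp_neg]; congr 1; ring
  set D1 := e * R z ^ 2 * (1 / 2 * (ρ z * piD G z ^ 2)) with hD1
  set D2 := e * R z ^ 2 * (2 * (t ^ 2 / ρ z)) with hD2
  have hD1' : 0 ≤ D1 := by (clear * - hR hρ; positivity)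
  have hD2' : 0 ≤ D2 := by (clear * - hR hρ; positivity)
  -- first term
  have hX1 : |piD G z| * |t| ≤ (1 / 2 * (ρ z * piD G z ^ 2) + 2 * (t ^ 2 / ρ z)) / 2 := by
    have h := young_w (x := t) (y := piD G z) (a := ρ z / 4) (by positivity)
    have h3 : t ^ 2 / (4 * (ρ z / 4)) = t ^ 2 / ρ z := by field_simp
    rw [h3] at h
    linarith only [h]
  have hX1' : e * (κ * R z ^ 2 * |piD G z|) * |t| ≤ κ / 2 * (D1 + D2) := by
    calc e * (κ * R z ^ 2 * |piD G z|) * |t|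
        = e * R z ^ 2 * κ * (|piD G z| * |t|) := by ring
      _ ≤ e * R z ^ 2 * κ * ((1 / 2 * (ρ z * piD G z ^ 2) + 2 * (t ^ 2 / ρ z)) / 2) := by (clear * - hX1 hR hκ; gcongr)
      _ = κ / 2 * (D1 + D2) := by rw [hD1, hD2]; ring
  -- Young
  have hY : ∀ x : ℝ, |x| * |t| ≤ κ / 4 * D2 + 1 / (2 * κ) * (ρ z * x ^ 2 / (e * R z ^ 2)) := by
    intro x
    have ha : 0 < κ * e * R z ^ 2 / (2 * ρ z) := by positivity
    have h := young_w (x := x) (y := t) ha
    have h3 : κ * e * R z ^ 2 / (2 * ρ z) * t ^ 2 = κ / 4 * D2 := by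
      rw [hD2]; field_simp; ring
    have h4 : x ^ 2 / (4 * (κ * e * R z ^ 2 / (2 * ρ z)))
        = 1 / (2 * κ) * (ρ z * x ^ 2 / (e * R z ^ 2)) := by field_simp; ring
    linarith only [h, h3, h4]
  have hX2 : e * (η * R z * |kap R z| * |G z|) * |t| ≤ κ / 4 * D2
      + η ^ 2 / (2 * κ) * (e * kap R z ^ 2 * ρ z * G z ^ 2) := by
    have h := hY (e * η * R z * kap R z * G z)
    have h5 : |e * η * R z * kap R z * G z| = e * (η * R z * |kap R z| * |G z|) := by
      rw [abs_mul, abs_mul, abs_mul, abs_mul, abs_of_pos hepos, abs_of_nonneg hη, abs_of_pos hR]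
      ring
    rw [h5] at h
    have h6 : 1 / (2 * κ) * (ρ z * (e * η * R z * kap R z * G z) ^ 2 / (e * R z ^ 2))
        = η ^ 2 / (2 * κ) * (e * kap R z ^ 2 * ρ z * G z ^ 2) := by
      (clear * - hR hepos hρ hκ; field_simp)
    linarith only [h, h6]
  have hX3 : |f| * |t| ≤ κ / 4 * D2
      + 1 / (2 * κ) * (exp (2 * z) * ρ z * f ^ 2 / R z ^ 2) := by
    have h := hY f
    have h6 : 1 / (2 * κ) * (ρ z * f ^ 2 / (e * R z ^ 2))
        = 1 / (2 * κ) * (exp (2 * z) * ρ z * f ^ 2 / R z ^ 2) := by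
      rw [hexp2]; (clear * - hR hepos hρ hκ; field_simp)
    linarith only [h, h6]
  rw [abs_mul]
  have hsum : e * R z ^ 2 * (1 / 2 * (ρ z * piD G z ^ 2) + 2 * (t ^ 2 / ρ z)) = D1 + D2 := by
    rw [hD1, hD2]; ring
  rw [hsum]
  calc |gl| * |t| ≤ (e * (κ * R z ^ 2 * |piD G z| + η * R z * |kap R z| * |G z|) + |f|) * |t| := by
        (clear * - hb; gcongr)
    _ = e * (κ * R z ^ 2 * |piD G z|) * |t| + e * (η * R z * |kap R z| * |G z|) * |t|
        + |f| * |t| := by ring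
    _ ≤ _ := by linarith only [mul_nonneg (le_of_lt (sub_pos.2 hκ)) (sub_nonneg.2 hD1'), hX3, hX2, hX1']

end P264.B
end
end

section

attribute [-instance] ProperSMul.toContinuousSMul IsTopologicalTorsor.toContinuousSMul IdemSemiring.toCanonicallyOrderedAdd IdemSemiring.toMulLeftMono IdemSemiring.toMulRightMono AddQuantale.instAddLeftMono AddQuantale.instAddRightMono Quantale.instMulLeftMono Quantale.instMulRightMono FiniteDimensional.rclike_to_real IsScalarTower.complexToReal FiniteDimensional.complexToReal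

section

section

section

open scoped ENNReal ContDiff Topology ComplexOrder
open MeasureTheory Set Filter

noncomputable section

namespace Vale.Agent.P264

set_option linter.unusedSectionVars false
set_option linter.unusedVariables false

section Mt

variable {n : ℕ}

/-- matrix of an operator -/
def Mt (B : Op n) : Matrix (Fin n) (Fin n) ℂ := Matrix.of fun i j => (B.ap (unit j 1)) i

lemma Mt_apply (B : Op n) (i j : Fin n) : Mt B i j = (B.ap (unit j 1)) i := rfl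

lemma vec_expand (x : Cn n) : x = ∑ j, (x j) • (unit j (1 : ℂ) : Cn n) := by
  classical
  ext i
  rw [WithLp.ofLp_sum, Finset.sum_apply, Finset.sum_eq_single i]
  · simp
  · intro j _ hj
    simp [Ne.symm hj]
  · simp only [Finset.mem_univ, not_true_eq_false, PiLp.smul_apply, PiLp.single_eq_same, smul_eq_mul, mul_one, IsEmpty.forall_iff]

lemma Op.ap_expand (B : Op n) (x : Cn n) (i : Fin n) : (B.ap x) i = ∑ j, Mt B i j * x j := by
  have h : B.ap x = ∑ j, (x j) • B.ap (unit j 1) := by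
    conv_lhs => rw [vec_expand x]
    change (show Cn n →L[ℂ] Cn n from B) _ = _
    rw [map_sum]
    apply Finset.sum_congr rfl
    intro j _
    rw [map_smul]
    rfl
  rw [h, WithLp.ofLp_sum, Finset.sum_apply]
  apply Finset.sum_congr rfl
  intro j _
  rw [Mt_apply]
  simp [mul_comm]

lemma Dl.ap_expand (f : Dl n) (x : Cn n) : f.ap x = ∑ j, f.ap (unit j 1) * x j := by
  conv_lhs => rw [vec_expand x]
  change (show Cn n →L[ℂ] ℂ from f) _ = _
  rw [map_sum]
  apply Finset.sum_congr rfl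
  intro j _
  rw [map_smul, smul_eq_mul, mul_comm]
  rfl

lemma Mt_cp (A B : Op n) : Mt (A.cp B) = Mt A * Mt B := by
  ext i j
  rw [Mt_apply, Op.cp_ap, Op.ap_expand, Matrix.mul_apply]
  rfl

lemma Mt_id : Mt (Op.id : Op n) = 1 := by
  classical
  ext i j
  rw [Mt_apply, Op.id_ap, Matrix.one_apply]
  simp

lemma Mt_sub (A B : Op n) : Mt (A - B) = Mt A - Mt B := rfl

lemma mulVec_Mt (A : Op n) (x : Fin n → ℂ) :
    (Mt A).mulVec x = WithLp.ofLp (A.ap (WithLp.toLp 2 x)) := by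
  funext i
  rw [Op.ap_expand]
  rfl

/-- a Hermitian matrix `1 - A` with small `A` is positive definite -/
lemma posDef_of_small {A : Op n} (hH : (Mt A).IsHermitian) (hs : ‖A‖ < 1) :
    (1 - Mt A).PosDef := by
  rw [Matrix.posDef_iff_dotProduct_mulVec]
  have hH' : (1 - Mt A).IsHermitian := by
    rw [Matrix.IsHermitian, Matrix.conjTranspose_sub, Matrix.conjTranspose_one, hH.eq]
  refine ⟨hH', fun x hx => ?_⟩
  set y : Cn n := WithLp.toLp 2 x with hy
  have hy0 : 0 < ‖y‖ := by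
    rw [norm_pos_iff]
    intro h
    apply hx
    have := congrArg WithLp.ofLp h
    simpa [hy] using this
  have e1 : star x ⬝ᵥ ((1 - Mt A).mulVec x) = inner ℂ y (y - A.ap y) := by
    rw [Matrix.sub_mulVec, Matrix.one_mulVec, mulVec_Mt]
    rw [EuclideanSpace.inner_eq_star_dotProduct, dotProduct_comm]
    rfl
  have e2 : inner ℂ y (y - A.ap y) = ((‖y‖ : ℝ) : ℂ) ^ 2 - inner ℂ y (A.ap y) := by
    rw [inner_sub_right]
    congr 1
    exact inner_self_eq_norm_sq_to_K _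
  have him : (star x ⬝ᵥ ((1 - Mt A).mulVec x)).im = 0 := by
    have h1 : star (star x ⬝ᵥ ((1 - Mt A).mulVec x)) = star x ⬝ᵥ ((1 - Mt A).mulVec x) := by
      rw [← Matrix.star_dotProduct, Matrix.star_mulVec, hH'.eq, ← Matrix.dotProduct_mulVec]
    exact Complex.conj_eq_iff_im.mp h1
  have hre : 0 < (star x ⬝ᵥ ((1 - Mt A).mulVec x)).re := by
    rw [e1, e2, Complex.sub_re]
    have h2 : (inner ℂ y (A.ap y)).re ≤ ‖A‖ * ‖y‖ ^ 2 := by
      calc (inner ℂ y (A.ap y)).re ≤ ‖inner ℂ y (A.ap y)‖ := Complex.re_le_norm _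
        _ ≤ ‖y‖ * ‖A.ap y‖ := norm_inner_le_norm _ _
        _ ≤ ‖y‖ * (‖A‖ * ‖y‖) := by gcongr; exact A.norm_ap_le y
        _ = _ := by ring
    have h3 : (((‖y‖ : ℝ) : ℂ) ^ 2).re = ‖y‖ ^ 2 := by
      rw [← Complex.ofReal_pow, Complex.ofReal_re]
    rw [h3]
    have h4 : 0 < ‖y‖ ^ 2 := by positivity
    linarith only [mul_pos (sub_pos.2 hs) (sub_pos.2 h4), h2]
  rw [Complex.lt_def]
  exact ⟨hre, him.symm⟩

/-- right composition -/
def cpR (X : Op n) : Op n →L[ℝ] Op n :=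
  LinearMap.mkContinuous ⟨⟨fun B => B.cp X, fun B B' => rfl⟩, fun r B => rfl⟩ ‖X‖ (by
    intro B
    change ‖B.cp X‖ ≤ _
    rw [mul_comm]
    exact Op.norm_cp_le _ _)

/-- entry -/
def apE (x : Cn n) (i : Fin n) : Op n →L[ℝ] ℂ :=
  LinearMap.mkContinuous ⟨⟨fun B => (B.ap x) i, fun B B' => rfl⟩, fun r B => rfl⟩ ‖x‖ (by
    intro B
    change ‖(B.ap x) i‖ ≤ _
    rw [mul_comm]
    exact (PiLp.norm_apply_le _ _).trans (B.norm_ap_le x))

/-- value of a functional -/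
def apD (x : Cn n) : Dl n →L[ℝ] ℂ :=
  LinearMap.mkContinuous ⟨⟨fun B => B.ap x, fun B B' => rfl⟩, fun r B => rfl⟩ ‖x‖ (by
    intro B
    change ‖B.ap x‖ ≤ _
    rw [mul_comm]
    exact B.norm_ap_le x)

end Mt

end Vale.Agent.P264
end
end
end
end
end

section

section

/-! # P264 / Geo / FuncInst : the functionals `∫ κ(h) F`, `∫ κ'(h) F` -/

open scoped ContDiff ComplexOrder
open TopologicalSpace (Opens)
open MeasureTheory Set

noncomputable section

namespace P264.Geo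

variable {m : ℕ}

theorem funcInst_fn_zero (F : SA m) : Sm.fn F 0 = 0 := by
  have h0 : (0 : Cm m) ∉ Om m := fun h => h rfl
  simp [Sm.fn, ext, h0]

theorem funcInst_fn_add (F G : SA m) (Z : Cm m) :
    Sm.fn (F + G) Z = Sm.fn F Z + Sm.fn G Z := by
  by_cases hZ : Z = 0
  · subst hZ
    rw [funcInst_fn_zero, funcInst_fn_zero, funcInst_fn_zero, add_zero]
  · exact Sm.fn_add F G (mem_Om.2 hZ)

theorem funcInst_fn_smul (c : ℂ) (F : SA m) (Z : Cm m) :
    Sm.fn (c • F) Z = c * Sm.fn F Z := by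
  by_cases hZ : Z = 0
  · subst hZ
    rw [funcInst_fn_zero, funcInst_fn_zero, mul_zero]
  · exact Sm.fn_smul c F (mem_Om.2 hZ)

/-- The product and chain rule for `κ(h) F`. -/
theorem funcInst_fderiv {h : Cm m → ℝ} (hh : IsCone m h) {κ : ℝ → ℝ} (hκ : ContDiff ℝ ∞ κ)
    (F : SA m) {Z : Cm m} (hZ : Z ≠ 0) (v : Cm m) :
    fderiv ℝ (fun Z => ((κ (h Z) : ℝ) : ℂ) * Sm.fn F Z) Z v =
      ((deriv κ (h Z) : ℝ) : ℂ) * (fderiv ℝ (Sm.fn (hA hh)) Z v * Sm.fn F Z) +
        ((κ (h Z) : ℝ) : ℂ) * fderiv ℝ (Sm.fn F) Z v := by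
  have hO : Z ∈ Om m := mem_Om.2 hZ
  have h1 : DifferentiableAt ℝ h Z :=
    (hh.smooth.contDiffAt ((Om m).isOpen.mem_nhds hO)).differentiableAt (by simp)
  have h2 : HasDerivAt κ (deriv κ (h Z)) (h Z) :=
    (hκ.differentiable (by simp) _).hasDerivAt
  have h3 : HasFDerivAt (fun Z => κ (h Z)) (deriv κ (h Z) • fderiv ℝ h Z) Z :=
    h2.comp_hasFDerivAt Z h1.hasFDerivAt
  have h4 : HasFDerivAt (fun Z => ((κ (h Z) : ℝ) : ℂ))
      (Complex.ofRealCLM.comp (deriv κ (h Z) • fderiv ℝ h Z)) Z :=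
    Complex.ofRealCLM.hasFDerivAt.comp Z h3
  have h5 : DifferentiableAt ℝ (Sm.fn F) Z := Sm.differentiableAt F hO
  have h6 : fderiv ℝ (Sm.fn (hA hh)) Z v = ((fderiv ℝ h Z v : ℝ) : ℂ) := by
    have := Sm.D_ofR v h hh.smooth hO
    rw [Sm.D_fn v _ hO] at this
    exact this
  rw [fderiv_fun_mul h4.differentiableAt h5, h4.fderiv, h6]
  simp only [_root_.add_apply, _root_.smul_apply,
    ContinuousLinearMap.comp_apply, Complex.ofRealCLM_apply, smul_eq_mul, Complex.ofReal_mul]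
  ring

/-- `F ↦ ∫ η(h) F` -/
def JA {h : Cm m → ℝ} (hh : IsCone m h) (η : ℝ → ℝ) (hη : ContDiff ℝ ∞ η)
    (hs : ∃ α β : ℝ, 0 < α ∧ ∀ x, η x ≠ 0 → α ≤ x ∧ x ≤ β) : SA m →ₗ[ℂ] ℂ where
  toFun F := ∫ Z, ((η (h Z) : ℝ) : ℂ) * Sm.fn F Z
  map_add' := by
    intro F G
    rw [← integral_add (cut_integrable hh hη hs F) (cut_integrable hh hη hs G)]
    apply integral_congr_ae
    refine Filter.Eventually.of_forall fun Z => ?_
    simp only [funcInst_fn_add]
    ring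
  map_smul' := by
    intro c F
    rw [RingHom.id_apply, smul_eq_mul, ← integral_const_mul]
    refine integral_congr_ae (Filter.Eventually.of_forall fun Z => ?_)
    simp only [funcInst_fn_smul]
    ring

theorem JA_apply {h : Cm m → ℝ} (hh : IsCone m h) (η : ℝ → ℝ) (hη : ContDiff ℝ ∞ η)
    (hs : ∃ α β : ℝ, 0 < α ∧ ∀ x, η x ≠ 0 → α ≤ x ∧ x ≤ β) (F : SA m) :
    JA hh η hη hs F = ∫ Z, ((η (h Z) : ℝ) : ℂ) * Sm.fn F Z := rfl

theorem funcInst_ae_ne (a : Fin m) : ∀ᵐ Z : Cm m, Z ≠ 0 := by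
  have : Nonempty (Fin m) := ⟨a⟩
  rw [ae_iff]
  simp

theorem JA_ibp {h : Cm m → ℝ} (hh : IsCone m h) {κ : ℝ → ℝ} (hκ : IsCut κ) (a : Fin m)
    (F : SA m) :
    JA hh κ hκ.smooth hκ.supp (dA a F) =
      -JA hh (deriv κ) hκ.deriv_cut.1 hκ.deriv_cut.2 (dA a (hA hh) * F) := by
  obtain ⟨hf1, hf2⟩ := cut_smooth hh hκ.smooth hκ.supp F
  have h0 := (integral_dz_zero hf1 hf2 a).1
  rw [eq_neg_iff_add_eq_zero, JA_apply, JA_apply, ← h0,
    ← integral_add (cut_integrable hh hκ.smooth hκ.supp _)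
      (cut_integrable hh hκ.deriv_cut.1 hκ.deriv_cut.2 _)]
  apply integral_congr_ae
  filter_upwards [funcInst_ae_ne a] with Z hZ
  rw [Sm.fn_mul _ _ (mem_Om.2 hZ), fn_dA a F hZ, fn_dA a (hA hh) hZ]
  simp only [dz]
  rw [funcInst_fderiv hh hκ.smooth F hZ, funcInst_fderiv hh hκ.smooth F hZ]
  ring

theorem JA_ibpb {h : Cm m → ℝ} (hh : IsCone m h) {κ : ℝ → ℝ} (hκ : IsCut κ) (a : Fin m)
    (F : SA m) :
    JA hh κ hκ.smooth hκ.supp (dbA a F) =
      -JA hh (deriv κ) hκ.deriv_cut.1 hκ.deriv_cut.2 (dbA a (hA hh) * F) := by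
  obtain ⟨hf1, hf2⟩ := cut_smooth hh hκ.smooth hκ.supp F
  have h0 := (integral_dz_zero hf1 hf2 a).2
  rw [eq_neg_iff_add_eq_zero, JA_apply, JA_apply, ← h0,
    ← integral_add (cut_integrable hh hκ.smooth hκ.supp _)
      (cut_integrable hh hκ.deriv_cut.1 hκ.deriv_cut.2 _)]
  apply integral_congr_ae
  filter_upwards [funcInst_ae_ne a] with Z hZ
  rw [Sm.fn_mul _ _ (mem_Om.2 hZ), fn_dbA a F hZ, fn_dbA a (hA hh) hZ]
  simp only [dzb]
  rw [funcInst_fderiv hh hκ.smooth F hZ, funcInst_fderiv hh hκ.smooth F hZ]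
  ring

/-- The functionals of the cut-off `κ`. -/
def funcOf {h : Cm m → ℝ} (hh : IsCone m h) {κ : ℝ → ℝ} (hκ : IsCut κ) : (coneOf hh).Func where
  J0 := JA hh κ hκ.smooth hκ.supp
  J1 := JA hh (deriv κ) hκ.deriv_cut.1 hκ.deriv_cut.2
  ibp := JA_ibp hh hκ
  ibpb := JA_ibpb hh hκ

end P264.Geo

end
end
end

section

section

/-!
# P264 / B / Far / BlockDeriv : derivative of the block energy (D3)
-/

open MeasureTheory Set Filter Real
open scoped ContDiff Topology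
open P264.Cal (pdt pdx)

namespace P264.B

open Aa

section

variable {R χ : ℝ → ℝ} {Rmin α : ℝ} {T : ℝ} {U₀ : ℝ → ℝ} {U φ : ℝ → ℝ → ℝ} {s c X : ℝ}

/-! ### jets of `WW` and `GG` -/

/-- jets of `w = h - R`. -/
noncomputable def bdW (T : ℝ) (R : ℝ → ℝ) (φ : ℝ → ℝ → ℝ) (s : ℝ) (k : ℕ) (z : ℝ) : ℝ :=
  hj T φ s k z - iteratedDeriv k R z

theorem bdW_hasDerivAt (hR : Profile R Rmin α) (h : IsFlowU 8 T U₀ U φ) (hs : exp (-s) ≤ T)
    {z : ℝ} (hz : xx s z < 1) {k : ℕ} (hk : k ≤ 3) :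
    HasDerivAt (bdW T R φ s k) (bdW T R φ s (k + 1) z) z :=
  (hj_hasDerivAt h hs le_rfl hz hk).sub
    (hasDerivAt_iter (n := 4) (by exact_mod_cast hR.smooth) (by omega) z)

theorem bd_open (s a : ℝ) : IsOpen {z | xx s z < a} := by
  have : Continuous fun z => xx s z := by unfold xx; fun_prop
  exact isOpen_lt this continuous_const

theorem bdW_iter (hR : Profile R Rmin α) (h : IsFlowU 8 T U₀ U φ) (hs : exp (-s) ≤ T) {k : ℕ}
    (hk : k ≤ 4) : ∀ z, xx s z < 1 → iteratedDeriv k (WW R φ T s) z = bdW T R φ s k z := by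
  induction k with
  | zero => intro z _; rfl
  | succ k ih =>
    intro z hz
    rw [iteratedDeriv_succ]
    have e : iteratedDeriv k (WW R φ T s) =ᶠ[𝓝 z] bdW T R φ s k := by
      filter_upwards [(bd_open s 1).mem_nhds hz] with y hy using ih (by omega) y hy
    rw [e.deriv_eq]
    exact (bdW_hasDerivAt hR h hs hz (by omega)).deriv

theorem bdG_iter (hR : Profile R Rmin α) (h : IsFlowU 8 T U₀ U φ) (hχ : Cutoff χ X)
    (hs : exp (-s) ≤ T) {k : ℕ} (hk : k ≤ 4) {z : ℝ} (hz : xx s z < X / 2) :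
    iteratedDeriv k (GG χ R φ T s) z = bdW T R φ s k z := by
  have e : GG χ R φ T s =ᶠ[𝓝 z] WW R φ T s := by
    filter_upwards [(bd_open s (X / 2)).mem_nhds hz] with y hy
    rw [GG, hχ.one _ (le_of_lt hy), one_mul]
  rw [e.iteratedDeriv_eq]
  have := hχ.X_lt
  have := hχ.X_pos
  exact bdW_iter hR h hs hk z (by linarith)

/-- `om w` and its derivatives. -/
noncomputable def bdO (T : ℝ) (R : ℝ → ℝ) (φ : ℝ → ℝ → ℝ) (s : ℝ) (k : ℕ) (z : ℝ) : ℝ :=
  bdW T R φ s (k + 2) z - 3 * bdW T R φ s (k + 1) z + 2 * bdW T R φ s k z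

theorem bdO_hasDerivAt (hR : Profile R Rmin α) (h : IsFlowU 8 T U₀ U φ) (hs : exp (-s) ≤ T)
    {z : ℝ} (hz : xx s z < 1) {k : ℕ} (hk : k ≤ 1) :
    HasDerivAt (bdO T R φ s k) (bdO T R φ s (k + 1) z) z :=
  ((bdW_hasDerivAt hR h hs hz (by omega)).sub
    ((bdW_hasDerivAt hR h hs hz (by omega)).const_mul 3)).add
    ((bdW_hasDerivAt hR h hs hz (by omega)).const_mul 2)

theorem bdO_om (hR : Profile R Rmin α) (h : IsFlowU 8 T U₀ U φ) (hχ : Cutoff χ X)
    (hs : exp (-s) ≤ T) {z : ℝ} (hz : xx s z < X / 2) :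
    om (GG χ R φ T s) z = bdO T R φ s 0 z := by
  have h0 : GG χ R φ T s z = bdW T R φ s 0 z := by
    have := bdG_iter hR h hχ hs (k := 0) (by norm_num) hz
    simpa using this
  unfold om bdO
  rw [bdG_iter hR h hχ hs (k := 2) (by norm_num) hz,
    bdG_iter hR h hχ hs (k := 1) (by norm_num) hz, h0]

theorem bdO_iter (hR : Profile R Rmin α) (h : IsFlowU 8 T U₀ U φ) (hχ : Cutoff χ X)
    (hs : exp (-s) ≤ T) {k : ℕ} (hk : k ≤ 2) : ∀ z, xx s z < X / 2 →
    iteratedDeriv k (om (GG χ R φ T s)) z = bdO T R φ s k z := by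
  have h1 := hχ.X_lt
  have h2 := hχ.X_pos
  induction k with
  | zero => intro z hz; exact bdO_om hR h hχ hs hz
  | succ k ih =>
    intro z hz
    rw [iteratedDeriv_succ]
    have e : iteratedDeriv k (om (GG χ R φ T s)) =ᶠ[𝓝 z] bdO T R φ s k := by
      filter_upwards [(bd_open s (X / 2)).mem_nhds hz] with y hy using ih (by omega) y hy
    rw [e.deriv_eq]
    exact (bdO_hasDerivAt hR h hs (by linarith only [h1, hz]) (by omega)).deriv

/-! ### the time derivative -/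

/-- `K k = ∂_t ∂_x^k φ`. -/
noncomputable def bdK (T : ℝ) (φ : ℝ → ℝ → ℝ) (k : ℕ) (p : ℝ × ℝ) : ℝ :=
  pdt (bx T) (dx T k (fun p : ℝ × ℝ => φ p.1 p.2)) p

/-- `φ_t / x = - h² x U_xxt`. -/
theorem bdK_zero (h : IsFlowU 8 T U₀ U φ) (hs : exp (-s) ≤ T) {z : ℝ} (hz : xx s z < 1) :
    exp (-s) * bdK T φ 0 (tt T s, xx s z) / xx s z = -exp (-2 * z) * HH φ T s z ^ 2 *
      (hj T φ s 4 z + 12 * hj T φ s 3 z + 13 * hj T φ s 2 z - 138 * hj T φ s 1 z
        + 112 * (hj T φ s 0 z - 1)) := by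
  have hT := T_pos hs
  have ht := tt_mem hs le_rfl
  have hx := xx_pos s z
  set x := xx s z with hxdef
  set t := tt T s with htdef
  have hxI : x ∈ Icc (0 : ℝ) 1 := ⟨hx.le, hz.le⟩
  have hx1 : (0 : ℝ) < 1 - x := by linarith only [hz]
  -- `φ (x(1-x) U'' + 1) = x (1-x)` for all times
  have d1 : HasDerivWithinAt (fun τ => φ τ x) (bdK T φ 0 (t, x)) (Icc 0 T) t := by
    have := P264.Cal.hasDerivWithinAt_pdt h.sφ ht hxI
    simpa only [bdK, Icc_prod_Icc, dx_zero] using this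
  have d2 : HasDerivWithinAt (fun τ => dx T 2 (fun p : ℝ × ℝ => U p.1 p.2) (τ, x))
      (pdt (bx T) (dx T 2 (fun p : ℝ × ℝ => U p.1 p.2)) (t, x)) (Icc 0 T) t :=
    P264.Cal.hasDerivWithinAt_pdt (smooth_dx hT h.sU 2) ht hxI
  have d3 := d1.fun_mul ((d2.const_mul (x * (1 - x))).add_const 1)
  have d4 : HasDerivWithinAt (fun τ => φ τ x * (x * (1 - x) *
      dx T 2 (fun p : ℝ × ℝ => U p.1 p.2) (τ, x) + 1)) 0 (Icc 0 T) t := by
    have : HasDerivWithinAt (fun _ : ℝ => x * (1 - x)) 0 (Icc 0 T) t :=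
      hasDerivWithinAt_const _ _ _
    exact this.congr (fun τ hτ => h.rel_box hT hτ hxI) (h.rel_box hT ht hxI)
  have e0 := (uniqueDiffOn_Icc hT t ht).eq_deriv _ d3 d4
  have hrel := h.rel_box hT ht hxI
  have hφ : 0 < φ t x := (h.profile t ht).pos x ⟨hx, hz⟩
  have hU := Utxx h hs le_rfl hz
  have hes := exp_neg_s s z
  rw [← htdef, ← hxdef] at hU
  rw [← hxdef] at hes
  rw [← hU]
  have hH : HH φ T s z = φ t x / x := rfl
  rw [hH, hes]
  set K := bdK T φ 0 (t, x)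
  set V := dx T 2 (fun p : ℝ × ℝ => U p.1 p.2) (t, x)
  set Vt := pdt (bx T) (dx T 2 (fun p : ℝ × ℝ => U p.1 p.2)) (t, x)
  -- `K = - φ² Vt`
  have hK : K = -(φ t x) ^ 2 * Vt := by
    have h3 : x * (1 - x) * K = x * (1 - x) * (-(φ t x) ^ 2 * Vt) := by
      have h4 : K * (x * (1 - x) * V + 1) = -(φ t x * (x * (1 - x) * Vt)) := by linarith only [e0]
      calc x * (1 - x) * K = (φ t x * (x * (1 - x) * V + 1)) * K := by rw [hrel]
        _ = φ t x * (K * (x * (1 - x) * V + 1)) := by ring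
        _ = _ := by rw [h4]; ring
    exact mul_left_cancel₀ (mul_pos hx hx1).ne' h3
  rw [hK]
  (clear * - hφ hx; field_simp)

theorem bd_xx (c s u : ℝ) : xx s (c + s / 2 + u) = exp (c + u) := by
  unfold xx
  congr 1
  ring

theorem bd_exp_lt (hχ : Cutoff χ X) (hc : exp (c + 1) ≤ X / 2) {u : ℝ} (hu : u ≤ 1) :
    exp (c + u) < 1 := by
  have h1 : exp (c + u) ≤ exp (c + 1) := exp_le_exp.2 (by linarith only [hu])
  have := hχ.X_lt
  have := hχ.X_pos
  linarith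

/-- `(D-1)(D-2) (φ/x)` as a function on the box. -/
noncomputable def bdA (T : ℝ) (φ : ℝ → ℝ → ℝ) (p : ℝ × ℝ) : ℝ :=
  p.2 * dx T 2 (fun p : ℝ × ℝ => φ p.1 p.2) p - 4 * dx T 1 (fun p : ℝ × ℝ => φ p.1 p.2) p
    + 6 * (dx T 0 (fun p : ℝ × ℝ => φ p.1 p.2) p / p.2)

/-- `(D-1)(D-2) (φ_t/x)` as a function on the box. -/
noncomputable def bdB (T : ℝ) (φ : ℝ → ℝ → ℝ) (p : ℝ × ℝ) : ℝ :=
  p.2 * bdK T φ 2 p - 4 * bdK T φ 1 p + 6 * (bdK T φ 0 p / p.2)

theorem bdO_eq (c r u : ℝ) : bdO T R φ r 0 (c + r / 2 + u)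
    = bdA T φ (tt T r, exp (c + u)) - om R (c + r / 2 + u) := by
  simp only [bdO, bdW, zero_add, hj_e2, bd_xx, hj_e1, hj_e0, iteratedDeriv_zero, bdA, om]
  ring

/-- `∂_s` of `om w` at fixed `x`. -/
noncomputable def bdS (T : ℝ) (R : ℝ → ℝ) (φ : ℝ → ℝ → ℝ) (c r u : ℝ) : ℝ :=
  exp (-r) * bdB T φ (tt T r, exp (c + u)) - 1 / 2 * iteratedDeriv 1 (om R) (c + r / 2 + u)

theorem bdJ_deriv (hT : 0 < T) (h : IsFlowU 8 T U₀ U φ) (hs : exp (-s) ≤ T) {r x : ℝ}
    (hr : s ≤ r) (hx : x ∈ Icc (0 : ℝ) 1) (k : ℕ) :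
    HasDerivWithinAt (fun r => dx T k (fun p : ℝ × ℝ => φ p.1 p.2) (tt T r, x))
      (exp (-r) * bdK T φ k (tt T r, x)) (Ici s) r := by
  have h1 := P264.Cal.hasDerivWithinAt_pdt (smooth_dx hT h.sφ k) (tt_mem hs hr) hx
  have h2 := (hasDerivAt_tt T r).hasDerivWithinAt (s := Ici s)
  have h3 := h1.comp r h2 (fun r' hr' => tt_mem hs hr')
  refine h3.congr_deriv ?_
  unfold bdK
  ring

theorem bdA_deriv (hT : 0 < T) (h : IsFlowU 8 T U₀ U φ) (hs : exp (-s) ≤ T) {r x : ℝ}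
    (hr : s ≤ r) (hx : x ∈ Ioo (0 : ℝ) 1) :
    HasDerivWithinAt (fun r => bdA T φ (tt T r, x)) (exp (-r) * bdB T φ (tt T r, x)) (Ici s) r := by
  have hx' := Ioo_subset_Icc_self hx
  have h0 := bdJ_deriv hT h hs hr hx' 0
  have h1 := bdJ_deriv hT h hs hr hx' 1
  have h2 := bdJ_deriv hT h hs hr hx' 2
  refine (((h2.const_mul x).sub (h1.const_mul 4)).add ((h0.div_const x).const_mul 6)).congr_deriv ?_
  unfold bdB
  ring

theorem bd_omR (hR : Profile R Rmin α) (z : ℝ) :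
    HasDerivAt (om R) (iteratedDeriv 1 (om R) z) z := by
  have h1 := om_contDiff hR.smooth
  rw [iteratedDeriv_one]
  exact (h1.differentiable (by norm_num) z).hasDerivAt

theorem bdF_deriv (hR : Profile R Rmin α) (hT : 0 < T) (h : IsFlowU 8 T U₀ U φ)
    (hs : exp (-s) ≤ T) {r u : ℝ} (hr : s ≤ r) (hu : exp (c + u) < 1) :
    HasDerivWithinAt (fun r => bdO T R φ r 0 (c + r / 2 + u)) (bdS T R φ c r u) (Ici s) r := by
  have h1 := bdA_deriv hT h hs hr ⟨exp_pos (c + u), hu⟩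
  have h2 : HasDerivAt (fun r : ℝ => c + r / 2 + u) (1 / 2) r :=
    (((hasDerivAt_id r).div_const 2).const_add c).add_const u
  have h3 := ((bd_omR hR (c + r / 2 + u)).comp r h2).hasDerivWithinAt (s := Ici s)
  have h4 := h1.sub h3
  have e : (fun r => bdO T R φ r 0 (c + r / 2 + u))
      = fun r => bdA T φ (tt T r, exp (c + u)) - om R (c + r / 2 + u) :=
    funext fun r => bdO_eq c r u
  rw [e]
  refine h4.congr_deriv ?_
  unfold bdS
  ring

/-! ### continuity -/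

theorem bd_frame {f : ℝ × ℝ → ℝ} (hf : ContinuousOn f (bx T)) (hs : exp (-s) ≤ T)
    (hχ : Cutoff χ X) (hc : exp (c + 1) ≤ X / 2) {S : Set ℝ} (hS : S ⊆ Ici s) :
    ContinuousOn (fun q : ℝ × ℝ => f (tt T q.1, exp (c + q.2))) (S ×ˢ Icc (-1) 1) := by
  have hcont : Continuous fun q : ℝ × ℝ => ((tt T q.1, exp (c + q.2)) : ℝ × ℝ) := by
    unfold tt
    fun_prop
  refine hf.comp hcont.continuousOn ?_
  rintro ⟨r, u⟩ ⟨hr, hu⟩
  exact ⟨tt_mem hs (hS hr), (exp_pos _).le, (bd_exp_lt hχ hc hu.2).le⟩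

theorem bdK_smooth (hT : 0 < T) (h : IsFlowU 8 T U₀ U φ) (k : ℕ) :
    ContDiffOn ℝ ∞ (bdK T φ k) (bx T) := smooth_pdt hT (smooth_dx hT h.sφ k)

theorem bdO_cont (hR : Profile R Rmin α) (hT : 0 < T) (h : IsFlowU 8 T U₀ U φ)
    (hs : exp (-s) ≤ T) (hχ : Cutoff χ X) (hc : exp (c + 1) ≤ X / 2) {S : Set ℝ}
    (hS : S ⊆ Ici s) :
    ContinuousOn (fun q : ℝ × ℝ => bdO T R φ q.1 0 (c + q.1 / 2 + q.2)) (S ×ˢ Icc (-1) 1) := by
  have c0 := bd_frame (smooth_dx hT h.sφ 0).continuousOn hs hχ hc hS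
  have c1 := bd_frame (smooth_dx hT h.sφ 1).continuousOn hs hχ hc hS
  have c2 := bd_frame (smooth_dx hT h.sφ 2).continuousOn hs hχ hc hS
  have cx : Continuous fun q : ℝ × ℝ => exp (c + q.2) := by fun_prop
  have co : Continuous fun q : ℝ × ℝ => om R (c + q.1 / 2 + q.2) :=
    (om_contDiff hR.smooth).continuous.comp (by fun_prop)
  have e : (fun q : ℝ × ℝ => bdO T R φ q.1 0 (c + q.1 / 2 + q.2)) = fun q : ℝ × ℝ =>
      exp (c + q.2) * dx T 2 (fun p : ℝ × ℝ => φ p.1 p.2) (tt T q.1, exp (c + q.2))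
        - 4 * dx T 1 (fun p : ℝ × ℝ => φ p.1 p.2) (tt T q.1, exp (c + q.2))
        + 6 * (dx T 0 (fun p : ℝ × ℝ => φ p.1 p.2) (tt T q.1, exp (c + q.2)) / exp (c + q.2))
        - om R (c + q.1 / 2 + q.2) := by
    funext q
    rw [bdO_eq]
    rfl
  rw [e]
  exact (((cx.continuousOn.mul c2).sub (continuousOn_const.mul c1)).add
    (continuousOn_const.mul (c0.div cx.continuousOn fun q _ => (exp_pos _).ne'))).sub
    co.continuousOn

theorem bdS_cont (hR : Profile R Rmin α) (hT : 0 < T) (h : IsFlowU 8 T U₀ U φ)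
    (hs : exp (-s) ≤ T) (hχ : Cutoff χ X) (hc : exp (c + 1) ≤ X / 2) {S : Set ℝ}
    (hS : S ⊆ Ici s) :
    ContinuousOn (fun q : ℝ × ℝ => bdS T R φ c q.1 q.2) (S ×ˢ Icc (-1) 1) := by
  have c0 := bd_frame (bdK_smooth hT h 0).continuousOn hs hχ hc hS
  have c1 := bd_frame (bdK_smooth hT h 1).continuousOn hs hχ hc hS
  have c2 := bd_frame (bdK_smooth hT h 2).continuousOn hs hχ hc hS
  have cx : Continuous fun q : ℝ × ℝ => exp (c + q.2) := by fun_prop
  have ce : Continuous fun q : ℝ × ℝ => exp (-q.1) := by fun_prop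
  have co : Continuous fun q : ℝ × ℝ => iteratedDeriv 1 (om R) (c + q.1 / 2 + q.2) :=
    ((om_contDiff hR.smooth).continuous_iteratedDeriv 1 (by norm_num)).comp (by fun_prop)
  exact (ce.continuousOn.mul (((cx.continuousOn.mul c2).sub (continuousOn_const.mul c1)).add
    (continuousOn_const.mul (c0.div cx.continuousOn fun q _ => (exp_pos _).ne')))).sub
    (continuousOn_const.mul co.continuousOn)

/-! ### the derivative as an integral -/

theorem blockE_eq (hR : Profile R Rmin α) (h : IsFlowU 8 T U₀ U φ) (hs : exp (-s) ≤ T)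
    (hχ : Cutoff χ X) (hc : exp (c + 1) ≤ X / 2) {r : ℝ} (hr : s ≤ r) :
    blockE χ R φ T c r = ∫ u in (-1 : ℝ)..1, (1 - u ^ 2) ^ 4
      * bdO T R φ r 0 (c + r / 2 + u) ^ 2 := by
  have hr' : exp (-r) ≤ T := le_trans (exp_le_exp.2 (by linarith only [hr])) hs
  unfold blockE
  apply intervalIntegral.integral_congr_ae
  have hne : ∀ᵐ u : ℝ, u ≠ 1 := by
    have : ({1} : Set ℝ)ᶜ ∈ ae volume := compl_mem_ae_iff.2 (measure_singleton 1)
    filter_upwards [this] with u hu using hu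
  filter_upwards [hne] with u hu hu2
  rw [uIoc_of_le (by norm_num)] at hu2
  have hlt : u < 1 := lt_of_le_of_ne hu2.2 hu
  rw [bdO_om hR h hχ hr']
  rw [bd_xx]
  exact lt_of_lt_of_le (exp_lt_exp.2 (by linarith only [hlt])) hc

theorem blockE_deriv_raw (hR : Profile R Rmin α) (h : IsFlowU 8 T U₀ U φ) (hχ : Cutoff χ X)
    (hs : exp (-s) ≤ T) (hc : exp (c + 1) ≤ X / 2) :
    HasDerivWithinAt (fun s' => blockE χ R φ T c s') (∫ u in (-1 : ℝ)..1,
      (1 - u ^ 2) ^ 4 * (2 * bdO T R φ s 0 (c + s / 2 + u) * bdS T R φ c s u)) (Ici s) s := by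
  have hT := T_pos hs
  set S : Set ℝ := Icc s (s + 1) with hSdef
  have hS : S ⊆ Ici s := fun x hx => hx.1
  have hsS : s ∈ S := ⟨le_rfl, by linarith only []⟩
  have cO := bdO_cont hR hT h hs hχ hc hS
  have cS := bdS_cont hR hT h hs hχ hc hS
  have cz : Continuous fun q : ℝ × ℝ => (1 - q.2 ^ 2) ^ 4 := by fun_prop
  have c1 : ContinuousOn (fun q : ℝ × ℝ => (1 - q.2 ^ 2) ^ 4 * (2 * bdO T R φ q.1 0
      (c + q.1 / 2 + q.2) * bdS T R φ c q.1 q.2)) (S ×ˢ Icc (-1) 1) :=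
    cz.continuousOn.mul ((continuousOn_const.mul cO).mul cS)
  have key := P264.Cal.hasFDerivWithinAt_integral (F := ℝ) (S := S) isCompact_Icc
    (convex_Icc _ _)
    (f := fun r u => (1 - u ^ 2) ^ 4 * bdO T R φ r 0 (c + r / 2 + u) ^ 2)
    (f' := fun r u => ContinuousLinearMap.toSpanSingleton ℝ
      ((1 - u ^ 2) ^ 4 * (2 * bdO T R φ r 0 (c + r / 2 + u) * bdS T R φ c r u)))
    (a := -1) (b := 1) (by norm_num) ?_ ?_ ?_ hsS
  · have h2 := key.hasDerivWithinAt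
    have e : (∫ u in (-1 : ℝ)..1, ContinuousLinearMap.toSpanSingleton ℝ
        ((1 - u ^ 2) ^ 4 * (2 * bdO T R φ s 0 (c + s / 2 + u) * bdS T R φ c s u))) (1 : ℝ)
        = ∫ u in (-1 : ℝ)..1,
          (1 - u ^ 2) ^ 4 * (2 * bdO T R φ s 0 (c + s / 2 + u) * bdS T R φ c s u) := by
      rw [ContinuousLinearMap.intervalIntegral_apply]
      · simp only [ContinuousLinearMap.toSpanSingleton_apply, smul_eq_mul, one_mul]
      · apply ContinuousOn.intervalIntegrable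
        rw [uIcc_of_le (by norm_num)]
        have c2 := c1.comp (f := fun u : ℝ => ((s, u) : ℝ × ℝ)) (s := Icc (-1) 1)
          (by fun_prop) (fun u hu => ⟨hsS, hu⟩)
        exact (ContinuousLinearMap.toSpanSingletonCLE (𝕜 := ℝ) (E := ℝ)).continuous.comp_continuousOn
          c2
    rw [e] at h2
    have hmem : S ∈ 𝓝[Ici s] s := by
      have : Icc s (s + 1) = Ici s ∩ Iic (s + 1) := Ici_inter_Iic.symm
      rw [hSdef, this]
      exact inter_mem self_mem_nhdsWithin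
        (mem_nhdsWithin_of_mem_nhds (Iic_mem_nhds (by linarith only [])))
    have h3 := h2.mono_of_mem_nhdsWithin hmem
    exact h3.congr (fun r hr => blockE_eq hR h hs hχ hc hr) (blockE_eq hR h hs hχ hc le_rfl)
  · exact cz.continuousOn.mul (cO.pow 2)
  · exact (ContinuousLinearMap.toSpanSingletonCLE (𝕜 := ℝ) (E := ℝ)).continuous.comp_continuousOn
      c1
  · intro r hr u hu
    have d1 := (bdF_deriv (c := c) hR hT h hs (hS hr) (bd_exp_lt hχ hc hu.2)).mono hS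
    have d2 := (d1.fun_pow 2).const_mul ((1 - u ^ 2) ^ 4)
    refine (d2.congr_deriv ?_).hasFDerivWithinAt
    push_cast
    ring

/-! ### integration by parts -/

theorem bd_zeta (u : ℝ) : HasDerivAt (fun u : ℝ => (1 - u ^ 2) ^ 4) (-8 * u * (1 - u ^ 2) ^ 3) u := by
  have h1 : HasDerivAt (fun u : ℝ => 1 - u ^ 2) (-(2 * u)) u := by
    simpa only [Nat.cast_ofNat, Nat.add_one_sub_one, pow_one] using (hasDerivAt_pow 2 u).const_sub 1
  refine (h1.fun_pow 4).congr_deriv ?_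
  push_cast
  ring

theorem bd_zeta' (u : ℝ) : HasDerivAt (fun u : ℝ => -8 * u * (1 - u ^ 2) ^ 3)
    (-8 * (1 - u ^ 2) ^ 3 + 48 * u ^ 2 * (1 - u ^ 2) ^ 2) u := by
  have h1 : HasDerivAt (fun u : ℝ => 1 - u ^ 2) (-(2 * u)) u := by
    simpa only [Nat.cast_ofNat, Nat.add_one_sub_one, pow_one] using (hasDerivAt_pow 2 u).const_sub 1
  have h2 : HasDerivAt (fun u : ℝ => -8 * u) (-8) u := by
    simpa using (hasDerivAt_id u).const_mul (-8 : ℝ)
  refine (h2.fun_mul (h1.fun_pow 3)).congr_deriv ?_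
  push_cast
  ring

theorem bd_parts {P g : ℕ → ℝ → ℝ}
    (hP : ∀ k ≤ 1, ∀ u ∈ Icc (-1 : ℝ) 1, HasDerivAt (P k) (P (k + 1) u) u)
    (hg : ∀ k ≤ 1, ∀ u ∈ Icc (-1 : ℝ) 1, HasDerivAt (g k) (g (k + 1) u) u)
    (cP : ContinuousOn (P 2) (Icc (-1) 1)) (cg : ContinuousOn (g 2) (Icc (-1) 1)) :
    ∫ u in (-1 : ℝ)..1, (1 - u ^ 2) ^ 4 * (P 0 u * (g 2 u - 3 * g 1 u + 2 * g 0 u))
      = ∫ u in (-1 : ℝ)..1, tauB (P 2 u) (P 1 u) (P 0 u) u * g 0 u := by
  have c0 : ContinuousOn (P 0) (Icc (-1) 1) := fun u hu =>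
    (hP 0 (by norm_num) u hu).continuousAt.continuousWithinAt
  have c1 : ContinuousOn (P 1) (Icc (-1) 1) := fun u hu =>
    (hP 1 (by norm_num) u hu).continuousAt.continuousWithinAt
  have d0 : ContinuousOn (g 0) (Icc (-1) 1) := fun u hu =>
    (hg 0 (by norm_num) u hu).continuousAt.continuousWithinAt
  have d1 : ContinuousOn (g 1) (Icc (-1) 1) := fun u hu =>
    (hg 1 (by norm_num) u hu).continuousAt.continuousWithinAt
  have hder : ∀ u ∈ Icc (-1 : ℝ) 1, HasDerivAt (fun u => (1 - u ^ 2) ^ 4 * P 0 u * g 1 u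
      - (-8 * u * (1 - u ^ 2) ^ 3 * P 0 u + (1 - u ^ 2) ^ 4 * P 1 u) * g 0 u
      - 3 * ((1 - u ^ 2) ^ 4 * P 0 u * g 0 u))
      ((1 - u ^ 2) ^ 4 * (P 0 u * (g 2 u - 3 * g 1 u + 2 * g 0 u))
        - tauB (P 2 u) (P 1 u) (P 0 u) u * g 0 u) u := by
    intro u hu
    have z0 := bd_zeta u
    have z1 := bd_zeta' u
    have p0 := hP 0 (by norm_num) u hu
    have p1 := hP 1 (by norm_num) u hu
    have g0 := hg 0 (by norm_num) u hu
    have g1 := hg 1 (by norm_num) u hu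
    refine ((((z0.fun_mul p0).fun_mul g1).fun_sub
      (((z1.fun_mul p0).fun_add (z0.fun_mul p1)).fun_mul g0)).fun_sub
      (((z0.fun_mul p0).fun_mul g0).const_mul 3)).congr_deriv ?_
    unfold tauB
    ring
  have cz : Continuous fun u : ℝ => (1 - u ^ 2) ^ 4 := by (clear * -; fun_prop)
  have i1 : IntervalIntegrable (fun u : ℝ => (1 - u ^ 2) ^ 4 * (P 0 u *
      (g 2 u - 3 * g 1 u + 2 * g 0 u))) volume (-1) 1 := by
    apply ContinuousOn.intervalIntegrable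
    rw [uIcc_of_le (by norm_num)]
    exact cz.continuousOn.mul (c0.mul ((cg.sub (continuousOn_const.mul d1)).add
      (continuousOn_const.mul d0)))
  have i2 : IntervalIntegrable (fun u : ℝ => tauB (P 2 u) (P 1 u) (P 0 u) u * g 0 u)
      volume (-1) 1 := by
    apply ContinuousOn.intervalIntegrable
    rw [uIcc_of_le (by norm_num)]
    unfold tauB
    have k1 : Continuous fun u : ℝ => 3 * (1 - u ^ 2) ^ 4 - 16 * u * (1 - u ^ 2) ^ 3 := by fun_prop
    have k2 : Continuous fun u : ℝ => 2 * (1 - u ^ 2) ^ 4 - 24 * u * (1 - u ^ 2) ^ 3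
      - 8 * (1 - u ^ 2) ^ 3 + 48 * u ^ 2 * (1 - u ^ 2) ^ 2 := by fun_prop
    exact (((cz.continuousOn.mul cP).add (k1.continuousOn.mul c1)).add
      (k2.continuousOn.mul c0)).mul d0
  have key := intervalIntegral.integral_eq_sub_of_hasDerivAt (a := (-1 : ℝ)) (b := 1)
    (fun u hu => hder u (by rwa [uIcc_of_le (by norm_num)] at hu)) (i1.sub i2)
  rw [intervalIntegral.integral_sub i1 i2] at key
  norm_num at key
  linarith

/-! ### the function `g = gdot` -/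

/-- jets of `∂_s w` at fixed `x` as a function of `u`. -/
noncomputable def bdG (T : ℝ) (R : ℝ → ℝ) (φ : ℝ → ℝ → ℝ) (c s : ℝ) (k : ℕ) (u : ℝ) : ℝ :=
  let K := fun k => bdK T φ k (tt T s, exp (c + u))
  match k with
  | 0 => exp (-s) * (K 0 / exp (c + u)) - 1 / 2 * iteratedDeriv 1 R (c + s / 2 + u)
  | 1 => exp (-s) * (K 1 - K 0 / exp (c + u)) - 1 / 2 * iteratedDeriv 2 R (c + s / 2 + u)
  | _ => exp (-s) * (exp (c + u) * K 2 - K 1 + K 0 / exp (c + u))
      - 1 / 2 * iteratedDeriv 3 R (c + s / 2 + u)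

theorem bdK_deriv (hT : 0 < T) (h : IsFlowU 8 T U₀ U φ) {t : ℝ} (ht : t ∈ Icc 0 T) (k : ℕ)
    {u : ℝ} (hu : exp (c + u) < 1) :
    HasDerivAt (fun u => bdK T φ k (t, exp (c + u)))
      (bdK T φ (k + 1) (t, exp (c + u)) * exp (c + u)) u := by
  have hx : exp (c + u) ∈ Ioo (0 : ℝ) 1 := ⟨exp_pos _, hu⟩
  have h1 := P264.Cal.hasDerivAt_pdx (bdK_smooth hT h k) ht hx
  have h2 : HasDerivAt (fun u => exp (c + u)) (exp (c + u)) u := by
    simpa using ((hasDerivAt_id u).const_add c).exp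
  have h3 := h1.comp u h2
  refine h3.congr_deriv ?_
  congr 1
  have h4 := P264.Cal.pdx_pdt_comm hT zero_lt_one (smooth_dx hT h.sφ k)
    (p := (t, exp (c + u))) ⟨ht, Ioo_subset_Icc_self hx⟩
  unfold bdK
  rw [dx_succ]
  exact h4

theorem bdG_deriv (hR : Profile R Rmin α) (h : IsFlowU 8 T U₀ U φ) (hs : exp (-s) ≤ T)
    {u : ℝ} (hu : exp (c + u) < 1) {k : ℕ} (hk : k ≤ 1) :
    HasDerivAt (bdG T R φ c s k) (bdG T R φ c s (k + 1) u) u := by
  have hT := T_pos hs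
  have ht := tt_mem hs le_rfl
  have hx := exp_pos (c + u)
  have hK := fun k => bdK_deriv hT h ht k hu
  have hX : HasDerivAt (fun u => exp (c + u)) (exp (c + u)) u := by
    simpa using ((hasDerivAt_id u).const_add c).exp
  have hz : HasDerivAt (fun u : ℝ => c + s / 2 + u) 1 u := (hasDerivAt_id u).const_add _
  have hRd : ∀ j ≤ 3, HasDerivAt (fun u => iteratedDeriv j R (c + s / 2 + u))
      (iteratedDeriv (j + 1) R (c + s / 2 + u)) u := by
    intro j hj
    have h1 := (hasDerivAt_iter (n := 4) (by exact_mod_cast hR.smooth) (by omega : j + 1 ≤ 4)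
      (c + s / 2 + u)).comp u hz
    rw [mul_one] at h1
    exact h1
  have h0 := (hK 0).fun_div hX hx.ne'
  interval_cases k
  · refine ((h0.const_mul (exp (-s))).sub ((hRd 1 (by norm_num)).const_mul (1 / 2))).congr_deriv ?_
    simp only [bdG]
    (clear * -; field_simp)
  · refine ((((hK 1).sub h0).const_mul (exp (-s))).sub
      ((hRd 2 (by norm_num)).const_mul (1 / 2))).congr_deriv ?_
    simp only [bdG]
    field_simp
    ring

theorem bdS_eq (hR : Profile R Rmin α) (c s u : ℝ) :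
    bdS T R φ c s u = bdG T R φ c s 2 u - 3 * bdG T R φ c s 1 u + 2 * bdG T R φ c s 0 u := by
  simp only [bdS, bdB, bdG]
  rw [om_iter1 hR.smooth]
  ring

theorem bdG_zero (hR : Profile R Rmin α) (h : IsFlowU 8 T U₀ U φ) (hs : exp (-s) ≤ T)
    (hχ : Cutoff χ X) {u : ℝ} (hu : exp (c + u) < X / 2) :
    bdG T R φ c s 0 u = gdot χ R φ T s (c + s / 2 + u) := by
  have h1 := hχ.X_lt
  have h2 := hχ.X_pos
  have hxz : xx s (c + s / 2 + u) = exp (c + u) := bd_xx c s u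
  have hz : xx s (c + s / 2 + u) < 1 := by rw [hxz]; linarith only [hu, h1]
  have hz2 : xx s (c + s / 2 + u) < X / 2 := by rw [hxz]; exact hu
  have hK := bdK_zero h hs hz
  rw [hxz] at hK
  have e0 : bdG T R φ c s 0 u = exp (-s) * bdK T φ 0 (tt T s, exp (c + u)) / exp (c + u)
      - 1 / 2 * iteratedDeriv 1 R (c + s / 2 + u) := by
    simp only [bdG]
    ring
  rw [e0, hK]
  set z := c + s / 2 + u with hzdef
  have hG : GG χ R φ T s z = bdW T R φ s 0 z := by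
    have := bdG_iter hR h hχ hs (k := 0) (by norm_num) hz2
    simpa using this
  have hpi : piD (GG χ R φ T s) z = bdW T R φ s 4 z + 12 * bdW T R φ s 3 z
      + 13 * bdW T R φ s 2 z - 138 * bdW T R φ s 1 z + 112 * bdW T R φ s 0 z := by
    unfold piD
    rw [bdG_iter hR h hχ hs (k := 4) (by norm_num) hz2,
      bdG_iter hR h hχ hs (k := 3) (by norm_num) hz2,
      bdG_iter hR h hχ hs (k := 2) (by norm_num) hz2,
      bdG_iter hR h hχ hs (k := 1) (by norm_num) hz2, hG]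
  have hkap : kap R z = iteratedDeriv 4 R z + 12 * iteratedDeriv 3 R z
      + 13 * iteratedDeriv 2 R z - 138 * iteratedDeriv 1 R z + 112 * (R z - 1) := by
    have hc4 : ContDiff ℝ 4 R := hR.smooth
    have e : ∀ k, 1 ≤ k → iteratedDeriv k (fun s => R s - 1) z = iteratedDeriv k R z := by
      intro k hk
      obtain ⟨j, rfl⟩ : ∃ j, k = j + 1 := ⟨k - 1, by omega⟩
      rw [iteratedDeriv_succ', iteratedDeriv_succ']
      congr 1
      funext y
      rw [deriv_sub_const]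
    unfold kap piD
    rw [e 4 (by norm_num), e 3 (by norm_num), e 2 (by norm_num), e 1 (by norm_num)]
  have hH : hj T φ s 0 z = HH φ T s z := rfl
  have hres : resid R z = -(1 / 2) * iteratedDeriv 1 R z - exp (-2 * z) * R z ^ 2 * kap R z := by
    unfold resid
    rw [iteratedDeriv_one]
  unfold gdot
  rw [hpi, hres]
  simp only [bdW, iteratedDeriv_zero, WW, hH]
  rw [hkap]
  ring

theorem bdhj_cont (h : IsFlowU 8 T U₀ U φ) (hs : exp (-s) ≤ T) {z : ℝ} (hz : xx s z < 1) {k : ℕ}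
    (hk : k ≤ 4) : ContinuousAt (hj T φ s k) z := by
  have hT := T_pos hs
  rcases Nat.lt_or_ge k 4 with h' | h'
  · exact (hj_hasDerivAt h hs le_rfl hz (by omega)).continuousAt
  · have h4 : k = 4 := by omega
    rw [h4]
    have hJ : ∀ k, ContinuousAt (fun z => dx T k (fun p : ℝ × ℝ => φ p.1 p.2)
        (tt T s, xx s z)) z := fun k =>
      (hasDerivAt_jet_z hT h.sφ k (tt_mem hs le_rfl) hz).continuousAt
    have hX : ContinuousAt (fun z => xx s z) z := (hasDerivAt_xx_z s z).continuousAt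
    have : hj T φ s 4 = fun z => xx s z ^ 3 * dx T 4 (fun p : ℝ × ℝ => φ p.1 p.2) (tt T s, xx s z)
        + 2 * xx s z ^ 2 * dx T 3 (fun p : ℝ × ℝ => φ p.1 p.2) (tt T s, xx s z)
        + xx s z * dx T 2 (fun p : ℝ × ℝ => φ p.1 p.2) (tt T s, xx s z)
        - dx T 1 (fun p : ℝ × ℝ => φ p.1 p.2) (tt T s, xx s z)
        + dx T 0 (fun p : ℝ × ℝ => φ p.1 p.2) (tt T s, xx s z) / xx s z := rfl
    rw [this]
    exact (((((hX.pow 3).mul (hJ 4)).add ((continuousAt_const.mul (hX.pow 2)).mul (hJ 3))).add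
      (hX.mul (hJ 2))).sub (hJ 1)).add ((hJ 0).div hX (xx_pos s z).ne')

/-- **(D3)** Derivative of the block energy. -/
theorem blockE_deriv (hR : Profile R Rmin α) (hφ : IsFlowU 8 T U₀ U φ) (hχ : Cutoff χ X)
    (hs : exp (-s) ≤ T) (hc : exp (c + 1) ≤ X / 2) :
    HasDerivWithinAt (fun s' => blockE χ R φ T c s') (blockD χ R φ T c s) (Ici s) s := by
  have hT := T_pos hs
  refine (blockE_deriv_raw hR hφ hχ hs hc).congr_deriv ?_
  have hxz : ∀ u : ℝ, xx s (c + s / 2 + u) = exp (c + u) := bd_xx c s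
  have hlt : ∀ u ∈ Icc (-1 : ℝ) 1, exp (c + u) < 1 := fun u hu => bd_exp_lt hχ hc hu.2
  have hz : ∀ u : ℝ, HasDerivAt (fun u : ℝ => c + s / 2 + u) 1 u := fun u =>
    (hasDerivAt_id u).const_add _
  have hcz : Continuous fun u : ℝ => c + s / 2 + u := by fun_prop
  have hbw : ∀ k ≤ 4, ContinuousOn (fun u => bdW T R φ s k (c + s / 2 + u)) (Icc (-1) 1) := by
    intro k hk u hu
    have hz1 : xx s (c + s / 2 + u) < 1 := by rw [hxz]; exact hlt u hu
    have h1 : ContinuousAt (bdW T R φ s k) (c + s / 2 + u) :=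
      (bdhj_cont hφ hs hz1 hk).sub
        (hR.smooth.continuous_iteratedDeriv k (by exact_mod_cast hk)).continuousAt
    exact (ContinuousAt.comp (f := fun u : ℝ => c + s / 2 + u) h1
      hcz.continuousAt).continuousWithinAt
  have hparts := bd_parts (P := fun k u => bdO T R φ s k (c + s / 2 + u))
    (g := bdG T R φ c s) ?_ (fun k hk u hu => bdG_deriv hR hφ hs (hlt u hu) hk) ?_ ?_
  · have e1 : (∫ u in (-1 : ℝ)..1,
        (1 - u ^ 2) ^ 4 * (2 * bdO T R φ s 0 (c + s / 2 + u) * bdS T R φ c s u))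
        = 2 * ∫ u in (-1 : ℝ)..1, (1 - u ^ 2) ^ 4 * (bdO T R φ s 0 (c + s / 2 + u) *
          (bdG T R φ c s 2 u - 3 * bdG T R φ c s 1 u + 2 * bdG T R φ c s 0 u)) := by
      rw [← intervalIntegral.integral_const_mul]
      apply intervalIntegral.integral_congr
      intro u _
      simp only
      rw [bdS_eq hR]
      ring
    rw [e1, hparts]
    unfold blockD
    congr 1
    apply intervalIntegral.integral_congr_ae
    have hne : ∀ᵐ u : ℝ, u ≠ 1 := by
      have : ({1} : Set ℝ)ᶜ ∈ ae volume := compl_mem_ae_iff.2 (measure_singleton 1)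
      filter_upwards [this] with u hu using hu
    filter_upwards [hne] with u hu hu2
    rw [uIoc_of_le (by norm_num)] at hu2
    have hlt1 : u < 1 := lt_of_le_of_ne hu2.2 hu
    have hx : exp (c + u) < X / 2 := lt_of_lt_of_le (exp_lt_exp.2 (by linarith only [hlt1])) hc
    have hx' : xx s (c + s / 2 + u) < X / 2 := by rw [hxz]; exact hx
    rw [bdG_zero hR hφ hs hχ hx, bdO_iter hR hφ hχ hs (k := 2) (by norm_num) _ hx',
      bdO_iter hR hφ hχ hs (k := 1) (by norm_num) _ hx', bdO_om hR hφ hχ hs hx']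
  · intro k hk u hu
    have hz1 : xx s (c + s / 2 + u) < 1 := by rw [hxz]; exact hlt u hu
    have h1 := (bdO_hasDerivAt hR hφ hs hz1 hk).comp u (hz u)
    rw [mul_one] at h1
    exact h1
  · have := ((hbw 4 (by norm_num)).sub (continuousOn_const.mul (hbw 3 (by norm_num)))).add
      (continuousOn_const.mul (hbw 2 (by norm_num))) (f := fun u => bdW T R φ s 4 (c + s / 2 + u)
        - 3 * bdW T R φ s 3 (c + s / 2 + u)) (g := fun u => 2 * bdW T R φ s 2 (c + s / 2 + u))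
    exact this
  · -- continuity of `g 2`
    have hS : ({s} : Set ℝ) ⊆ Ici s := by simp
    have k0 := bd_frame (bdK_smooth hT hφ 0).continuousOn hs hχ hc hS
    have k1 := bd_frame (bdK_smooth hT hφ 1).continuousOn hs hχ hc hS
    have k2 := bd_frame (bdK_smooth hT hφ 2).continuousOn hs hχ hc hS
    have hc' : ∀ {f : ℝ × ℝ → ℝ}, ContinuousOn f ({s} ×ˢ Icc (-1) 1) →
        ContinuousOn (fun u : ℝ => f (s, u)) (Icc (-1) 1) := fun {f} hf =>
      hf.comp (f := fun u : ℝ => ((s, u) : ℝ × ℝ)) (by fun_prop) (fun u hu => ⟨rfl, hu⟩)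
    have j0 := hc' k0
    have j1 := hc' k1
    have j2 := hc' k2
    have cx : Continuous fun u : ℝ => exp (c + u) := by fun_prop
    have cr : Continuous fun u : ℝ => iteratedDeriv 3 R (c + s / 2 + u) :=
      (hR.smooth.continuous_iteratedDeriv 3 (by norm_num)).comp hcz
    exact (continuousOn_const.mul (((cx.continuousOn.mul j2).sub j1).add
      (j0.div cx.continuousOn fun u _ => (exp_pos _).ne'))).sub
      (continuousOn_const.mul cr.continuousOn)

end

end P264.B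
end
end

section

section

/-!
# P264 / B / Far / ResidTime : integral in time of the residual term of one block (D7)
-/

open MeasureTheory Set Filter Real
open scoped ContDiff Topology

namespace P264.B

variable {R ρ χ : ℝ → ℝ} {Rmin α z₀ rf E₃ : ℝ}

theorem resid_continuous_of_profile (hR : Profile R Rmin α) : Continuous (resid R) := by
  have hc := hR.smooth
  have h1 : ContDiff ℝ 4 (fun s => R s - 1) := hc.sub contDiff_const
  have hk : Continuous (kap R) := by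
    unfold kap piD
    have e4 : Continuous (iteratedDeriv 4 (fun s => R s - 1)) :=
      h1.continuous_iteratedDeriv 4 (by norm_num)
    have e3 : Continuous (iteratedDeriv 3 (fun s => R s - 1)) :=
      h1.continuous_iteratedDeriv 3 (by norm_num)
    have e2 : Continuous (iteratedDeriv 2 (fun s => R s - 1)) :=
      h1.continuous_iteratedDeriv 2 (by norm_num)
    have e1 : Continuous (iteratedDeriv 1 (fun s => R s - 1)) :=
      h1.continuous_iteratedDeriv 1 (by norm_num)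
    have e0 : Continuous (fun s => R s - 1) := h1.continuous
    exact (((e4.add (continuous_const.mul e3)).add (continuous_const.mul e2)).sub
      (continuous_const.mul e1)).add (continuous_const.mul e0)
  have hd : Continuous (deriv R) := hc.continuous_deriv (by norm_num)
  have hRc : Continuous R := hc.continuous
  unfold resid
  (clear * - hd hRc hk; continuity)

/-- (D7) Integral in time of the residual term of one block. -/
theorem resid_time (hR : Profile R Rmin α) (hF : FarCert R ρ z₀ rf E₃) {c sa sb : ℝ}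
    (hab : sa ≤ sb) (hz : z₀ - 1 ≤ c + sa / 2) :
    ∫ s in sa..sb, exp (2 * (c + s / 2)) * (∫ u in (-1 : ℝ)..1, resid R (c + s / 2 + u) ^ 2)
      ≤ 30 * E₃ := by
  have hrc : Continuous (resid R) := resid_continuous_of_profile hR
  set G : ℝ → ℝ := fun v => exp (2 * v) * resid R v ^ 2 with hG
  have hGc : Continuous G := by
    rw [hG]; (clear * - hrc; fun_prop)
  have hG0 : ∀ v, 0 ≤ G v := fun v => by
    rw [hG]; (clear * -; positivity)
  have he2 : exp 2 ≤ 74 / 10 := by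
    have h := Real.exp_one_lt_d9
    have h2 : exp 2 = exp 1 * exp 1 := by rw [← Real.exp_add]; norm_num
    rw [h2]
    have hpos := Real.exp_pos 1
    nlinarith only [h, hpos]
  have hcont2 : Continuous (fun p : ℝ × ℝ => G (c + p.1 / 2 + p.2)) := by
    exact hGc.comp (by fun_prop)
  -- pointwise bound of the inner integral
  have hinner : ∀ s, exp (2 * (c + s / 2)) * (∫ u in (-1 : ℝ)..1, resid R (c + s / 2 + u) ^ 2)
      ≤ 74 / 10 * ∫ u in (-1 : ℝ)..1, G (c + s / 2 + u) := by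
    intro s
    rw [← intervalIntegral.integral_const_mul, ← intervalIntegral.integral_const_mul]
    refine intervalIntegral.integral_mono_on (by norm_num) ?_ ?_ ?_
    · apply Continuous.intervalIntegrable
      fun_prop
    · apply Continuous.intervalIntegrable
      have : Continuous (fun u : ℝ => G (c + s / 2 + u)) := hGc.comp (by fun_prop)
      exact continuous_const.mul this
    · intro u hu
      have h1 : exp (2 * (c + s / 2)) = exp (-2 * u) * exp (2 * (c + s / 2 + u)) := by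
        rw [← Real.exp_add]; congr 1; ring
      have h2 : exp (-2 * u) ≤ 74 / 10 := by
        refine le_trans (Real.exp_le_exp.mpr ?_) he2
        linarith only [hu.1]
      rw [h1, mul_assoc]
      exact mul_le_mul_of_nonneg_right h2 (hG0 _)
  have hint1 : Continuous (fun s => ∫ u in (-1 : ℝ)..1, G (c + s / 2 + u)) := by
    apply intervalIntegral.continuous_parametric_intervalIntegral_of_continuous'
    exact hcont2
  have hint2 : Continuous (fun s => ∫ u in (-1 : ℝ)..1, resid R (c + s / 2 + u) ^ 2) := by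
    apply intervalIntegral.continuous_parametric_intervalIntegral_of_continuous'
    have : Continuous (fun p : ℝ × ℝ => resid R (c + p.1 / 2 + p.2) ^ 2) := by fun_prop
    exact this
  have hstep1 : ∫ s in sa..sb, exp (2 * (c + s / 2)) *
        (∫ u in (-1 : ℝ)..1, resid R (c + s / 2 + u) ^ 2)
      ≤ ∫ s in sa..sb, 74 / 10 * ∫ u in (-1 : ℝ)..1, G (c + s / 2 + u) := by
    refine intervalIntegral.integral_mono_on hab ?_ ?_ fun s _ => hinner s
    · apply Continuous.intervalIntegrable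
      have : Continuous (fun s : ℝ => exp (2 * (c + s / 2))) := by fun_prop
      exact this.mul hint2
    · exact (continuous_const.mul hint1).intervalIntegrable _ _
  refine hstep1.trans ?_
  rw [intervalIntegral.integral_const_mul]
  have hswap : ∫ s in sa..sb, ∫ u in (-1 : ℝ)..1, G (c + s / 2 + u)
      = ∫ u in (-1 : ℝ)..1, ∫ s in sa..sb, G (c + s / 2 + u) := by
    apply intervalIntegral_intervalIntegral_swap
    have hc' : Continuous (Function.uncurry fun s u : ℝ => G (c + s / 2 + u)) := hcont2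
    have : IntegrableOn (Function.uncurry fun s u : ℝ => G (c + s / 2 + u))
        (uIcc sa sb ×ˢ uIcc (-1 : ℝ) 1) :=
      hc'.continuousOn.integrableOn_compact (isCompact_uIcc.prod isCompact_uIcc)
    exact this.mono_set (prod_mono uIoc_subset_uIcc uIoc_subset_uIcc)
  rw [hswap]
  have hE : ∀ u ∈ Icc (-1 : ℝ) 1, ∫ s in sa..sb, G (c + s / 2 + u) ≤ 2 * E₃ := by
    intro u hu
    have h1 : ∫ s in sa..sb, G (c + s / 2 + u) = ∫ s in sa..sb, G (s / 2 + (c + u)) := by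
      congr 1; ext s; congr 1; ring
    rw [h1, intervalIntegral.integral_comp_div_add (fun v => G v) two_ne_zero (c + u)]
    rw [smul_eq_mul]
    refine mul_le_mul_of_nonneg_left ?_ (by norm_num)
    have hle : sa / 2 + (c + u) ≤ sb / 2 + (c + u) := by linarith only [hab]
    rw [intervalIntegral.integral_of_le hle]
    refine le_trans ?_ hF.resid_le
    refine setIntegral_mono_set hF.resid_int ?_ ?_
    · exact Eventually.of_forall fun v => hG0 v
    · refine LE.le.eventuallyLE ?_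
      intro v hv
      have := hv.1
      have := hu.1
      simp only [mem_Ici]
      linarith
  have hstep2 : ∫ u in (-1 : ℝ)..1, ∫ s in sa..sb, G (c + s / 2 + u)
      ≤ ∫ _u in (-1 : ℝ)..1, 2 * E₃ := by
    refine intervalIntegral.integral_mono_on (by norm_num) ?_ ?_ hE
    · apply Continuous.intervalIntegrable
      apply intervalIntegral.continuous_parametric_intervalIntegral_of_continuous'
      have : Continuous (fun p : ℝ × ℝ => G (c + p.2 / 2 + p.1)) := hGc.comp (by fun_prop)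
      exact this
    · exact intervalIntegrable_const
  have hE0 := hF.E₃_nonneg
  have hc2 : ∫ _u in (-1 : ℝ)..1, 2 * E₃ = 4 * E₃ := by
    rw [intervalIntegral.integral_const]; simp only [smul_eq_mul]; ring
  rw [hc2] at hstep2
  linarith only [hE0, hstep2]

end P264.B
end
end

section

section

/-!
# P264 / B / Far / SmallOf : (D10) pointwise smallness from the three bounds
-/

open MeasureTheory Set Filter Real
open scoped ContDiff Topology

namespace P264.B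

variable {R ρ χ : ℝ → ℝ} {Rmin α z₀ rf E₃ : ℝ}

/-- (D10), core: the admissibility of `G` and the far sup bound are arguments. -/
theorem small_of_bounds_core {psi : Fin 2 → ℝ → ℝ} {lam : Fin 2 → ℝ}
    {ν c₁' c₂' δ κ C₀ e₁ e₂ Kr Kp Kq K₂ Kinf : ℝ}
    (hC : Cert R ρ psi lam ν c₁' c₂' Rmin α δ κ C₀ e₁ e₂ Kr Kp Kq K₂ Kinf z₀)
    (hF : FarCert R ρ z₀ rf E₃)
    {φ : ℝ → ℝ → ℝ} {T X c₁ s η M Ns ηo : ℝ}
    (hχ : Cutoff χ X)
    (hc₁ : exp (c₁ + 5 / 3) ≤ X / 2) (hz : z₀ ≤ c₁ - 1 + s / 2)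
    (hN : NN ρ (GG χ R φ T s) ≤ Ns) (hNs : Kinf * √Ns ≤ η)
    (hb : ∀ c ∈ Icc (z₀ - s / 2) c₁, blockE χ R φ T c s ≤ M)
    (hMη : 22 / 10 * √M + 100 * ηo ≤ 79 / 100 * η)
    (hηo : 0 ≤ ηo)
    (hout : ∀ z, c₁ - 1 + s / 2 ≤ z → xx s z ≤ X → |WW R φ T s z| ≤ ηo)
    (hG : Adm (GG χ R φ T s))
    (hfar : ∀ {z : ℝ}, z ≤ c₁ - 1 + s / 2 →
      (∀ c, z - s / 2 ≤ c → c ≤ c₁ → blockE χ R φ T c s ≤ M) →
      (∀ z', c₁ - 1 + s / 2 ≤ z' → z' ≤ c₁ + s / 2 → |WW R φ T s z'| ≤ ηo) →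
      |WW R φ T s z| ≤ 22 / 10 * √M + 100 * ηo) :
    Small R φ T X η s := by
  intro z hzX
  have hX := hχ.X_pos
  have hRz : ∀ z, z₀ ≤ z → 79 / 100 ≤ R z := fun z h => hF.R_lower z (by linarith only [h])
  have hM0 : 0 ≤ √M := Real.sqrt_nonneg M
  have hη : 0 ≤ η := by linarith only [hM0, hηo, hMη]
  have hηR : ∀ z, z₀ ≤ z → 79 / 100 * η ≤ η * R z := fun z h => by
    nlinarith only [hMη, hηo, hM0, hRz z h]
  rcases le_total z z₀ with h | h
  · -- near region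
    have hx : xx s z ≤ X / 2 := by
      refine le_trans ?_ hc₁
      unfold xx
      exact Real.exp_le_exp.2 (by linarith only [h, hz])
    have hGW : GG χ R φ T s z = WW R φ T s z := by
      unfold GG
      rw [hχ.one _ hx, one_mul]
    have hg := green_bound hC.weight hG z
    rw [hGW] at hg
    have hbn : 0 ≤ bsq ρ z := bsq_nonneg hC.weight.pos z
    have h1 : |WW R φ T s z| ≤ √(bsq ρ z) * √(NN ρ (GG χ R φ T s)) := by
      rw [← Real.sqrt_mul hbn, ← Real.sqrt_sq_eq_abs]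
      exact Real.sqrt_le_sqrt hg
    have h2 : √(NN ρ (GG χ R φ T s)) ≤ √Ns := Real.sqrt_le_sqrt hN
    have h3 := hC.H3inf z h
    have hRp : 0 < R z := lt_of_lt_of_le hC.profile.Rmin_pos (hC.profile.lower z)
    calc |WW R φ T s z| ≤ √(bsq ρ z) * √(NN ρ (GG χ R φ T s)) := h1
      _ ≤ (Kinf * R z) * √Ns := mul_le_mul h3 h2 (Real.sqrt_nonneg _)
          (le_trans (Real.sqrt_nonneg _) h3)
      _ = (Kinf * √Ns) * R z := by ring
      _ ≤ η * R z := mul_le_mul_of_nonneg_right hNs hRp.le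
  · rcases le_total z (c₁ - 1 + s / 2) with h' | h'
    · -- far region
      have hw := hfar h' (fun c hc hc' => hb c ⟨by linarith only [h, hc], hc'⟩) (fun z' hz1 hz2 => by
        refine hout z' hz1 ?_
        have : xx s z' ≤ X / 2 := by
          refine le_trans ?_ hc₁
          unfold xx
          exact Real.exp_le_exp.2 (by linarith only [hz2])
        linarith only [hX, this])
      exact hw.trans (hMη.trans (hηR z h))
    · -- outer region
      have hw := hout z h' hzX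
      have := hηR z h
      linarith only [this, hw, hM0, hηo, hMη]

end P264.B
end
end

section

section

/-!
# P264 / B / Far / NNStep2 : time integration of the energy inequality, general constants
-/

open MeasureTheory Set Filter Real
open scoped ContDiff Topology

namespace P264.B

variable {R ρ χ : ℝ → ℝ} {Rmin α z₀ : ℝ}

/-- (D14') with the derivative of the energy as a hypothesis. -/
theorem NN_step2_of {psi : Fin 2 → ℝ → ℝ} {ν c₁' c₂' e₁ : ℝ}
    (hρ : Weight ρ ν c₁' c₂')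
    {φ : ℝ → ℝ → ℝ} {T s₀ σ A Ns Cε Kε dd CC : ℝ} (hdd : 0 < dd) (hCC : 0 ≤ CC)
    (hder : ∀ s ∈ Ico s₀ σ, HasDerivWithinAt (fun s' => NN ρ (GG χ R φ T s'))
      (2 * ∫ z, GS χ R φ T s z * Top ρ (GG χ R φ T s) z) (Ici s) s) (hσ : s₀ ≤ σ)
    (hcont : ContinuousOn (fun s => NN ρ (GG χ R φ T s)) (Icc s₀ σ))
    (hinit : NN ρ (GG χ R φ T s₀) ≤ Ns / 2)
    (ha : ∀ s ∈ Ico s₀ σ, ∀ i, |aa (psi i) R φ T s| ≤ A)
    (hineq : ∀ s ∈ Ico s₀ σ, 2 * ∫ z, GS χ R φ T s z * Top ρ (GG χ R φ T s) z ≤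
      -dd * NN ρ (GG χ R φ T s) + CC * ∑ i, aa (psi i) R φ T s ^ 2
        + Cε * (e₁ ^ 2 + ecut2 χ R ρ φ T s))
    (hCε : 0 ≤ Cε) (hecI : IntervalIntegrable (fun s => ecut2 χ R ρ φ T s) volume s₀ σ)
    (hec : ∫ s in s₀..σ, ecut2 χ R ρ φ T s ≤ Kε)
    (hnum : (2 * CC * A ^ 2 + Cε * e₁ ^ 2) / dd ≤ 3 / 4 * Ns) (hnum2 : Cε * Kε ≤ Ns / 8)
    (hNs : 0 < Ns) :
    NN ρ (GG χ R φ T σ) < Ns := by
  set K : ℝ := 2 * CC * A ^ 2 + Cε * e₁ ^ 2 with hK
  have hg0 : ∀ s, 0 ≤ ecut2 χ R ρ φ T s := fun s => ecut2_nonneg' hρ φ T s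
  have hle : ∀ s ∈ Ico s₀ σ, 2 * ∫ z, GS χ R φ T s z * Top ρ (GG χ R φ T s) z ≤
      -dd * NN ρ (GG χ R φ T s) + K + Cε * ecut2 χ R ρ φ T s := by
    intro s hs
    have h1 := hineq s hs
    have h2 : ∑ i, aa (psi i) R φ T s ^ 2 ≤ 2 * A ^ 2 := by
      have h3 : ∀ i, aa (psi i) R φ T s ^ 2 ≤ A ^ 2 := fun i => by
        rw [← sq_abs]
        have := ha s hs i
        (clear * - this; gcongr)
      rw [Fin.sum_univ_two]
      linarith only [h3 0, h3 1]
    have h4 : CC * ∑ i, aa (psi i) R φ T s ^ 2 ≤ CC * (2 * A ^ 2) := by (clear * - h2 hCC; gcongr)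
    rw [hK]
    linarith only [h1, h4]
  have key := nn_gron hσ hdd hcont hder hle hCε hg0 hecI hec
  have hexp : exp (-(dd * (σ - s₀))) ≤ 1 := by
    rw [exp_le_one_iff]
    have : 0 ≤ dd * (σ - s₀) := mul_nonneg hdd.le (sub_nonneg.2 hσ)
    linarith only [this]
  have hexp0 := (exp_pos (-(dd * (σ - s₀)))).le
  rcases le_total (NN ρ (GG χ R φ T s₀) - K / dd) 0 with h | h
  · have h1 : exp (-(dd * (σ - s₀))) * (NN ρ (GG χ R φ T s₀) - K / dd) ≤ 0 :=
      mul_nonpos_of_nonneg_of_nonpos hexp0 h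
    linarith only [h1, key, hnum, hNs, hnum2]
  · have h1 : exp (-(dd * (σ - s₀))) * (NN ρ (GG χ R φ T s₀) - K / dd) ≤
        NN ρ (GG χ R φ T s₀) - K / dd := mul_le_of_le_one_left h hexp
    linarith only [hinit, hnum2, hNs, key, h1]

end P264.B
end
end

section

section
set_option linter.all false
/-!
# P264 / B / CalabiBd : bounds from the Calabi energy (helper376, M4b)
-/
open Set MeasureTheory Filter Topology Function
open scoped ContDiff

namespace P264.B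

open P264.Cal

section static

/-- `sup |f'|` on an interval by the `L¹` norms of `f` and `f''`. -/
theorem deriv_interp {a b : ℝ} (hab : a < b) {f f1 f2 : ℝ → ℝ}
    (h1 : ∀ x ∈ Icc a b, HasDerivWithinAt f (f1 x) (Icc a b) x)
    (h2 : ∀ x ∈ Icc a b, HasDerivWithinAt f1 (f2 x) (Icc a b) x)
    (c2 : ContinuousOn f2 (Icc a b)) {x : ℝ} (hx : x ∈ Icc a b) :
    |f1 x| ≤ 6 / (b - a) ^ 2 * (∫ y in a..b, |f y|) + ∫ y in a..b, |f2 y| := by
  have hL : 0 < b - a := sub_pos.2 hab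
  have c0 : ContinuousOn f (Icc a b) := fun x hx => (h1 x hx).continuousWithinAt
  have c1 : ContinuousOn f1 (Icc a b) := fun x hx => (h2 x hx).continuousWithinAt
  have d1 : ∀ x ∈ Ioo a b, HasDerivAt f (f1 x) x := fun x hx =>
    (h1 x (Ioo_subset_Icc_self hx)).hasDerivAt (Icc_mem_nhds hx.1 hx.2)
  have d2 : ∀ x ∈ Ioo a b, HasDerivAt f1 (f2 x) x := fun x hx =>
    (h2 x (Ioo_subset_Icc_self hx)).hasDerivAt (Icc_mem_nhds hx.1 hx.2)
  have ii : ∀ {g : ℝ → ℝ}, ContinuousOn g (Icc a b) → IntervalIntegrable g volume a b := by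
    intro g hg
    apply ContinuousOn.intervalIntegrable
    rwa [uIcc_of_le hab.le]
  set V := ∫ y in a..b, |f2 y| with hV
  -- oscillation of `f1`
  have hosc : ∀ y ∈ Icc a b, ∀ z ∈ Icc a b, y ≤ z → |f1 z - f1 y| ≤ V := by
    intro y hy z hz hyz
    have hsub : Icc y z ⊆ Icc a b := Icc_subset_Icc hy.1 hz.2
    have e : ∫ u in y..z, f2 u = f1 z - f1 y := by
      apply intervalIntegral.integral_eq_sub_of_hasDerivAt_of_le hyz (c1.mono hsub)
      · intro u hu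
        exact d2 u ⟨lt_of_le_of_lt hy.1 hu.1, lt_of_lt_of_le hu.2 hz.2⟩
      · apply ContinuousOn.intervalIntegrable
        rw [uIcc_of_le hyz]; exact c2.mono hsub
    rw [← e]
    calc |∫ u in y..z, f2 u| ≤ ∫ u in y..z, |f2 u| := intervalIntegral.abs_integral_le_integral_abs hyz
      _ ≤ V := by
        apply intervalIntegral.integral_mono_interval hy.1 hyz hz.2
        · exact Filter.Eventually.of_forall (fun u => abs_nonneg _)
        · exact ii c2.abs
  have hosc' : ∀ y ∈ Icc a b, |f1 x - f1 y| ≤ V := by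
    intro y hy
    rcases le_total y x with h | h
    · exact hosc y hy x hx h
    · rw [abs_sub_comm]; exact hosc x hx y hy h
  -- kernel
  set q : ℝ → ℝ := fun y => 6 * (y - a) * (b - y) / (b - a) ^ 3 with hq
  set q' : ℝ → ℝ := fun y => 6 * (a + b - 2 * y) / (b - a) ^ 3 with hq'
  have dq : ∀ y, HasDerivAt q (q' y) y := by
    intro y
    have h := ((((hasDerivAt_id y).sub_const a).const_mul 6).mul
      ((hasDerivAt_id y).const_sub b)).div_const ((b - a) ^ 3)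
    refine (h.congr_deriv ?_).congr_of_eventuallyEq ?_
    · simp only [hq', id]
      ring
    · exact Filter.Eventually.of_forall (fun y => by simp only [hq, id_eq, Pi.mul_apply])
  have cq : Continuous q := by simp only [hq]; fun_prop
  have cq' : Continuous q' := by simp only [hq']; fun_prop
  have iq : ∫ y in a..b, q y = 1 := by
    have hP : ∀ y ∈ Ioo a b, HasDerivAt (fun y => (3 * (y - a) ^ 2 * (b - a) - 2 * (y - a) ^ 3) / (b - a) ^ 3)
        (q y) y := by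
      intro y _
      have hh := (hasDerivAt_id y).sub_const a
      have h := ((((hh.fun_pow 2).const_mul 3).mul_const (b - a)).sub
        ((hh.fun_pow 3).const_mul 2)).div_const ((b - a) ^ 3)
      refine h.congr_deriv ?_
      simp only [hq, id]
      ring
    rw [intervalIntegral.integral_eq_sub_of_hasDerivAt_of_le hab.le (by (clear * -; fun_prop)) hP (ii cq.continuousOn)]
    have : b - a ≠ 0 := hL.ne'
    field_simp
    ring
  have ibp : ∫ y in a..b, q y * f1 y = -∫ y in a..b, q' y * f y := by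
    have h := intervalIntegral.integral_eq_sub_of_hasDerivAt_of_le (f := fun y => q y * f y)
      (f' := fun y => q' y * f y + q y * f1 y) hab.le (cq.continuousOn.mul c0)
      (fun y hy => (dq y).mul (d1 y hy))
      (ii ((cq'.continuousOn.mul c0).add (cq.continuousOn.mul c1)))
    have i1 : IntervalIntegrable (fun y => q' y * f y) volume a b := ii (cq'.continuousOn.mul c0)
    have i2 : IntervalIntegrable (fun y => q y * f1 y) volume a b := ii (cq.continuousOn.mul c1)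
    rw [intervalIntegral.integral_add i1 i2] at h
    have e : q b * f b - q a * f a = 0 := by simp only [hq, sub_self, mul_zero, zero_div, zero_mul]
    rw [e] at h
    linarith only [h]
  have qn : ∀ y ∈ Icc a b, 0 ≤ q y := by
    intro y hy
    simp only [hq]
    have := sub_nonneg.2 hy.1
    have := sub_nonneg.2 hy.2
    (clear f f1 f2 h1 h2 c2 x hx hL c0 c1 d1 d2 ii V hV hosc hosc' q hq q' hq' dq cq cq' iq ibp; positivity)
  have e1 : f1 x - ∫ y in a..b, q y * f1 y = ∫ y in a..b, q y * (f1 x - f1 y) := by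
    have : ∀ y, q y * (f1 x - f1 y) = f1 x * q y - q y * f1 y := by intro y; ring
    simp_rw [this]
    have i2 : IntervalIntegrable (fun y => q y * f1 y) volume a b := ii (cq.continuousOn.mul c1)
    rw [intervalIntegral.integral_sub ((ii cq.continuousOn).const_mul _) i2,
      intervalIntegral.integral_const_mul, iq, mul_one]
  have e2 : |∫ y in a..b, q y * (f1 x - f1 y)| ≤ V := by
    calc |∫ y in a..b, q y * (f1 x - f1 y)| ≤ ∫ y in a..b, |q y * (f1 x - f1 y)| :=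
          intervalIntegral.abs_integral_le_integral_abs hab.le
      _ ≤ ∫ y in a..b, q y * V := by
          apply intervalIntegral.integral_mono_on hab.le
          · exact ii (cq.continuousOn.mul (continuousOn_const.sub c1)).abs
          · exact (ii cq.continuousOn).mul_const _
          · intro y hy
            rw [abs_mul, abs_of_nonneg (qn y hy)]
            exact mul_le_mul_of_nonneg_left (hosc' y hy) (qn y hy)
      _ = V := by rw [intervalIntegral.integral_mul_const, iq, one_mul]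
  have e3 : |∫ y in a..b, q y * f1 y| ≤ 6 / (b - a) ^ 2 * ∫ y in a..b, |f y| := by
    rw [ibp, abs_neg, ← intervalIntegral.integral_const_mul]
    calc |∫ y in a..b, q' y * f y| ≤ ∫ y in a..b, |q' y * f y| :=
          intervalIntegral.abs_integral_le_integral_abs hab.le
      _ ≤ ∫ y in a..b, 6 / (b - a) ^ 2 * |f y| := by
          apply intervalIntegral.integral_mono_on hab.le
          · exact ii (cq'.continuousOn.mul c0).abs
          · exact (ii c0.abs).const_mul _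
          · intro y hy
            rw [abs_mul]
            apply mul_le_mul_of_nonneg_right _ (abs_nonneg _)
            simp only [hq']
            rw [abs_div, abs_of_pos (show (0 : ℝ) < (b - a) ^ 3 by positivity), div_le_div_iff₀
              (by positivity) (by positivity), abs_mul, abs_of_pos (by norm_num : (0 : ℝ) < 6)]
            have h3 : |a + b - 2 * y| ≤ b - a := by
              rw [abs_le]; constructor <;> linarith only [hy.1, hy.2]
            calc 6 * |a + b - 2 * y| * (b - a) ^ 2 ≤ 6 * (b - a) * (b - a) ^ 2 := by (clear * - h3 hab; gcongr)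
              _ = 6 * (b - a) ^ 3 := by ring
  calc |f1 x| = |(f1 x - ∫ y in a..b, q y * f1 y) + ∫ y in a..b, q y * f1 y| := by ring_nf
    _ ≤ |f1 x - ∫ y in a..b, q y * f1 y| + |∫ y in a..b, q y * f1 y| := abs_add_le _ _
    _ ≤ V + 6 / (b - a) ^ 2 * ∫ y in a..b, |f y| := by
        rw [e1]; exact add_le_add e2 e3
    _ = _ := by ring

theorem sq_integral_abs_le {a b : ℝ} (hab : a ≤ b) {f : ℝ → ℝ} (hf : ContinuousOn f (Icc a b)) :
    (∫ y in a..b, |f y|) ^ 2 ≤ (b - a) * ∫ y in a..b, f y ^ 2 := by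
  have h := cauchy_schwarz hab (f := fun _ => 1) (g := fun y => |f y|) continuousOn_const hf.abs
  simpa only [ge_iff_le, one_mul, one_pow, intervalIntegral.integral_const, smul_eq_mul, mul_one, sq_abs] using     h

/-- `∫ f'² ≤ (72/L²) ∫ f² + 2 L² ∫ f''²`. -/
theorem interp_sq {a b : ℝ} (hab : a < b) {f f1 f2 : ℝ → ℝ}
    (h1 : ∀ x ∈ Icc a b, HasDerivWithinAt f (f1 x) (Icc a b) x)
    (h2 : ∀ x ∈ Icc a b, HasDerivWithinAt f1 (f2 x) (Icc a b) x)
    (c2 : ContinuousOn f2 (Icc a b)) :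
    ∫ y in a..b, f1 y ^ 2 ≤ 72 / (b - a) ^ 2 * (∫ y in a..b, f y ^ 2)
      + 2 * (b - a) ^ 2 * ∫ y in a..b, f2 y ^ 2 := by
  have hL : 0 < b - a := sub_pos.2 hab
  have c0 : ContinuousOn f (Icc a b) := fun x hx => (h1 x hx).continuousWithinAt
  have c1 : ContinuousOn f1 (Icc a b) := fun x hx => (h2 x hx).continuousWithinAt
  set A := ∫ y in a..b, f y ^ 2 with hA
  set B := ∫ y in a..b, f2 y ^ 2 with hB
  have hA' := sq_integral_abs_le hab.le c0
  have hB' := sq_integral_abs_le hab.le c2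
  have hpt : ∀ x ∈ Icc a b, f1 x ^ 2 ≤ 72 / (b - a) ^ 3 * A + 2 * (b - a) * B := by
    intro x hx
    have h := deriv_interp hab h1 h2 c2 hx
    set p := ∫ y in a..b, |f y|
    set r := ∫ y in a..b, |f2 y|
    have hsq : f1 x ^ 2 ≤ (6 / (b - a) ^ 2 * p + r) ^ 2 := by
      rw [← sq_abs (f1 x)]
      exact pow_le_pow_left₀ (abs_nonneg _) h 2
    calc f1 x ^ 2 ≤ (6 / (b - a) ^ 2 * p + r) ^ 2 := hsq
      _ ≤ 2 * (6 / (b - a) ^ 2 * p) ^ 2 + 2 * r ^ 2 := by linarith only [sq_nonneg (6 / (b - a) ^ 2 * p - r)]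
      _ = 72 / (b - a) ^ 4 * p ^ 2 + 2 * r ^ 2 := by
          have : b - a ≠ 0 := hL.ne'
          field_simp
          ring
      _ ≤ 72 / (b - a) ^ 4 * ((b - a) * A) + 2 * ((b - a) * B) := by (clear * - hA' hab hB'; gcongr)
      _ = _ := by
          have : b - a ≠ 0 := hL.ne'
          field_simp
  have ii : IntervalIntegrable (fun y => f1 y ^ 2) volume a b := by
    apply ContinuousOn.intervalIntegrable
    rw [uIcc_of_le hab.le]; exact c1.pow 2
  calc ∫ y in a..b, f1 y ^ 2 ≤ ∫ y in a..b, (72 / (b - a) ^ 3 * A + 2 * (b - a) * B) :=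
        intervalIntegral.integral_mono_on hab.le ii (by simp only [intervalIntegrable_const]) hpt
    _ = _ := by
        rw [intervalIntegral.integral_const, smul_eq_mul]
        have : b - a ≠ 0 := hL.ne'
        field_simp

end static

section
variable {T : ℝ} {U₀ : ℝ → ℝ} {U φ : ℝ → ℝ → ℝ}

theorem Ff_zero (t : ℝ) : Ff 8 φ (t, 0) = 0 := by simp only [Ff, Nat.add_one_sub_one, ne_eq, OfNat.ofNat_ne_zero, not_false_eq_true, zero_pow, zero_mul]

/-- `F_x = 7 x⁶ φ + x⁷ φ_x`. -/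
theorem pdx_Ff (hT : 0 < T) (H : IsFlowU 8 T U₀ U φ) {t x : ℝ} (ht : t ∈ Icc 0 T)
    (hx : x ∈ Icc (0 : ℝ) 1) :
    pdx (KT T) (Ff 8 φ) (t, x) = 7 * x ^ 6 * φ t x
      + x ^ 7 * dx T 1 (fun p : ℝ × ℝ => φ p.1 p.2) (t, x) := by
  have hp : ((t, x) : ℝ × ℝ) ∈ KT T := ⟨ht, hx⟩
  have h := pdx_mul (f := fun p : ℝ × ℝ => p.2 ^ 7) (g := fun p => φ p.1 p.2) hT one_pos
    (contDiffOn_xpow 7) H.smooth hp
  have e : pdx (KT T) (fun p : ℝ × ℝ => p.2 ^ 7) (t, x) = 7 * x ^ 6 := by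
    have := pdx_snd (g := fun x : ℝ => x ^ 7) hT one_pos (by fun_prop) hp
    rw [this]
    simp only [differentiableAt_fun_id, deriv_fun_pow, Nat.cast_ofNat, Nat.add_one_sub_one, deriv_id'', mul_one]
  rw [e] at h
  exact h

/-- `F_xx = 56 x⁶ - x⁷ S`. -/
theorem pdx_pdx_Ff (hT : 0 < T) (H : IsFlowU 8 T U₀ U φ) {p : ℝ × ℝ} (hp : p ∈ KT T) :
    pdx (KT T) (pdx (KT T) (Ff 8 φ)) p = 56 * p.2 ^ 6 - p.2 ^ 7 * Sf T U p := by
  have h := xS_eq (n := 8) (by norm_num) hT H p hp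
  have e : ((8 : ℕ) : ℝ) * (((8 : ℕ) : ℝ) - 1) = 56 := by norm_num
  rw [e] at h
  change p.2 ^ 7 * Sf T U p = 56 * p.2 ^ 6 - pdx (KT T) (pdx (KT T) (Ff 8 φ)) p at h
  linarith only [h]

theorem int_xS_bound (hT : 0 < T) (H : IsFlowU 8 T U₀ U φ) {t : ℝ} (ht : t ∈ Icc 0 T) {x : ℝ}
    (hx : x ∈ Icc (0 : ℝ) 1) :
    |∫ y in (0 : ℝ)..x, y ^ 7 * Sf T U (t, y)| ≤ x ^ 4 * √(E0 8 T U t / 8) := by
  have cS : ContinuousOn (fun y => Sf T U (t, y)) (Icc 0 1) :=
    continuousOn_sec (contDiffOn_Sf hT H).continuousOn ht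
  have hsub : Icc 0 x ⊆ Icc (0 : ℝ) 1 := Icc_subset_Icc le_rfl hx.2
  have hs : ∀ y ∈ Icc (0 : ℝ) x, y ^ 7 = √(y ^ 7) * √(y ^ 7) := by
    intro y hy
    rw [Real.mul_self_sqrt (pow_nonneg hy.1 7)]
  have h := cauchy_schwarz (c := 0) (d := x) hx.1 (f := fun y => √(y ^ 7))
    (g := fun y => √(y ^ 7) * Sf T U (t, y)) (by fun_prop)
    ((Continuous.continuousOn (by fun_prop)).mul (cS.mono hsub))
  have e1 : ∫ y in (0 : ℝ)..x, √(y ^ 7) * (√(y ^ 7) * Sf T U (t, y)) =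
      ∫ y in (0 : ℝ)..x, y ^ 7 * Sf T U (t, y) := by
    apply intervalIntegral.integral_congr
    intro y hy
    rw [uIcc_of_le hx.1] at hy
    show √(y ^ 7) * (√(y ^ 7) * Sf T U (t, y)) = y ^ 7 * Sf T U (t, y)
    rw [← mul_assoc, ← hs y hy]
  have e2 : ∫ y in (0 : ℝ)..x, √(y ^ 7) ^ 2 = x ^ 8 / 8 := by
    have : ∫ y in (0 : ℝ)..x, √(y ^ 7) ^ 2 = ∫ y in (0 : ℝ)..x, y ^ 7 := by
      apply intervalIntegral.integral_congr
      intro y hy
      rw [uIcc_of_le hx.1] at hy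
      show √(y ^ 7) ^ 2 = y ^ 7
      rw [Real.sq_sqrt (pow_nonneg hy.1 7)]
    rw [this, integral_pow]
    norm_num
  have e3 : ∫ y in (0 : ℝ)..x, (√(y ^ 7) * Sf T U (t, y)) ^ 2 ≤ E0 8 T U t := by
    have : ∫ y in (0 : ℝ)..x, (√(y ^ 7) * Sf T U (t, y)) ^ 2 =
        ∫ y in (0 : ℝ)..x, y ^ 7 * Sf T U (t, y) ^ 2 := by
      apply intervalIntegral.integral_congr
      intro y hy
      rw [uIcc_of_le hx.1] at hy
      show (√(y ^ 7) * Sf T U (t, y)) ^ 2 = y ^ 7 * Sf T U (t, y) ^ 2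
      rw [mul_pow, Real.sq_sqrt (pow_nonneg hy.1 7)]
    rw [this]
    unfold E0
    have cI : IntervalIntegrable (fun y => y ^ 7 * Sf T U (t, y) ^ 2) volume 0 1 := by
      apply ContinuousOn.intervalIntegrable
      rw [uIcc_of_le zero_le_one]
      exact (Continuous.continuousOn (by fun_prop)).mul (cS.pow 2)
    apply intervalIntegral.integral_mono_interval le_rfl hx.1 hx.2
    · rw [Filter.EventuallyLE, ae_restrict_iff' measurableSet_Ioc]
      exact Filter.Eventually.of_forall (fun y hy => by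
        have := hy.1
        simp only [Pi.zero_apply]
        (clear * - this; positivity))
    · exact cI
  rw [e1, e2] at h
  have hE : 0 ≤ E0 8 T U t := E0_nonneg
  have h4 : (∫ y in (0 : ℝ)..x, y ^ 7 * Sf T U (t, y)) ^ 2 ≤ (x ^ 4 * √(E0 8 T U t / 8)) ^ 2 := by
    rw [mul_pow, Real.sq_sqrt (by (clear * - hE; positivity))]
    have hx8 : 0 ≤ x ^ 8 / 8 := by have := hx.1; (clear * -; positivity)
    calc _ ≤ x ^ 8 / 8 * ∫ y in (0 : ℝ)..x, (√(y ^ 7) * Sf T U (t, y)) ^ 2 := h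
      _ ≤ x ^ 8 / 8 * E0 8 T U t := by (clear * - e3; gcongr)
      _ = _ := by ring
  have h5 := Real.sqrt_le_sqrt h4
  rwa [Real.sqrt_sq_eq_abs, Real.sqrt_sq (by have := hx.1; (clear * -; positivity))] at h5

/-- Bound of `F_x`. -/
theorem pdx_Ff_bound (hT : 0 < T) (H : IsFlowU 8 T U₀ U φ) {t : ℝ} (ht : t ∈ Icc 0 T) {x : ℝ}
    (hx : x ∈ Icc (0 : ℝ) 1) :
    |pdx (KT T) (Ff 8 φ) (t, x) - 8 * x ^ 7| ≤ x ^ 4 * √(E0 8 T U t / 8) := by
  have hF := contDiffOn_Ff H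
  have hFx := contDiffOn_pdx hT one_pos hF
  have h0 : (0 : ℝ) ∈ Icc (0 : ℝ) 1 := ⟨le_rfl, zero_le_one⟩
  have e1 := integral_pdx hT one_pos hFx ht h0 hx hx.1
  have hsub : Icc 0 x ⊆ Icc (0 : ℝ) 1 := Icc_subset_Icc le_rfl hx.2
  have e2 : ∫ z in (0 : ℝ)..x, pdx (KT T) (pdx (KT T) (Ff 8 φ)) (t, z) =
      ∫ z in (0 : ℝ)..x, (56 * z ^ 6 - z ^ 7 * Sf T U (t, z)) := by
    apply intervalIntegral.integral_congr
    intro z hz
    rw [uIcc_of_le hx.1] at hz
    exact pdx_pdx_Ff hT H ⟨ht, hsub hz⟩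
  have cS : ContinuousOn (fun y => Sf T U (t, y)) (Icc 0 1) :=
    continuousOn_sec (contDiffOn_Sf hT H).continuousOn ht
  have i1 : IntervalIntegrable (fun z => z ^ 7 * Sf T U (t, z)) volume 0 x := by
    apply ContinuousOn.intervalIntegrable
    rw [uIcc_of_le hx.1]
    exact (Continuous.continuousOn (by fun_prop)).mul (cS.mono hsub)
  rw [e2, intervalIntegral.integral_sub (by apply Continuous.intervalIntegrable; fun_prop) i1,
    intervalIntegral.integral_const_mul, integral_pow] at e1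
  have e3 : pdx (KT T) (Ff 8 φ) (t, 0) = 0 := by
    rw [pdx_Ff hT H ht h0]; simp
  rw [e3] at e1
  have e4 : pdx (KT T) (Ff 8 φ) (t, x) - 8 * x ^ 7 = -∫ y in (0 : ℝ)..x, y ^ 7 * Sf T U (t, y) := by
    have e5 : (56 : ℝ) * ((x ^ (6 + 1) - 0 ^ (6 + 1)) / ((6 : ℕ) + 1)) = 8 * x ^ 7 := by
      push_cast; ring
    rw [e5, sub_zero] at e1
    linarith only [e1]
  rw [e4, abs_neg]
  exact int_xS_bound hT H ht hx

/-- `|F_x| ≤ 8 + √E`. -/
theorem pdx_Ff_bound' (hT : 0 < T) (H : IsFlowU 8 T U₀ U φ) {t : ℝ} (ht : t ∈ Icc 0 T) {x : ℝ}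
    (hx : x ∈ Icc (0 : ℝ) 1) :
    |pdx (KT T) (Ff 8 φ) (t, x)| ≤ 8 + √(E0 8 T U t) := by
  have h := pdx_Ff_bound hT H ht hx
  have hE : 0 ≤ E0 8 T U t := E0_nonneg
  have h1 : √(E0 8 T U t / 8) ≤ √(E0 8 T U t) := Real.sqrt_le_sqrt (by linarith only [hE])
  have h2 : x ^ 4 ≤ 1 := pow_le_one₀ hx.1 hx.2
  have h3 : x ^ 7 ≤ 1 := pow_le_one₀ hx.1 hx.2
  have h4 : 0 ≤ x ^ 7 := pow_nonneg hx.1 7
  have h5 : x ^ 4 * √(E0 8 T U t / 8) ≤ 1 * √(E0 8 T U t) := by gcongr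
  rw [abs_le] at h ⊢
  constructor <;> linarith only [h, h3, h5, h4]

/-- `|F| ≤ 1 + √E`. -/
theorem Ff_bound (hT : 0 < T) (H : IsFlowU 8 T U₀ U φ) {t : ℝ} (ht : t ∈ Icc 0 T) {x : ℝ}
    (hx : x ∈ Icc (0 : ℝ) 1) :
    |Ff 8 φ (t, x)| ≤ 1 + √(E0 8 T U t) := by
  have hF := contDiffOn_Ff H
  have hFx := contDiffOn_pdx hT one_pos hF
  have h0 : (0 : ℝ) ∈ Icc (0 : ℝ) 1 := ⟨le_rfl, zero_le_one⟩
  have e1 := integral_pdx hT one_pos hF ht h0 hx hx.1
  rw [Ff_zero, sub_zero] at e1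
  have hsub : Icc 0 x ⊆ Icc (0 : ℝ) 1 := Icc_subset_Icc le_rfl hx.2
  have hE : 0 ≤ E0 8 T U t := E0_nonneg
  have hb : ∀ y ∈ uIoc (0 : ℝ) x, ‖pdx (KT T) (Ff 8 φ) (t, y) - 8 * y ^ 7‖ ≤ √(E0 8 T U t) := by
    intro y hy
    rw [uIoc_of_le hx.1] at hy
    have hy' : y ∈ Icc (0 : ℝ) 1 := hsub ⟨hy.1.le, hy.2⟩
    have h := pdx_Ff_bound hT H ht hy'
    have h1 : √(E0 8 T U t / 8) ≤ √(E0 8 T U t) := Real.sqrt_le_sqrt (by linarith only [hE])
    have h2 : y ^ 4 ≤ 1 := pow_le_one₀ hy'.1 hy'.2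
    have h5 : y ^ 4 * √(E0 8 T U t / 8) ≤ 1 * √(E0 8 T U t) := by (clear * - h2 h1; gcongr)
    rw [Real.norm_eq_abs]
    linarith only [h, h5]
  have h2 := intervalIntegral.norm_integral_le_of_norm_le_const hb
  have i1 : IntervalIntegrable (fun y => pdx (KT T) (Ff 8 φ) (t, y)) volume 0 x := by
    apply ContinuousOn.intervalIntegrable
    rw [uIcc_of_le hx.1]
    exact (continuousOn_sec hFx.continuousOn ht).mono hsub
  rw [intervalIntegral.integral_sub i1 (by apply Continuous.intervalIntegrable; fun_prop),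
    intervalIntegral.integral_const_mul, integral_pow, e1, sub_zero, abs_of_nonneg hx.1] at h2
  have e3 : (8 : ℝ) * ((x ^ (7 + 1) - 0 ^ (7 + 1)) / ((7 : ℕ) + 1)) = x ^ 8 := by
    push_cast; ring
  rw [e3, Real.norm_eq_abs] at h2
  have h3 : x ^ 8 ≤ 1 := pow_le_one₀ hx.1 hx.2
  have h4 : 0 ≤ x ^ 8 := pow_nonneg hx.1 8
  have h6 : √(E0 8 T U t) * x ≤ √(E0 8 T U t) := mul_le_of_le_one_right (Real.sqrt_nonneg _) hx.2
  rw [abs_le] at h2 ⊢
  constructor <;> linarith only [h2, h3, h6, h4]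

end

section
variable {T : ℝ} {U₀ : ℝ → ℝ} {U φ : ℝ → ℝ → ℝ}

/-- the profile as a function on the box -/
abbrev ph (φ : ℝ → ℝ → ℝ) : ℝ × ℝ → ℝ := fun p => φ p.1 p.2

/-- `x⁷ φ ≤ 1 + √E`. -/
theorem x7phi_le (hT : 0 < T) (H : IsFlowU 8 T U₀ U φ) {t : ℝ} (ht : t ∈ Icc 0 T) {x : ℝ}
    (hx : x ∈ Icc (0 : ℝ) 1) : x ^ 7 * |φ t x| ≤ 1 + √(E0 8 T U t) := by
  have h := Ff_bound hT H ht hx
  unfold Ff at h
  rw [abs_mul, abs_of_nonneg (pow_nonneg hx.1 _)] at h
  exact h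

theorem x8phix_le (hT : 0 < T) (H : IsFlowU 8 T U₀ U φ) {t : ℝ} (ht : t ∈ Icc 0 T) {x : ℝ}
    (hx : x ∈ Icc (0 : ℝ) 1) : x ^ 8 * |dx T 1 (ph φ) (t, x)| ≤ 15 * (1 + √(E0 8 T U t)) := by
  have h1 := pdx_Ff_bound' hT H ht hx
  rw [pdx_Ff hT H ht hx] at h1
  have h2 := x7phi_le hT H ht hx
  have hx0 := hx.1
  have hs := Real.sqrt_nonneg (E0 8 T U t)
  set r := √(E0 8 T U t)
  set J := dx T 1 (ph φ) (t, x)
  have e : x ^ 8 * |J| = |x * (7 * x ^ 6 * φ t x + x ^ 7 * J) - 7 * (x ^ 7 * φ t x)| := by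
    rw [show x * (7 * x ^ 6 * φ t x + x ^ 7 * J) - 7 * (x ^ 7 * φ t x) = x ^ 8 * J by ring,
      abs_mul, abs_of_nonneg (pow_nonneg hx0 8)]
  rw [e]
  calc |x * (7 * x ^ 6 * φ t x + x ^ 7 * J) - 7 * (x ^ 7 * φ t x)|
      ≤ |x * (7 * x ^ 6 * φ t x + x ^ 7 * J)| + |7 * (x ^ 7 * φ t x)| := abs_sub _ _
    _ = x * |7 * x ^ 6 * φ t x + x ^ 7 * J| + 7 * (x ^ 7 * |φ t x|) := by
        rw [abs_mul, abs_mul, abs_mul, abs_of_nonneg hx0, abs_of_nonneg (pow_nonneg hx0 7)]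
        norm_num
    _ ≤ 1 * (8 + r) + 7 * (1 + r) := by
        gcongr
        exact hx.2
    _ ≤ _ := by linarith only [hs]

/-- `x⁷ φ_xx` from `S`. -/
theorem x7phixx_eq (hT : 0 < T) (H : IsFlowU 8 T U₀ U φ) {t : ℝ} (ht : t ∈ Icc 0 T) {x : ℝ}
    (hx : x ∈ Icc (0 : ℝ) 1) :
    x ^ 7 * dx T 2 (ph φ) (t, x) = 56 * x ^ 6 - x ^ 7 * Sf T U (t, x) - 42 * x ^ 5 * φ t x
      - 14 * x ^ 6 * dx T 1 (ph φ) (t, x) := by
  have h := H.ut_eq hT ht hx
  have e : Sf T U (t, x) = -pdt (bx T) (fun p : ℝ × ℝ => U p.1 p.2) (t, x) := rfl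
  rw [e]
  linear_combination -h

/-- `x⁷ φ_xxx` from `S_x`. -/
theorem x7phixxx_eq (hT : 0 < T) (H : IsFlowU 8 T U₀ U φ) {t : ℝ} (ht : t ∈ Icc 0 T) {x : ℝ}
    (hx : x ∈ Ioo (0 : ℝ) 1) :
    x ^ 7 * dx T 3 (ph φ) (t, x) = 336 * x ^ 5 - 7 * x ^ 6 * Sf T U (t, x) - x ^ 7 * Sx T U (t, x)
      - 210 * x ^ 4 * φ t x - 126 * x ^ 5 * dx T 1 (ph φ) (t, x)
      - 21 * x ^ 6 * dx T 2 (ph φ) (t, x) := by
  have d0 : HasDerivAt (fun y => φ t y) (dx T 1 (ph φ) (t, x)) x := der_dx hT H.sφ 0 ht hx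
  have d1 := der_dx hT H.sφ 1 ht hx
  have d2 := der_dx hT H.sφ 2 ht hx
  have dS : HasDerivAt (fun y => Sf T U (t, y)) (Sx T U (t, x)) x :=
    hasDerivAt_pdx (contDiffOn_Sf hT H) ht hx
  have hl := (hasDerivAt_pow 7 x).mul d2
  have hr := ((((hasDerivAt_pow 6 x).const_mul 56).sub ((hasDerivAt_pow 7 x).mul dS)).sub
    (((hasDerivAt_pow 5 x).const_mul 42).mul d0)).sub (((hasDerivAt_pow 6 x).const_mul 14).mul d1)
  have hev : (fun y => y ^ 7 * dx T 2 (ph φ) (t, y)) =ᶠ[𝓝 x] (fun y => 56 * y ^ 6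
      - y ^ 7 * Sf T U (t, y) - 42 * y ^ 5 * φ t y - 14 * y ^ 6 * dx T 1 (ph φ) (t, y)) := by
    filter_upwards [isOpen_Ioo.mem_nhds hx] with y hy
    exact x7phixx_eq hT H ht (Ioo_subset_Icc_self hy)
  have h := (hr.congr_of_eventuallyEq hev).unique hl
  norm_num at h
  linear_combination -h

end


section
/-- Pointwise bounds on `[a,b]`, `a > 0`, from the energy. -/
theorem ptw_bound {a A : ℝ} (ha : 0 < a) (hA : 0 ≤ A) :
    ∃ C : ℝ, 0 ≤ C ∧ ∀ {T : ℝ} {U₀ : ℝ → ℝ} {U φ : ℝ → ℝ → ℝ}, 0 < T → IsFlowU 8 T U₀ U φ →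
      E0 8 T U 0 ≤ A → ∀ t ∈ Icc 0 T, ∀ x ∈ Ico a 1,
        |φ t x| ≤ C ∧ |dx T 1 (ph φ) (t, x)| ≤ C ∧
        |dx T 2 (ph φ) (t, x)| ≤ C + |Sf T U (t, x)| ∧
        |dx T 3 (ph φ) (t, x)| ≤ C + C * |Sf T U (t, x)| + |Sx T U (t, x)| := by
  set r := √A with hr
  have hr0 : 0 ≤ r := Real.sqrt_nonneg _
  set C0 := (1 + r) / a ^ 7 with hC0
  set C1 := 15 * (1 + r) / a ^ 8 with hC1
  set C2 := (56 + 42 * C0 + 14 * C1) / a ^ 7 with hC2
  set C3 := (336 + 210 * C0 + 126 * C1 + 21 * C2) / a ^ 7 with hC3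
  have hC0' : 0 ≤ C0 := by (clear * - ha; positivity)
  have hC1' : 0 ≤ C1 := by positivity
  have hC2' : 0 ≤ C2 := by positivity
  have hC3' : 0 ≤ C3 := by (clear * - ha; positivity)
  refine ⟨C0 + C1 + C2 + C3 + 28 / a ^ 7, by (clear * - ha; positivity), ?_⟩
  intro T U₀ U φ hT H hE t ht x hx
  have hx0 : 0 < x := lt_of_lt_of_le ha hx.1
  have hx1 : x ≤ 1 := hx.2.le
  have hxI : x ∈ Icc (0 : ℝ) 1 := ⟨hx0.le, hx1⟩
  have hxo : x ∈ Ioo (0 : ℝ) 1 := ⟨hx0, hx.2⟩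
  have hEt : √(E0 8 T U t) ≤ r := Real.sqrt_le_sqrt ((E0_le (n := 8) (by (clear * -; norm_num)) hT H ht).trans hE)
  have p7 : a ^ 7 ≤ x ^ 7 := pow_le_pow_left₀ ha.le hx.1 7
  have p8 : a ^ 8 ≤ x ^ 8 := pow_le_pow_left₀ ha.le hx.1 8
  have a7 : 0 < a ^ 7 := by positivity
  have a8 : 0 < a ^ 8 := by positivity
  have b0 : |φ t x| ≤ C0 := by
    rw [hC0, le_div_iff₀ a7]
    have h := x7phi_le hT H ht hxI
    calc |φ t x| * a ^ 7 ≤ |φ t x| * x ^ 7 := by (clear * - p7; gcongr)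
      _ = x ^ 7 * |φ t x| := mul_comm _ _
      _ ≤ 1 + √(E0 8 T U t) := h
      _ ≤ 1 + r := by linarith only [hEt]
  have b1 : |dx T 1 (ph φ) (t, x)| ≤ C1 := by
    rw [hC1, le_div_iff₀ a8]
    have h := x8phix_le hT H ht hxI
    calc |dx T 1 (ph φ) (t, x)| * a ^ 8 ≤ |dx T 1 (ph φ) (t, x)| * x ^ 8 := by (clear * - p8; gcongr)
      _ = x ^ 8 * |dx T 1 (ph φ) (t, x)| := mul_comm _ _
      _ ≤ 15 * (1 + √(E0 8 T U t)) := h
      _ ≤ 15 * (1 + r) := by linarith only [hEt]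
  have q : ∀ m : ℕ, x ^ m ≤ 1 := fun m => pow_le_one₀ hx0.le hx1
  have qn : ∀ m : ℕ, 0 ≤ x ^ m := fun m => pow_nonneg hx0.le m
  set S := Sf T U (t, x) with hS
  set J0 := φ t x with hJ0
  set J1 := dx T 1 (ph φ) (t, x) with hJ1
  set J2 := dx T 2 (ph φ) (t, x) with hJ2
  set J3 := dx T 3 (ph φ) (t, x) with hJ3
  have x7 : 0 < x ^ 7 := by (clear * - hx0; positivity)
  have m5 : |x ^ 5 * J0| ≤ C0 := by
    rw [abs_mul, abs_of_nonneg (qn 5)]
    calc x ^ 5 * |J0| ≤ 1 * C0 := by gcongr; exact q 5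
      _ = C0 := one_mul _
  have m4 : |x ^ 4 * J0| ≤ C0 := by
    rw [abs_mul, abs_of_nonneg (qn 4)]
    calc x ^ 4 * |J0| ≤ 1 * C0 := by gcongr; exact q 4
      _ = C0 := one_mul _
  have m6 : |x ^ 6 * J1| ≤ C1 := by
    rw [abs_mul, abs_of_nonneg (qn 6)]
    calc x ^ 6 * |J1| ≤ 1 * C1 := by gcongr; exact q 6
      _ = C1 := one_mul _
  have m5' : |x ^ 5 * J1| ≤ C1 := by
    rw [abs_mul, abs_of_nonneg (qn 5)]
    calc x ^ 5 * |J1| ≤ 1 * C1 := by gcongr; exact q 5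
      _ = C1 := one_mul _
  have e2 := x7phixx_eq hT H ht hxI
  rw [← hJ2, ← hS, ← hJ0, ← hJ1] at e2
  have b2' : |J2 + S| ≤ C2 := by
    rw [hC2, le_div_iff₀ a7]
    have : x ^ 7 * (J2 + S) = 56 * x ^ 6 - 42 * (x ^ 5 * J0) - 14 * (x ^ 6 * J1) := by
      rw [mul_add, e2]; ring
    calc |J2 + S| * a ^ 7 ≤ |J2 + S| * x ^ 7 := by (clear * - p7; gcongr)
      _ = |x ^ 7 * (J2 + S)| := by rw [abs_mul, abs_of_pos x7, mul_comm]
      _ = |56 * x ^ 6 - 42 * (x ^ 5 * J0) - 14 * (x ^ 6 * J1)| := by rw [this]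
      _ ≤ 56 + 42 * C0 + 14 * C1 := by
        have h6 := q 6
        have h6' := qn 6
        rw [abs_le] at m5 m6 ⊢
        constructor <;> linarith only [m5, m6, h6', h6]
  have b2 : |J2| ≤ C2 + |S| := by
    calc |J2| = |(J2 + S) - S| := by ring_nf
      _ ≤ |J2 + S| + |S| := abs_sub _ _
      _ ≤ _ := by linarith only [b2']
  have e3 := x7phixxx_eq hT H ht hxo
  rw [← hJ3, ← hJ2, ← hS, ← hJ0, ← hJ1] at e3
  have b3 : |J3| ≤ C3 + 28 / a ^ 7 * |S| + |Sx T U (t, x)| := by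
    have h1 : |J3 + Sx T U (t, x)| ≤ C3 + 28 / a ^ 7 * |S| := by
      have e4 : x ^ 7 * (J3 + Sx T U (t, x)) = 336 * x ^ 5 - 7 * (x ^ 6 * S) - 210 * (x ^ 4 * J0)
          - 126 * (x ^ 5 * J1) - 21 * (x ^ 6 * J2) := by
        rw [mul_add, e3]; ring
      have h2 : |x ^ 7 * (J3 + Sx T U (t, x))| ≤ 336 + 210 * C0 + 126 * C1 + 21 * C2 + 28 * |S| := by
        rw [e4]
        have m7 : |x ^ 6 * S| ≤ |S| := by
          rw [abs_mul, abs_of_nonneg (qn 6)]
          exact mul_le_of_le_one_left (abs_nonneg _) (q 6)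
        have m8 : |x ^ 6 * J2| ≤ C2 + |S| := by
          rw [abs_mul, abs_of_nonneg (qn 6)]
          exact (mul_le_of_le_one_left (abs_nonneg _) (q 6)).trans b2
        have h5 := q 5
        have h5' := qn 5
        rw [abs_le] at m4 m5' m7 m8 ⊢
        constructor <;> linarith only [m4, m5', m7, m8, h5', h5]
      have h3 : |J3 + Sx T U (t, x)| * a ^ 7 ≤ 336 + 210 * C0 + 126 * C1 + 21 * C2 + 28 * |S| := by
        calc |J3 + Sx T U (t, x)| * a ^ 7 ≤ |J3 + Sx T U (t, x)| * x ^ 7 := by (clear * - p7; gcongr)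
          _ = |x ^ 7 * (J3 + Sx T U (t, x))| := by rw [abs_mul, abs_of_pos x7, mul_comm]
          _ ≤ _ := h2
      have h4 : |J3 + Sx T U (t, x)| ≤ (336 + 210 * C0 + 126 * C1 + 21 * C2 + 28 * |S|) / a ^ 7 := by
        rw [le_div_iff₀ a7]; exact h3
      calc |J3 + Sx T U (t, x)| ≤ (336 + 210 * C0 + 126 * C1 + 21 * C2 + 28 * |S|) / a ^ 7 := h4
        _ = _ := by rw [hC3]; ring
    calc |J3| = |(J3 + Sx T U (t, x)) - Sx T U (t, x)| := by ring_nf
      _ ≤ |J3 + Sx T U (t, x)| + |Sx T U (t, x)| := abs_sub _ _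
      _ ≤ _ := by linarith only [h1]
  have hp : 0 ≤ 28 / a ^ 7 := by positivity
  refine ⟨by linarith only [hC1', hC2', hC3', b0, hp], by linarith only [hp, b1, hC3', hC2', hC0'], by linarith only [hp, b2, hC3', hC1', hC0'], b3.trans ?_⟩
  have : 28 / a ^ 7 * |S| ≤ (C0 + C1 + C2 + C3 + 28 / a ^ 7) * |S| := by
    apply mul_le_mul_of_nonneg_right _ (abs_nonneg _)
    linarith only [hC0', hC1', hC2', hC3']
  (clear * - hC0' hC1' hC2' hp this; linarith only [this, hp, hC2', hC1', hC0'])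

variable {T : ℝ} {U₀ : ℝ → ℝ} {U φ : ℝ → ℝ → ℝ}

/-- `∫_a^b S² ≤ E/a⁷`. -/
theorem int_S_sq (hT : 0 < T) (H : IsFlowU 8 T U₀ U φ) {a b t : ℝ} (ha : 0 < a) (hab : a ≤ b)
    (hb : b ≤ 1) (ht : t ∈ Icc 0 T) :
    ∫ x in a..b, Sf T U (t, x) ^ 2 ≤ E0 8 T U t / a ^ 7 := by
  have cS : ContinuousOn (fun y => Sf T U (t, y)) (Icc 0 1) :=
    continuousOn_sec (contDiffOn_Sf hT H).continuousOn ht
  have hsub : Icc a b ⊆ Icc (0 : ℝ) 1 := Icc_subset_Icc ha.le hb
  have a7 : 0 < a ^ 7 := by positivity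
  rw [le_div_iff₀ a7, ← intervalIntegral.integral_mul_const]
  calc ∫ x in a..b, Sf T U (t, x) ^ 2 * a ^ 7 ≤ ∫ x in a..b, x ^ 7 * Sf T U (t, x) ^ 2 := by
        apply intervalIntegral.integral_mono_on hab
        · apply ContinuousOn.intervalIntegrable
          rw [uIcc_of_le hab]
          exact ((cS.mono hsub).pow 2).mul continuousOn_const
        · apply ContinuousOn.intervalIntegrable
          rw [uIcc_of_le hab]
          exact (Continuous.continuousOn (by fun_prop)).mul ((cS.mono hsub).pow 2)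
        · intro x hx
          have : a ^ 7 ≤ x ^ 7 := pow_le_pow_left₀ ha.le hx.1 7
          rw [mul_comm]
          (clear * - this; gcongr)
    _ ≤ E0 8 T U t := by
        unfold E0
        apply intervalIntegral.integral_mono_interval ha.le hab hb
        · rw [Filter.EventuallyLE, ae_restrict_iff' measurableSet_Ioc]
          exact Filter.Eventually.of_forall (fun y hy => by
            have := hy.1
            simp only [Pi.zero_apply]
            (clear * - this; positivity))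
        · apply ContinuousOn.intervalIntegrable
          rw [uIcc_of_le zero_le_one]
          exact (Continuous.continuousOn (by fun_prop)).mul (cS.pow 2)

/-- `∫_a^b S_xx² ≤ D/(a⁷ c²)` if `φ ≥ c` on `[a,b]`. -/
theorem int_Sxx_sq (hT : 0 < T) (H : IsFlowU 8 T U₀ U φ) {a b c t : ℝ} (ha : 0 < a) (hab : a ≤ b)
    (hb : b ≤ 1) (hc : 0 < c) (ht : t ∈ Icc 0 T) (hφ : ∀ x ∈ Icc a b, c ≤ φ t x) :
    ∫ x in a..b, Sxx T U (t, x) ^ 2 ≤ Dcal 8 T U φ t / (a ^ 7 * c ^ 2) := by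
  have cS : ContinuousOn (fun y => Sxx T U (t, y)) (Icc 0 1) :=
    continuousOn_sec (contDiffOn_Sxx hT H).continuousOn ht
  have cφ : ContinuousOn (fun y => φ t y) (Icc 0 1) := continuousOn_sec H.smooth.continuousOn ht
  have hsub : Icc a b ⊆ Icc (0 : ℝ) 1 := Icc_subset_Icc ha.le hb
  have a7 : 0 < a ^ 7 * c ^ 2 := by positivity
  rw [le_div_iff₀ a7, ← intervalIntegral.integral_mul_const]
  calc ∫ x in a..b, Sxx T U (t, x) ^ 2 * (a ^ 7 * c ^ 2)
      ≤ ∫ x in a..b, x ^ 7 * (φ t x) ^ 2 * Sxx T U (t, x) ^ 2 := by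
        apply intervalIntegral.integral_mono_on hab
        · apply ContinuousOn.intervalIntegrable
          rw [uIcc_of_le hab]
          exact ((cS.mono hsub).pow 2).mul continuousOn_const
        · apply ContinuousOn.intervalIntegrable
          rw [uIcc_of_le hab]
          exact ((Continuous.continuousOn (by fun_prop)).mul ((cφ.mono hsub).pow 2)).mul
            ((cS.mono hsub).pow 2)
        · intro x hx
          have h1 : a ^ 7 ≤ x ^ 7 := pow_le_pow_left₀ ha.le hx.1 7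
          have h2 : c ^ 2 ≤ φ t x ^ 2 := pow_le_pow_left₀ hc.le (hφ x hx) 2
          have hx0 : 0 ≤ x ^ 7 := pow_nonneg (ha.le.trans hx.1) 7
          rw [mul_comm]
          (clear * - h1 h2 hc hx0; gcongr)
    _ ≤ Dcal 8 T U φ t := by
        unfold Dcal
        apply intervalIntegral.integral_mono_interval ha.le hab hb
        · rw [Filter.EventuallyLE, ae_restrict_iff' measurableSet_Ioc]
          exact Filter.Eventually.of_forall (fun y hy => by
            have := hy.1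
            simp only [Pi.zero_apply]
            (clear * - this; positivity))
        · apply ContinuousOn.intervalIntegrable
          rw [uIcc_of_le zero_le_one]
          exact ((Continuous.continuousOn (by fun_prop)).mul (cφ.pow 2)).mul (cS.pow 2)

/-- `∫_a^b S_x²`, interpolated. -/
theorem int_Sx_sq (hT : 0 < T) (H : IsFlowU 8 T U₀ U φ) {a b t : ℝ} (ha : 0 < a) (hab : a < b)
    (hb : b < 1) (ht : t ∈ Icc 0 T) :
    ∫ x in a..b, Sx T U (t, x) ^ 2 ≤ 72 / (b - a) ^ 2 * (∫ x in a..b, Sf T U (t, x) ^ 2)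
      + 2 * (b - a) ^ 2 * ∫ x in a..b, Sxx T U (t, x) ^ 2 := by
  have hsub : Icc a b ⊆ Icc (0 : ℝ) 1 := Icc_subset_Icc ha.le hb.le
  apply interp_sq hab (f := fun x => Sf T U (t, x)) (f1 := fun x => Sx T U (t, x))
    (f2 := fun x => Sxx T U (t, x))
  · intro x hx
    exact (hasDerivWithinAt_pdx (contDiffOn_Sf hT H) ht (hsub hx)).mono hsub
  · intro x hx
    exact (hasDerivWithinAt_pdx (contDiffOn_Sx hT H) ht (hsub hx)).mono hsub
  · exact (continuousOn_sec (contDiffOn_Sxx hT H).continuousOn ht).mono hsub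

end

/-- `H²` bound at every time on `[a,b] ⊂ (0,1)` (request of helper771). -/
theorem H2_bound {a b A : ℝ} (ha : 0 < a) (hab : a ≤ b) (hb : b < 1) (hA : 0 ≤ A) :
    ∃ C : ℝ, 0 ≤ C ∧ ∀ {T : ℝ} {U₀ : ℝ → ℝ} {U φ : ℝ → ℝ → ℝ}, 0 < T → IsFlowU 8 T U₀ U φ →
      E0 8 T U 0 ≤ A → ∀ t ∈ Icc 0 T,
        (∀ x ∈ Icc a b, |φ t x| ≤ C ∧ |dx T 1 (ph φ) (t, x)| ≤ C) ∧
        ∫ x in a..b, (φ t x ^ 2 + dx T 1 (ph φ) (t, x) ^ 2 + dx T 2 (ph φ) (t, x) ^ 2) ≤ C := by
  obtain ⟨C, hC, h⟩ := ptw_bound (a := a) ha hA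
  refine ⟨C + ((b - a) * (4 * C ^ 2) + 2 * (A / a ^ 7)), ?_, ?_⟩
  · have := sub_nonneg.2 hab
    (clear * - hC hab hA ha; positivity)
  intro T U₀ U φ hT H hE t ht
  have hb' : 0 ≤ (b - a) * (4 * C ^ 2) + 2 * (A / a ^ 7) := by
    have := sub_nonneg.2 hab
    (clear * - hab hA ha; positivity)
  have hpt := fun x (hx : x ∈ Icc a b) => h hT H hE t ht x ⟨hx.1, lt_of_le_of_lt hx.2 hb⟩
  refine ⟨fun x hx => ⟨by linarith only [(hpt x hx).1, hb'], by linarith [(hpt x hx).2.1, hb']⟩, ?_⟩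
  have hsub : Icc a b ⊆ Icc (0 : ℝ) 1 := Icc_subset_Icc ha.le hb.le
  have cS : ContinuousOn (fun y => Sf T U (t, y)) (Icc a b) :=
    (continuousOn_sec (contDiffOn_Sf hT H).continuousOn ht).mono hsub
  have c0 : ContinuousOn (fun x => φ t x) (Icc a b) := (cont_dx hT H.sφ 0 ht).mono hsub
  have c1 := (cont_dx hT H.sφ 1 ht).mono hsub
  have c2 := (cont_dx hT H.sφ 2 ht).mono hsub
  have i1 : IntervalIntegrable (fun x => φ t x ^ 2 + dx T 1 (ph φ) (t, x) ^ 2
      + dx T 2 (ph φ) (t, x) ^ 2) volume a b := by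
    apply ContinuousOn.intervalIntegrable
    rw [uIcc_of_le hab]
    exact ((c0.pow 2).add (c1.pow 2)).add (c2.pow 2)
  have i2 : IntervalIntegrable (fun x => Sf T U (t, x) ^ 2) volume a b := by
    apply ContinuousOn.intervalIntegrable
    rw [uIcc_of_le hab]
    exact cS.pow 2
  calc ∫ x in a..b, (φ t x ^ 2 + dx T 1 (ph φ) (t, x) ^ 2 + dx T 2 (ph φ) (t, x) ^ 2)
      ≤ ∫ x in a..b, (4 * C ^ 2 + 2 * Sf T U (t, x) ^ 2) := by
        apply intervalIntegral.integral_mono_on hab i1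
        · exact (intervalIntegrable_const).add (i2.const_mul 2)
        · intro x hx
          obtain ⟨h0, h1, h2, _⟩ := hpt x hx
          have s0 : φ t x ^ 2 ≤ C ^ 2 := by
            rw [← sq_abs]; exact pow_le_pow_left₀ (abs_nonneg _) h0 2
          have s1 : dx T 1 (ph φ) (t, x) ^ 2 ≤ C ^ 2 := by
            rw [← sq_abs]; exact pow_le_pow_left₀ (abs_nonneg _) h1 2
          have s2 : dx T 2 (ph φ) (t, x) ^ 2 ≤ 2 * C ^ 2 + 2 * Sf T U (t, x) ^ 2 := by
            rw [← sq_abs]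
            calc |dx T 2 (ph φ) (t, x)| ^ 2 ≤ (C + |Sf T U (t, x)|) ^ 2 :=
                  pow_le_pow_left₀ (abs_nonneg _) h2 2
              _ ≤ 2 * C ^ 2 + 2 * |Sf T U (t, x)| ^ 2 := by linarith only [sq_nonneg (C - |Sf T U (t, x)|)]
              _ = _ := by rw [sq_abs]
          linarith only [s0, s1, s2]
    _ = (b - a) * (4 * C ^ 2) + 2 * ∫ x in a..b, Sf T U (t, x) ^ 2 := by
        rw [intervalIntegral.integral_add intervalIntegrable_const (i2.const_mul 2),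
          intervalIntegral.integral_const, intervalIntegral.integral_const_mul, smul_eq_mul]
    _ ≤ (b - a) * (4 * C ^ 2) + 2 * (A / a ^ 7) := by
        have h1 := int_S_sq hT H ha hab hb.le ht
        have h2 := (E0_le (n := 8) (by norm_num) hT H ht).trans hE
        have h3 : E0 8 T U t / a ^ 7 ≤ A / a ^ 7 := by (clear * - h2 ha; gcongr)
        linarith only [h3, h1]
    _ ≤ _ := by linarith only [hC]

/-- Time-integrated `H³` bound on `[a,b] ⊂ (0,1)` where `φ ≥ c` (request of helper771). -/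
theorem H3_bound {a b A c : ℝ} (ha : 0 < a) (hab : a < b) (hb : b < 1) (hA : 0 ≤ A) (hc : 0 < c) :
    ∃ C : ℝ, 0 ≤ C ∧ ∀ {T : ℝ} {U₀ : ℝ → ℝ} {U φ : ℝ → ℝ → ℝ}, 0 < T → T ≤ 1 →
      IsFlowU 8 T U₀ U φ → E0 8 T U 0 ≤ A → (∀ t ∈ Icc 0 T, ∀ x ∈ Icc a b, c ≤ φ t x) →
        ∫ t in (0 : ℝ)..T, ∫ x in a..b, dx T 3 (ph φ) (t, x) ^ 2 ≤ C := by
  obtain ⟨C, hC, h⟩ := ptw_bound (a := a) ha hA
  set L := b - a with hL
  have hL0 : 0 < L := sub_pos.2 hab
  -- `J3² ≤ 3 C² + 3 C² S² + 3 S_x²`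
  refine ⟨3 * C ^ 2 * L + 3 * C ^ 2 * (A / a ^ 7) + 3 * (72 / L ^ 2 * (A / a ^ 7)
    + 2 * L ^ 2 * (A / 2 / (a ^ 7 * c ^ 2))), by (clear * - hab hA ha hc; positivity), ?_⟩
  intro T U₀ U φ hT hT1 H hE hφ
  have hsub : Icc a b ⊆ Icc (0 : ℝ) 1 := Icc_subset_Icc ha.le hb.le
  have hpw : ∀ t ∈ Icc 0 T, ∫ x in a..b, dx T 3 (ph φ) (t, x) ^ 2 ≤
      (3 * C ^ 2 * L + 3 * C ^ 2 * (A / a ^ 7) + 3 * (72 / L ^ 2 * (A / a ^ 7)))
        + 3 * (2 * L ^ 2 / (a ^ 7 * c ^ 2)) * Dcal 8 T U φ t := by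
    intro t ht
    have hpt := fun x (hx : x ∈ Icc a b) => h hT H hE t ht x ⟨hx.1, lt_of_le_of_lt hx.2 hb⟩
    have cS : ContinuousOn (fun y => Sf T U (t, y)) (Icc a b) :=
      (continuousOn_sec (contDiffOn_Sf hT H).continuousOn ht).mono hsub
    have cSx : ContinuousOn (fun y => Sx T U (t, y)) (Icc a b) :=
      (continuousOn_sec (contDiffOn_Sx hT H).continuousOn ht).mono hsub
    have c3 := (cont_dx hT H.sφ 3 ht).mono hsub
    have i1 : IntervalIntegrable (fun x => dx T 3 (ph φ) (t, x) ^ 2) volume a b := by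
      apply ContinuousOn.intervalIntegrable
      rw [uIcc_of_le hab.le]
      exact c3.pow 2
    have i2 : IntervalIntegrable (fun x => Sf T U (t, x) ^ 2) volume a b := by
      apply ContinuousOn.intervalIntegrable
      rw [uIcc_of_le hab.le]
      exact cS.pow 2
    have i3 : IntervalIntegrable (fun x => Sx T U (t, x) ^ 2) volume a b := by
      apply ContinuousOn.intervalIntegrable
      rw [uIcc_of_le hab.le]
      exact cSx.pow 2
    have hEt := (E0_le (n := 8) (by norm_num) hT H ht).trans hE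
    have k1 : ∫ x in a..b, Sf T U (t, x) ^ 2 ≤ A / a ^ 7 :=
      (int_S_sq hT H ha hab.le hb.le ht).trans (by (clear * - hEt ha; gcongr))
    have k2 := int_Sxx_sq hT H ha hab.le hb.le hc ht (hφ t ht)
    have k3 := int_Sx_sq hT H ha hab hb ht
    rw [← hL] at k3
    calc ∫ x in a..b, dx T 3 (ph φ) (t, x) ^ 2
        ≤ ∫ x in a..b, ((3 * C ^ 2 + 3 * C ^ 2 * Sf T U (t, x) ^ 2) + 3 * Sx T U (t, x) ^ 2) := by
          apply intervalIntegral.integral_mono_on hab.le i1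
          · exact ((intervalIntegrable_const).add (i2.const_mul _)).add (i3.const_mul _)
          · intro x hx
            obtain ⟨_, _, _, h3⟩ := hpt x hx
            rw [← sq_abs (dx T 3 (ph φ) (t, x))]
            calc |dx T 3 (ph φ) (t, x)| ^ 2 ≤ (C + C * |Sf T U (t, x)| + |Sx T U (t, x)|) ^ 2 :=
                  pow_le_pow_left₀ (abs_nonneg _) h3 2
              _ ≤ 3 * C ^ 2 + 3 * C ^ 2 * |Sf T U (t, x)| ^ 2 + 3 * |Sx T U (t, x)| ^ 2 := by
                  (by_contra nlg; linarith only [nlg, mul_nonneg (sq_nonneg (C * |Sf T U (t, x)| - |Sx T U (t, x)|)) (sq_nonneg (C * |Sf T U (t, x)| - |Sx T U (t, x)|)), mul_nonneg (sq_nonneg (C - |Sx T U (t, x)|)) (sq_nonneg (C * |Sf T U (t, x)| - |Sx T U (t, x)|)), mul_nonneg (sq_nonneg (C - |Sx T U (t, x)|)) (sq_nonneg (C - |Sx T U (t, x)|)), mul_nonneg (le_of_lt (sub_pos.2 (not_le.1 nlg))) (sq_nonneg (C * |Sf T U (t, x)| - |Sx T U (t, x)|)), mul_nonneg (le_of_lt (sub_pos.2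 (not_le.1 nlg))) (sq_nonneg (C - |Sx T U (t, x)|)), mul_pos (sub_pos.2 (not_le.1 nlg)) (sub_pos.2 (not_le.1 nlg))])
              _ = _ := by rw [sq_abs, sq_abs]
      _ = 3 * C ^ 2 * L + 3 * C ^ 2 * (∫ x in a..b, Sf T U (t, x) ^ 2)
          + 3 * ∫ x in a..b, Sx T U (t, x) ^ 2 := by
          rw [intervalIntegral.integral_add ((intervalIntegrable_const).add (i2.const_mul _))
            (i3.const_mul _),
            intervalIntegral.integral_add intervalIntegrable_const (i2.const_mul _),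
            intervalIntegral.integral_const, intervalIntegral.integral_const_mul,
            intervalIntegral.integral_const_mul, smul_eq_mul]
          ring
      _ ≤ 3 * C ^ 2 * L + 3 * C ^ 2 * (A / a ^ 7) + 3 * (72 / L ^ 2 * (A / a ^ 7)
          + 2 * L ^ 2 * (Dcal 8 T U φ t / (a ^ 7 * c ^ 2))) := by
          have : ∫ x in a..b, Sx T U (t, x) ^ 2 ≤ 72 / L ^ 2 * (A / a ^ 7)
              + 2 * L ^ 2 * (Dcal 8 T U φ t / (a ^ 7 * c ^ 2)) := by
            refine k3.trans ?_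
            (clear * - k1 hab k2; gcongr)
          (clear * - k1 this; gcongr)
      _ = _ := by ring
  have cI : ContinuousOn (fun t => ∫ x in a..b, dx T 3 (ph φ) (t, x) ^ 2) (Icc 0 T) := by
    apply continuousOn_integral isCompact_Icc hab.le (f := fun t x => dx T 3 (ph φ) (t, x) ^ 2)
    exact ((smooth_dx hT H.sφ 3).continuousOn.mono (prod_mono_right hsub)).pow 2
  set B := (3 * C ^ 2 * L + 3 * C ^ 2 * (A / a ^ 7) + 3 * (72 / L ^ 2 * (A / a ^ 7))) with hB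
  have hB0 : 0 ≤ B := by (clear * - hab hA ha; positivity)
  have cD := continuousOn_Dcal (n := 8) hT H
  have iD : IntervalIntegrable (Dcal 8 T U φ) volume 0 T := by
    apply ContinuousOn.intervalIntegrable
    rw [uIcc_of_le hT.le]; exact cD
  calc ∫ t in (0 : ℝ)..T, ∫ x in a..b, dx T 3 (ph φ) (t, x) ^ 2
      ≤ ∫ t in (0 : ℝ)..T, (B + 3 * (2 * L ^ 2 / (a ^ 7 * c ^ 2)) * Dcal 8 T U φ t) := by
        apply intervalIntegral.integral_mono_on hT.le
        · apply ContinuousOn.intervalIntegrable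
          rw [uIcc_of_le hT.le]; exact cI
        · exact intervalIntegrable_const.add (iD.const_mul _)
        · exact hpw
    _ = T * B + 3 * (2 * L ^ 2 / (a ^ 7 * c ^ 2)) * ((E0 8 T U 0 - E0 8 T U T) / 2) := by
        rw [intervalIntegral.integral_add intervalIntegrable_const (iD.const_mul _),
          intervalIntegral.integral_const, intervalIntegral.integral_const_mul, smul_eq_mul,
          integral_Dcal (n := 8) (by norm_num) hT H ⟨le_rfl, hT.le⟩ ⟨hT.le, le_rfl⟩ hT.le, sub_zero]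
    _ ≤ 1 * B + 3 * (2 * L ^ 2 / (a ^ 7 * c ^ 2)) * (A / 2) := by
        have : 0 ≤ E0 8 T U T := E0_nonneg
        gcongr
        linarith only [hE, this]
    _ = _ := by rw [hB]; ring


end P264.B
end
end

section

section

/-! # P264 / Geo / PInt : parameter integrals -/

open scoped ContDiff ComplexOrder Topology
open TopologicalSpace (Opens)
open MeasureTheory Set

noncomputable section

namespace P264.Geo

variable {m : ℕ}

/-- The part of the cone where `h` lies in a compact interval of `(0,∞)` stays in a compact set. -/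
theorem pint_shell {T : ℝ} {h : ℝ → Cm m → ℝ}
    (hs : ContDiffOn ℝ ∞ (fun p : ℝ × Cm m => h p.1 p.2) (Icc 0 T ×ˢ {Z | Z ≠ 0}))
    (hc : ∀ t ∈ Icc 0 T, IsCone m (h t)) {α : ℝ} (hα : 0 < α) (β : ℝ) :
    ∃ K : Set (Cm m), IsCompact K ∧ (∀ Z ∈ K, Z ≠ 0) ∧
      ∀ t ∈ Icc 0 T, ∀ Z, Z ≠ 0 → α ≤ h t Z → h t Z ≤ β → Z ∈ K := by
  set S : Set (ℝ × Cm m) := Icc 0 T ×ˢ Metric.sphere 0 1 with hS
  have hSc : IsCompact S := isCompact_Icc.prod (isCompact_sphere 0 1)
  have hsub : S ⊆ Icc 0 T ×ˢ {Z | Z ≠ 0} := by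
    rintro ⟨t, Z⟩ ⟨h1, h2⟩
    refine ⟨h1, ?_⟩
    rintro h3
    simp only at h3
    simp only [mem_sphere_iff_norm, sub_zero, h3, norm_zero] at h2
    exact zero_ne_one h2
  have hcont : ContinuousOn (fun p : ℝ × Cm m => h p.1 p.2) S := hs.continuousOn.mono hsub
  rcases S.eq_empty_or_nonempty with he | hne
  · refine ⟨∅, isCompact_empty, fun Z hZ => absurd hZ (notMem_empty Z), fun t ht Z hZ _ _ => ?_⟩
    exfalso
    have : (t, ((‖Z‖ : ℂ))⁻¹ • Z) ∈ S := by
      refine ⟨ht, ?_⟩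
      have hn : ‖Z‖ ≠ 0 := norm_ne_zero_iff.2 hZ
      simp only [mem_sphere_iff_norm, sub_zero, norm_smul, norm_inv, Complex.norm_real, norm_norm]
      exact inv_mul_cancel₀ hn
    rw [he] at this
    exact this
  obtain ⟨p, hp, hpm⟩ := hSc.exists_isMinOn hne hcont
  obtain ⟨q, hq, hqm⟩ := hSc.exists_isMaxOn hne hcont
  set a := h p.1 p.2 with ha
  set b := h q.1 q.2 with hb
  have ha0 : 0 < a := (hc p.1 hp.1).pos p.2 (hsub hp).2
  have hb0 : 0 < b := (hc q.1 hq.1).pos q.2 (hsub hq).2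
  have key : ∀ t ∈ Icc 0 T, ∀ Z : Cm m, Z ≠ 0 →
      a * ‖Z‖ ^ 2 ≤ h t Z ∧ h t Z ≤ b * ‖Z‖ ^ 2 := by
    intro t ht Z hZ
    have hn : ‖Z‖ ≠ 0 := norm_ne_zero_iff.2 hZ
    have hnc : (‖Z‖ : ℂ) ≠ 0 := by exact_mod_cast hn
    set W : Cm m := ((‖Z‖ : ℂ))⁻¹ • Z with hW
    have hWn : ‖W‖ = 1 := by
      rw [hW, norm_smul, norm_inv, Complex.norm_real, norm_norm]
      exact inv_mul_cancel₀ hn
    have hWS : (t, W) ∈ S := ⟨ht, by simp [hWn]⟩
    have hZW : Z = (‖Z‖ : ℂ) • W := by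
      rw [hW, smul_smul, mul_inv_cancel₀ hnc, one_smul]
    have hW0 : W ≠ 0 := by
      intro h0
      rw [h0, norm_zero] at hWn
      exact zero_ne_one hWn
    have h1 : h t Z = ‖Z‖ ^ 2 * h t W := by
      have := (hc t ht).homog (‖Z‖ : ℂ) W hW0 hnc
      rw [← hZW, Complex.norm_real, norm_norm] at this
      exact this
    have h2 : a ≤ h t W := hpm hWS
    have h3 : h t W ≤ b := hqm hWS
    have h4 : 0 ≤ ‖Z‖ ^ 2 := by positivity
    rw [h1]
    exact ⟨by rw [mul_comm]; exact mul_le_mul_of_nonneg_left h2 h4,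
      by rw [mul_comm b]; exact mul_le_mul_of_nonneg_left h3 h4⟩
  refine ⟨{Z | α / b ≤ ‖Z‖ ^ 2 ∧ ‖Z‖ ^ 2 ≤ β / a}, ?_, ?_, ?_⟩
  · have hcl : IsClosed {Z : Cm m | α / b ≤ ‖Z‖ ^ 2 ∧ ‖Z‖ ^ 2 ≤ β / a} :=
      IsClosed.inter (s₁ := {Z : Cm m | α / b ≤ ‖Z‖ ^ 2}) (s₂ := {Z : Cm m | ‖Z‖ ^ 2 ≤ β / a})
        (isClosed_le continuous_const (continuous_norm.pow 2))
        (isClosed_le (continuous_norm.pow 2) continuous_const)
    refine (isCompact_closedBall (0 : Cm m) (√(β / a))).of_isClosed_subset hcl ?_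
    intro Z hZ
    rw [mem_closedBall_zero_iff]
    exact Real.le_sqrt_of_sq_le hZ.2
  · rintro Z ⟨h1, -⟩ h0
    rw [h0, norm_zero] at h1
    have : 0 < α / b := div_pos hα hb0
    norm_num at h1
    linarith only [this, h1]
  · intro t ht Z hZ h1 h2
    obtain ⟨k1, k2⟩ := key t ht Z hZ
    refine ⟨?_, ?_⟩
    · rw [div_le_iff₀ hb0]; linarith only [h1, k2]
    · rw [le_div_iff₀ ha0]; linarith only [h2, k1]

theorem pint_ae (hm : 0 < m) : ∀ᵐ Z : Cm m ∂volume, Z ≠ 0 := by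
  have : Nonempty (Fin m) := ⟨⟨0, hm⟩⟩
  rw [ae_iff]
  simp only [ne_eq, not_not]
  have : {a : Cm m | a = 0} = {0} := by ext a; simp
  rw [this]
  exact measure_singleton 0

theorem pint_meas (hm : 0 < m) {f : Cm m → ℝ} (hf : ContinuousOn f {Z | Z ≠ 0}) :
    AEStronglyMeasurable f (volume : Measure (Cm m)) := by
  have h1 : AEStronglyMeasurable f ((volume : Measure (Cm m)).restrict {Z | Z ≠ 0}) :=
    hf.aestronglyMeasurable (isOpen_ne.measurableSet)
  have h2 : (volume : Measure (Cm m)).restrict {Z | Z ≠ 0} = volume :=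
    Measure.restrict_eq_self_of_ae_mem (pint_ae hm)
  rwa [h2] at h1

theorem pint_slice {T : ℝ} {f : ℝ → Cm m → ℝ}
    (hf : ContinuousOn (fun p : ℝ × Cm m => f p.1 p.2) (Icc 0 T ×ˢ {Z | Z ≠ 0})) {t : ℝ}
    (ht : t ∈ Icc 0 T) : ContinuousOn (f t) {Z | Z ≠ 0} := by
  have h1 : ContinuousOn (fun Z : Cm m => ((t, Z) : ℝ × Cm m)) {Z | Z ≠ 0} := by fun_prop
  exact hf.comp h1 fun Z hZ => ⟨ht, hZ⟩

theorem pint_slice' {T : ℝ} {f : ℝ → Cm m → ℝ}
    (hf : ContinuousOn (fun p : ℝ × Cm m => f p.1 p.2) (Icc 0 T ×ˢ {Z | Z ≠ 0})) {Z : Cm m}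
    (hZ : Z ≠ 0) : ContinuousOn (fun t => f t Z) (Icc 0 T) := by
  have h1 : ContinuousOn (fun t : ℝ => ((t, Z) : ℝ × Cm m)) (Icc 0 T) := by fun_prop
  exact hf.comp h1 fun t ht => ⟨ht, hZ⟩

/-- Parameter integrals with the cut-off `κ(h)`: continuity on `[0,T]`. -/
theorem paramInt_continuousOn (hm : 0 < m) {T : ℝ} {h : ℝ → Cm m → ℝ}
    (hs : ContDiffOn ℝ ∞ (fun p : ℝ × Cm m => h p.1 p.2) (Icc 0 T ×ˢ {Z | Z ≠ 0}))
    (hc : ∀ t ∈ Icc 0 T, IsCone m (h t)) {κ : ℝ → ℝ} (hκ : IsCut κ) (g : ℝ → Cm m → ℝ)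
    (hg : ContDiffOn ℝ ∞ (fun p : ℝ × Cm m => g p.1 p.2) (Icc 0 T ×ˢ {Z | Z ≠ 0})) :
    ContinuousOn (fun t => ∫ Z, κ (h t Z) * g t Z) (Icc 0 T) := by
  obtain ⟨α, β, hα, hsupp⟩ := hκ.supp
  obtain ⟨K, hK, hK0, hKm⟩ := pint_shell hs hc hα β
  have hG : ContinuousOn (fun p : ℝ × Cm m => κ (h p.1 p.2) * g p.1 p.2)
      (Icc 0 T ×ˢ {Z | Z ≠ 0}) :=
    (hκ.smooth.continuous.comp_continuousOn hs.continuousOn).mul hg.continuousOn
  obtain ⟨B, hB⟩ := (isCompact_Icc (a := (0 : ℝ)) (b := T)).prod hK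
    |>.exists_bound_of_continuousOn (hG.mono (prod_mono_right fun Z hZ => hK0 Z hZ))
  refine continuousOn_of_dominated (bound := K.indicator fun _ => B) ?_ ?_ ?_ ?_
  · intro t ht
    exact pint_meas hm (pint_slice (f := fun t Z => κ (h t Z) * g t Z) hG ht)
  · intro t ht
    filter_upwards [pint_ae hm] with Z hZ
    by_cases hZK : Z ∈ K
    · rw [indicator_of_mem hZK]
      exact hB (t, Z) ⟨ht, hZK⟩
    · rw [indicator_of_notMem hZK]
      have : κ (h t Z) = 0 := by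
        by_contra hne
        obtain ⟨h1, h2⟩ := hsupp _ hne
        exact hZK (hKm t ht Z hZ h1 h2)
      rw [this, zero_mul, norm_zero]
  · rw [integrable_indicator_iff hK.measurableSet]
    exact integrableOn_const hK.measure_lt_top.ne
  · filter_upwards [pint_ae hm] with Z hZ
    exact pint_slice' (f := fun t Z => κ (h t Z) * g t Z) hG hZ

theorem pint_deriv {T : ℝ} {f : ℝ → Cm m → ℝ}
    (hf : ContDiffOn ℝ ∞ (fun p : ℝ × Cm m => f p.1 p.2) (Icc 0 T ×ˢ {Z | Z ≠ 0})) :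
    (∀ t ∈ Ioo 0 T, ∀ Z, Z ≠ 0 → HasDerivAt (fun s => f s Z) (deriv (fun s => f s Z) t) t) ∧
      ContinuousOn (fun p : ℝ × Cm m => deriv (fun s => f s p.2) p.1)
        (Ioo 0 T ×ˢ {Z | Z ≠ 0}) := by
  have hopen : IsOpen ((Ioo 0 T ×ˢ {Z | Z ≠ 0} : Set (ℝ × Cm m))) := isOpen_Ioo.prod isOpen_ne
  have hf' : ContDiffOn ℝ ∞ (fun p : ℝ × Cm m => f p.1 p.2) (Ioo 0 T ×ˢ {Z | Z ≠ 0}) :=
    hf.mono (prod_mono_left Ioo_subset_Icc_self)
  have hd : ∀ t ∈ Ioo 0 T, ∀ Z : Cm m, Z ≠ 0 → HasDerivAt (fun s => f s Z)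
      (fderiv ℝ (fun p : ℝ × Cm m => f p.1 p.2) (t, Z) (1, 0)) t := by
    intro t ht Z hZ
    have h1 : DifferentiableAt ℝ (fun p : ℝ × Cm m => f p.1 p.2) (t, Z) :=
      (hf'.contDiffAt (hopen.mem_nhds (show (t, Z) ∈ Ioo 0 T ×ˢ {Z : Cm m | Z ≠ 0} from
        ⟨ht, hZ⟩))).differentiableAt (by simp)
    have h2 : HasDerivAt (fun s : ℝ => ((s, Z) : ℝ × Cm m)) ((1 : ℝ), (0 : Cm m)) t :=
      (hasDerivAt_id t).prodMk (hasDerivAt_const t Z)
    exact h1.hasFDerivAt.comp_hasDerivAt t h2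
  refine ⟨fun t ht Z hZ => (hd t ht Z hZ).differentiableAt.hasDerivAt, ?_⟩
  have h3 : ContinuousOn (fun p : ℝ × Cm m =>
      fderiv ℝ (fun p : ℝ × Cm m => f p.1 p.2) p (1, 0)) (Ioo 0 T ×ˢ {Z | Z ≠ 0}) :=
    ((hf'.fderiv_of_isOpen hopen (m := ∞) (by simp)).continuousOn).clm_apply continuousOn_const
  refine h3.congr ?_
  rintro ⟨t, Z⟩ ⟨ht, hZ⟩
  exact (hd t ht Z hZ).deriv

/-- Parameter integrals with the cut-off `κ(h)`: derivative in the interior. -/
theorem paramInt_hasDerivAt (hm : 0 < m) {T : ℝ} {h : ℝ → Cm m → ℝ}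
    (hs : ContDiffOn ℝ ∞ (fun p : ℝ × Cm m => h p.1 p.2) (Icc 0 T ×ˢ {Z | Z ≠ 0}))
    (hc : ∀ t ∈ Icc 0 T, IsCone m (h t)) {κ : ℝ → ℝ} (hκ : IsCut κ) (g : ℝ → Cm m → ℝ)
    (hg : ContDiffOn ℝ ∞ (fun p : ℝ × Cm m => g p.1 p.2) (Icc 0 T ×ˢ {Z | Z ≠ 0}))
    {t : ℝ} (ht : t ∈ Ioo 0 T) :
    HasDerivAt (fun t => ∫ Z, κ (h t Z) * g t Z)
      (∫ Z, (deriv κ (h t Z) * deriv (fun s => h s Z) t * g t Z
        + κ (h t Z) * deriv (fun s => g s Z) t)) t := by
  obtain ⟨α, β, hα, hsupp⟩ := hκ.supp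
  obtain ⟨K, hK, hK0, hKm⟩ := pint_shell hs hc hα β
  have hκd : ∀ x, deriv κ x ≠ 0 → α ≤ x ∧ x ≤ β := by
    intro x hx
    by_contra hno
    have h1 : x ∈ (Icc α β)ᶜ := fun h2 => hno h2
    have h2 : κ =ᶠ[𝓝 x] fun _ => 0 := by
      filter_upwards [isClosed_Icc.isOpen_compl.mem_nhds h1] with y hy
      by_contra h3
      exact hy (hsupp y h3)
    rw [h2.deriv_eq, deriv_const] at hx
    exact hx rfl
  obtain ⟨hh1, hh2⟩ := pint_deriv hs
  obtain ⟨hg1, hg2⟩ := pint_deriv hg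
  -- a compact neighbourhood of `t`
  obtain ⟨u, v, htuv, hnhds, huv⟩ : ∃ u v : ℝ, t ∈ Icc u v ∧ Icc u v ∈ 𝓝 t ∧
      Icc u v ⊆ Ioo 0 T := by
    refine ⟨t / 2, (t + T) / 2, ⟨by linarith only [ht.1], by linarith only [ht.2]⟩,
      Icc_mem_nhds (by linarith only [ht.1]) (by linarith only [ht.2]), ?_⟩
    intro s hs
    exact ⟨by linarith only [hs.1, ht.1], by linarith only [hs.2, ht.2]⟩
  have hG : ContinuousOn (fun p : ℝ × Cm m => κ (h p.1 p.2) * g p.1 p.2)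
      (Icc 0 T ×ˢ {Z | Z ≠ 0}) :=
    (hκ.smooth.continuous.comp_continuousOn hs.continuousOn).mul hg.continuousOn
  have hsubset : (Ioo 0 T ×ˢ {Z : Cm m | Z ≠ 0}) ⊆ (Icc 0 T ×ˢ {Z : Cm m | Z ≠ 0}) :=
    prod_mono_left Ioo_subset_Icc_self
  have hdκ : Continuous (deriv κ) := hκ.smooth.continuous_deriv (by simp only [WithTop.one_le_coe, le_top])
  have hG' : ContinuousOn (fun p : ℝ × Cm m =>
      deriv κ (h p.1 p.2) * deriv (fun s => h s p.2) p.1 * g p.1 p.2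
        + κ (h p.1 p.2) * deriv (fun s => g s p.2) p.1) (Ioo 0 T ×ˢ {Z | Z ≠ 0}) :=
    (((hdκ.comp_continuousOn (hs.continuousOn.mono hsubset)).mul hh2).mul
      (hg.continuousOn.mono hsubset)).add
      ((hκ.smooth.continuous.comp_continuousOn (hs.continuousOn.mono hsubset)).mul hg2)
  obtain ⟨B, hB⟩ := (isCompact_Icc (a := u) (b := v)).prod hK
    |>.exists_bound_of_continuousOn (hG'.mono (prod_mono huv fun Z hZ => hK0 Z hZ))
  obtain ⟨B', hB'⟩ := hK.exists_bound_of_continuousOn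
    ((pint_slice (f := fun t Z => κ (h t Z) * g t Z) hG (Ioo_subset_Icc_self ht)).mono
      fun Z hZ => hK0 Z hZ)
  have hint : ∀ c : ℝ, Integrable (K.indicator fun _ => c) (volume : Measure (Cm m)) := by
    intro c
    rw [integrable_indicator_iff hK.measurableSet]
    exact integrableOn_const hK.measure_lt_top.ne
  have hmeas : ∀ s ∈ Icc 0 T, AEStronglyMeasurable (fun Z => κ (h s Z) * g s Z)
      (volume : Measure (Cm m)) := fun s hs' =>
    pint_meas hm (pint_slice (f := fun t Z => κ (h t Z) * g t Z) hG hs')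
  refine (hasDerivAt_integral_of_dominated_loc_of_deriv_le
    (F := fun s Z => κ (h s Z) * g s Z)
    (F' := fun s Z => deriv κ (h s Z) * deriv (fun s => h s Z) s * g s Z
        + κ (h s Z) * deriv (fun s => g s Z) s)
    (bound := K.indicator fun _ => B) hnhds ?_ ?_ ?_ ?_ (hint B) ?_).2
  · filter_upwards [hnhds] with s hs'
    exact hmeas s (Ioo_subset_Icc_self (huv hs'))
  · refine (hint B').mono' (hmeas t (Ioo_subset_Icc_self ht)) ?_
    filter_upwards [pint_ae hm] with Z hZ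
    by_cases hZK : Z ∈ K
    · rw [indicator_of_mem hZK]
      exact hB' Z hZK
    · rw [indicator_of_notMem hZK]
      have : κ (h t Z) = 0 := by
        by_contra hne
        obtain ⟨h1, h2⟩ := hsupp _ hne
        exact hZK (hKm t (Ioo_subset_Icc_self ht) Z hZ h1 h2)
      rw [this, zero_mul, norm_zero]
  · refine pint_meas hm ?_
    have h1 : ContinuousOn (fun Z : Cm m => ((t, Z) : ℝ × Cm m)) {Z | Z ≠ 0} := by fun_prop
    exact hG'.comp h1 fun Z hZ => ⟨ht, hZ⟩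
  · filter_upwards [pint_ae hm] with Z hZ s hs'
    by_cases hZK : Z ∈ K
    · rw [indicator_of_mem hZK]
      exact hB (s, Z) ⟨hs', hZK⟩
    · rw [indicator_of_notMem hZK]
      have hsT := Ioo_subset_Icc_self (huv hs')
      have e1 : κ (h s Z) = 0 := by
        by_contra hne
        obtain ⟨h1, h2⟩ := hsupp _ hne
        exact hZK (hKm s hsT Z hZ h1 h2)
      have e2 : deriv κ (h s Z) = 0 := by
        by_contra hne
        obtain ⟨h1, h2⟩ := hκd _ hne
        exact hZK (hKm s hsT Z hZ h1 h2)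
      rw [e1, e2, zero_mul, zero_mul, zero_mul, add_zero, norm_zero]
  · filter_upwards [pint_ae hm] with Z hZ s hs'
    have d1 := hh1 s (huv hs') Z hZ
    have d2 := hg1 s (huv hs') Z hZ
    have d3 : HasDerivAt κ (deriv κ (h s Z)) (h s Z) :=
      (hκ.smooth.differentiable (by simp) _).hasDerivAt
    exact (d3.comp s d1).mul d2

end P264.Geo

end
end
end

section

section

/-!
# P264 / B / Near / Pull : pulling back functions that are smooth on the closed rectangle to the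
self-similar variables `(s,z)`, with a cut-off at `x = X < 1` (helper602)
-/

open MeasureTheory Set Filter Real
open scoped ContDiff Topology

namespace P264.B.NNd

/-- Smooth on `[0,T] × [0,1]` and zero for `x ≥ X`. -/
structure Cut (T X : ℝ) (N : ℝ × ℝ → ℝ) : Prop where
  smooth : ContDiffOn ℝ ∞ N (rect T)
  zero : ∀ t ∈ Icc (0 : ℝ) T, ∀ x, X ≤ x → N (t, x) = 0

/-- Euler operator `x ∂ₓ` (zero for `x ≥ 1`). -/
noncomputable def EE (T : ℝ) (N : ℝ × ℝ → ℝ) (p : ℝ × ℝ) : ℝ :=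
  if p.2 < 1 then p.2 * px T N p else 0

/-- `∂ₜ` (zero for `x ≥ 1`). -/
noncomputable def DD (T : ℝ) (N : ℝ × ℝ → ℝ) (p : ℝ × ℝ) : ℝ :=
  if p.2 < 1 then pt T N p else 0

/-- multiplication by `x` -/
def XM (N : ℝ × ℝ → ℝ) (p : ℝ × ℝ) : ℝ := p.2 * N p

/-- `F(T - e^{-s}, e^{z-s/2})` -/
noncomputable def pull (T : ℝ) (N : ℝ × ℝ → ℝ) (s z : ℝ) : ℝ := N (tt T s, xx s z)

variable {T X : ℝ} {N : ℝ × ℝ → ℝ}

theorem tt_mem {s : ℝ} (hs : exp (-s) ≤ T) : tt T s ∈ Icc 0 T :=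
  ⟨by unfold tt; linarith, by unfold tt; linarith [exp_pos (-s)]⟩

theorem xx_pos (s z : ℝ) : 0 < xx s z := exp_pos _

theorem xx_anti {s s' : ℝ} (h : s ≤ s') (z : ℝ) : xx s' z ≤ xx s z :=
  exp_le_exp.mpr (by linarith only [h])

theorem pos_of_exp_le {s : ℝ} (hs : exp (-s) ≤ T) : 0 < T := (exp_pos _).trans_le hs

theorem exp_mono {s s' : ℝ} (hs : exp (-s) ≤ T) (h : s ≤ s') : exp (-s') ≤ T :=
  (exp_le_exp.mpr (by linarith only [h])).trans hs

theorem Cut.px_zero (h : Cut T X N) (hX1 : X < 1) (hX0 : 0 < X) {t x : ℝ}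
    (ht : t ∈ Icc 0 T) (hx : X ≤ x) (hx1 : x ≤ 1) : px T N (t, x) = 0 := by
  have h1 := hasDerivWithinAt_px h.smooth ht (x := x) ⟨hX0.le.trans hx, hx1⟩
  have h2 : HasDerivWithinAt (fun y => N (t, y)) (px T N (t, x)) (Icc X 1) x :=
    h1.mono (Icc_subset_Icc_left hX0.le)
  have h3 : HasDerivWithinAt (fun y => N (t, y)) 0 (Icc X 1) x := by
    refine (hasDerivWithinAt_const x (Icc X 1) (0 : ℝ)).congr_of_mem ?_ ⟨hx, hx1⟩
    intro y hy
    exact h.zero t ht y hy.1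
  exact (uniqueDiffOn_Icc hX1 x ⟨hx, hx1⟩).eq_deriv _ h2 h3

theorem Cut.pt_zero (h : Cut T X N) (hT : 0 < T) (hX0 : 0 < X) {t x : ℝ}
    (ht : t ∈ Icc 0 T) (hx : X ≤ x) (hx1 : x ≤ 1) : pt T N (t, x) = 0 := by
  have h1 := hasDerivWithinAt_pt h.smooth ht (x := x) ⟨hX0.le.trans hx, hx1⟩
  have h3 : HasDerivWithinAt (fun y => N (y, x)) 0 (Icc 0 T) t := by
    refine (hasDerivWithinAt_const t (Icc 0 T) (0 : ℝ)).congr_of_mem ?_ ht
    intro y hy
    exact h.zero y hy x hx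
  exact (uniqueDiffOn_Icc hT t ht).eq_deriv _ h1 h3

theorem Cut.EE_eq (h : Cut T X N) (hX1 : X < 1) (hX0 : 0 < X) {p : ℝ × ℝ} (hp : p ∈ rect T) :
    EE T N p = p.2 * px T N p := by
  unfold EE
  split_ifs with h1
  · rfl
  · rw [not_lt] at h1
    obtain ⟨t, x⟩ := p
    rw [h.px_zero hX1 hX0 hp.1 (hX1.le.trans h1) hp.2.2, mul_zero]

theorem Cut.DD_eq (h : Cut T X N) (hT : 0 < T) (hX1 : X < 1) (hX0 : 0 < X) {p : ℝ × ℝ}
    (hp : p ∈ rect T) : DD T N p = pt T N p := by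
  unfold DD
  split_ifs with h1
  · rfl
  · rw [not_lt] at h1
    obtain ⟨t, x⟩ := p
    rw [h.pt_zero hT hX0 hp.1 (hX1.le.trans h1) hp.2.2]

theorem Cut.EE (h : Cut T X N) (hT : 0 < T) (hX1 : X < 1) (hX0 : 0 < X) :
    Cut T X (EE T N) where
  smooth := by
    refine ContDiffOn.congr (contDiffOn_snd.mul (contDiffOn_px hT h.smooth)) fun p hp => ?_
    exact h.EE_eq hX1 hX0 hp
  zero := by
    intro t ht x hx
    unfold P264.B.NNd.EE
    split_ifs with h1
    · rw [h.px_zero hX1 hX0 ht hx (le_of_lt h1), mul_zero]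
    · rfl

theorem Cut.DD (h : Cut T X N) (hT : 0 < T) (hX1 : X < 1) (hX0 : 0 < X) :
    Cut T X (DD T N) where
  smooth := (contDiffOn_pt hT h.smooth).congr fun p hp => h.DD_eq hT hX1 hX0 hp
  zero := by
    intro t ht x hx
    unfold P264.B.NNd.DD
    split_ifs with h1
    · rw [h.pt_zero hT hX0 ht hx (le_of_lt h1)]
    · rfl

theorem Cut.XM (h : Cut T X N) : Cut T X (XM N) where
  smooth := contDiffOn_snd.mul h.smooth
  zero := by
    intro t ht x hx
    change x * N (t, x) = 0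
    rw [h.zero t ht x hx, mul_zero]

/-- the cut-off itself -/
theorem _root_.P264.B.Cutoff.cut {χ : ℝ → ℝ} (h : Cutoff χ X) (T : ℝ) : Cut T X (fun p => χ p.2) where
  smooth := (h.smooth.comp contDiff_snd).contDiffOn
  zero := fun _ _ x hx => h.zero x hx

/-- cut-off times smooth -/
theorem _root_.P264.B.Cutoff.mul_cut {χ : ℝ → ℝ} (h : Cutoff χ X) {k : ℝ × ℝ → ℝ}
    (hk : ContDiffOn ℝ ∞ k (rect T)) : Cut T X (fun p => χ p.2 * k p) where
  smooth := (h.smooth.comp contDiff_snd).contDiffOn.mul hk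
  zero := by
    intro t _ x hx
    simp only [h.zero x hx, zero_mul]

/-! ### derivatives of the pull-back -/

theorem hasDerivAt_xx_z (s z : ℝ) : HasDerivAt (fun z => xx s z) (xx s z) z := by
  have : HasDerivAt (fun z : ℝ => z - s / 2) 1 z := (hasDerivAt_id z).sub_const _
  exact this.exp.congr_deriv (mul_one _)

theorem hasDerivAt_xx_s (s z : ℝ) : HasDerivAt (fun s => xx s z) (-(1 / 2) * xx s z) s := by
  have : HasDerivAt (fun s : ℝ => z - s / 2) (-(1 / 2)) s := by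
    have := ((hasDerivAt_id s).div_const 2).const_sub z
    simpa only [one_div, id_eq] using this
  have := this.exp
  rw [mul_comm] at this
  exact this

theorem hasDerivAt_tt (T s : ℝ) : HasDerivAt (fun s => tt T s) (exp (-s)) s := by
  have h0 : HasDerivAt (fun s : ℝ => -s) (-1) s := (hasDerivAt_id s).neg
  exact (h0.exp.const_sub T).congr_deriv (by ring)

theorem Cut.pull_z (h : Cut T X N) (hX1 : X < 1) {s : ℝ} (hs : exp (-s) ≤ T)
    (z : ℝ) : HasDerivAt (fun z => pull T N s z) (pull T (P264.B.NNd.EE T N) s z) z := by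
  have ht := tt_mem hs
  rcases lt_or_ge (xx s z) 1 with hx | hx
  · have h1 := hasDerivAt_px h.smooth (by simp only [WithTop.one_le_coe, le_top]) ht (x := xx s z) ⟨xx_pos s z, hx⟩
    have h2 := h1.comp z (hasDerivAt_xx_z s z)
    have e : pull T (P264.B.NNd.EE T N) s z = px T N (tt T s, xx s z) * xx s z := by
      simp only [pull, P264.B.NNd.EE, hx, if_true]
      ring
    rw [e]
    exact h2
  · have hc : Continuous (fun z => xx s z) := by unfold xx; fun_prop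
    have hev : (fun z => pull T N s z) =ᶠ[𝓝 z] fun _ => 0 := by
      have : ∀ᶠ y in 𝓝 z, X < xx s y := hc.continuousAt.eventually (lt_mem_nhds (hX1.trans_le hx))
      filter_upwards [this] with y hy
      exact h.zero _ ht _ hy.le
    have e : pull T (P264.B.NNd.EE T N) s z = 0 := by
      simp only [pull, P264.B.NNd.EE, not_lt.mpr hx, if_false]
    rw [e]
    exact (hasDerivAt_const z (0 : ℝ)).congr_of_eventuallyEq hev

theorem Cut.pull_s (h : Cut T X N) (hX1 : X < 1) {s : ℝ} (hs : exp (-s) ≤ T)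
    (z : ℝ) : HasDerivWithinAt (fun s => pull T N s z)
      (exp (-s) * pull T (P264.B.NNd.DD T N) s z - 1 / 2 * pull T (P264.B.NNd.EE T N) s z) (Ici s) s := by
  have ht := tt_mem hs
  have hT := pos_of_exp_le hs
  rcases lt_or_ge (xx s z) 1 with hx | hx
  · have hp : ((tt T s, xx s z) : ℝ × ℝ) ∈ rect T := ⟨ht, (xx_pos s z).le, hx.le⟩
    have h1 := hasFDerivWithinAt_rect h.smooth (by simp only [WithTop.one_le_coe, le_top]) hp
    have h2 : HasDerivWithinAt (fun s => ((tt T s, xx s z) : ℝ × ℝ))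
        (exp (-s), -(1 / 2) * xx s z) (Ici s) s :=
      (hasDerivAt_tt T s).hasDerivWithinAt.prodMk (hasDerivAt_xx_s s z).hasDerivWithinAt
    have h3 : MapsTo (fun s => ((tt T s, xx s z) : ℝ × ℝ)) (Ici s) (rect T) := by
      intro s' hs'
      exact ⟨tt_mem (exp_mono hs hs'), (xx_pos s' z).le, ((xx_anti hs' z).trans_lt hx).le⟩
    have h4 := h1.comp_hasDerivWithinAt s h2 h3
    have e : exp (-s) * pull T (P264.B.NNd.DD T N) s z - 1 / 2 * pull T (P264.B.NNd.EE T N) s z =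
        (pt T N (tt T s, xx s z) • ContinuousLinearMap.fst ℝ ℝ ℝ +
          px T N (tt T s, xx s z) • ContinuousLinearMap.snd ℝ ℝ ℝ)
          (exp (-s), -(1 / 2) * xx s z) := by
      simp only [pull, P264.B.NNd.EE, P264.B.NNd.DD, hx, if_true, _root_.add_apply, _root_.smul_apply,
        ContinuousLinearMap.coe_fst', ContinuousLinearMap.coe_snd', smul_eq_mul]
      ring
    rw [e]
    exact h4
  · have hc : Continuous (fun s => xx s z) := by unfold xx; fun_prop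
    have hev : (fun s => pull T N s z) =ᶠ[𝓝[Ici s] s] fun _ => 0 := by
      have : ∀ᶠ s' in 𝓝[Ici s] s, X < xx s' z :=
        (hc.continuousAt.eventually (lt_mem_nhds (hX1.trans_le hx))).filter_mono nhdsWithin_le_nhds
      filter_upwards [this, self_mem_nhdsWithin] with s' hy hs'
      exact h.zero _ (tt_mem (exp_mono hs hs')) _ hy.le
    have e : exp (-s) * pull T (P264.B.NNd.DD T N) s z - 1 / 2 * pull T (P264.B.NNd.EE T N) s z = 0 := by
      simp only [pull, P264.B.NNd.EE, P264.B.NNd.DD, not_lt.mpr hx, if_false]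
      ring
    rw [e]
    exact (hasDerivWithinAt_const s (Ici s) (0 : ℝ)).congr_of_eventuallyEq_of_mem hev
      self_mem_Ici

/-! ### bounds -/

theorem Cut.bound (h : Cut T X N) (hX1 : X < 1) :
    ∃ C : ℝ, 0 ≤ C ∧ ∀ s, exp (-s) ≤ T → ∀ z, |pull T N s z| ≤ C := by
  obtain ⟨C, hC, hb⟩ := bounded_rect h.smooth.continuousOn
  refine ⟨C, hC, fun s hs z => ?_⟩
  rcases le_or_gt (xx s z) 1 with hx | hx
  · exact hb _ ⟨tt_mem hs, (xx_pos s z).le, hx⟩
  · unfold pull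
    rw [h.zero _ (tt_mem hs) _ (hX1.le.trans hx.le)]
    simpa only [abs_zero] using hC

theorem Cut.bound_XM (h : Cut T X N) (hX1 : X < 1) :
    ∃ C : ℝ, 0 ≤ C ∧ ∀ s, exp (-s) ≤ T → ∀ z, |pull T (P264.B.NNd.XM N) s z| ≤ C * xx s z := by
  obtain ⟨C, hC, hb⟩ := h.bound hX1
  refine ⟨C, hC, fun s hs z => ?_⟩
  have : pull T (P264.B.NNd.XM N) s z = xx s z * pull T N s z := rfl
  rw [this, abs_mul, abs_of_pos (xx_pos s z), mul_comm]
  exact mul_le_mul_of_nonneg_right (hb s hs z) (xx_pos s z).le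

theorem Cut.bound_EE (h : Cut T X N) (hT : 0 < T) (hX1 : X < 1) (hX0 : 0 < X) :
    ∃ C : ℝ, 0 ≤ C ∧ ∀ s, exp (-s) ≤ T → ∀ z, |pull T (P264.B.NNd.EE T N) s z| ≤ C * xx s z := by
  obtain ⟨C, hC, hb⟩ := bounded_rect (contDiffOn_px hT h.smooth).continuousOn
  refine ⟨C, hC, fun s hs z => ?_⟩
  unfold pull
  rcases lt_or_ge (xx s z) 1 with hx | hx
  · have hp : ((tt T s, xx s z) : ℝ × ℝ) ∈ rect T := ⟨tt_mem hs, (xx_pos s z).le, hx.le⟩
    rw [h.EE_eq hX1 hX0 hp, abs_mul, abs_of_pos (xx_pos s z), mul_comm]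
    exact mul_le_mul_of_nonneg_right (hb _ hp) (xx_pos s z).le
  · rw [(h.EE hT hX1 hX0).zero _ (tt_mem hs) _ (hX1.le.trans hx)]
    rw [abs_zero]
    exact mul_nonneg hC (xx_pos s z).le

/-! ### algebra of the operators -/

theorem Cut.EE_XM (h : Cut T X N) (hX1 : X < 1) (hX0 : 0 < X) {p : ℝ × ℝ} (hp : p ∈ rect T) :
    P264.B.NNd.EE T (P264.B.NNd.XM N) p = p.2 * (N p + P264.B.NNd.EE T N p) := by
  rw [h.XM.EE_eq hX1 hX0 hp, h.EE_eq hX1 hX0 hp]
  obtain ⟨t, x⟩ := p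
  have h1 : HasDerivWithinAt (fun y => P264.B.NNd.XM N (t, y)) (N (t, x) + x * px T N (t, x))
      (Icc 0 1) x := by
    exact ((hasDerivWithinAt_id x (Icc (0 : ℝ) 1)).fun_mul
      (hasDerivWithinAt_px h.smooth hp.1 hp.2)).congr_deriv (by simp)
  rw [px_eq_of_hasDerivWithinAt h.XM.smooth (by simp only [WithTop.one_le_coe, le_top]) hp.1 hp.2 h1]

theorem Cut.DD_XM (h : Cut T X N) (hT : 0 < T) (hX1 : X < 1) (hX0 : 0 < X) {p : ℝ × ℝ}
    (hp : p ∈ rect T) : P264.B.NNd.DD T (P264.B.NNd.XM N) p = p.2 * P264.B.NNd.DD T N p := by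
  rw [h.XM.DD_eq hT hX1 hX0 hp, h.DD_eq hT hX1 hX0 hp]
  obtain ⟨t, x⟩ := p
  have h1 : HasDerivWithinAt (fun y => P264.B.NNd.XM N (y, x)) (x * pt T N (t, x))
      (Icc 0 T) t :=
    (hasDerivWithinAt_pt h.smooth hp.1 hp.2).const_mul x
  rw [pt_eq_of_hasDerivWithinAt hT h.XM.smooth (by simp only [WithTop.one_le_coe, le_top]) hp.1 hp.2 h1]

theorem px_congr {F G : ℝ × ℝ → ℝ} (h : ∀ p ∈ rect T, F p = G p) {p : ℝ × ℝ} (hp : p ∈ rect T) :
    px T F p = px T G p := by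
  unfold px
  rw [fderivWithin_congr h (h p hp)]

theorem pt_congr {F G : ℝ × ℝ → ℝ} (h : ∀ p ∈ rect T, F p = G p) {p : ℝ × ℝ} (hp : p ∈ rect T) :
    pt T F p = pt T G p := by
  unfold pt
  rw [fderivWithin_congr h (h p hp)]

theorem Cut.DD_EE (h : Cut T X N) (hT : 0 < T) (hX1 : X < 1) (hX0 : 0 < X) {p : ℝ × ℝ}
    (hp : p ∈ rect T) :
    P264.B.NNd.DD T (P264.B.NNd.EE T N) p = P264.B.NNd.EE T (P264.B.NNd.DD T N) p := by
  rw [(h.EE hT hX1 hX0).DD_eq hT hX1 hX0 hp, (h.DD hT hX1 hX0).EE_eq hX1 hX0 hp,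
    pt_congr (G := fun p => p.2 * px T N p) (fun q hq => h.EE_eq hX1 hX0 hq) hp,
    px_congr (G := pt T N) (fun q hq => h.DD_eq hT hX1 hX0 hq) hp, px_pt_comm hT h.smooth hp]
  have hp' := hp
  obtain ⟨t, x⟩ := p
  have h1 : HasDerivWithinAt (fun y => ((fun p : ℝ × ℝ => p.2 * px T N p) (y, x)))
      (x * pt T (px T N) (t, x)) (Icc 0 T) t :=
    (hasDerivWithinAt_pt (contDiffOn_px hT h.smooth) hp'.1 hp'.2).const_mul x
  exact pt_eq_of_hasDerivWithinAt (F := fun p => p.2 * px T N p) hT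
    (contDiffOn_snd.mul (contDiffOn_px hT h.smooth)) (n := ∞) (by simp only [WithTop.one_le_coe, le_top]) hp'.1 hp'.2 h1

theorem pull_congr {M : ℝ × ℝ → ℝ} (h : Cut T X N) (h' : Cut T X M) (hX1 : X < 1)
    (he : ∀ p ∈ rect T, N p = M p) {s : ℝ} (hs : exp (-s) ≤ T) (z : ℝ) :
    pull T N s z = pull T M s z := by
  unfold pull
  rcases le_or_gt (xx s z) 1 with hx | hx
  · exact he _ ⟨tt_mem hs, (xx_pos s z).le, hx⟩
  · rw [h.zero _ (tt_mem hs) _ (hX1.le.trans hx.le), h'.zero _ (tt_mem hs) _ (hX1.le.trans hx.le)]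

/-! ### continuity in `s` -/

theorem Cut.pull_eq_min (h : Cut T X N) (hX1 : X < 1) {s : ℝ} (hs : exp (-s) ≤ T) (z : ℝ) :
    pull T N s z = N (tt T s, min (xx s z) 1) := by
  unfold pull
  rcases le_or_gt (xx s z) 1 with hx | hx
  · rw [min_eq_left hx]
  · rw [min_eq_right hx.le, h.zero _ (tt_mem hs) _ (hX1.le.trans hx.le),
      h.zero _ (tt_mem hs) _ hX1.le]

theorem Cut.pull_continuousOn (h : Cut T X N) (hX1 : X < 1) (z : ℝ) :
    ContinuousOn (fun s => pull T N s z) {s | exp (-s) ≤ T} := by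
  have h1 : ContinuousOn (fun s => N (tt T s, min (xx s z) 1)) {s | exp (-s) ≤ T} := by
    refine h.smooth.continuousOn.comp (t := rect T) ?_ ?_
    · have : Continuous (fun s => ((tt T s, min (xx s z) 1) : ℝ × ℝ)) := by
        unfold tt xx
        fun_prop
      exact this.continuousOn
    · intro s hs
      exact ⟨tt_mem hs, le_min (xx_pos s z).le zero_le_one, min_le_right _ _⟩
  exact h1.congr fun s hs => h.pull_eq_min hX1 hs z

/-- `N` vanishes for `x < a`. -/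
def LeftZero (T a : ℝ) (N : ℝ × ℝ → ℝ) : Prop := ∀ t ∈ Icc (0 : ℝ) T, ∀ x, 0 ≤ x → x < a → N (t, x) = 0

theorem Cut.EE_leftZero {a : ℝ} (h : Cut T X N) (hX1 : X < 1) (hX0 : 0 < X)
    (hl : LeftZero T a N) : LeftZero T a (P264.B.NNd.EE T N) := by
  intro t ht x hx0 hxa
  rcases lt_or_ge x 1 with hx1 | hx1
  · rw [h.EE_eq hX1 hX0 ⟨ht, hx0, hx1.le⟩]
    have h1 := hasDerivWithinAt_px h.smooth ht (x := x) ⟨hx0, hx1.le⟩
    have h2 : HasDerivWithinAt (fun y => N (t, y)) 0 (Icc 0 1) x := by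
      refine (hasDerivWithinAt_const x (Icc 0 1) (0 : ℝ)).congr_of_eventuallyEq_of_mem ?_
        ⟨hx0, hx1.le⟩
      have : ∀ᶠ y in 𝓝[Icc 0 1] x, y < a := (gt_mem_nhds hxa : ∀ᶠ y in 𝓝 x, y < a).filter_mono nhdsWithin_le_nhds
      filter_upwards [this, self_mem_nhdsWithin] with y hy hy'
      exact hl t ht y hy'.1 hy
    rw [(uniqueDiffOn_Icc zero_lt_one x ⟨hx0, hx1.le⟩).eq_deriv _ h1 h2, mul_zero]
  · simp [P264.B.NNd.EE, not_lt.mpr hx1]

theorem Cut.bound_cube {a : ℝ} (h : Cut T X N) (hX1 : X < 1) (ha : 0 < a)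
    (hl : LeftZero T a N) :
    ∃ C : ℝ, 0 ≤ C ∧ ∀ s, exp (-s) ≤ T → ∀ z, |pull T N s z| ≤ C * xx s z ^ 3 := by
  obtain ⟨C, hC, hb⟩ := h.bound hX1
  refine ⟨C / a ^ 3, by (clear * - hC ha; positivity), fun s hs z => ?_⟩
  have hx := xx_pos s z
  rcases lt_or_ge (xx s z) a with h1 | h1
  · have : pull T N s z = 0 := hl _ (tt_mem hs) _ hx.le h1
    rw [this, abs_zero]
    (clear * - hC ha hx; positivity)
  · refine (hb s hs z).trans ?_
    have : a ^ 3 ≤ xx s z ^ 3 := pow_le_pow_left₀ ha.le h1 3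
    rw [div_mul_eq_mul_div, le_div_iff₀ (by positivity)]
    exact mul_le_mul_of_nonneg_left this hC

/-- third order vanishing: `(E² - 3E + 2)(x N) = x³ N_xx` -/
theorem Cut.om_XM (h : Cut T X N) (hT : 0 < T) (hX1 : X < 1) (hX0 : 0 < X) {p : ℝ × ℝ}
    (hp : p ∈ rect T) :
    P264.B.NNd.EE T (P264.B.NNd.EE T (P264.B.NNd.XM N)) p - 3 * P264.B.NNd.EE T (P264.B.NNd.XM N) p
      + 2 * P264.B.NNd.XM N p = p.2 ^ 3 * px T (px T N) p := by
  have hx := h.XM
  have e1 : ∀ q ∈ rect T, P264.B.NNd.EE T (P264.B.NNd.XM N) q = q.2 * (N q + q.2 * px T N q) :=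
    fun q hq => by rw [h.EE_XM hX1 hX0 hq, h.EE_eq hX1 hX0 hq]
  rw [(hx.EE hT hX1 hX0).EE_eq hX1 hX0 hp, px_congr (G := fun q => q.2 * (N q + q.2 * px T N q)) e1 hp,
    e1 p hp]
  have hp' := hp
  obtain ⟨t, x⟩ := p
  have hN := contDiffOn_px hT h.smooth
  have d0 := hasDerivWithinAt_px h.smooth hp'.1 hp'.2
  have d1 := hasDerivWithinAt_px hN hp'.1 hp'.2
  have di := hasDerivWithinAt_id x (Icc (0 : ℝ) 1)
  have d2 : HasDerivWithinAt (fun y => y * (N (t, y) + y * px T N (t, y)))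
      (1 * (N (t, x) + x * px T N (t, x)) + x * (px T N (t, x) + (1 * px T N (t, x)
        + x * px T (px T N) (t, x)))) (Icc 0 1) x :=
    di.fun_mul (d0.fun_add (di.fun_mul d1))
  have e2 := px_eq_of_hasDerivWithinAt (F := fun q => q.2 * (N q + q.2 * px T N q)) (n := ∞)
    (contDiffOn_snd.mul (h.smooth.add (contDiffOn_snd.mul hN))) (by simp only [WithTop.one_le_coe, le_top]) hp'.1 hp'.2 d2
  rw [e2]
  simp only [P264.B.NNd.XM]
  ring

/-- cubic bound for `om` of a function divisible by `x` -/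
theorem Cut.bound_om_XM (h : Cut T X N) (hT : 0 < T) (hX1 : X < 1) (hX0 : 0 < X) :
    ∃ C : ℝ, 0 ≤ C ∧ ∀ s, exp (-s) ≤ T → ∀ z,
      |pull T (P264.B.NNd.EE T (P264.B.NNd.EE T (P264.B.NNd.XM N))) s z
        - 3 * pull T (P264.B.NNd.EE T (P264.B.NNd.XM N)) s z + 2 * pull T (P264.B.NNd.XM N) s z|
        ≤ C * xx s z ^ 3 := by
  obtain ⟨C, hC, hb⟩ := bounded_rect (contDiffOn_px hT (contDiffOn_px hT h.smooth)).continuousOn
  refine ⟨C, hC, fun s hs z => ?_⟩
  have hx := xx_pos s z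
  rcases le_or_gt (xx s z) 1 with h1 | h1
  · have hp : ((tt T s, xx s z) : ℝ × ℝ) ∈ rect T := ⟨tt_mem hs, hx.le, h1⟩
    have e := h.om_XM hT hX1 hX0 hp
    unfold pull
    rw [e, abs_mul, abs_of_pos (by positivity), mul_comm]
    exact mul_le_mul_of_nonneg_right (hb _ hp) (by (clear * - hx; positivity))
  · have z0 := fun (M : ℝ × ℝ → ℝ) (hM : Cut T X M) => hM.zero _ (tt_mem hs) _ (hX1.le.trans h1.le)
    unfold pull
    rw [z0 _ h.XM, z0 _ (h.XM.EE hT hX1 hX0), z0 _ ((h.XM.EE hT hX1 hX0).EE hT hX1 hX0)]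
    simp only [mul_zero, sub_zero, add_zero, abs_zero]
    (clear * - hC hx; positivity)

/-! ### the operator `∂_s` -/

/-- `∂_s pull N` -/
noncomputable def SS (T : ℝ) (N : ℝ × ℝ → ℝ) (s z : ℝ) : ℝ :=
  exp (-s) * pull T (P264.B.NNd.DD T N) s z - 1 / 2 * pull T (P264.B.NNd.EE T N) s z

theorem Cut.SS_z (h : Cut T X N) (hX1 : X < 1) (hX0 : 0 < X) {s : ℝ} (hs : exp (-s) ≤ T)
    (z : ℝ) : HasDerivAt (fun z => SS T N s z) (SS T (P264.B.NNd.EE T N) s z) z := by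
  have hT := pos_of_exp_le hs
  have h1 := ((h.DD hT hX1 hX0).pull_z hX1 hs z).const_mul (exp (-s))
  have h2 := ((h.EE hT hX1 hX0).pull_z hX1 hs z).const_mul (1 / 2)
  refine (h1.fun_sub h2).congr_deriv ?_
  unfold SS
  rw [pull_congr ((h.EE hT hX1 hX0).DD hT hX1 hX0) ((h.DD hT hX1 hX0).EE hT hX1 hX0) hX1
    (fun p hp => h.DD_EE hT hX1 hX0 hp) hs]

theorem Cut.SS_bound_EE (h : Cut T X N) (hT : 0 < T) (hX1 : X < 1) (hX0 : 0 < X) :
    ∃ C : ℝ, 0 ≤ C ∧ ∀ s, exp (-s) ≤ T → ∀ z, |SS T (P264.B.NNd.EE T N) s z| ≤ C * xx s z := by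
  obtain ⟨C1, hC1, hb1⟩ := (h.DD hT hX1 hX0).bound_EE hT hX1 hX0
  obtain ⟨C2, hC2, hb2⟩ := (h.EE hT hX1 hX0).bound_EE hT hX1 hX0
  refine ⟨T * C1 + C2, by (clear * - hT hC1 hC2; positivity), fun s hs z => ?_⟩
  have hx := xx_pos s z
  unfold SS
  rw [pull_congr ((h.EE hT hX1 hX0).DD hT hX1 hX0) ((h.DD hT hX1 hX0).EE hT hX1 hX0) hX1
    (fun p hp => h.DD_EE hT hX1 hX0 hp) hs]
  have b1 := hb1 s hs z
  have b2 := hb2 s hs z
  refine (abs_sub _ _).trans ?_
  rw [abs_mul, abs_mul, abs_of_pos (exp_pos _), abs_of_pos (by norm_num : (0 : ℝ) < 1 / 2)]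
  have e1 : exp (-s) * |pull T (P264.B.NNd.EE T (P264.B.NNd.DD T N)) s z| ≤ T * (C1 * xx s z) :=
    mul_le_mul hs b1 (abs_nonneg _) hT.le
  have e2 : 0 ≤ C2 * xx s z := by positivity
  linarith

theorem Cut.SS_bound_XM (h : Cut T X N) (hT : 0 < T) (hX1 : X < 1) (hX0 : 0 < X) :
    ∃ C : ℝ, 0 ≤ C ∧ ∀ s, exp (-s) ≤ T → ∀ z, |SS T (P264.B.NNd.XM N) s z| ≤ C * xx s z := by
  obtain ⟨C1, hC1, hb1⟩ := (h.DD hT hX1 hX0).bound_XM hX1
  obtain ⟨C2, hC2, hb2⟩ := h.XM.bound_EE hT hX1 hX0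
  refine ⟨T * C1 + C2, by (clear * - hT hC1 hC2; positivity), fun s hs z => ?_⟩
  have hx := xx_pos s z
  unfold SS
  rw [pull_congr (h.XM.DD hT hX1 hX0) (h.DD hT hX1 hX0).XM hX1
    (fun p hp => h.DD_XM hT hX1 hX0 hp) hs]
  have b1 := hb1 s hs z
  have b2 := hb2 s hs z
  refine (abs_sub _ _).trans ?_
  rw [abs_mul, abs_mul, abs_of_pos (exp_pos _), abs_of_pos (by norm_num : (0 : ℝ) < 1 / 2)]
  have e1 : exp (-s) * |pull T (P264.B.NNd.XM (P264.B.NNd.DD T N)) s z| ≤ T * (C1 * xx s z) :=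
    mul_le_mul hs b1 (abs_nonneg _) hT.le
  have e2 : 0 ≤ C2 * xx s z := by (clear * - hC2 hx; positivity)
  linarith

theorem Cut.SS_bound (h : Cut T X N) (hT : 0 < T) (hX1 : X < 1) (hX0 : 0 < X) :
    ∃ C : ℝ, 0 ≤ C ∧ ∀ s, exp (-s) ≤ T → ∀ z, |SS T N s z| ≤ C := by
  obtain ⟨C1, hC1, hb1⟩ := (h.DD hT hX1 hX0).bound hX1
  obtain ⟨C2, hC2, hb2⟩ := (h.EE hT hX1 hX0).bound hX1
  refine ⟨T * C1 + C2, by (clear * - hT hC1 hC2; positivity), fun s hs z => ?_⟩
  unfold SS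
  have b1 := hb1 s hs z
  have b2 := hb2 s hs z
  refine (abs_sub _ _).trans ?_
  rw [abs_mul, abs_mul, abs_of_pos (exp_pos _), abs_of_pos (by norm_num : (0 : ℝ) < 1 / 2)]
  have e1 : exp (-s) * |pull T (P264.B.NNd.DD T N) s z| ≤ T * C1 :=
    mul_le_mul hs b1 (abs_nonneg _) hT.le
  linarith

end P264.B.NNd
end
end

section

section
set_option linter.all false
/-!
# P264 / B / Near / Bridge : from the flow to the self-similar unknown `G` (helper376)
-/
open MeasureTheory Set Filter Real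
open scoped ContDiff Topology

namespace P264.B

open P264.Cal

section chain

/-- Iterated derivatives from a chain of derivatives on an open set. -/
theorem iter_eq_of_chain {F : ℕ → ℝ → ℝ} {O : Set ℝ} (hO : IsOpen O) {N : ℕ}
    (h : ∀ k < N, ∀ z ∈ O, HasDerivAt (F k) (F (k + 1) z) z) :
    ∀ k ≤ N, ∀ z ∈ O, iteratedDeriv k (F 0) z = F k z := by
  intro k
  induction k with
  | zero => intro _ z _; simp
  | succ k ih =>
    intro hk z hz
    have hev : iteratedDeriv k (F 0) =ᶠ[𝓝 z] F k := by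
      filter_upwards [hO.mem_nhds hz] with y hy
      exact ih (by omega) y hy
    rw [iteratedDeriv_succ, hev.deriv_eq]
    exact (h k (by omega) z hz).deriv

end chain

section coords
variable {T s z : ℝ}

theorem xx_pos : 0 < xx s z := exp_pos _

theorem hasDerivAt_xx_z (s z : ℝ) : HasDerivAt (fun z => xx s z) (xx s z) z := by
  have h : HasDerivAt (fun z : ℝ => z - s / 2) 1 z := (hasDerivAt_id z).sub_const _
  simpa only [xx, mul_one] using h.exp

theorem hasDerivAt_xx_s (s z : ℝ) : HasDerivAt (fun s => xx s z) (-(1 / 2) * xx s z) s := by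
  have h : HasDerivAt (fun s : ℝ => z - s / 2) (-(1 / 2)) s := by
    have := ((hasDerivAt_id s).div_const 2).const_sub z
    simpa only [one_div, id_eq] using this
  have := h.exp
  unfold xx
  convert this using 1
  ring

theorem hasDerivAt_tt (T s : ℝ) : HasDerivAt (fun s => tt T s) (exp (-s)) s := by
  have h := ((hasDerivAt_id s).neg.exp).const_sub T
  unfold tt
  simpa only [Pi.neg_apply, id_eq, mul_neg, mul_one, neg_neg] using h

theorem tt_mem (hs : exp (-s) ≤ T) : tt T s ∈ Icc 0 T := by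
  unfold tt
  constructor
  · linarith only [hs]
  · linarith only [exp_pos (-s)]

theorem T_pos (hs : exp (-s) ≤ T) : 0 < T := lt_of_lt_of_le (exp_pos _) hs

theorem xx_sq : xx s z ^ 2 = exp (2 * z) * exp (-s) := by
  unfold xx
  rw [← exp_nat_mul, ← exp_add]
  congr 1
  push_cast
  ring

theorem xx_eq_mul : xx s z = exp (-s / 2) * exp z := by
  unfold xx
  rw [← exp_add]
  congr 1
  ring

theorem continuous_xx (s : ℝ) : Continuous (fun z => xx s z) := by
  unfold xx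
  fun_prop

end coords

section hchain
variable {T s : ℝ} {U₀ : ℝ → ℝ} {U φ : ℝ → ℝ → ℝ}

/-- jets of `φ` along `x = xx s z` -/
noncomputable def jj (T : ℝ) (φ : ℝ → ℝ → ℝ) (s : ℝ) (k : ℕ) (z : ℝ) : ℝ :=
  dx T k (fun p : ℝ × ℝ => φ p.1 p.2) (tt T s, xx s z)

/-- `z`-derivatives of `h = φ/x`. -/
noncomputable def FH (T : ℝ) (φ : ℝ → ℝ → ℝ) (s : ℝ) : ℕ → ℝ → ℝ
  | 0, z => jj T φ s 0 z / xx s z
  | 1, z => -(jj T φ s 0 z / xx s z) + jj T φ s 1 z
  | 2, z => jj T φ s 0 z / xx s z - jj T φ s 1 z + xx s z * jj T φ s 2 z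
  | 3, z => -(jj T φ s 0 z / xx s z) + jj T φ s 1 z + xx s z ^ 2 * jj T φ s 3 z
  | 4, z => jj T φ s 0 z / xx s z - jj T φ s 1 z + xx s z * jj T φ s 2 z
      + 2 * xx s z ^ 2 * jj T φ s 3 z + xx s z ^ 3 * jj T φ s 4 z
  | _, _ => 0

theorem hasDerivAt_jj (hφ : IsFlowU 8 T U₀ U φ) (hs : exp (-s) ≤ T) (k : ℕ) {z : ℝ}
    (hz : xx s z < 1) :
    HasDerivAt (jj T φ s k) (xx s z * jj T φ s (k + 1) z) z := by
  have h1 := der_dx (T_pos hs) hφ.sφ k (tt_mem hs) (x := xx s z) ⟨xx_pos, hz⟩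
  have h2 := h1.comp z (hasDerivAt_xx_z s z)
  rw [mul_comm] at h2
  exact h2

theorem HH_eq_FH (z : ℝ) : HH φ T s z = FH T φ s 0 z := rfl

theorem isOpen_xx (s c : ℝ) : IsOpen {z | xx s z < c} := isOpen_lt (continuous_xx s) continuous_const

theorem FH_chain (hφ : IsFlowU 8 T U₀ U φ) (hs : exp (-s) ≤ T) :
    ∀ k < 4, ∀ z ∈ {z | xx s z < 1}, HasDerivAt (FH T φ s k) (FH T φ s (k + 1) z) z := by
  intro k hk z hz
  replace hz : xx s z < 1 := hz
  have hx0 : xx s z ≠ 0 := (xx_pos).ne'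
  have hx := hasDerivAt_xx_z s z
  have j0 := hasDerivAt_jj hφ hs 0 hz
  have j1 := hasDerivAt_jj hφ hs 1 hz
  have j2 := hasDerivAt_jj hφ hs 2 hz
  have j3 := hasDerivAt_jj hφ hs 3 hz
  have hd := j0.div hx hx0
  interval_cases k
  · refine HasDerivAt.congr_deriv hd ?_
    simp only [FH]
    field_simp
    ring
  · refine HasDerivAt.congr_deriv (hd.neg.add j1) ?_
    simp only [FH]
    field_simp
    ring
  · refine HasDerivAt.congr_deriv ((hd.sub j1).add (hx.mul j2)) ?_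
    simp only [FH]
    field_simp
    ring
  · refine HasDerivAt.congr_deriv ((hd.neg.add j1).add ((hx.fun_pow 2).mul j3)) ?_
    simp only [FH]
    field_simp
    ring

theorem iter_HH (hφ : IsFlowU 8 T U₀ U φ) (hs : exp (-s) ≤ T) {k : ℕ} (hk : k ≤ 4) {z : ℝ}
    (hz : xx s z < 1) : iteratedDeriv k (HH φ T s) z = FH T φ s k z :=
  iter_eq_of_chain (isOpen_xx s 1) (FH_chain hφ hs) k hk z hz

/-- `S_xx` in terms of `Pi(D)(h-1)`. -/
theorem Sxx_eq_piD (hφ : IsFlowU 8 T U₀ U φ) (hs : exp (-s) ≤ T) {z : ℝ} (hz : xx s z < 1) :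
    xx s z ^ 3 * Sxx T U (tt T s, xx s z) = -(piD (HH φ T s) z - 112) := by
  have hT := T_pos hs
  have ht := tt_mem hs
  have hx : xx s z ∈ Ioo (0 : ℝ) 1 := ⟨xx_pos, hz⟩
  have hS := contDiffOn_Sf hT hφ
  have h1 := deriv_deriv_sec hT one_pos hS ht hx
  have h2 : deriv (deriv (fun y => Sf T U (tt T s, y))) (xx s z) =
      deriv (deriv (scal 8 (φ (tt T s)))) (xx s z) := by
    apply Filter.EventuallyEq.deriv_eq
    filter_upwards [isOpen_Ioo.mem_nhds hx] with y hy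
    apply Filter.EventuallyEq.deriv_eq
    filter_upwards [isOpen_Ioo.mem_nhds hy] with u hu
    exact Sf_eq_scal hT hφ ht hu
  have h3 := (deriv2_scal (n := 8) (by norm_num) (f := φ (tt T s))
    (j := fun k x => dx T k (fun p : ℝ × ℝ => φ p.1 p.2) (tt T s, x))
    (fun x _ => rfl) (fun k x hx => der_dx hT hφ.sφ k ht hx) hx).2
  have h4 : Sxx T U (tt T s, xx s z) = deriv (deriv (scal 8 (φ (tt T s)))) (xx s z) := by
    rw [← h2, h1]; rfl
  rw [h4, h3]
  unfold piD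
  rw [iter_HH hφ hs (by norm_num) hz, iter_HH hφ hs (by norm_num) hz,
    iter_HH hφ hs (by norm_num) hz, iter_HH hφ hs (by norm_num) hz, HH_eq_FH]
  simp only [FH, jj]
  have hx0 : xx s z ≠ 0 := (xx_pos).ne'
  push_cast
  field_simp
  ring

/-- `∂_s h = -(1/2) D h - e^{-2z} h² (Pi(D) h - 112)`. -/
theorem hasDerivWithinAt_HH (hφ : IsFlowU 8 T U₀ U φ) (hs : exp (-s) ≤ T) {z : ℝ}
    (hz : xx s z < 1) :
    HasDerivWithinAt (fun s' => HH φ T s' z)
      (-(1 / 2) * deriv (HH φ T s) z - exp (-2 * z) * HH φ T s z ^ 2 * (piD (HH φ T s) z - 112))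
      (Ici s) s := by
  have hT := T_pos hs
  have ht := tt_mem hs
  have hx : xx s z ∈ Icc (0 : ℝ) 1 := ⟨(xx_pos).le, hz.le⟩
  have hp : ((tt T s, xx s z) : ℝ × ℝ) ∈ KT T := ⟨ht, hx⟩
  set f : ℝ × ℝ → ℝ := fun p => φ p.1 p.2 with hf
  have h1 := hasFDerivWithinAt_box hφ.smooth hp
  have h2 : HasDerivWithinAt (fun s' => ((tt T s', xx s' z) : ℝ × ℝ))
      (exp (-s), -(1 / 2) * xx s z) (Ici s) s :=
    ((hasDerivAt_tt T s).prodMk (hasDerivAt_xx_s s z)).hasDerivWithinAt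
  have hmaps : MapsTo (fun s' => ((tt T s', xx s' z) : ℝ × ℝ)) (Ici s) (KT T) := by
    intro s' hs'
    replace hs' : s ≤ s' := hs'
    refine ⟨tt_mem ((exp_le_exp.2 (by linarith only [hs'])).trans hs), (xx_pos).le, ?_⟩
    refine le_trans ?_ hz.le
    unfold xx
    exact exp_le_exp.2 (by linarith only [hs'])
  have h3 := HasFDerivWithinAt.comp_hasDerivWithinAt s h1 h2 hmaps
  have h4 : fderivWithin ℝ f (KT T) (tt T s, xx s z) (exp (-s), -(1 / 2) * xx s z) =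
      exp (-s) * pdt (KT T) f (tt T s, xx s z) + -(1 / 2) * xx s z * pdx (KT T) f (tt T s, xx s z) := by
    unfold pdt pdx
    have : ((exp (-s), -(1 / 2) * xx s z) : ℝ × ℝ) =
        exp (-s) • ((1 : ℝ), (0 : ℝ)) + (-(1 / 2) * xx s z) • ((0 : ℝ), (1 : ℝ)) := by
      simp only [one_div, neg_mul, Prod.smul_mk, smul_eq_mul, mul_one, mul_zero, neg_smul, Prod.neg_mk, neg_zero, Prod.mk_add_mk, add_zero, zero_add]
    rw [this, map_add, map_smul, map_smul]
    simp only [Icc_prod_Icc, smul_eq_mul, one_div, neg_mul]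
  have h3' : HasDerivWithinAt (fun s' => φ (tt T s') (xx s' z))
      (exp (-s) * pdt (KT T) f (tt T s, xx s z) + -(1 / 2) * xx s z * pdx (KT T) f (tt T s, xx s z))
      (Ici s) s := by
    rw [← h4]; exact h3
  have h5 := h3'.div (hasDerivAt_xx_s s z).hasDerivWithinAt (xx_pos).ne'
  refine HasDerivWithinAt.congr_deriv h5 ?_
  rw [phi_t_eq hT hφ _ hp]
  have hd : deriv (HH φ T s) z = FH T φ s 1 z := by
    have := iter_HH hφ hs (k := 1) (by norm_num) hz
    rwa [iteratedDeriv_one] at this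
  rw [hd]
  have hS := Sxx_eq_piD hφ hs hz
  have hP : piD (HH φ T s) z - 112 = -(xx s z ^ 3 * Sxx T U (tt T s, xx s z)) := by
    rw [hS]; ring
  rw [hP]
  have hpx : pdx (KT T) f (tt T s, xx s z) = jj T φ s 1 z := rfl
  have hj0 : jj T φ s 0 z = φ (tt T s) (xx s z) := rfl
  rw [hpx]
  simp only [FH, HH, hj0]
  have hx0 : xx s z ≠ 0 := (xx_pos).ne'
  have he : exp (-s) = xx s z ^ 2 * exp (-2 * z) := by
    rw [xx_sq, mul_right_comm, ← exp_add]
    simp
  rw [he]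
  field_simp
  ring

end hchain

section E3
variable {R χ : ℝ → ℝ} {Rmin α T X s : ℝ} {U₀ : ℝ → ℝ} {U φ : ℝ → ℝ → ℝ}

theorem GG_eventually_zero (hχ : Cutoff χ X) {z : ℝ} (hz : X < xx s z) :
    GG χ R φ T s =ᶠ[𝓝 z] fun _ => 0 := by
  have ho : IsOpen {z | X < xx s z} := isOpen_lt continuous_const (continuous_xx s)
  filter_upwards [ho.mem_nhds hz] with y hy
  unfold GG
  rw [hχ.zero _ (le_of_lt hy), zero_mul]

theorem iter_zero_of_eventually {G : ℝ → ℝ} {z : ℝ} (h : G =ᶠ[𝓝 z] fun _ => 0) (k : ℕ) :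
    iteratedDeriv k G z = 0 := by
  rw [h.iteratedDeriv_eq k]
  have : iteratedDeriv k (fun _ : ℝ => (0 : ℝ)) = fun _ => 0 := by
    funext x
    rw [iteratedDeriv_const]
    simp
  rw [this]

theorem piD_zero_of_eventually {G : ℝ → ℝ} {z : ℝ} (h : G =ᶠ[𝓝 z] fun _ => 0) :
    piD G z = 0 := by
  unfold piD
  rw [iter_zero_of_eventually h, iter_zero_of_eventually h, iter_zero_of_eventually h,
    iter_zero_of_eventually h, h.eq_of_nhds]
  simp

theorem contDiffAt_HH (hφ : IsFlowU 8 T U₀ U φ) (hs : exp (-s) ≤ T) {z : ℝ} (hz : xx s z < 1) :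
    ContDiffAt ℝ ∞ (HH φ T s) z := by
  have h1 : ContDiffAt ℝ ∞ (φ (tt T s)) (xx s z) :=
    ((hφ.profile _ (tt_mem hs)).smooth).contDiffAt (Icc_mem_nhds xx_pos hz)
  have h2 : ContDiff ℝ ∞ (fun z => xx s z) := by unfold xx; fun_prop
  have h3 : ContDiffAt ℝ ∞ (fun z => φ (tt T s) (xx s z)) z :=
    h1.comp z h2.contDiffAt
  exact h3.div h2.contDiffAt (xx_pos).ne'

theorem piD_sub {f g : ℝ → ℝ} {z : ℝ} (hf : ContDiffAt ℝ 4 f z) (hg : ContDiffAt ℝ 4 g z) :
    piD (fun s => f s - g s) z = piD f z - piD g z := by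
  unfold piD
  have h : ∀ k : ℕ, k ≤ 4 → iteratedDeriv k (fun s => f s - g s) z =
      iteratedDeriv k f z - iteratedDeriv k g z := by
    intro k hk
    have hk' : ((k : ℕ) : WithTop ℕ∞) ≤ ((4 : ℕ) : WithTop ℕ∞) := by exact_mod_cast hk
    exact iteratedDeriv_fun_sub (hf.of_le hk') (hg.of_le hk')
  rw [h 4 le_rfl, h 3 (by norm_num), h 2 (by norm_num), h 1 (by norm_num)]
  ring

theorem piD_const (c z : ℝ) : piD (fun _ => c) z = 112 * c := by
  unfold piD
  simp only [iteratedDeriv_const, OfNat.ofNat_ne_zero, ↓reduceIte, mul_zero, add_zero, one_ne_zero, sub_self, zero_add]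

/-- (E3): the equation for `G`. -/
theorem GG_deriv (hR : Profile R Rmin α) {U₀ : ℝ → ℝ} {U φ : ℝ → ℝ → ℝ} {T X s : ℝ}
    (hφ : IsFlowU 8 T U₀ U φ) (hχ : Cutoff χ X) (hs : exp (-s) ≤ T) (z : ℝ) :
    HasDerivWithinAt (fun s' => GG χ R φ T s' z) (GS χ R φ T s z) (Ici s) s := by
  rcases lt_or_ge X (xx s z) with hz | hz
  · -- everything vanishes
    have h0 := GG_eventually_zero (R := R) (φ := φ) (T := T) hχ hz
    have hχ0 : χ (xx s z) = 0 := hχ.zero _ hz.le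
    have hG0 : GG χ R φ T s z = 0 := by unfold GG; rw [hχ0, zero_mul]
    have hval : GS χ R φ T s z = 0 := by
      have hd : deriv (GG χ R φ T s) z = 0 := by
        have := iter_zero_of_eventually h0 1
        rwa [iteratedDeriv_one] at this
      unfold GS Lop cutE
      rw [piD_zero_of_eventually h0, hd, hG0, hχ0]
      ring
    rw [hval]
    have hev : (fun s' => GG χ R φ T s' z) =ᶠ[𝓝 s] fun _ => 0 := by
      have hc : Continuous (fun s' => xx s' z) := by unfold xx; fun_prop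
      filter_upwards [(isOpen_lt continuous_const hc).mem_nhds hz] with s' hs'
      unfold GG
      rw [hχ.zero _ (le_of_lt hs'), zero_mul]
    exact ((hasDerivAt_const s (0 : ℝ)).congr_of_eventuallyEq hev).hasDerivWithinAt
  · have hz1 : xx s z < 1 := lt_of_le_of_lt hz hχ.X_lt
    have hHc := contDiffAt_HH hφ hs hz1
    have hHd : HasDerivAt (HH φ T s) (deriv (HH φ T s) z) z :=
      (hHc.differentiableAt (by simp)).hasDerivAt
    have hRd : HasDerivAt R (deriv R z) z :=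
      (hR.smooth.contDiffAt.differentiableAt (by norm_num)).hasDerivAt
    have hχd : HasDerivAt χ (deriv χ (xx s z)) (xx s z) :=
      ((hχ.smooth.differentiable (by simp)) _).hasDerivAt
    -- derivative of `G` in `z`
    have hGz : HasDerivAt (GG χ R φ T s)
        (deriv χ (xx s z) * xx s z * WW R φ T s z
          + χ (xx s z) * (deriv (HH φ T s) z - deriv R z)) z :=
      (hχd.comp z (hasDerivAt_xx_z s z)).mul (hHd.sub hRd)
    -- derivative of `G` in `s`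
    have hH := hasDerivWithinAt_HH hφ hs hz1
    have hGs := ((hχd.comp s (hasDerivAt_xx_s s z)).hasDerivWithinAt (s := Ici s)).mul
      (hH.sub_const (R z))
    refine HasDerivWithinAt.congr_deriv hGs ?_
    -- algebra
    have h4 : ContDiffAt ℝ 4 (HH φ T s) z := hHc.of_le (by
      have : ((4 : ℕ∞) : WithTop ℕ∞) ≤ ((⊤ : ℕ∞) : WithTop ℕ∞) := WithTop.coe_le_coe.2 le_top
      exact this)
    have hR4 : ContDiffAt ℝ 4 R z := hR.smooth.contDiffAt
    have hW : piD (WW R φ T s) z = piD (HH φ T s) z - piD R z :=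
      piD_sub h4 hR4
    have hK : kap R z = piD R z - 112 := by
      unfold kap
      rw [piD_sub hR4 contDiffAt_const, piD_const]
      ring
    unfold GS Lop cutE resid
    rw [hGz.deriv, hW, hK]
    have hHW : HH φ T s z = WW R φ T s z + R z := by unfold WW; ring
    simp only [Function.comp_apply]
    rw [hHW]
    unfold GG
    have hWd : WW R φ T s z + R z - R z = WW R φ T s z := by ring
    rw [hWd]
    ring

end E3

end P264.B
end
end

section

section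
set_option linter.all false
/-!
# P264 / B / Near / BridgeAdm : admissibility of `G(s,·)` (helper376, E1)
-/
open MeasureTheory Set Filter Real
open scoped ContDiff Topology

namespace P264.B

open P264.Cal

section pull
variable {Y : ℝ}

/-- `E_m g = m g + y g'` -/
noncomputable def Eul (Y : ℝ) (m : ℝ) (g : ℝ → ℝ) : ℝ → ℝ :=
  fun y => m * g y + y * derivWithin g (Icc 0 Y) y

theorem contDiffOn_derivWithin (hY : 0 < Y) {g : ℝ → ℝ} (hg : ContDiffOn ℝ ∞ g (Icc 0 Y)) :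
    ContDiffOn ℝ ∞ (derivWithin g (Icc 0 Y)) (Icc 0 Y) :=
  hg.derivWithin (uniqueDiffOn_Icc hY) (by simp)

theorem contDiffOn_Eul (hY : 0 < Y) {m : ℝ} {g : ℝ → ℝ} (hg : ContDiffOn ℝ ∞ g (Icc 0 Y)) :
    ContDiffOn ℝ ∞ (Eul Y m g) (Icc 0 Y) :=
  (contDiffOn_const.mul hg).add (contDiffOn_id.mul (contDiffOn_derivWithin hY hg))

theorem hasDerivAt_of_contDiffOn {g : ℝ → ℝ} (hg : ContDiffOn ℝ ∞ g (Icc 0 Y)) {y : ℝ}
    (hy : y ∈ Ioo 0 Y) : HasDerivAt g (derivWithin g (Icc 0 Y) y) y := by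
  have h := ((hg.differentiableOn (by simp)) y (Ioo_subset_Icc_self hy)).hasDerivWithinAt
  exact h.hasDerivAt (Icc_mem_nhds hy.1 hy.2)

/-- `e^{mz} g(e^z)` -/
noncomputable def epull (m : ℝ) (g : ℝ → ℝ) (z : ℝ) : ℝ := exp (m * z) * g (exp z)

theorem hasDerivAt_epull {m : ℝ} {g : ℝ → ℝ} (hg : ContDiffOn ℝ ∞ g (Icc 0 Y)) {z : ℝ}
    (hz : exp z < Y) : HasDerivAt (epull m g) (epull m (Eul Y m g) z) z := by
  have h1 := (hasDerivAt_of_contDiffOn hg ⟨exp_pos z, hz⟩).comp z (Real.hasDerivAt_exp z)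
  have h2 : HasDerivAt (fun z => exp (m * z)) (exp (m * z) * m) z := by
    have := ((hasDerivAt_id z).const_mul m).exp
    simpa using this
  refine HasDerivAt.congr_deriv (h2.mul h1) ?_
  unfold epull Eul
  ring

theorem iter_epull (hY : 0 < Y) {m : ℝ} {g : ℝ → ℝ} (hg : ContDiffOn ℝ ∞ g (Icc 0 Y)) (N : ℕ) :
    ∀ k ≤ N, ∀ z ∈ {z | exp z < Y}, iteratedDeriv k (epull m g) z =
      epull m ((Eul Y m)^[k] g) z := by
  have hc : ∀ k, ContDiffOn ℝ ∞ ((Eul Y m)^[k] g) (Icc 0 Y) := by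
    intro k
    induction k with
    | zero => exact hg
    | succ k ih => rw [Function.iterate_succ_apply']; exact contDiffOn_Eul hY ih
  have ho : IsOpen {z : ℝ | exp z < Y} := isOpen_lt continuous_exp continuous_const
  have := iter_eq_of_chain (F := fun k => epull m ((Eul Y m)^[k] g)) ho (N := N) (by
    intro k _ z hz
    simp only [Function.iterate_succ_apply']
    exact hasDerivAt_epull (hc k) hz)
  exact this

theorem epull_bound (hY : 0 < Y) {m : ℝ} {g : ℝ → ℝ} (hg : ContDiffOn ℝ ∞ g (Icc 0 Y)) (k : ℕ) :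
    ∃ C : ℝ, 0 ≤ C ∧ ∀ z, exp z < Y → |iteratedDeriv k (epull m g) z| ≤ C * exp (m * z) := by
  have hc : ContDiffOn ℝ ∞ ((Eul Y m)^[k] g) (Icc 0 Y) := by
    induction k with
    | zero => exact hg
    | succ k ih => rw [Function.iterate_succ_apply']; exact contDiffOn_Eul hY ih
  obtain ⟨C, hC⟩ := isCompact_Icc.exists_bound_of_continuousOn hc.continuousOn
  refine ⟨C, (norm_nonneg _).trans (hC 0 ⟨le_rfl, hY.le⟩), fun z hz => ?_⟩
  rw [iter_epull hY hg k k le_rfl z hz]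
  unfold epull
  rw [abs_mul, abs_of_pos (exp_pos _), mul_comm]
  have := hC (exp z) ⟨(exp_pos z).le, hz.le⟩
  rw [Real.norm_eq_abs] at this
  gcongr

/-- `(D-1)(D-2)(e^z g(e^z)) = e^{3z} g''(e^z)`. -/
theorem om_epull (hY : 0 < Y) {g : ℝ → ℝ} (hg : ContDiffOn ℝ ∞ g (Icc 0 Y)) {z : ℝ}
    (hz : exp z < Y) :
    om (epull 1 g) z = epull 3 (derivWithin (derivWithin g (Icc 0 Y)) (Icc 0 Y)) z := by
  have hg1 := contDiffOn_derivWithin hY hg
  have h1 := iter_epull hY (m := 1) hg 2 1 (by norm_num) z hz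
  have h2 := iter_epull hY (m := 1) hg 2 2 le_rfl z hz
  have hE : derivWithin (Eul Y 1 g) (Icc 0 Y) (exp z) =
      2 * derivWithin g (Icc 0 Y) (exp z)
        + exp z * derivWithin (derivWithin g (Icc 0 Y)) (Icc 0 Y) (exp z) := by
    have hm : exp z ∈ Icc 0 Y := ⟨(exp_pos z).le, hz.le⟩
    have a := ((hg.differentiableOn (by simp)) _ hm).hasDerivWithinAt
    have b := ((hg1.differentiableOn (by simp)) _ hm).hasDerivWithinAt
    have c := (a.const_mul 1).add ((hasDerivWithinAt_id (exp z) (Icc 0 Y)).mul b)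
    have := c.derivWithin (uniqueDiffOn_Icc hY _ hm)
    have e : (Eul Y 1 g) = (fun y => 1 * g y) + (id * derivWithin g (Icc 0 Y)) := by
      funext y; simp only [Eul, one_mul, Pi.add_apply, Pi.mul_apply, id_eq]
    rw [e]
    rw [show ((fun y => 1 * g y) + (id * derivWithin g (Icc 0 Y))) =
      ((fun y => (1:ℝ) * g y) + (id * derivWithin g (Icc 0 Y))) from rfl]
    rw [this]
    simp only [one_mul, id_eq]
    ring
  unfold om
  rw [h1, h2]
  simp only [Function.iterate_succ, Function.iterate_zero, Function.comp_apply, id_eq]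
  unfold epull
  have e3 : exp (3 * z) = exp z ^ 3 := by rw [← exp_nat_mul]; norm_num
  rw [e3, one_mul]
  conv_lhs => rw [show Eul Y 1 (Eul Y 1 g) (exp z) = 1 * Eul Y 1 g (exp z) +
    exp z * derivWithin (Eul Y 1 g) (Icc 0 Y) (exp z) from rfl, hE]
  unfold Eul
  ring

end pull

/-- extend an exponential bound at `-∞` to `(-∞, 0]`. -/
theorem bound_extend {F : ℝ → ℝ} (hF : Continuous F) {z₁ C a : ℝ} (ha : 0 ≤ a) (hC : 0 ≤ C)
    (h : ∀ z < z₁, |F z| ≤ C * exp (a * z)) :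
    ∃ C' : ℝ, 0 ≤ C' ∧ ∀ z ≤ (0 : ℝ), |F z| ≤ C' * exp (a * z) := by
  obtain ⟨M, hM⟩ := isCompact_Icc.exists_bound_of_continuousOn
    (s := Icc (min z₁ 0) 0) (f := F) hF.continuousOn
  have hM0 : 0 ≤ M := (norm_nonneg _).trans (hM 0 ⟨min_le_right _ _, le_rfl⟩)
  refine ⟨C + M * exp (a * (-min z₁ 0)), by (clear * - hC hM0; positivity), fun z hz => ?_⟩
  rcases lt_or_ge z (min z₁ 0) with hz1 | hz1
  · calc |F z| ≤ C * exp (a * z) := h z (lt_of_lt_of_le hz1 (min_le_left _ _))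
      _ ≤ _ := by
        have : 0 ≤ M * exp (a * (-min z₁ 0)) := by (clear * - hM0; positivity)
        nlinarith only [this, exp_pos (a * z)]
  · have h1 := hM z ⟨hz1, hz⟩
    rw [Real.norm_eq_abs] at h1
    calc |F z| ≤ M := h1
      _ ≤ M * exp (a * (-min z₁ 0)) * exp (a * z) := by
          rw [mul_assoc, ← exp_add]
          have : 1 ≤ exp (a * (-min z₁ 0) + a * z) := by
            apply one_le_exp; nlinarith only [ha, hz1]
          nlinarith only [hM0, this]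
      _ ≤ _ := by nlinarith only [hC, exp_pos (a * z)]

section kk
variable {T : ℝ} {U₀ : ℝ → ℝ} {U φ : ℝ → ℝ → ℝ}

/-- `φ = x (1 + x k)` with `k` smooth on the closed box. -/
theorem exists_k (hT : 0 < T) (hφ : IsFlowU 8 T U₀ U φ) :
    ∃ k : ℝ × ℝ → ℝ, ContDiffOn ℝ ∞ k (KT T) ∧
      ∀ p ∈ KT T, φ p.1 p.2 = p.2 * (1 + p.2 * k p) := by
  have h01 : (0 : ℝ) ∈ Icc (0 : ℝ) 1 := ⟨le_rfl, zero_le_one⟩
  obtain ⟨h, hh, hh'⟩ := hadamard_div hT one_pos h01 hφ.smooth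
    (fun t ht => (hφ.profile t ht).left0)
  have h1 : ∀ t ∈ Icc 0 T, (fun p => h p - 1) (t, 0) = 0 := by
    intro t ht
    have hd := (hφ.profile t ht).left1
    have e : HasDerivWithinAt (φ t) (h (t, 0)) (Icc 0 1) 0 := by
      have a := (hasDerivWithinAt_pdx hh ht h01)
      have b := ((hasDerivWithinAt_id (0 : ℝ) (Icc 0 1))).mul a
      have c : HasDerivWithinAt (φ t) (1 * h (t, 0) + id 0 * pdx (KT T) h (t, 0)) (Icc 0 1) 0 := by
        refine b.congr ?_ ?_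
        · intro y hy
          have := hh' (t, y) ⟨ht, hy⟩
          simpa only [Pi.mul_apply, id_eq, sub_zero] using this
        · have := hh' (t, 0) ⟨ht, h01⟩
          simpa using this
      simpa only [one_mul, id_eq, Icc_prod_Icc, zero_mul, add_zero] using c
    have := e.derivWithin (uniqueDiffOn_Icc one_pos _ h01)
    rw [hd] at this
    simp [← this]
  obtain ⟨k, hk, hk'⟩ := hadamard_div hT one_pos h01 (hh.sub contDiffOn_const) h1
  refine ⟨k, hk, fun p hp => ?_⟩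
  have e1 := hh' p hp
  have e2 := hk' p hp
  rw [e1]
  have e3 : h p = 1 + p.2 * k p := by
    simp only [sub_zero] at e2
    linarith only [e2]
  rw [e3]
  ring

end kk

section E1
variable {R χ : ℝ → ℝ} {Rmin α T X s : ℝ} {U₀ : ℝ → ℝ} {U φ : ℝ → ℝ → ℝ}

/-- Near `z = -∞`, `G = e^z g(e^z)` with `g` smooth up to `0`. -/
theorem GG_left (hR : Profile R Rmin α) (hφ : IsFlowU 8 T U₀ U φ) (hχ : Cutoff χ X)
    (hs : exp (-s) ≤ T) :
    ∃ Y : ℝ, 0 < Y ∧ ∃ g : ℝ → ℝ, ContDiffOn ℝ ∞ g (Icc 0 Y) ∧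
      ∀ z, exp z < Y → GG χ R φ T s z = epull 1 g z := by
  obtain ⟨k, hk, hk'⟩ := exists_k (T_pos hs) hφ
  obtain ⟨p, hp0, Z, hZ⟩ := hR.left
  set c : ℝ := exp (-s / 2) with hc
  have hc0 : 0 < c := exp_pos _
  have hX := hχ.X_pos
  set Y : ℝ := min (exp Z) (X / 2 / c) with hY
  have hY0 : 0 < Y := lt_min (exp_pos _) (by positivity)
  have hYc : ∀ y, y ≤ Y → c * y ≤ X / 2 := by
    intro y hy
    have : y ≤ X / 2 / c := hy.trans (min_le_right _ _)
    rw [le_div_iff₀ hc0] at this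
    linarith only [this]
  set q : Polynomial ℝ := p.divX with hq
  refine ⟨Y, hY0, fun y => c * k (tt T s, c * y) - q.eval y, ?_, ?_⟩
  · apply ContDiffOn.sub
    · apply contDiffOn_const.mul
      apply hk.comp (f := fun y : ℝ => ((tt T s, c * y) : ℝ × ℝ))
      · apply ContDiff.contDiffOn; fun_prop
      · intro y hy
        refine ⟨tt_mem hs, mul_nonneg hc0.le hy.1, ?_⟩
        have := hYc y hy.2
        have := hχ.X_lt
        show c * y ≤ 1
        linarith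
    · apply ContDiff.contDiffOn
      have hq1 : (fun y : ℝ => q.eval y) = fun y => ∑ i ∈ Finset.range (q.natDegree + 1), q.coeff i * y ^ i := by
        funext y; rw [Polynomial.eval_eq_sum_range]
      rw [hq1]
      (clear * -; fun_prop)
  · intro z hz
    have hxx : xx s z = c * exp z := xx_eq_mul
    have hle : xx s z ≤ X / 2 := by rw [hxx]; exact hYc _ hz.le
    have hzZ : z ≤ Z := by
      have : exp z < exp Z := lt_of_lt_of_le hz (min_le_left _ _)
      exact (exp_lt_exp.1 this).le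
    have h1 : χ (xx s z) = 1 := hχ.one _ hle
    have h2 := hk' (tt T s, xx s z) ⟨tt_mem hs, (xx_pos).le, by
      have := hχ.X_lt
      show xx s z ≤ 1
      linarith only [hle, this]⟩
    simp only at h2
    have h3 : R z = 1 + exp z * q.eval (exp z) := by
      rw [hZ z hzZ]
      have := Polynomial.divX_mul_X_add p
      conv_lhs => rw [← this]
      rw [Polynomial.coeff_zero_eq_eval_zero, hp0]
      simp only [map_one, Polynomial.eval_add, Polynomial.eval_mul, Polynomial.eval_X, Polynomial.eval_one]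
      ring
    have hx0 : xx s z ≠ 0 := (xx_pos).ne'
    unfold GG WW HH epull
    rw [h1, h2, h3]
    have e : xx s z * (1 + xx s z * k (tt T s, xx s z)) / xx s z = 1 + xx s z * k (tt T s, xx s z) := by
      (clear * - hx0; field_simp)
    rw [e, hxx, one_mul, one_mul]
    ring

theorem GG_contDiff (hR : Profile R Rmin α) (hφ : IsFlowU 8 T U₀ U φ) (hχ : Cutoff χ X)
    (hs : exp (-s) ≤ T) : ContDiff ℝ 4 (GG χ R φ T s) := by
  rw [contDiff_iff_contDiffAt]
  intro z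
  rcases lt_or_ge X (xx s z) with hz | hz
  · exact contDiffAt_const.congr_of_eventuallyEq (GG_eventually_zero hχ hz)
  · have hz1 : xx s z < 1 := lt_of_le_of_lt hz hχ.X_lt
    have h4 : ((4 : ℕ∞) : WithTop ℕ∞) ≤ ((⊤ : ℕ∞) : WithTop ℕ∞) := WithTop.coe_le_coe.2 le_top
    have hH : ContDiffAt ℝ 4 (HH φ T s) z := (contDiffAt_HH hφ hs hz1).of_le h4
    have hxc : ContDiff ℝ ∞ (fun z => xx s z) := by unfold xx; fun_prop
    have h1 : ContDiffAt ℝ 4 (fun z => χ (xx s z)) z :=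
      ((hχ.smooth.comp hxc).contDiffAt).of_le h4
    exact h1.mul (hH.sub hR.smooth.contDiffAt)

/-- (E1): regularity of `G`. -/
theorem GG_adm (hR : Profile R Rmin α) {U₀ : ℝ → ℝ} {U φ : ℝ → ℝ → ℝ} {T X s : ℝ}
    (hφ : IsFlowU 8 T U₀ U φ) (hχ : Cutoff χ X) (hs : exp (-s) ≤ T) :
    Adm (GG χ R φ T s) := by
  have hsm := GG_contDiff hR hφ hχ hs
  obtain ⟨Y, hY, g, hg, hgz⟩ := GG_left hR hφ hχ hs
  have ho : IsOpen {z : ℝ | exp z < Y} := isOpen_lt continuous_exp continuous_const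
  have hlog : ∀ z, z < Real.log Y → exp z < Y := by
    intro z hz
    exact (Real.lt_log_iff_exp_lt hY).1 hz
  have hev : ∀ z, exp z < Y → GG χ R φ T s =ᶠ[𝓝 z] epull 1 g := by
    intro z hz
    filter_upwards [ho.mem_nhds hz] with y hy
    exact hgz y hy
  have hiter : ∀ j ≤ 4, Continuous (iteratedDeriv j (GG χ R φ T s)) := by
    intro j hj
    exact (contDiff_iter (m := 4 - j) (n := 4) hsm (by omega)).continuous
  have homc : ContDiff ℝ 2 (om (GG χ R φ T s)) := om_contDiff hsm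
  have hiter2 : ∀ j ≤ 2, Continuous (iteratedDeriv j (om (GG χ R φ T s))) := by
    intro j hj
    exact (contDiff_iter (m := 2 - j) (n := 2) homc (by omega)).continuous
  refine ⟨hsm, ?_, ?_, ?_⟩
  · refine ⟨Real.log X + s / 2, fun z hz => ?_⟩
    have : X ≤ xx s z := by
      unfold xx
      rw [← Real.log_le_iff_le_exp hχ.X_pos]
      linarith
    unfold GG
    rw [hχ.zero _ this, zero_mul]
  · have key : ∀ j ≤ 4, ∃ C : ℝ, 0 ≤ C ∧ ∀ z ≤ (0 : ℝ),
        |iteratedDeriv j (GG χ R φ T s) z| ≤ C * exp (1 * z) := by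
      intro j hj
      obtain ⟨C, hC0, hC⟩ := epull_bound hY (m := 1) hg j
      refine bound_extend (hiter j hj) zero_le_one hC0 (z₁ := Real.log Y) ?_
      intro z hz
      rw [(hev z (hlog z hz)).iteratedDeriv_eq j]
      exact hC z (hlog z hz)
    choose! C hC0 hC using key
    refine ⟨∑ j ∈ Finset.range 5, C j, fun j hj z hz => ?_⟩
    have h1 := hC j hj z hz
    rw [one_mul] at h1
    refine h1.trans ?_
    have h2 : C j ≤ ∑ j ∈ Finset.range 5, C j :=
      Finset.single_le_sum (f := C) (fun i hi => hC0 i (by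
        have := Finset.mem_range.1 hi; omega)) (Finset.mem_range.2 (by omega))
    gcongr
  · have key : ∀ j ≤ 2, ∃ C : ℝ, 0 ≤ C ∧ ∀ z ≤ (0 : ℝ),
        |iteratedDeriv j (om (GG χ R φ T s)) z| ≤ C * exp (3 * z) := by
      intro j hj
      obtain ⟨C, hC0, hC⟩ := epull_bound hY (m := 3)
        (contDiffOn_derivWithin hY (contDiffOn_derivWithin hY hg)) j
      refine bound_extend (hiter2 j hj) (by norm_num) hC0 (z₁ := Real.log Y) ?_
      intro z hz
      have hev2 : om (GG χ R φ T s) =ᶠ[𝓝 z]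
          epull 3 (derivWithin (derivWithin g (Icc 0 Y)) (Icc 0 Y)) := by
        filter_upwards [ho.mem_nhds (hlog z hz)] with y hy
        rw [← om_epull hY hg hy]
        have h := hev y hy
        unfold om
        rw [h.iteratedDeriv_eq 2, h.iteratedDeriv_eq 1, h.eq_of_nhds]
      rw [hev2.iteratedDeriv_eq j]
      exact hC z (hlog z hz)
    choose! C hC0 hC using key
    refine ⟨∑ j ∈ Finset.range 3, C j, fun j hj z hz => ?_⟩
    have h1 := hC j hj z hz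
    refine h1.trans ?_
    have h2 : C j ≤ ∑ j ∈ Finset.range 3, C j :=
      Finset.single_le_sum (f := C) (fun i hi => hC0 i (by
        have := Finset.mem_range.1 hi; omega)) (Finset.mem_range.2 (by omega))
    (clear * - h2; gcongr)

end E1

end P264.B
end
end

section

section

/-!
# P264 / B / Far / BlockIneq : the spatial inequality on one block (D1)
-/

open MeasureTheory Set Filter Real
open scoped ContDiff Topology

namespace P264.B

theorem blockIneq_tau1 {u : ℝ} (hu : u ∈ Icc (-1 : ℝ) 1) :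
    |3 * (1 - u ^ 2) ^ 4 - 16 * u * (1 - u ^ 2) ^ 3| ≤ 19 * (1 - u ^ 2) ^ 3 := by
  have h1 : 0 ≤ 1 - u ^ 2 := by linarith only [mul_nonneg (sub_nonneg.2 hu.1) (sub_nonneg.2 hu.2)]
  have h2 : 1 - u ^ 2 ≤ 1 := by nlinarith only []
  have hp : 0 ≤ (1 - u ^ 2) ^ 3 := by (clear * - h1; positivity)
  have e : 3 * (1 - u ^ 2) ^ 4 - 16 * u * (1 - u ^ 2) ^ 3 =
      (3 * (1 - u ^ 2) - 16 * u) * (1 - u ^ 2) ^ 3 := by ring
  rw [e, abs_mul, abs_of_nonneg hp]
  refine mul_le_mul_of_nonneg_right ?_ hp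
  rw [abs_le]
  constructor <;> nlinarith only [h1, hu.1]

theorem blockIneq_tau1' {u : ℝ} (hu : u ∈ Icc (-1 : ℝ) 1) :
    |15 * (1 - u ^ 2) ^ 4 + (3 * (1 - u ^ 2) ^ 4 - 16 * u * (1 - u ^ 2) ^ 3)| ≤
      34 * (1 - u ^ 2) ^ 3 := by
  have h1 : 0 ≤ 1 - u ^ 2 := by linarith only [mul_nonneg (sub_nonneg.2 hu.1) (sub_nonneg.2 hu.2)]
  have h2 : 1 - u ^ 2 ≤ 1 := by nlinarith only []
  have hp : 0 ≤ (1 - u ^ 2) ^ 3 := by (clear * - h1; positivity)
  have e : 15 * (1 - u ^ 2) ^ 4 + (3 * (1 - u ^ 2) ^ 4 - 16 * u * (1 - u ^ 2) ^ 3) =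
      (18 * (1 - u ^ 2) - 16 * u) * (1 - u ^ 2) ^ 3 := by ring
  rw [e, abs_mul, abs_of_nonneg hp]
  refine mul_le_mul_of_nonneg_right ?_ hp
  rw [abs_le]
  constructor <;> nlinarith only [h1]

theorem blockIneq_tau0 {u : ℝ} (hu : u ∈ Icc (-1 : ℝ) 1) :
    |2 * (1 - u ^ 2) ^ 4 - 24 * u * (1 - u ^ 2) ^ 3 - 8 * (1 - u ^ 2) ^ 3
        + 48 * u ^ 2 * (1 - u ^ 2) ^ 2| ≤ 74 * (1 - u ^ 2) ^ 2 := by
  have h1 : 0 ≤ 1 - u ^ 2 := by nlinarith only [hu.1, hu.2]
  have h2 : 1 - u ^ 2 ≤ 1 := by nlinarith only []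
  have hp : 0 ≤ (1 - u ^ 2) ^ 2 := by (clear * -; positivity)
  have h3 : 0 ≤ (1 - u ^ 2) ^ 2 := by positivity
  have h4 : (1 - u ^ 2) ^ 2 ≤ 1 := by linarith only [mul_nonneg (sq_nonneg (u : ℝ)) (sub_nonneg.2 h1), mul_nonneg (sq_nonneg (u : ℝ)) (sq_nonneg (u : ℝ))]
  have h5 : |u * (1 - u ^ 2)| ≤ 1 := by
    rw [abs_mul, abs_of_nonneg h1]
    have : |u| ≤ 1 := abs_le.2 ⟨hu.1, hu.2⟩
    nlinarith only [this, abs_nonneg u]
  rw [abs_le] at h5
  have e : 2 * (1 - u ^ 2) ^ 4 - 24 * u * (1 - u ^ 2) ^ 3 - 8 * (1 - u ^ 2) ^ 3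
        + 48 * u ^ 2 * (1 - u ^ 2) ^ 2 =
      (2 * (1 - u ^ 2) ^ 2 - 24 * (u * (1 - u ^ 2)) - 8 * (1 - u ^ 2) + 48 * u ^ 2) *
        (1 - u ^ 2) ^ 2 := by ring
  rw [e, abs_mul, abs_of_nonneg hp]
  refine mul_le_mul_of_nonneg_right ?_ hp
  have h6 : u ^ 2 ≤ 1 := by linarith only [h1]
  rw [abs_le]
  constructor <;> linarith

/-- the algebraic part: `x = p² a`, `y = p b` -/
theorem blockIneq_alg {p a b c T1 T0 : ℝ} (hp0 : 0 ≤ p) (hp1 : p ≤ 1)
    (h1 : |T1| ≤ 19 * p ^ 3) (h1' : |15 * p ^ 4 + T1| ≤ 34 * p ^ 3) (h0 : |T0| ≤ 74 * p ^ 2) :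
    -((p ^ 4 * a + T1 * b + T0 * c) * (a + 15 * b + 56 * c)) ≤
      -(3 / 4) * p ^ 4 * a ^ 2 + 3097 * p ^ 2 * b ^ 2 + 40308 * c ^ 2 := by
  have hp3 : p ^ 3 ≤ p ^ 2 := by linarith only [mul_nonneg (sq_nonneg (p : ℝ)) (sub_nonneg.2 hp1)]
  have hp4 : p ^ 4 ≤ p ^ 2 := by nlinarith only [hp3, hp0]
  have hp2 : p ^ 2 ≤ 1 := by nlinarith only [hp1, hp0]
  have q1 : -((15 * p ^ 4 + T1) * (a * b)) ≤ 34 * p ^ 3 * (|a| * |b|) := by
    calc -((15 * p ^ 4 + T1) * (a * b)) ≤ |(15 * p ^ 4 + T1) * (a * b)| := neg_le_abs _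
      _ = |15 * p ^ 4 + T1| * (|a| * |b|) := by rw [abs_mul, abs_mul]
      _ ≤ 34 * p ^ 3 * (|a| * |b|) := by gcongr
  have q2 : -((56 * p ^ 4 + T0) * (a * c)) ≤ 130 * p ^ 2 * (|a| * |c|) := by
    have h : |56 * p ^ 4 + T0| ≤ 130 * p ^ 2 := by
      calc |56 * p ^ 4 + T0| ≤ |56 * p ^ 4| + |T0| := abs_add_le _ _
        _ ≤ 56 * p ^ 2 + 74 * p ^ 2 := by
            rw [abs_of_nonneg (by (clear * -; positivity))]
            gcongr
        _ = 130 * p ^ 2 := by ring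
    calc -((56 * p ^ 4 + T0) * (a * c)) ≤ |(56 * p ^ 4 + T0) * (a * c)| := neg_le_abs _
      _ = |56 * p ^ 4 + T0| * (|a| * |c|) := by rw [abs_mul, abs_mul]
      _ ≤ 130 * p ^ 2 * (|a| * |c|) := by (clear * - h; gcongr)
  have q3 : -(15 * T1 * b ^ 2) ≤ 285 * p ^ 2 * b ^ 2 := by
    have h : -T1 ≤ 19 * p ^ 2 := by
      have := neg_le_abs T1
      linarith only [h1, hp3, this]
    nlinarith only [h]
  have q4 : -((56 * T1 + 15 * T0) * (b * c)) ≤ 2174 * p ^ 2 * (|b| * |c|) := by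
    have h : |56 * T1 + 15 * T0| ≤ 2174 * p ^ 2 := by
      calc |56 * T1 + 15 * T0| ≤ |56 * T1| + |15 * T0| := abs_add_le _ _
        _ = 56 * |T1| + 15 * |T0| := by rw [abs_mul, abs_mul]; (clear * -; norm_num)
        _ ≤ 2174 * p ^ 2 := by linarith only [h1, h0, hp3]
    calc -((56 * T1 + 15 * T0) * (b * c)) ≤ |(56 * T1 + 15 * T0) * (b * c)| := neg_le_abs _
      _ = |56 * T1 + 15 * T0| * (|b| * |c|) := by rw [abs_mul, abs_mul]
      _ ≤ 2174 * p ^ 2 * (|b| * |c|) := by (clear * - h; gcongr)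
  have q5 : -(56 * T0 * c ^ 2) ≤ 4144 * c ^ 2 := by
    have h : -T0 ≤ 74 := by
      have := neg_le_abs T0
      linarith only [h0, hp2, this]
    nlinarith only [h]
  have r1 : 34 * p ^ 3 * (|a| * |b|) ≤ p ^ 4 * a ^ 2 / 8 + 2312 * (p ^ 2 * b ^ 2) := by
    have := sq_nonneg (p ^ 2 * |a| - 136 * (p * |b|))
    have e : (p ^ 2 * |a| - 136 * (p * |b|)) ^ 2 =
        p ^ 4 * |a| ^ 2 - 272 * (p ^ 3 * (|a| * |b|)) + 18496 * (p ^ 2 * |b| ^ 2) := by ring
    rw [e, sq_abs, sq_abs] at this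
    linarith only [this]
  have r2 : 130 * p ^ 2 * (|a| * |c|) ≤ p ^ 4 * a ^ 2 / 8 + 33800 * c ^ 2 := by
    have := sq_nonneg (p ^ 2 * |a| - 520 * |c|)
    have e : (p ^ 2 * |a| - 520 * |c|) ^ 2 =
        p ^ 4 * |a| ^ 2 - 1040 * (p ^ 2 * (|a| * |c|)) + 270400 * |c| ^ 2 := by ring
    rw [e, sq_abs, sq_abs] at this
    linarith only [this]
  have r3 : 2174 * p ^ 2 * (|b| * |c|) ≤ 500 * (p ^ 2 * b ^ 2) + 2364 * c ^ 2 := by
    have h7 : 2174 * (|b| * |c|) ≤ 500 * b ^ 2 + 2364 * c ^ 2 := by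
      have := sq_nonneg (1000 * |b| - 2174 * |c|)
      have e : (1000 * |b| - 2174 * |c|) ^ 2 =
          1000000 * |b| ^ 2 - 4348000 * (|b| * |c|) + 4726276 * |c| ^ 2 := by ring
      rw [e, sq_abs, sq_abs] at this
      nlinarith only [this]
    have h8 : p ^ 2 * (2174 * (|b| * |c|)) ≤ p ^ 2 * (500 * b ^ 2 + 2364 * c ^ 2) :=
      mul_le_mul_of_nonneg_left h7 (sq_nonneg p)
    linarith only [mul_nonneg (sub_nonneg.2 h8) (sub_nonneg.2 hp2), mul_nonneg (sq_nonneg (c : ℝ)) (sub_nonneg.2 hp2), mul_nonneg (sq_nonneg (p : ℝ)) (sub_nonneg.2 h8)]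
  have e : -((p ^ 4 * a + T1 * b + T0 * c) * (a + 15 * b + 56 * c)) =
      -(p ^ 4 * a ^ 2) + -((15 * p ^ 4 + T1) * (a * b)) + -((56 * p ^ 4 + T0) * (a * c)) +
        -(15 * T1 * b ^ 2) + -((56 * T1 + 15 * T0) * (b * c)) + -(56 * T0 * c ^ 2) := by ring
  rw [e]
  linarith

theorem blockIneq_young {p a b c X : ℝ} (hp0 : 0 ≤ p) (hp1 : p ≤ 1) (hX : 0 ≤ X) :
    2 * ((p ^ 4 * |a| + 19 * p ^ 3 * |b| + 74 * p ^ 2 * |c|) * X) ≤
      p ^ 4 * a ^ 2 / 8 + p ^ 2 * b ^ 2 + c ^ 2 + 5845 * X ^ 2 := by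
  have hp2 : p ^ 2 ≤ 1 := by nlinarith
  have hp4 : p ^ 4 ≤ 1 := by nlinarith only [hp2]
  have hp3 : p ^ 3 ≤ p ^ 2 := by nlinarith only [hp1]
  have hX2 := sq_nonneg X
  have s1 : 2 * (p ^ 4 * |a| * X) ≤ p ^ 4 * a ^ 2 / 8 + 8 * X ^ 2 := by
    have h : 2 * (|a| * X) ≤ a ^ 2 / 8 + 8 * X ^ 2 := by
      have := sq_nonneg (|a| - 8 * X)
      have e : (|a| - 8 * X) ^ 2 = |a| ^ 2 - 16 * (|a| * X) + 64 * X ^ 2 := by ring
      rw [e, sq_abs] at this
      linarith only [this]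
    have h' := mul_le_mul_of_nonneg_left h (pow_nonneg hp0 4)
    have h'' := mul_le_mul_of_nonneg_right hp4 hX2
    linarith only [h'', h']
  have s2 : 2 * (19 * p ^ 3 * |b| * X) ≤ p ^ 2 * b ^ 2 + 361 * X ^ 2 := by
    have h : 2 * (19 * (|b| * X)) ≤ b ^ 2 + 361 * X ^ 2 := by
      have := sq_nonneg (|b| - 19 * X)
      have e : (|b| - 19 * X) ^ 2 = |b| ^ 2 - 38 * (|b| * X) + 361 * X ^ 2 := by ring
      rw [e, sq_abs] at this
      linarith only [this]
    have h' := mul_le_mul_of_nonneg_left h (pow_nonneg hp0 2)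
    have h'' := mul_le_mul_of_nonneg_right hp2 hX2
    have h3 := mul_le_mul_of_nonneg_right hp3 (mul_nonneg (abs_nonneg b) hX)
    linarith only [h', h'', h3]
  have s3 : 2 * (74 * p ^ 2 * |c| * X) ≤ c ^ 2 + 5476 * X ^ 2 := by
    have h : 2 * (74 * (|c| * X)) ≤ c ^ 2 + 5476 * X ^ 2 := by
      have := sq_nonneg (|c| - 74 * X)
      have e : (|c| - 74 * X) ^ 2 = |c| ^ 2 - 148 * (|c| * X) + 5476 * X ^ 2 := by ring
      rw [e, sq_abs] at this
      linarith only [this]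
    have h3 := mul_le_mul_of_nonneg_right hp2 (mul_nonneg (abs_nonneg c) hX)
    linarith only [h, h3]
  linarith only [s1, s2, s3]

theorem blockIneq_tau {p a b c T1 T0 : ℝ} (hp0 : 0 ≤ p)
    (h1 : |T1| ≤ 19 * p ^ 3) (h0 : |T0| ≤ 74 * p ^ 2) :
    |p ^ 4 * a + T1 * b + T0 * c| ≤ p ^ 4 * |a| + 19 * p ^ 3 * |b| + 74 * p ^ 2 * |c| := by
  calc |p ^ 4 * a + T1 * b + T0 * c| ≤ |p ^ 4 * a| + |T1 * b| + |T0 * c| := abs_add_three _ _ _
    _ = p ^ 4 * |a| + |T1| * |b| + |T0| * |c| := by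
        rw [abs_mul, abs_mul, abs_mul, abs_of_nonneg (pow_nonneg hp0 4)]
    _ ≤ p ^ 4 * |a| + 19 * p ^ 3 * |b| + 74 * p ^ 2 * |c| := by gcongr

theorem blockIneq_H {p a b c H Y : ℝ}
    (hH1 : 1 / 2 ≤ H) (hH2 : H ≤ 1)
    (hY : Y ≤ -(3 / 4) * p ^ 4 * a ^ 2 + 3097 * p ^ 2 * b ^ 2 + 40308 * c ^ 2) :
    2 * (H * Y) ≤ -(3 / 4) * (p ^ 4 * a ^ 2) + 6194 * (p ^ 2 * b ^ 2) + 80616 * c ^ 2 := by
  have hH0 : 0 ≤ H := by linarith only [hH1]
  have h1 := mul_le_mul_of_nonneg_left hY hH0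
  have h2 : 0 ≤ p ^ 4 * a ^ 2 := by (clear * -; positivity)
  have h3 : 0 ≤ p ^ 2 * b ^ 2 := by positivity
  have h4 : 0 ≤ c ^ 2 := by (clear * -; positivity)
  have h5 := mul_le_mul_of_nonneg_right hH1 h2
  have h6 := mul_le_mul_of_nonneg_right hH2 h3
  have h7 := mul_le_mul_of_nonneg_right hH2 h4
  linarith only [h1, h5, h6, h7]

/-- `W p² b²` is a derivative up to small terms -/
theorem blockIneq_parts {p u a b c W : ℝ} (hp0 : 0 ≤ p) (hp1 : p ≤ 1)
    (hu : |u| ≤ 1) (hW : 0 ≤ W) :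
    6196 * (W * (p ^ 2 * b ^ 2)) ≤
      12392 * (W * ((-2 * p ^ 2 - 4 * u * p) * (c * b) + p ^ 2 * b ^ 2 + p ^ 2 * (c * a)))
        + W * (p ^ 4 * a ^ 2 / 2) + 77003888 * (W * c ^ 2) := by
  have hpp : p ^ 2 ≤ p := by nlinarith only [hp0, hp1]
  have k1 : (2 * p ^ 2 + 4 * u * p) * (c * b) ≤ p ^ 2 * b ^ 2 / 2 + 18 * c ^ 2 := by
    have h : |2 * p ^ 2 + 4 * u * p| ≤ 6 * p := by
      calc |2 * p ^ 2 + 4 * u * p| ≤ |2 * p ^ 2| + |4 * u * p| := abs_add_le _ _
        _ = 2 * p ^ 2 + 4 * |u| * p := by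
            rw [abs_mul, abs_mul, abs_mul, abs_of_nonneg hp0, abs_of_nonneg (sq_nonneg p)]
            norm_num
        _ ≤ 2 * p + 4 * 1 * p := by (clear * - hpp hu hp0; gcongr)
        _ = 6 * p := by ring
    calc (2 * p ^ 2 + 4 * u * p) * (c * b) ≤ |(2 * p ^ 2 + 4 * u * p) * (c * b)| := le_abs_self _
      _ = |2 * p ^ 2 + 4 * u * p| * (|c| * |b|) := by rw [abs_mul, abs_mul c b]
      _ ≤ 6 * p * (|c| * |b|) := by gcongr
      _ ≤ p ^ 2 * b ^ 2 / 2 + 18 * c ^ 2 := by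
          have := sq_nonneg (p * |b| - 6 * |c|)
          have e : (p * |b| - 6 * |c|) ^ 2 =
            p ^ 2 * |b| ^ 2 - 12 * (p * (|c| * |b|)) + 36 * |c| ^ 2 := by ring
          rw [e, sq_abs, sq_abs] at this
          linarith only [this]
  have k2 : -(p ^ 2 * (c * a)) ≤ p ^ 4 * a ^ 2 / 24784 + 6196 * c ^ 2 := by
    have := sq_nonneg (p ^ 2 * a + 12392 * c)
    have e : (p ^ 2 * a + 12392 * c) ^ 2 =
      p ^ 4 * a ^ 2 + 24784 * (p ^ 2 * (c * a)) + 153561664 * c ^ 2 := by ring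
    rw [e] at this
    linarith only [this]
  have k1' := mul_le_mul_of_nonneg_left k1 hW
  have k2' := mul_le_mul_of_nonneg_left k2 hW
  linarith only [k2', k1']

/-- the pointwise inequality -/
theorem blockIneq_point {p u a b c T1 T0 H f r B k W : ℝ} (hp0 : 0 ≤ p) (hp1 : p ≤ 1)
    (hu : |u| ≤ 1)
    (h1 : |T1| ≤ 19 * p ^ 3) (h1' : |15 * p ^ 4 + T1| ≤ 34 * p ^ 3) (h0 : |T0| ≤ 74 * p ^ 2)
    (hH1 : 1 / 2 ≤ H) (hH2 : H ≤ 1) (hf : |f| ≤ B) (hk : 0 < k) (hW : 0 < W) :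
    2 * ((p ^ 4 * a + T1 * b + T0 * c) *
      (-(k * W) * (H * (a + 15 * b + 56 * c) + f) + r)) ≤
      12392 * k * (W * ((-2 * p ^ 2 - 4 * u * p) * (c * b) + p ^ 2 * b ^ 2 + p ^ 2 * (c * a)))
      + 77084506 * (k * (W * c ^ 2)) + 5845 * (k * (B ^ 2 * W)) + 5845 * (r ^ 2 / (k * W)) := by
  have hkW : 0 < k * W := by positivity
  have hB : 0 ≤ B := (abs_nonneg f).trans hf
  set t := p ^ 4 * a + T1 * b + T0 * c with ht
  set Q := a + 15 * b + 56 * c with hQ
  have hA : -(t * Q) ≤ -(3 / 4) * p ^ 4 * a ^ 2 + 3097 * p ^ 2 * b ^ 2 + 40308 * c ^ 2 :=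
    blockIneq_alg hp0 hp1 h1 h1' h0
  have hA' := blockIneq_H hH1 hH2 hA
  have htt : |t| ≤ p ^ 4 * |a| + 19 * p ^ 3 * |b| + 74 * p ^ 2 * |c| :=
    blockIneq_tau hp0 h1 h0
  have e1 : 2 * (-(t * f)) ≤ p ^ 4 * a ^ 2 / 8 + p ^ 2 * b ^ 2 + c ^ 2 + 5845 * B ^ 2 := by
    have : -(t * f) ≤ (p ^ 4 * |a| + 19 * p ^ 3 * |b| + 74 * p ^ 2 * |c|) * B := by
      calc -(t * f) ≤ |t * f| := neg_le_abs _
        _ = |t| * |f| := abs_mul _ _
        _ ≤ _ := by (clear * - htt hf hp0; gcongr)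
    linarith only [blockIneq_young (a := a) (b := b) (c := c) hp0 hp1 hB, this]
  have e2 : 2 * (t * r) ≤ k * W * (p ^ 4 * a ^ 2 / 8 + p ^ 2 * b ^ 2 + c ^ 2)
      + 5845 * (r ^ 2 / (k * W)) := by
    have hX : 0 ≤ |r| / (k * W) := by (clear * - hk hW; positivity)
    have h3 : t * r ≤ k * W * ((p ^ 4 * |a| + 19 * p ^ 3 * |b| + 74 * p ^ 2 * |c|) *
        (|r| / (k * W))) := by
      calc t * r ≤ |t * r| := le_abs_self _
        _ = |t| * |r| := abs_mul _ _
        _ ≤ (p ^ 4 * |a| + 19 * p ^ 3 * |b| + 74 * p ^ 2 * |c|) * |r| := by (clear * - htt; gcongr)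
        _ = _ := by (clear * - hk hW; field_simp)
    have h4 := mul_le_mul_of_nonneg_left
      (blockIneq_young (a := a) (b := b) (c := c) hp0 hp1 hX) hkW.le
    have h5 : k * W * (|r| / (k * W)) ^ 2 = r ^ 2 / (k * W) := by
      rw [div_pow, sq_abs]; (clear * - hW hk; field_simp)
    have h6 : k * W * (p ^ 4 * a ^ 2 / 8 + p ^ 2 * b ^ 2 + c ^ 2 + 5845 * (|r| / (k * W)) ^ 2) =
        k * W * (p ^ 4 * a ^ 2 / 8 + p ^ 2 * b ^ 2 + c ^ 2) + 5845 * (r ^ 2 / (k * W)) := by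
      rw [← h5]; ring
    rw [h6] at h4
    linarith only [h4, h3]
  have hP := blockIneq_parts (a := a) (b := b) (c := c) hp0 hp1 hu hW.le
  have hP' := mul_le_mul_of_nonneg_left hP hk.le
  have m1 := mul_le_mul_of_nonneg_left (add_le_add hA' e1) hkW.le
  have e : 2 * (t * (-(k * W) * (H * Q + f) + r)) =
      k * W * (2 * (H * (-(t * Q))) + 2 * (-(t * f))) + 2 * (t * r) := by ring
  rw [e]
  linarith only [e2, hP', m1]

theorem blockIneq_exp {u : ℝ} (hu : u ∈ Icc (-1 : ℝ) 1) :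
    exp (-2 * u) ≤ 739 / 100 ∧ exp (2 * u) ≤ 739 / 100 := by
  have h2 : exp 2 ≤ 739 / 100 := by
    have h := exp_one_lt_d9
    have e : exp 2 = exp 1 * exp 1 := by rw [← exp_add]; norm_num
    rw [e]
    nlinarith [exp_pos 1]
  exact ⟨(exp_le_exp.2 (by linarith only [hu.1])).trans h2, (exp_le_exp.2 (by linarith only [hu.2])).trans h2⟩

theorem blockIneq_expint : ∫ u in (-1 : ℝ)..1, exp (-2 * u) ≤ 3695 / 1000 := by
  have h := intervalIntegral.integral_eq_sub_of_hasDerivAt (a := -1) (b := 1)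
    (f := fun u : ℝ => exp (-2 * u) / (-2)) (f' := fun u => exp (-2 * u))
    (fun u _ => by
      have h1 : HasDerivAt (fun u : ℝ => -2 * u) (-2) u := by
        simpa only [neg_mul, id_eq, mul_one] using (hasDerivAt_id u).const_mul (-2 : ℝ)
      have h2 := h1.exp.div_const (-2)
      have e : exp (-2 * u) * -2 / -2 = exp (-2 * u) := by
        rw [mul_div_assoc]; norm_num
      rw [e] at h2
      exact h2) (by
      apply Continuous.intervalIntegrable
      fun_prop)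
  rw [h]
  have h3 := (blockIneq_exp (u := -1) (by norm_num)).1
  have h4 := exp_pos (-2 * 1 : ℝ)
  have e : exp (-2 * 1 : ℝ) / (-2) - exp (-2 * (-1) : ℝ) / (-2) =
    (exp (-2 * (-1) : ℝ) - exp (-2 * 1 : ℝ)) / 2 := by ring
  refine e.le.trans ?_
  rw [div_le_iff₀ (by norm_num)]
  refine (sub_le_sub h3 h4.le).trans ?_
  norm_num

/-- (D1) The spatial inequality on one block. -/
theorem block_ineq {w0 w1 w2 H f r : ℝ → ℝ} {k B : ℝ} (hk : 0 < k) (hB : 0 ≤ B)
    (h1 : ∀ u ∈ Icc (-1 : ℝ) 1, HasDerivAt w0 (w1 u) u)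
    (h2 : ∀ u ∈ Icc (-1 : ℝ) 1, HasDerivAt w1 (w2 u) u)
    (c2 : ContinuousOn w2 (Icc (-1) 1)) (cH : ContinuousOn H (Icc (-1) 1))
    (hH : ∀ u ∈ Icc (-1 : ℝ) 1, 1 / 2 ≤ H u ∧ H u ≤ 1)
    (cf : ContinuousOn f (Icc (-1) 1)) (hf : ∀ u ∈ Icc (-1 : ℝ) 1, |f u| ≤ B)
    (cr : ContinuousOn r (Icc (-1) 1)) :
    2 * ∫ u in (-1 : ℝ)..1, tauB (w2 u) (w1 u) (w0 u) u *
        (-(k * exp (-2 * u)) * (H u * (w2 u + 15 * w1 u + 56 * w0 u) + f u) + r u)
      ≤ k * (600000000 * (∫ u in (-1 : ℝ)..1, w0 u ^ 2) + 22000 * B ^ 2)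
        + 44000 / k * ∫ u in (-1 : ℝ)..1, r u ^ 2 := by
  have c0 : ContinuousOn w0 (Icc (-1) 1) := fun u hu => (h1 u hu).continuousAt.continuousWithinAt
  have c1 : ContinuousOn w1 (Icc (-1) 1) := fun u hu => (h2 u hu).continuousAt.continuousWithinAt
  have hle : (-1 : ℝ) ≤ 1 := by norm_num
  have hI : uIcc (-1 : ℝ) 1 = Icc (-1) 1 := uIcc_of_le hle
  -- the exact derivative
  set Φ : ℝ → ℝ := fun u => exp (-2 * u) * ((1 - u ^ 2) ^ 2 * (w0 u * w1 u)) with hΦ
  set Ψ : ℝ → ℝ := fun u => exp (-2 * u) *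
    ((-2 * (1 - u ^ 2) ^ 2 - 4 * u * (1 - u ^ 2)) * (w0 u * w1 u)
      + (1 - u ^ 2) ^ 2 * w1 u ^ 2 + (1 - u ^ 2) ^ 2 * (w0 u * w2 u)) with hΨ
  have hd : ∀ u ∈ Icc (-1 : ℝ) 1, HasDerivAt Φ (Ψ u) u := by
    intro u hu
    have e1 : HasDerivAt (fun u : ℝ => -2 * u) (-2) u := by
      simpa only [neg_mul, id_eq, mul_one] using (hasDerivAt_id u).const_mul (-2 : ℝ)
    have e2 : HasDerivAt (fun u : ℝ => 1 - u ^ 2) (-(2 * u)) u := by
      simpa only [Nat.cast_ofNat, Nat.add_one_sub_one, pow_one] using (hasDerivAt_pow 2 u).const_sub 1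
    have e3 := e1.exp.mul ((e2.pow 2).mul ((h1 u hu).mul (h2 u hu)))
    refine e3.congr_deriv ?_
    simp only [hΨ, Pi.mul_apply, Pi.pow_apply]
    push_cast
    ring
  have cΨ : ContinuousOn Ψ (Icc (-1) 1) := by
    simp only [hΨ]
    (clear * - c0 c1 c2; fun_prop)
  have iΨ : IntervalIntegrable Ψ volume (-1) 1 := by
    apply ContinuousOn.intervalIntegrable
    rwa [hI]
  have hΦ0 : ∫ u in (-1 : ℝ)..1, Ψ u = 0 := by
    rw [intervalIntegral.integral_eq_sub_of_hasDerivAt (fun u hu => hd u (by rwa [hI] at hu)) iΨ]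
    simp only [hΦ, neg_mul, mul_one, one_pow, sub_self, ne_eq, OfNat.ofNat_ne_zero, not_false_eq_true, zero_pow, zero_mul, mul_zero, mul_neg, neg_neg, even_two, Even.neg_pow]
  have i0 : IntervalIntegrable (fun u => w0 u ^ 2) volume (-1) 1 := by
    apply ContinuousOn.intervalIntegrable
    rw [hI]; (clear * - c0; fun_prop)
  have ir : IntervalIntegrable (fun u => r u ^ 2) volume (-1) 1 := by
    apply ContinuousOn.intervalIntegrable
    rw [hI]; fun_prop
  have iW : IntervalIntegrable (fun u : ℝ => exp (-2 * u)) volume (-1) 1 := by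
    apply Continuous.intervalIntegrable
    fun_prop
  rw [← intervalIntegral.integral_const_mul]
  have hmono := intervalIntegral.integral_mono_on (μ := volume) (a := -1) (b := 1)
    (f := fun u => 2 * (tauB (w2 u) (w1 u) (w0 u) u *
        (-(k * exp (-2 * u)) * (H u * (w2 u + 15 * w1 u + 56 * w0 u) + f u) + r u)))
    (g := fun u => (12392 * k * Ψ u + k * 600000000 * w0 u ^ 2) +
      (5845 * k * B ^ 2 * exp (-2 * u) + 44000 / k * r u ^ 2)) hle (by
        apply ContinuousOn.intervalIntegrable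
        rw [hI]
        unfold tauB
        fun_prop) (by
        exact ((iΨ.const_mul _).add (i0.const_mul _)).add ((iW.const_mul _).add
          (ir.const_mul _))) (by
        intro u hu
        have hp0 : 0 ≤ 1 - u ^ 2 := by linarith only [mul_nonneg (sub_nonneg.2 hu.1) (sub_nonneg.2 hu.2)]
        have hp1 : 1 - u ^ 2 ≤ 1 := by nlinarith only []
        have hW := exp_pos (-2 * u)
        have hpt := blockIneq_point (a := w2 u) (b := w1 u) (c := w0 u) (r := r u) hp0 hp1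
          (abs_le.2 ⟨hu.1, hu.2⟩) (blockIneq_tau1 hu) (blockIneq_tau1' hu) (blockIneq_tau0 hu)
          (hH u hu).1 (hH u hu).2 (hf u hu) hk hW
        have hE := blockIneq_exp hu
        have g1 : 77084506 * (k * (exp (-2 * u) * w0 u ^ 2)) ≤ k * 600000000 * w0 u ^ 2 := by
          have h3 : exp (-2 * u) * w0 u ^ 2 ≤ 739 / 100 * w0 u ^ 2 :=
            mul_le_mul_of_nonneg_right hE.1 (sq_nonneg _)
          have h4 := mul_le_mul_of_nonneg_left h3 hk.le
          have h5 : 0 ≤ k * w0 u ^ 2 := by (clear * - hk; positivity)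
          linarith only [h4, h5]
        have g2 : 5845 * (r u ^ 2 / (k * exp (-2 * u))) ≤ 44000 / k * r u ^ 2 := by
          have h3 : r u ^ 2 / (k * exp (-2 * u)) = exp (2 * u) * (r u ^ 2 / k) := by
            have h4 : exp (2 * u) = (exp (-2 * u))⁻¹ := by
              rw [← exp_neg]; congr 1; ring
            rw [h4, div_eq_mul_inv, div_eq_mul_inv, mul_inv]
            ring
          have h5 : 0 ≤ r u ^ 2 / k := by (clear * - hk; positivity)
          have h6 := mul_le_mul_of_nonneg_right hE.2 h5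
          have h7 : 44000 / k * r u ^ 2 = 44000 * (r u ^ 2 / k) := by ring
          rw [h3, h7]
          linarith only [h5, h6]
        have g3 : 5845 * (k * (B ^ 2 * exp (-2 * u))) = 5845 * k * B ^ 2 * exp (-2 * u) := by ring
        simp only [tauB, hΨ]
        linarith only [g2, g1, hpt])
  refine hmono.trans ?_
  rw [intervalIntegral.integral_add ((iΨ.const_mul _).add (i0.const_mul _))
      ((iW.const_mul _).add (ir.const_mul _)),
    intervalIntegral.integral_add (iΨ.const_mul _) (i0.const_mul _),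
    intervalIntegral.integral_add (iW.const_mul _) (ir.const_mul _),
    intervalIntegral.integral_const_mul, intervalIntegral.integral_const_mul,
    intervalIntegral.integral_const_mul, intervalIntegral.integral_const_mul, hΦ0]
  have h3 : 5845 * k * B ^ 2 * (∫ u in (-1 : ℝ)..1, exp (-2 * u)) ≤
      5845 * k * B ^ 2 * (3695 / 1000) :=
    mul_le_mul_of_nonneg_left blockIneq_expint (by (clear * - hk; positivity))
  have h4 : 0 ≤ k * B ^ 2 := by (clear * - hk; positivity)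
  linarith only [h3, h4]

end P264.B
end
end

section

section

/-!
# P264 / B / Far / BlockLe : differential inequality for the block energy (D4)
-/

open MeasureTheory Set Filter Real
open scoped ContDiff Topology

namespace P264.B

variable {R ρ χ : ℝ → ℝ} {Rmin α z₀ rf E₃ : ℝ}

theorem cont_resid_far (hR : ContDiff ℝ 4 R) : Continuous (resid R) := by
  unfold resid
  have h1 : Continuous (deriv R) := hR.continuous_deriv (by norm_num)
  have h2 := cont_kap hR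
  have h3 := hR.continuous
  (clear * - h1 h3 h2; continuity)

/-- (D4), core: the spatial inequality (D1) on one block is an argument. -/
theorem blockD_le_core
    (D1 : ∀ (w0 w1 w2 H f r : ℝ → ℝ) (k B : ℝ), 0 < k → 0 ≤ B →
      (∀ u ∈ Icc (-1 : ℝ) 1, HasDerivAt w0 (w1 u) u) →
      (∀ u ∈ Icc (-1 : ℝ) 1, HasDerivAt w1 (w2 u) u) →
      ContinuousOn w2 (Icc (-1) 1) → ContinuousOn H (Icc (-1) 1) →
      (∀ u ∈ Icc (-1 : ℝ) 1, 1 / 2 ≤ H u ∧ H u ≤ 1) →
      ContinuousOn f (Icc (-1) 1) → (∀ u ∈ Icc (-1 : ℝ) 1, |f u| ≤ B) →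
      ContinuousOn r (Icc (-1) 1) →
      2 * ∫ u in (-1 : ℝ)..1, tauB (w2 u) (w1 u) (w0 u) u *
          (-(k * exp (-2 * u)) * (H u * (w2 u + 15 * w1 u + 56 * w0 u) + f u) + r u)
        ≤ k * (600000000 * (∫ u in (-1 : ℝ)..1, w0 u ^ 2) + 22000 * B ^ 2)
          + 44000 / k * ∫ u in (-1 : ℝ)..1, r u ^ 2)
    (hR : Profile R Rmin α) (hF : FarCert R ρ z₀ rf E₃)
    {U₀ : ℝ → ℝ} {U φ : ℝ → ℝ → ℝ} {T X c s η : ℝ}
    (hφ : IsFlowU 8 T U₀ U φ) (hχ : Cutoff χ X) (hs : exp (-s) ≤ T)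
    (hc : exp (c + 5 / 3) ≤ X / 2) (hz : z₀ ≤ c + s / 2) (hη : 0 ≤ η) (hη2 : η ≤ 1 / 20)
    (hsm : Small R φ T X η s) :
    blockD χ R φ T c s ≤ exp (-2 * (c + s / 2)) * (961800000 *
        (blockE χ R φ T (c - 2 / 3) s + blockE χ R φ T c s + blockE χ R φ T (c + 2 / 3) s)
        + 25000000 * η ^ 2)
      + 44000 * exp (2 * (c + s / 2)) * ∫ u in (-1 : ℝ)..1, resid R (c + s / 2 + u) ^ 2 := by
  have hadm : Adm (GG χ R φ T s) := GG_adm hR hφ hχ hs
  have hG := hadm.smooth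
  set G := GG χ R φ T s with hGdef
  have ho := om_contDiff hG
  have ho' : ContDiff ℝ (2 : ℕ) (om G) := ho
  set a := c + s / 2 with ha
  -- the region
  have hx : ∀ u ∈ Icc (-1 : ℝ) 1, xx s (a + u) ≤ X / 2 := by
    intro u hu
    unfold xx
    refine le_trans ?_ hc
    apply exp_le_exp.2
    have := hu.2
    linarith only [ha, this]
  have hX := hχ.X_pos
  have hW : ∀ u ∈ Icc (-1 : ℝ) 1, WW R φ T s (a + u) = G (a + u) := by
    intro u hu
    rw [hGdef]
    unfold GG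
    rw [hχ.one _ (hx u hu), one_mul]
  have hH : ∀ u ∈ Icc (-1 : ℝ) 1, HH φ T s (a + u) = G (a + u) + R (a + u) := by
    intro u hu
    rw [← hW u hu]
    unfold WW
    ring
  have hzz : ∀ u ∈ Icc (-1 : ℝ) 1, z₀ - 2 ≤ a + u := by
    intro u hu
    have := hu.1
    linarith only [hz, this]
  have hR1 : ∀ u ∈ Icc (-1 : ℝ) 1, 79 / 100 ≤ R (a + u) := fun u hu => hF.R_lower _ (hzz u hu)
  have hR2 : ∀ u ∈ Icc (-1 : ℝ) 1, R (a + u) ≤ 81 / 100 := fun u hu => hF.R_upper _ (hzz u hu)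
  have hw : ∀ u ∈ Icc (-1 : ℝ) 1, |G (a + u)| ≤ η * R (a + u) := by
    intro u hu
    rw [← hW u hu]
    exact hsm _ ((hx u hu).trans (by linarith only [hX]))
  have cG : Continuous G := hG.continuous
  have cR : Continuous R := hR.smooth.continuous
  have ck := cont_kap hR.smooth
  have cr := cont_resid_far hR.smooth
  have cadd : Continuous fun u : ℝ => a + u := by fun_prop
  -- D1
  have hk : 0 < exp (-2 * a) := exp_pos _
  have D1 := D1 (fun u => om G (a + u))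
    (fun u => iteratedDeriv 1 (om G) (a + u)) (fun u => iteratedDeriv 2 (om G) (a + u))
    (fun u => (G (a + u) + R (a + u)) ^ 2)
    (fun u => (2 * R (a + u) + G (a + u)) * G (a + u) * kap R (a + u))
    (fun u => resid R (a + u)) (exp (-2 * a)) (33 * η) hk (by (clear * - hη; positivity))
    (by
      intro u _
      have h1 := hasDerivAt_iter ho' (k := 0) (by norm_num) (a + u)
      rw [iteratedDeriv_zero] at h1
      have h2 := h1.comp_const_add a u
      exact h2)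
    (by
      intro u _
      have h1 := hasDerivAt_iter ho' (k := 1) (by norm_num) (a + u)
      exact h1.comp_const_add a u)
    (((cont_om hG (j := 2) le_rfl).comp cadd).continuousOn)
    (((cG.comp cadd).add (cR.comp cadd)).pow 2).continuousOn
    (by
      intro u hu
      have h1 := hR1 u hu
      have h2 := hR2 u hu
      have h3 := abs_le.1 (hw u hu)
      have h4 : η * R (a + u) ≤ 1 / 20 * R (a + u) :=
        mul_le_mul_of_nonneg_right hη2 (by linarith only [h1])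
      constructor
      · nlinarith only [h1, h3, h4]
      · nlinarith only [h2, h3, h4])
    ((((continuous_const.mul (cR.comp cadd)).add (cG.comp cadd)).mul (cG.comp cadd)).mul
      (ck.comp cadd)).continuousOn
    (by
      intro u hu
      have h1 := hR1 u hu
      have h2 := hR2 u hu
      have h3 := hw u hu
      have h4 := hF.kap_le _ (hzz u hu)
      have h5 : |2 * R (a + u) + G (a + u)| ≤ (2 + η) * R (a + u) := by
        calc |2 * R (a + u) + G (a + u)| ≤ |2 * R (a + u)| + |G (a + u)| := abs_add_le _ _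
          _ ≤ 2 * R (a + u) + η * R (a + u) := by
            rw [abs_of_nonneg (by linarith only [h1])]
            linarith only [h3]
          _ = _ := by ring
      have h6 : 0 ≤ R (a + u) := by linarith only [h1]
      rw [abs_mul, abs_mul]
      calc |2 * R (a + u) + G (a + u)| * |G (a + u)| * |kap R (a + u)|
          ≤ ((2 + η) * R (a + u)) * (η * R (a + u)) * 24 := by (clear * - h5 h3 hη h1 h4; gcongr)
        _ ≤ ((2 + 1 / 20) * (81 / 100)) * (η * (81 / 100)) * 24 := by (clear * - hη2 h2 h1 hη; gcongr)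
        _ ≤ 33 * η := by linarith only [hη])
    (cr.comp cadd).continuousOn
  have hD : blockD χ R φ T c s = 2 * ∫ u in (-1 : ℝ)..1,
      tauB (iteratedDeriv 2 (om G) (a + u)) (iteratedDeriv 1 (om G) (a + u)) (om G (a + u)) u *
        (-(exp (-2 * a) * exp (-2 * u)) * ((G (a + u) + R (a + u)) ^ 2 *
          (iteratedDeriv 2 (om G) (a + u) + 15 * iteratedDeriv 1 (om G) (a + u)
            + 56 * om G (a + u)) + (2 * R (a + u) + G (a + u)) * G (a + u) * kap R (a + u))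
          + resid R (a + u)) := by
    unfold blockD
    rw [← ha, ← hGdef]
    congr 1
    apply intervalIntegral.integral_congr
    intro u hu
    rw [uIcc_of_le (by norm_num)] at hu
    simp only
    congr 1
    unfold gdot
    rw [← hGdef, hH u hu, hW u hu, piD_eq_om hG, mul_add (-2 : ℝ) a u, exp_add]
  have D2 := block_cover (g := fun z => om G z ^ 2) ((cont_om0 hG).pow 2)
    (fun z => sq_nonneg _) a
  have e1 : blockE χ R φ T (c - 2 / 3) s =
      ∫ u in (-1 : ℝ)..1, (1 - u ^ 2) ^ 4 * om G (a - 2 / 3 + u) ^ 2 := by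
    unfold blockE
    rw [← hGdef, show c - 2 / 3 + s / 2 = a - 2 / 3 by rw [ha]; ring]
  have e2 : blockE χ R φ T (c + 2 / 3) s =
      ∫ u in (-1 : ℝ)..1, (1 - u ^ 2) ^ 4 * om G (a + 2 / 3 + u) ^ 2 := by
    unfold blockE
    rw [← hGdef, show c + 2 / 3 + s / 2 = a + 2 / 3 by rw [ha]; ring]
  have e0 : blockE χ R φ T c s =
      ∫ u in (-1 : ℝ)..1, (1 - u ^ 2) ^ 4 * om G (a + u) ^ 2 := by
    unfold blockE
    rw [← hGdef]
  rw [hD, e0, e1, e2]
  refine D1.trans ?_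
  have h44 : 44000 / exp (-2 * a) = 44000 * exp (2 * a) := by
    rw [div_eq_mul_inv, ← exp_neg]
    congr 2
    ring
  rw [h44]
  apply add_le_add _ le_rfl
  apply mul_le_mul_of_nonneg_left _ hk.le
  have hη4 := sq_nonneg η
  linarith only [D2, hη4]

/-- (D4) Differential inequality for the block energy, in terms of the three neighbours. -/
theorem blockD_le (hR : Profile R Rmin α) (hF : FarCert R ρ z₀ rf E₃)
    {U₀ : ℝ → ℝ} {U φ : ℝ → ℝ → ℝ} {T X c s η : ℝ}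
    (hφ : IsFlowU 8 T U₀ U φ) (hχ : Cutoff χ X) (hs : exp (-s) ≤ T)
    (hc : exp (c + 5 / 3) ≤ X / 2) (hz : z₀ ≤ c + s / 2) (hη : 0 ≤ η) (hη2 : η ≤ 1 / 20)
    (hsm : Small R φ T X η s) :
    blockD χ R φ T c s ≤ exp (-2 * (c + s / 2)) * (961800000 *
        (blockE χ R φ T (c - 2 / 3) s + blockE χ R φ T c s + blockE χ R φ T (c + 2 / 3) s)
        + 25000000 * η ^ 2)
      + 44000 * exp (2 * (c + s / 2)) * ∫ u in (-1 : ℝ)..1, resid R (c + s / 2 + u) ^ 2 :=
  blockD_le_core (fun _ _ _ _ _ _ _ _ a1 a2 a3 a4 a5 a6 a7 a8 a9 a10 =>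
    block_ineq a1 a2 a3 a4 a5 a6 a7 a8 a9 a10) hR hF hφ hχ hs hc hz hη hη2 hsm

end P264.B
end
end

section

section

/-!
# P264, module M6: Gronwall lemmas and the bootstrap (continuity) principle
-/

open Set Filter Topology

namespace Vale.Agent.P264.Cal

/-- Growth: `f' ≤ k f + g` on `(a,b)` with `k ≥ 0` a function with primitive `Kp`, `g ≥ 0` with
primitive `G`, `G a = 0`, `Kp a = 0`, and `f ≥ 0`:
`f s ≤ e^{Kp s} (f a + G s)`. -/
theorem gron_growth {a b : ℝ} {f f' G g Kp k : ℝ → ℝ}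
    (hc : ContinuousOn f (Icc a b)) (hd : ∀ s ∈ Ioo a b, HasDerivAt f (f' s) s)
    (hGc : ContinuousOn G (Icc a b)) (hG : ∀ s ∈ Ioo a b, HasDerivAt G (g s) s)
    (hg0 : ∀ s ∈ Ioo a b, 0 ≤ g s) (hGa : G a = 0)
    (hKc : ContinuousOn Kp (Icc a b)) (hK : ∀ s ∈ Ioo a b, HasDerivAt Kp (k s) s)
    (hK0 : ∀ s ∈ Ioo a b, 0 ≤ Kp s) (hKa : Kp a = 0)
    (hle : ∀ s ∈ Ioo a b, f' s ≤ k s * f s + g s) :
    ∀ s ∈ Icc a b, f s ≤ Real.exp (Kp s) * (f a + G s) := by
  intro s hs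
  have hab : a ≤ b := hs.1.trans hs.2
  set F : ℝ → ℝ := fun s => Real.exp (-Kp s) * f s - G s with hF
  have hanti : AntitoneOn F (Icc a b) := by
    apply antitoneOn_of_deriv_nonpos (convex_Icc a b)
    · exact ((Real.continuous_exp.comp_continuousOn hKc.neg).mul hc).sub hGc
    · intro x hx
      rw [interior_Icc] at hx
      exact (((hK x hx).neg.exp.mul (hd x hx)).sub (hG x hx)).differentiableAt.differentiableWithinAt
    · intro x hx
      rw [interior_Icc] at hx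
      have h1 := (((hK x hx).neg.exp.mul (hd x hx)).sub (hG x hx))
      have h2 : deriv F x = Real.exp (-Kp x) * (-k x) * f x + Real.exp (-Kp x) * f' x - g x :=
        h1.deriv
      rw [h2]
      have h3 := hle x hx
      have h4 : Real.exp (-Kp x) ≤ 1 := Real.exp_le_one_iff.mpr (by linarith only [hK0 x hx])
      have h5 := Real.exp_pos (-Kp x)
      have h6 := hg0 x hx
      have h7 : Real.exp (-Kp x) * (f' x - k x * f x) ≤ Real.exp (-Kp x) * g x :=
        mul_le_mul_of_nonneg_left (by linarith only [h3]) h5.le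
      have h8 : Real.exp (-Kp x) * g x ≤ g x := by nlinarith only [h4, h6]
      linarith
  have h1 := hanti ⟨le_rfl, hab⟩ hs hs.1
  simp only [hF, hKa, hGa, neg_zero, Real.exp_zero, one_mul, sub_zero] at h1
  have h2 : Real.exp (Kp s) * (Real.exp (-Kp s) * f s) = f s := by
    rw [← mul_assoc, ← Real.exp_add]
    simp
  have h3 : Real.exp (Kp s) * (Real.exp (-Kp s) * f s) ≤ Real.exp (Kp s) * (f a + G s) :=
    mul_le_mul_of_nonneg_left (by linarith only [h1]) (Real.exp_pos _).le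
  linarith only [h2, h3]

end Vale.Agent.P264.Cal
end
end

section

section

/-!
# P264 / B / OuterLem : the outer lemma (module M4c)

Bounded Calabi energy and short time imply that the profile hardly moves on compact subsets of
`(0,1)`.
-/

open Set MeasureTheory Filter Topology
open scoped ContDiff
open Vale.Agent.P264.Cal (PC1)
open P264.Cal (pdt pdx)

namespace P264.B

/-- `U` as a function of the pair. -/
abbrev pr (U : ℝ → ℝ → ℝ) : ℝ × ℝ → ℝ := fun p => U p.1 p.2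

/-- The Calabi energy `∫ x⁷ U_t²` at time `t`. -/
noncomputable def En (T : ℝ) (U : ℝ → ℝ → ℝ) (t : ℝ) : ℝ :=
  ∫ x in (0 : ℝ)..1, x ^ 7 * pdt (bx T) (pr U) (t, x) ^ 2

namespace IsFlowU

variable {T A : ℝ} {U₀ : ℝ → ℝ} {U φ : ℝ → ℝ → ℝ}

theorem cont_ut (h : IsFlowU 8 T U₀ U φ) (hT : 0 < T) {t : ℝ} (ht : t ∈ Icc 0 T) :
    ContinuousOn (fun x => pdt (bx T) (pr U) (t, x)) (Icc 0 1) :=
  cont_slice (smooth_pdt hT h.sU).continuousOn ht

/-- Bound of `F' = (x⁷ φ)'` and `F = x⁷ φ`. -/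
theorem F_bound (h : IsFlowU 8 T U₀ U φ) (hT : 0 < T) {t : ℝ} (ht : t ∈ Icc 0 T)
    (hE : En T U t ≤ A) {x : ℝ} (hx : x ∈ Icc (0 : ℝ) 1) :
    |7 * x ^ 6 * φ t x + x ^ 7 * dx T 1 (pr φ) (t, x)| ≤ 9 + A ∧ |x ^ 7 * φ t x| ≤ 9 + A := by
  obtain ⟨q1, q2⟩ := pc1_x7 (s := ∅) hT h.sφ ht
  have cut := h.cont_ut hT ht
  -- the second derivative
  have e2 : ∀ y ∈ Icc (0 : ℝ) 1, 42 * y ^ 5 * φ t y + 14 * y ^ 6 * dx T 1 (pr φ) (t, y)
      + y ^ 7 * dx T 2 (pr φ) (t, y) = 56 * y ^ 6 + y ^ 7 * pdt (bx T) (pr U) (t, y) := by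
    intro y hy
    have := h.ut_eq hT ht hy
    linarith
  have hbound : ∀ y ∈ Icc (0 : ℝ) 1, |42 * y ^ 5 * φ t y + 14 * y ^ 6 * dx T 1 (pr φ) (t, y)
      + y ^ 7 * dx T 2 (pr φ) (t, y)| ≤ 56 * y ^ 6 + 1 / 2 * (y ^ 7 * pdt (bx T) (pr U) (t, y) ^ 2
        + y ^ 7) := by
    intro y hy
    rw [e2 y hy]
    have h7 : 0 ≤ y ^ 7 := pow_nonneg hy.1 7
    have h6 : 0 ≤ y ^ 6 := pow_nonneg hy.1 6
    have h1 : |y ^ 7 * pdt (bx T) (pr U) (t, y)| ≤
        1 / 2 * (y ^ 7 * pdt (bx T) (pr U) (t, y) ^ 2 + y ^ 7) := by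
      rw [abs_mul, abs_of_nonneg h7]
      have : |pdt (bx T) (pr U) (t, y)| ≤ 1 / 2 * (pdt (bx T) (pr U) (t, y) ^ 2 + 1) := by
        have := sq_nonneg (|pdt (bx T) (pr U) (t, y)| - 1)
        have h3 := sq_abs (pdt (bx T) (pr U) (t, y))
        linarith only [h3, this]
      linarith only [mul_nonneg_of_nonpos_of_nonpos (Mathlib.Tactic.Linarith.sub_nonpos_of_le h7) (Mathlib.Tactic.Linarith.sub_nonpos_of_le this)]
    calc _ ≤ |56 * y ^ 6| + |y ^ 7 * pdt (bx T) (pr U) (t, y)| := abs_add_le _ _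
      _ ≤ _ := by
        rw [abs_of_nonneg (by (clear * -; positivity) : (0 : ℝ) ≤ 56 * y ^ 6)]
        linarith only [h1]
  have ci : ContinuousOn (fun y => 56 * y ^ 6 + 1 / 2 * (y ^ 7 * pdt (bx T) (pr U) (t, y) ^ 2
        + y ^ 7)) (Icc 0 1) := by
    have c1 : ContinuousOn (fun y => y ^ 7 * pdt (bx T) (pr U) (t, y) ^ 2) (Icc 0 1) :=
      (by fun_prop : ContinuousOn (fun y : ℝ => y ^ 7) (Icc 0 1)).mul (cut.pow 2)
    have c2 : ContinuousOn (fun y : ℝ => y ^ 7) (Icc 0 1) := by fun_prop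
    have c3 : ContinuousOn (fun y : ℝ => 56 * y ^ 6) (Icc 0 1) := by fun_prop
    exact c3.add ((c1.add c2).const_smul (1 / 2 : ℝ))
  have ii : IntervalIntegrable (fun y => 56 * y ^ 6 + 1 / 2 * (y ^ 7 * pdt (bx T) (pr U) (t, y) ^ 2
        + y ^ 7)) volume 0 1 := by
    rw [← uIcc_of_le zero_le_one] at ci
    exact ci.intervalIntegrable
  have itot : ∫ y in (0 : ℝ)..1, (56 * y ^ 6 + 1 / 2 * (y ^ 7 * pdt (bx T) (pr U) (t, y) ^ 2
        + y ^ 7)) ≤ 9 + A := by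
    have c1 : IntervalIntegrable (fun y => y ^ 7 * pdt (bx T) (pr U) (t, y) ^ 2) volume 0 1 := by
      have : ContinuousOn (fun y => y ^ 7 * pdt (bx T) (pr U) (t, y) ^ 2) (uIcc 0 1) := by
        rw [uIcc_of_le zero_le_one]
        exact (by fun_prop : ContinuousOn (fun y : ℝ => y ^ 7) (Icc 0 1)).mul (cut.pow 2)
      exact this.intervalIntegrable
    have c2 : IntervalIntegrable (fun y : ℝ => y ^ 7) volume 0 1 :=
      (by fun_prop : Continuous (fun y : ℝ => y ^ 7)).intervalIntegrable 0 1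
    have c3 : IntervalIntegrable (fun y : ℝ => 56 * y ^ 6) volume 0 1 :=
      (by fun_prop : Continuous (fun y : ℝ => 56 * y ^ 6)).intervalIntegrable 0 1
    rw [intervalIntegral.integral_add c3 ((c1.add c2).const_mul _),
      intervalIntegral.integral_const_mul, intervalIntegral.integral_const_mul,
      intervalIntegral.integral_add c1 c2, integral_pow, integral_pow]
    have hA0 : 0 ≤ ∫ y in (0 : ℝ)..1, y ^ 7 * pdt (bx T) (pr U) (t, y) ^ 2 :=
      intervalIntegral.integral_nonneg zero_le_one fun y hy =>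
        mul_nonneg (pow_nonneg hy.1 7) (sq_nonneg _)
    have hE' : ∫ y in (0 : ℝ)..1, y ^ 7 * pdt (bx T) (pr U) (t, y) ^ 2 ≤ A := hE
    generalize (∫ y in (0 : ℝ)..1, y ^ 7 * pdt (bx T) (pr U) (t, y) ^ 2) = I at hA0 hE' ⊢
    norm_num
    linarith only [hA0, hE']
  -- F'
  have key1 : ∀ x ∈ Icc (0 : ℝ) 1,
      |7 * x ^ 6 * φ t x + x ^ 7 * dx T 1 (pr φ) (t, x)| ≤ 9 + A := by
    intro x hx
    have h1 := (q2.restrict le_rfl hx.1 hx.2).integral countable_empty hx.1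
    have h2 : 7 * x ^ 6 * φ t x + x ^ 7 * dx T 1 (pr φ) (t, x) =
        ∫ y in (0 : ℝ)..x, (42 * y ^ 5 * φ t y + 14 * y ^ 6 * dx T 1 (pr φ) (t, y)
          + y ^ 7 * dx T 2 (pr φ) (t, y)) := by
      rw [show (∫ y in (0 : ℝ)..x, (42 * y ^ 5 * φ t y + 14 * y ^ 6 * dx T 1 (pr φ) (t, y)
          + y ^ 7 * dx T 2 (pr φ) (t, y))) = _ from h1]
      simp
    rw [h2]
    have i1 := (q2.restrict le_rfl hx.1 hx.2).int
    calc |∫ y in (0 : ℝ)..x, (42 * y ^ 5 * φ t y + 14 * y ^ 6 * dx T 1 (pr φ) (t, y)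
          + y ^ 7 * dx T 2 (pr φ) (t, y))|
        ≤ ∫ y in (0 : ℝ)..x, |42 * y ^ 5 * φ t y + 14 * y ^ 6 * dx T 1 (pr φ) (t, y)
          + y ^ 7 * dx T 2 (pr φ) (t, y)| := intervalIntegral.abs_integral_le_integral_abs hx.1
      _ ≤ ∫ y in (0 : ℝ)..x, (56 * y ^ 6 + 1 / 2 * (y ^ 7 * pdt (bx T) (pr U) (t, y) ^ 2
        + y ^ 7)) := by
          refine intervalIntegral.integral_mono_on hx.1 i1.abs ?_ fun y hy => ?_
          · refine ii.mono_set ?_
            rw [uIcc_of_le hx.1, uIcc_of_le zero_le_one]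
            exact Icc_subset_Icc le_rfl hx.2
          · exact hbound y ⟨hy.1, hy.2.trans hx.2⟩
      _ ≤ ∫ y in (0 : ℝ)..1, (56 * y ^ 6 + 1 / 2 * (y ^ 7 * pdt (bx T) (pr U) (t, y) ^ 2
        + y ^ 7)) := by
          refine intervalIntegral.integral_mono_interval le_rfl hx.1 hx.2 ?_ ii
          refine (ae_restrict_iff' measurableSet_Ioc).mpr (Filter.Eventually.of_forall ?_)
          intro y hy
          have h7 : 0 ≤ y ^ 7 := pow_nonneg hy.1.le 7
          have h6 : 0 ≤ y ^ 6 := pow_nonneg hy.1.le 6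
          have := sq_nonneg (pdt (bx T) (pr U) (t, y))
          show 0 ≤ _
          (clear * - h7; positivity)
      _ ≤ 9 + A := itot
  refine ⟨key1 x hx, ?_⟩
  have h1 := (q1.restrict le_rfl hx.1 hx.2).integral countable_empty hx.1
  have h2 : x ^ 7 * φ t x = ∫ y in (0 : ℝ)..x, (7 * y ^ 6 * φ t y + y ^ 7 * dx T 1 (pr φ) (t, y)) := by
    rw [show (∫ y in (0 : ℝ)..x, (7 * y ^ 6 * φ t y + y ^ 7 * dx T 1 (pr φ) (t, y))) = _ from h1]
    simp
  rw [h2]
  have h3 : ‖∫ y in (0 : ℝ)..x, (7 * y ^ 6 * φ t y + y ^ 7 * dx T 1 (pr φ) (t, y))‖ ≤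
      (9 + A) * |x - 0| := by
    apply intervalIntegral.norm_integral_le_of_norm_le_const
    intro y hy
    rw [uIoc_of_le hx.1] at hy
    exact key1 y ⟨hy.1.le, hy.2.trans hx.2⟩
  rw [Real.norm_eq_abs] at h3
  have h4 : 0 ≤ 9 + A := (abs_nonneg _).trans (key1 0 ⟨le_rfl, zero_le_one⟩)
  have h5 : |x - 0| ≤ 1 := by
    rw [sub_zero, abs_of_nonneg hx.1]; exact hx.2
  linarith only [mul_nonneg (sub_nonneg.2 h4) (sub_nonneg.2 h5), h3]

/-- The map `(t,x) ↦ U(0,x)` is smooth on the box. -/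
theorem smooth_freeze {f : ℝ × ℝ → ℝ} (hT : 0 < T) (hf : ContDiffOn ℝ ∞ f (bx T)) :
    ContDiffOn ℝ ∞ (fun p : ℝ × ℝ => f (0, p.2)) (bx T) := by
  refine hf.comp (f := fun p : ℝ × ℝ => ((0 : ℝ), p.2)) (by fun_prop) ?_
  intro p hp
  exact ⟨⟨le_rfl, hT.le⟩, hp.2⟩

/-- `∫ x⁷ (U(t)-U(0))² ≤ 3 T² A`. -/
theorem v_bound (h : IsFlowU 8 T U₀ U φ) (hT : 0 < T) (hA : 0 ≤ A)
    (hE : ∀ t ∈ Icc 0 T, En T U t ≤ A) {t : ℝ} (ht : t ∈ Icc 0 T) :
    ∫ x in (0 : ℝ)..1, x ^ 7 * (U t x - U 0 x) ^ 2 ≤ 3 * T ^ 2 * A := by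
  have sf : ContDiffOn ℝ ∞ (fun p : ℝ × ℝ => U p.1 p.2 - U 0 p.2) (bx T) :=
    h.sU.sub (smooth_freeze (f := pr U) hT h.sU)
  have sx7 : ContDiffOn ℝ ∞ (fun p : ℝ × ℝ => p.2 ^ 7) (bx T) := (contDiff_snd.pow 7).contDiffOn
  have sF : ContDiffOn ℝ ∞ (fun p : ℝ × ℝ => p.2 ^ 7 * (U p.1 p.2 - U 0 p.2) ^ 2) (bx T) :=
    sx7.mul (sf.pow 2)
  have hder : ∀ t ∈ Icc 0 T, HasDerivWithinAt
      (fun s => ∫ x in (0 : ℝ)..1, x ^ 7 * (U s x - U 0 x) ^ 2)
      (∫ x in (0 : ℝ)..1, pdt (bx T) (fun p : ℝ × ℝ => p.2 ^ 7 * (U p.1 p.2 - U 0 p.2) ^ 2) (t, x))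
      (Icc 0 T) t :=
    fun t ht => P264.Cal.hasDerivWithinAt_integral zero_lt_one sF hT ht
  have hpdt : ∀ t ∈ Icc 0 T, ∀ x ∈ Icc (0 : ℝ) 1,
      pdt (bx T) (fun p : ℝ × ℝ => p.2 ^ 7 * (U p.1 p.2 - U 0 p.2) ^ 2) (t, x) =
        2 * (x ^ 7 * ((U t x - U 0 x) * pdt (bx T) (pr U) (t, x))) := by
    intro t ht x hx
    have d1 := (P264.Cal.hasDerivWithinAt_pdt h.sU ht hx).sub_const (U 0 x)
    have d4 := (d1.mul d1).const_mul (x ^ 7)
    have e := P264.Cal.pdt_eq hT sF ht hx (g := x ^ 7 *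
        (pdt (bx T) (pr U) (t, x) * (U t x - U 0 x) + (U t x - U 0 x) * pdt (bx T) (pr U) (t, x)))
      (by
        refine d4.congr (fun s _ => ?_) ?_
        · simp only [Pi.mul_apply]; ring
        · simp only [Pi.mul_apply]; ring)
    rw [e]
    ring
  have cU : ∀ s ∈ Icc 0 T, ContinuousOn (fun x => U s x - U 0 x) (Icc 0 1) := fun s hs =>
    (cont_slice h.sU.continuousOn hs).sub (cont_slice h.sU.continuousOn ⟨le_rfl, hT.le⟩)
  have hle : ∀ s ∈ Ioo 0 T,
      (∫ x in (0 : ℝ)..1, pdt (bx T) (fun p : ℝ × ℝ => p.2 ^ 7 * (U p.1 p.2 - U 0 p.2) ^ 2) (s, x)) ≤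
      T⁻¹ * (∫ x in (0 : ℝ)..1, x ^ 7 * (U s x - U 0 x) ^ 2) + T * A := by
    intro s hs
    have hs' := Ioo_subset_Icc_self hs
    have c1 : IntervalIntegrable (fun x => x ^ 7 * (U s x - U 0 x) ^ 2) volume 0 1 := by
      have : ContinuousOn (fun x => x ^ 7 * (U s x - U 0 x) ^ 2) (uIcc 0 1) := by
        rw [uIcc_of_le zero_le_one]
        exact (by fun_prop : ContinuousOn (fun y : ℝ => y ^ 7) (Icc 0 1)).mul ((cU s hs').pow 2)
      exact this.intervalIntegrable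
    have c2 : IntervalIntegrable (fun x => x ^ 7 * pdt (bx T) (pr U) (s, x) ^ 2) volume 0 1 := by
      have : ContinuousOn (fun x => x ^ 7 * pdt (bx T) (pr U) (s, x) ^ 2) (uIcc 0 1) := by
        rw [uIcc_of_le zero_le_one]
        exact (by fun_prop : ContinuousOn (fun y : ℝ => y ^ 7) (Icc 0 1)).mul
          ((h.cont_ut hT hs').pow 2)
      exact this.intervalIntegrable
    have c3 : IntervalIntegrable (fun x => pdt (bx T)
        (fun p : ℝ × ℝ => p.2 ^ 7 * (U p.1 p.2 - U 0 p.2) ^ 2) (s, x)) volume 0 1 := by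
      have : ContinuousOn (fun x => pdt (bx T)
        (fun p : ℝ × ℝ => p.2 ^ 7 * (U p.1 p.2 - U 0 p.2) ^ 2) (s, x)) (uIcc 0 1) := by
        rw [uIcc_of_le zero_le_one]
        exact cont_slice (smooth_pdt hT sF).continuousOn hs'
      exact this.intervalIntegrable
    have h1 : (∫ x in (0 : ℝ)..1, pdt (bx T)
        (fun p : ℝ × ℝ => p.2 ^ 7 * (U p.1 p.2 - U 0 p.2) ^ 2) (s, x)) ≤
        ∫ x in (0 : ℝ)..1, (T⁻¹ * (x ^ 7 * (U s x - U 0 x) ^ 2)
          + T * (x ^ 7 * pdt (bx T) (pr U) (s, x) ^ 2)) := by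
      refine intervalIntegral.integral_mono_on zero_le_one c3
        ((c1.const_mul _).add (c2.const_mul _)) fun x hx => ?_
      rw [hpdt s hs' x hx]
      have h7 : 0 ≤ x ^ 7 := pow_nonneg hx.1 7
      have h2 : 2 * ((U s x - U 0 x) * pdt (bx T) (pr U) (s, x)) ≤
          T⁻¹ * (U s x - U 0 x) ^ 2 + T * pdt (bx T) (pr U) (s, x) ^ 2 := by
        have h3 : 0 ≤ T⁻¹ * ((U s x - U 0 x) - T * pdt (bx T) (pr U) (s, x)) ^ 2 := by (clear * - hT; positivity)
        have h4 : T⁻¹ * ((U s x - U 0 x) - T * pdt (bx T) (pr U) (s, x)) ^ 2 =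
            T⁻¹ * (U s x - U 0 x) ^ 2 + T * pdt (bx T) (pr U) (s, x) ^ 2
              - 2 * ((U s x - U 0 x) * pdt (bx T) (pr U) (s, x)) := by
          field_simp
          ring
        linarith only [h3, h4]
      linarith only [mul_nonneg_of_nonpos_of_nonpos (Mathlib.Tactic.Linarith.sub_nonpos_of_le h7) (Mathlib.Tactic.Linarith.sub_nonpos_of_le h2)]
    rw [intervalIntegral.integral_add (c1.const_mul _) (c2.const_mul _),
      intervalIntegral.integral_const_mul, intervalIntegral.integral_const_mul] at h1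
    have h5 : ∫ x in (0 : ℝ)..1, x ^ 7 * pdt (bx T) (pr U) (s, x) ^ 2 ≤ A := hE s hs'
    have h6 : T * (∫ x in (0 : ℝ)..1, x ^ 7 * pdt (bx T) (pr U) (s, x) ^ 2) ≤ T * A :=
      mul_le_mul_of_nonneg_left h5 hT.le
    linarith
  have hg := Vale.Agent.P264.Cal.gron_growth (a := 0) (b := T)
    (f := fun s => ∫ x in (0 : ℝ)..1, x ^ 7 * (U s x - U 0 x) ^ 2)
    (G := fun s => T * A * s) (g := fun _ => T * A) (Kp := fun s => T⁻¹ * s) (k := fun _ => T⁻¹)
    (fun s hs => (hder s hs).continuousWithinAt)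
    (fun s hs => (hder s (Ioo_subset_Icc_self hs)).hasDerivAt (Icc_mem_nhds hs.1 hs.2))
    (by fun_prop) (fun s _ => by simpa using (hasDerivAt_id s).const_mul (T * A))
    (fun s _ => by (clear * - hT hA; positivity)) (by simp) (by fun_prop)
    (fun s _ => by simpa only [id_eq, mul_one] using (hasDerivAt_id s).const_mul T⁻¹)
    (fun s hs => by have := hs.1; (clear * - hT this; positivity)) (by simp) hle t ht
  have h0 : ∫ x in (0 : ℝ)..1, x ^ 7 * (U 0 x - U 0 x) ^ 2 = 0 := by simp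
  simp only [h0, zero_add] at hg
  have h1 : Real.exp (T⁻¹ * t) ≤ 3 := by
    have : T⁻¹ * t ≤ 1 := by
      rw [inv_mul_le_iff₀ hT]; simpa only [mul_one] using ht.2
    calc Real.exp (T⁻¹ * t) ≤ Real.exp 1 := Real.exp_le_exp.mpr this
      _ ≤ 3 := Real.exp_one_lt_three.le
  have h2 : T * A * t ≤ T ^ 2 * A := by
    have := mul_le_mul_of_nonneg_left ht.2 (mul_nonneg hT.le hA)
    linarith only [this]
  have h3 : 0 ≤ T * A * t := mul_nonneg (mul_nonneg hT.le hA) ht.1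
  calc _ ≤ Real.exp (T⁻¹ * t) * (T * A * t) := hg
    _ ≤ 3 * (T ^ 2 * A) := mul_le_mul h1 h2 h3 (by norm_num)
    _ = _ := by ring

/-- Upper bound of `φ` and `|φ_x|` away from `0`. -/
theorem phi_bound (h : IsFlowU 8 T U₀ U φ) (hT : 0 < T) {t : ℝ} (ht : t ∈ Icc 0 T)
    (hE : En T U t ≤ A) {a x : ℝ} (ha : 0 < a) (hx : x ∈ Icc a 1) :
    |φ t x| ≤ (9 + A) / a ^ 7 ∧ |dx T 1 (pr φ) (t, x)| ≤ (9 + A) * (1 + 7 / a) / a ^ 7 := by
  have hx0 : 0 < x := ha.trans_le hx.1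
  have hB := h.F_bound hT ht hE (x := x) ⟨hx0.le, hx.2⟩
  have hB0 : 0 ≤ 9 + A := (abs_nonneg _).trans hB.2
  have h7 : a ^ 7 ≤ x ^ 7 := pow_le_pow_left₀ ha.le hx.1 7
  have h7' : 0 < a ^ 7 := by positivity
  have h7x : 0 < x ^ 7 := by positivity
  constructor
  · rw [le_div_iff₀ h7']
    have h1 := hB.2
    rw [abs_mul, abs_of_pos h7x] at h1
    have := abs_nonneg (φ t x)
    linarith only [mul_nonneg_of_nonpos_of_nonpos (Mathlib.Tactic.Linarith.sub_nonpos_of_le h7) (Mathlib.Tactic.Linarith.sub_nonpos_of_le this), h1]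
  · rw [le_div_iff₀ h7']
    have h1 := hB.1
    have h2 : |x ^ 7 * dx T 1 (pr φ) (t, x)| ≤ (9 + A) * (1 + 7 / a) := by
      have e : x ^ 7 * dx T 1 (pr φ) (t, x) =
          (7 * x ^ 6 * φ t x + x ^ 7 * dx T 1 (pr φ) (t, x)) - 7 / x * (x ^ 7 * φ t x) := by
        field_simp
        ring
      rw [e]
      calc _ ≤ |7 * x ^ 6 * φ t x + x ^ 7 * dx T 1 (pr φ) (t, x)| + |7 / x * (x ^ 7 * φ t x)| :=
            abs_sub _ _
        _ ≤ (9 + A) + 7 / a * (9 + A) := by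
            have h3 : |7 / x * (x ^ 7 * φ t x)| ≤ 7 / a * (9 + A) := by
              rw [abs_mul, abs_of_pos (by positivity : 0 < 7 / x)]
              have h4 : 7 / x ≤ 7 / a := div_le_div_of_nonneg_left (by norm_num) ha hx.1
              exact mul_le_mul h4 hB.2 (abs_nonneg _) (by positivity)
            linarith only [hB, h3]
        _ = _ := by ring
    rw [abs_mul, abs_of_pos h7x] at h2
    have := abs_nonneg (dx T 1 (pr φ) (t, x))
    linarith only [mul_nonneg_of_nonpos_of_nonpos (Mathlib.Tactic.Linarith.sub_nonpos_of_le h7) (Mathlib.Tactic.Linarith.sub_nonpos_of_le this), h2]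

end IsFlowU

/-- The cut-off polynomial `(x-a)²(b-x)²` with its two derivatives. -/
theorem pc1_zeta (s : Set ℝ) (a b a' b' : ℝ) :
    PC1 s a' b' (fun x => (x - a) ^ 2 * (b - x) ^ 2)
      (fun x => 2 * (x - a) * (b - x) ^ 2 - 2 * (x - a) ^ 2 * (b - x)) ∧
    PC1 s a' b' (fun x => 2 * (x - a) * (b - x) ^ 2 - 2 * (x - a) ^ 2 * (b - x))
      (fun x => 2 * (b - x) ^ 2 - 8 * (x - a) * (b - x) + 2 * (x - a) ^ 2) := by
  have h1 : ∀ x : ℝ, HasDerivAt (fun x : ℝ => x - a) 1 x := fun x => (hasDerivAt_id' x).sub_const a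
  have h2 : ∀ x : ℝ, HasDerivAt (fun x : ℝ => b - x) (-1) x := fun x => (hasDerivAt_id' x).const_sub b
  constructor
  · refine PC1.of_hasDerivAt' (fun x => ?_) (by (clear * -; fun_prop))
    have h3 := ((h1 x).pow 2).mul ((h2 x).pow 2)
    refine h3.congr_deriv ?_
    simp only [Pi.pow_apply, Nat.cast_ofNat, Nat.add_one_sub_one, pow_one]
    ring
  · refine PC1.of_hasDerivAt' (fun x => ?_) (by fun_prop)
    have h3 := (((h1 x).const_mul 2).mul ((h2 x).pow 2)).sub ((((h1 x).pow 2).const_mul 2).mul (h2 x))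
    refine h3.congr_deriv ?_
    simp only [Pi.pow_apply, Nat.cast_ofNat, Nat.add_one_sub_one, pow_one]
    ring

/-- Abstract integration by parts estimate with the cut-off `(x-a)²(b-x)²`. -/
theorem zeta_est {a b M : ℝ} {H K L v v1 v2 : ℝ → ℝ} (hab : a ≤ b) (hba : b - a ≤ 1)
    (hH : PC1 ∅ a b H K) (hK : PC1 ∅ a b K L) (hv : PC1 ∅ a b v v1) (hv1 : PC1 ∅ a b v1 v2)
    (bH : ∀ x ∈ Icc a b, |H x| ≤ M) (bK : ∀ x ∈ Icc a b, |K x| ≤ M) :
    -(∫ x in a..b, ((x - a) ^ 2 * (b - x) ^ 2 * H x) * v2 x) ≤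
      ∫ x in a..b, (20 * M * |v x| + |L x * v x|) := by
  obtain ⟨z1, z2⟩ := pc1_zeta ∅ a b a b
  have Z1 := z1.mul hab hH
  have Z2 := (z2.mul hab hH).add (z1.mul hab hK)
  have parts := PC1.parts2_zero countable_empty hab Z1 Z2 hv hv1 (by simp) (by simp) (by simp)
    (by simp)
  rw [← parts, ← intervalIntegral.integral_neg]
  have hvc : ContinuousOn v (uIcc a b) := by rw [uIcc_of_le hab]; exact hv.cont
  refine intervalIntegral.integral_mono_on hab (Z2.int.mul_continuousOn hvc).neg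
    ((hvc.abs.const_smul (20 * M)).intervalIntegrable.add
      (hK.int.mul_continuousOn hvc).abs) fun x hx => ?_
  have hp0 : 0 ≤ x - a := by linarith [hx.1]
  have hq0 : 0 ≤ b - x := by linarith only [hx.2]
  have hp1 : x - a ≤ 1 := by linarith [hx.2]
  have hq1 : b - x ≤ 1 := by linarith [hx.1]
  have h1 := bH x hx
  have h2 := bK x hx
  generalize x - a = p at hp0 hp1 ⊢
  generalize b - x = q at hq0 hq1 ⊢
  generalize H x = h at h1 ⊢
  generalize K x = k at h2 ⊢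
  generalize L x = l
  generalize v x = w
  have hM : 0 ≤ M := (abs_nonneg _).trans h1
  have hpq : 0 ≤ p * q := mul_nonneg hp0 hq0
  have hpq1 : p * q ≤ 1 := by nlinarith only [hp1, hp0, hq1]
  have z2 : |2 * q ^ 2 - 8 * p * q + 2 * p ^ 2| ≤ 12 := by
    rw [abs_le]
    constructor <;> nlinarith only [hp1, hq1, hp0, hq0, hpq1]
  have z1 : |2 * p * q ^ 2 - 2 * p ^ 2 * q| ≤ 4 := by
    rw [abs_le]
    have h1 : 2 * p * q ^ 2 = 2 * (p * q) * q := by ring
    have h2 : 2 * p ^ 2 * q = 2 * (p * q) * p := by ring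
    constructor <;> nlinarith only [hp1, hq1, hp0, hq0]
  have z0 : |p ^ 2 * q ^ 2| ≤ 1 := by
    rw [abs_of_nonneg (by (clear * -; positivity))]
    have : p ^ 2 * q ^ 2 = (p * q) ^ 2 := by ring
    rw [this]
    linarith only [mul_nonneg_of_nonpos_of_nonpos (Mathlib.Tactic.Linarith.sub_nonpos_of_le hpq1) (Mathlib.Tactic.Linarith.sub_nonpos_of_le hpq), hpq1]
  have e : -(((2 * q ^ 2 - 8 * p * q + 2 * p ^ 2) * h + (2 * p * q ^ 2 - 2 * p ^ 2 * q) * k +
      ((2 * p * q ^ 2 - 2 * p ^ 2 * q) * k + p ^ 2 * q ^ 2 * l)) * w) =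
      -(((2 * q ^ 2 - 8 * p * q + 2 * p ^ 2) * h + 2 * (2 * p * q ^ 2 - 2 * p ^ 2 * q) * k) * w)
        + -(p ^ 2 * q ^ 2 * (l * w)) := by ring
  have g1 : |((2 * q ^ 2 - 8 * p * q + 2 * p ^ 2) * h + 2 * (2 * p * q ^ 2 - 2 * p ^ 2 * q) * k) * w|
      ≤ 20 * M * |w| := by
    rw [abs_mul]
    refine mul_le_mul_of_nonneg_right ?_ (abs_nonneg _)
    calc _ ≤ |(2 * q ^ 2 - 8 * p * q + 2 * p ^ 2) * h| + |2 * (2 * p * q ^ 2 - 2 * p ^ 2 * q) * k| :=
          abs_add_le _ _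
      _ ≤ 12 * M + 2 * 4 * M := by
          rw [abs_mul, abs_mul (2 * (2 * p * q ^ 2 - 2 * p ^ 2 * q)), abs_mul 2, abs_two]
          have k1 := mul_le_mul z2 h1 (abs_nonneg _) (by norm_num)
          have k2 := mul_le_mul (mul_le_mul_of_nonneg_left z1 (by norm_num : (0 : ℝ) ≤ 2)) h2
            (abs_nonneg _) (by norm_num)
          linarith only [k1, k2]
      _ = 20 * M := by ring
  have g2 : |p ^ 2 * q ^ 2 * (l * w)| ≤ |l * w| := by
    rw [abs_mul]
    have := mul_le_mul_of_nonneg_right z0 (abs_nonneg (l * w))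
    linarith only [this]
  show -(((2 * q ^ 2 - 8 * p * q + 2 * p ^ 2) * h + (2 * p * q ^ 2 - 2 * p ^ 2 * q) * k +
      ((2 * p * q ^ 2 - 2 * p ^ 2 * q) * k + p ^ 2 * q ^ 2 * l)) * w) ≤ 20 * M * |w| + |l * w|
  rw [e]
  have g3 := neg_le_abs (((2 * q ^ 2 - 8 * p * q + 2 * p ^ 2) * h
    + 2 * (2 * p * q ^ 2 - 2 * p ^ 2 * q) * k) * w)
  have g4 := neg_le_abs (p ^ 2 * q ^ 2 * (l * w))
  linarith only [g1, g2, g3, g4]

/-- Elementary: `x(1-x)P+1` relation solved for `P`. -/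
theorem solve_rel {f m P : ℝ} (hf : 0 < f) (hm : 0 < m) (h : f * (m * P + 1) = m) :
    P = 1 / f - 1 / m := by
  have h1 : f * (m * P + 1) / (f * m) = m / (f * m) := by rw [h]
  have h2 : f * (m * P + 1) / (f * m) = P + 1 / m := by
    field_simp
  have h3 : m / (f * m) = 1 / f := by
    field_simp
  rw [h2, h3] at h1
  linarith only [h1]

/-- Elementary Young inequality used below. -/
theorem young_aux {T X7 v wt w0 M c : ℝ} (hT : 0 < T) (hX : 0 ≤ X7) (hc : v ^ 2 ≤ c * (X7 * v ^ 2)) :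
    20 * M * |v| + |X7 * (wt - w0) * v| ≤
      200 * M ^ 2 * T + T⁻¹ / 2 * (1 + c) * (X7 * v ^ 2) + T * (X7 * wt ^ 2 + X7 * w0 ^ 2) := by
  have hTT : T * T⁻¹ = 1 := mul_inv_cancel₀ hT.ne'
  have hTi : 0 < T⁻¹ := inv_pos.mpr hT
  have hv : |v| ^ 2 = v ^ 2 := sq_abs v
  have y1 : 20 * M * |v| ≤ 200 * M ^ 2 * T + T⁻¹ / 2 * v ^ 2 := by
    have h1 : 0 ≤ T⁻¹ / 2 * (T * (20 * M) - |v|) ^ 2 := by (clear * - hT; positivity)
    have h2 : T⁻¹ / 2 * (T * (20 * M) - |v|) ^ 2 = (T * T⁻¹) * (200 * M ^ 2 * T)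
        - (T * T⁻¹) * (20 * M * |v|) + T⁻¹ / 2 * |v| ^ 2 := by ring
    rw [hTT, hv] at h2
    linarith
  have y1' : T⁻¹ / 2 * v ^ 2 ≤ T⁻¹ / 2 * (c * (X7 * v ^ 2)) :=
    mul_le_mul_of_nonneg_left hc (by (clear * - hT; positivity))
  have y2 : |X7 * (wt - w0) * v| ≤ T * (X7 * wt ^ 2 + X7 * w0 ^ 2) + T⁻¹ / 2 * (X7 * v ^ 2) := by
    have h1 : |(wt - w0) * v| ≤ T / 2 * (wt - w0) ^ 2 + T⁻¹ / 2 * v ^ 2 := by
      rw [abs_mul]
      have h1 : 0 ≤ T⁻¹ / 2 * (T * |wt - w0| - |v|) ^ 2 := by positivity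
      have h2 : T⁻¹ / 2 * (T * |wt - w0| - |v|) ^ 2 = (T * T⁻¹) * (T / 2 * |wt - w0| ^ 2)
        - (T * T⁻¹) * (|wt - w0| * |v|) + T⁻¹ / 2 * |v| ^ 2 := by ring
      rw [hTT, hv, sq_abs] at h2
      linarith only [h1, h2]
    have h2 : (wt - w0) ^ 2 ≤ 2 * (wt ^ 2 + w0 ^ 2) := by linarith only [sq_nonneg (wt + w0)]
    have h3 : |(wt - w0) * v| ≤ T * (wt ^ 2 + w0 ^ 2) + T⁻¹ / 2 * v ^ 2 := by
      have := mul_le_mul_of_nonneg_left h2 (by positivity : 0 ≤ T / 2)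
      linarith only [h1, this]
    rw [mul_assoc, abs_mul, abs_of_nonneg hX]
    have := mul_le_mul_of_nonneg_left h3 hX
    calc _ ≤ _ := this
      _ = _ := by ring
  have e : T⁻¹ / 2 * (1 + c) * (X7 * v ^ 2) = T⁻¹ / 2 * (X7 * v ^ 2) + T⁻¹ / 2 * (c * (X7 * v ^ 2)) := by
    ring
  rw [e]
  linarith only [y2, y1', y1]

namespace IsFlowU

variable {T A : ℝ} {U₀ : ℝ → ℝ} {U φ : ℝ → ℝ → ℝ}

theorem v2_eq (h : IsFlowU 8 T U₀ U φ) (hT : 0 < T) {t : ℝ} (ht : t ∈ Icc 0 T) {x : ℝ}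
    (hx : x ∈ Ioo (0 : ℝ) 1) :
    dx T 2 (pr U) (t, x) - dx T 2 (pr U) (0, x) = 1 / φ t x - 1 / φ 0 x := by
  have h0 : (0 : ℝ) ∈ Icc 0 T := ⟨le_rfl, hT.le⟩
  have hxI := Ioo_subset_Icc_self hx
  have hm : 0 < x * (1 - x) := mul_pos hx.1 (by linarith only [hx.2])
  have r1 := solve_rel ((h.profile t ht).pos x hx) hm (h.rel_box hT ht hxI)
  have r2 := solve_rel ((h.profile 0 h0).pos x hx) hm (h.rel_box hT h0 hxI)
  show dx T 2 (fun p : ℝ × ℝ => U p.1 p.2) (t, x) - dx T 2 (fun p : ℝ × ℝ => U p.1 p.2) (0, x) = _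
  rw [r1, r2]
  ring

/-- Pointwise lower bound. -/
theorem low_bound (h : IsFlowU 8 T U₀ U φ) (hT : 0 < T) (hA : 0 ≤ A)
    (hE : ∀ t ∈ Icc 0 T, En T U t ≤ A) {t : ℝ} (ht : t ∈ Icc 0 T) {a x z : ℝ} (ha : 0 < a)
    (hx : a ≤ x) (hx1 : x < 1) (hz : 0 ≤ z) :
    1 / ((9 + A) / a ^ 7) ^ 2 * (z * (x ^ 7 * (φ t x - φ 0 x) ^ 2)) ≤
      -((z * (x ^ 7 * φ t x - x ^ 7 * φ 0 x)) * (dx T 2 (pr U) (t, x) - dx T 2 (pr U) (0, x))) := by
  have h0 : (0 : ℝ) ∈ Icc 0 T := ⟨le_rfl, hT.le⟩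
  have hx0 : 0 < x := ha.trans_le hx
  rw [h.v2_eq hT ht ⟨hx0, hx1⟩]
  have p1 := (h.profile t ht).pos x ⟨hx0, hx1⟩
  have p2 := (h.profile 0 h0).pos x ⟨hx0, hx1⟩
  have b1 := (h.phi_bound hT ht (hE t ht) ha (x := x) ⟨hx, hx1.le⟩).1
  have b2 := (h.phi_bound hT h0 (hE 0 h0) ha (x := x) ⟨hx, hx1.le⟩).1
  rw [abs_of_pos p1] at b1
  rw [abs_of_pos p2] at b2
  have hΦ : 0 < (9 + A) / a ^ 7 := by positivity
  generalize (9 + A) / a ^ 7 = Φ at b1 b2 hΦ ⊢
  generalize φ t x = f at p1 b1 ⊢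
  generalize φ 0 x = g at p2 b2 ⊢
  have e4 : -((z * (x ^ 7 * f - x ^ 7 * g)) * (1 / f - 1 / g)) =
      (z * (x ^ 7 * (f - g) ^ 2)) * (1 / (f * g)) := by
    field_simp
    ring
  rw [e4]
  have h5 : 1 / Φ ^ 2 ≤ 1 / (f * g) := by
    apply one_div_le_one_div_of_le (mul_pos p1 p2)
    rw [pow_two]
    exact mul_le_mul b1 b2 p2.le hΦ.le
  have h6 : 0 ≤ z * (x ^ 7 * (f - g) ^ 2) := by (clear * - hz hx0; positivity)
  have := mul_le_mul_of_nonneg_right h5 h6
  linarith only [this]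

/-- Continuity of the slices on `[a,b] ⊂ [0,1]`. -/
theorem cs_phi (h : IsFlowU 8 T U₀ U φ) {s : ℝ} (hs : s ∈ Icc 0 T) {a b : ℝ} (ha : 0 ≤ a)
    (hab : a ≤ b) (hb : b ≤ 1) : ContinuousOn (fun x => φ s x) (uIcc a b) := by
  rw [uIcc_of_le hab]
  exact (cont_slice h.sφ.continuousOn hs).mono (Icc_subset_Icc ha hb)

theorem cs_U (h : IsFlowU 8 T U₀ U φ) {s : ℝ} (hs : s ∈ Icc 0 T) {a b : ℝ} (ha : 0 ≤ a)
    (hab : a ≤ b) (hb : b ≤ 1) : ContinuousOn (fun x => U s x) (uIcc a b) := by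
  rw [uIcc_of_le hab]
  exact (cont_slice h.sU.continuousOn hs).mono (Icc_subset_Icc ha hb)

theorem cs_U2 (h : IsFlowU 8 T U₀ U φ) (hT : 0 < T) {s : ℝ} (hs : s ∈ Icc 0 T) {a b : ℝ}
    (ha : 0 ≤ a) (hab : a ≤ b) (hb : b ≤ 1) :
    ContinuousOn (fun x => dx T 2 (pr U) (s, x)) (uIcc a b) := by
  rw [uIcc_of_le hab]
  exact (cont_dx hT h.sU 2 hs).mono (Icc_subset_Icc ha hb)

theorem cs_ut (h : IsFlowU 8 T U₀ U φ) (hT : 0 < T) {s : ℝ} (hs : s ∈ Icc 0 T) {a b : ℝ}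
    (ha : 0 ≤ a) (hab : a ≤ b) (hb : b ≤ 1) :
    ContinuousOn (fun x => pdt (bx T) (pr U) (s, x)) (uIcc a b) := by
  rw [uIcc_of_le hab]
  exact (h.cont_ut hT hs).mono (Icc_subset_Icc ha hb)

/-- Upper bound of the right-hand side of `zeta_est`. -/
theorem up_bound (h : IsFlowU 8 T U₀ U φ) (hT : 0 < T) (hA : 0 ≤ A)
    (hE : ∀ t ∈ Icc 0 T, En T U t ≤ A) {t : ℝ} (ht : t ∈ Icc 0 T) {a b M : ℝ} (ha : 0 < a)
    (hab : a < b) (hb : b < 1) :
    ∫ x in a..b, (20 * M * |U t x - U 0 x| +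
      |x ^ 7 * (pdt (bx T) (pr U) (t, x) - pdt (bx T) (pr U) (0, x)) * (U t x - U 0 x)|) ≤
      (200 * M ^ 2 + 3 / 2 * (1 + 1 / a ^ 7) * A + 2 * A) * T := by
  have h0 : (0 : ℝ) ∈ Icc 0 T := ⟨le_rfl, hT.le⟩
  have ha7 : 0 < a ^ 7 := by (clear * - ha; positivity)
  have c7 : Continuous (fun x : ℝ => x ^ 7) := by fun_prop
  have k1 : ContinuousOn (fun x => x ^ 7 * (U t x - U 0 x) ^ 2) (uIcc (0 : ℝ) 1) :=
    c7.continuousOn.mul (((h.cs_U ht le_rfl zero_le_one le_rfl).sub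
      (h.cs_U h0 le_rfl zero_le_one le_rfl)).pow 2)
  have k2 : ∀ s ∈ Icc 0 T, ContinuousOn (fun x => x ^ 7 * pdt (bx T) (pr U) (s, x) ^ 2)
      (uIcc (0 : ℝ) 1) := fun s hs =>
    c7.continuousOn.mul ((h.cs_ut hT hs le_rfl zero_le_one le_rfl).pow 2)
  have iR : IntervalIntegrable (fun x => 200 * M ^ 2 * T + T⁻¹ / 2 * (1 + 1 / a ^ 7) *
      (x ^ 7 * (U t x - U 0 x) ^ 2)
        + T * (x ^ 7 * pdt (bx T) (pr U) (t, x) ^ 2 + x ^ 7 * pdt (bx T) (pr U) (0, x) ^ 2))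
      volume 0 1 :=
    ((continuousOn_const.add (continuousOn_const.mul k1)).add
      (continuousOn_const.mul ((k2 t ht).add (k2 0 h0)))).intervalIntegrable
  have cUab := (h.cs_U ht ha.le hab.le hb.le).sub (h.cs_U h0 ha.le hab.le hb.le)
  have iL : IntervalIntegrable (fun x => 20 * M * |U t x - U 0 x| +
      |x ^ 7 * (pdt (bx T) (pr U) (t, x) - pdt (bx T) (pr U) (0, x)) * (U t x - U 0 x)|)
      volume a b :=
    ((continuousOn_const.mul cUab.abs).add
      (((c7.continuousOn.mul ((h.cs_ut hT ht ha.le hab.le hb.le).sub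
        (h.cs_ut hT h0 ha.le hab.le hb.le))).mul cUab).abs)).intervalIntegrable
  have iRab : IntervalIntegrable (fun x => 200 * M ^ 2 * T + T⁻¹ / 2 * (1 + 1 / a ^ 7) *
      (x ^ 7 * (U t x - U 0 x) ^ 2)
        + T * (x ^ 7 * pdt (bx T) (pr U) (t, x) ^ 2 + x ^ 7 * pdt (bx T) (pr U) (0, x) ^ 2))
      volume a b := by
    refine iR.mono_set ?_
    rw [uIcc_of_le hab.le, uIcc_of_le zero_le_one]
    exact Icc_subset_Icc ha.le hb.le
  have step1 := intervalIntegral.integral_mono_on hab.le iL iRab (fun x hx => by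
    have hx0 : 0 < x := ha.trans_le hx.1
    have h7a : a ^ 7 ≤ x ^ 7 := pow_le_pow_left₀ ha.le hx.1 7
    refine young_aux hT (by (clear * - hx0; positivity)) ?_
    rw [div_mul_eq_mul_div, one_mul, le_div_iff₀ ha7]
    linarith only [mul_nonneg (sq_nonneg (U t x - U 0 x : ℝ)) (sub_nonneg.2 h7a)])
  have hTi : 0 < T⁻¹ := inv_pos.mpr hT
  have step2 := intervalIntegral.integral_mono_interval (μ := volume) (a := a) (b := b) (c := 0)
      (d := 1) ha.le hab.le hb.le (by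
        refine (ae_restrict_iff' measurableSet_Ioc).mpr (Filter.Eventually.of_forall ?_)
        intro y hy
        have h7 : 0 ≤ y ^ 7 := pow_nonneg hy.1.le 7
        have h1 := sq_nonneg (pdt (bx T) (pr U) (t, y))
        have h2 := sq_nonneg (pdt (bx T) (pr U) (0, y))
        have h3 := sq_nonneg (U t y - U 0 y)
        show 0 ≤ _
        (clear * - hT ha h7; positivity)) iR
  refine (step1.trans step2).trans ?_
  have j1 := k1.intervalIntegrable (μ := volume)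
  have j2 := (k2 t ht).intervalIntegrable (μ := volume)
  have j3 := (k2 0 h0).intervalIntegrable (μ := volume)
  rw [intervalIntegral.integral_add ((intervalIntegrable_const).add (j1.const_mul _))
      ((j2.add j3).const_mul _), intervalIntegral.integral_add intervalIntegrable_const
      (j1.const_mul _), intervalIntegral.integral_const, intervalIntegral.integral_const_mul,
      intervalIntegral.integral_const_mul, intervalIntegral.integral_add j2 j3]
  have e1 := h.v_bound hT hA hE ht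
  have e2 : ∫ x in (0 : ℝ)..1, x ^ 7 * pdt (bx T) (pr U) (t, x) ^ 2 ≤ A := hE t ht
  have e3 : ∫ x in (0 : ℝ)..1, x ^ 7 * pdt (bx T) (pr U) (0, x) ^ 2 ≤ A := hE 0 h0
  have e4 : T⁻¹ / 2 * (1 + 1 / a ^ 7) * (∫ x in (0 : ℝ)..1, x ^ 7 * (U t x - U 0 x) ^ 2) ≤
        T⁻¹ / 2 * (1 + 1 / a ^ 7) * (3 * T ^ 2 * A) :=
      mul_le_mul_of_nonneg_left e1 (by positivity)
  have e5 : T⁻¹ / 2 * (1 + 1 / a ^ 7) * (3 * T ^ 2 * A) = 3 / 2 * (1 + 1 / a ^ 7) * A * T := by
      have := mul_inv_cancel₀ hT.ne'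
      calc _ = (T * T⁻¹) * (3 / 2 * (1 + 1 / a ^ 7) * A * T) := by ring
        _ = _ := by rw [this, one_mul]
  have e6 : T * ((∫ x in (0 : ℝ)..1, x ^ 7 * pdt (bx T) (pr U) (t, x) ^ 2) +
        ∫ x in (0 : ℝ)..1, x ^ 7 * pdt (bx T) (pr U) (0, x) ^ 2) ≤ T * (A + A) :=
      mul_le_mul_of_nonneg_left (add_le_add e2 e3) hT.le
  simp only [sub_zero, one_smul]
  linarith only [e4, e5, e6]

/-- `φ_t - φ_0` is small in `L²` on compact subsets. -/
theorem phi_l2 (h : IsFlowU 8 T U₀ U φ) (hT : 0 < T) (hA : 0 ≤ A)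
    (hE : ∀ t ∈ Icc 0 T, En T U t ≤ A) {t : ℝ} (ht : t ∈ Icc 0 T) {a b : ℝ} (ha : 0 < a)
    (hab : a < b) (hb : b < 1) :
    1 / ((9 + A) / a ^ 7) ^ 2 *
      (∫ x in a..b, ((x - a) ^ 2 * (b - x) ^ 2) * (x ^ 7 * (φ t x - φ 0 x) ^ 2)) ≤
      (200 * (2 * (9 + A)) ^ 2 + 3 / 2 * (1 + 1 / a ^ 7) * A + 2 * A) * T := by
  have h0 : (0 : ℝ) ∈ Icc 0 T := ⟨le_rfl, hT.le⟩
  obtain ⟨qt1, qt2⟩ := pc1_x7 (s := ∅) hT h.sφ ht
  obtain ⟨q01, q02⟩ := pc1_x7 (s := ∅) hT h.sφ h0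
  have q1 := (qt1.sub q01).restrict ha.le hab.le hb.le
  have q2 := (qt2.sub q02).restrict ha.le hab.le hb.le
  have v1 := ((pc1_dx (s := ∅) hT h.sU 0 ht).sub (pc1_dx (s := ∅) hT h.sU 0 h0)).restrict
    ha.le hab.le hb.le
  have v2 := ((pc1_dx (s := ∅) hT h.sU 1 ht).sub (pc1_dx (s := ∅) hT h.sU 1 h0)).restrict
    ha.le hab.le hb.le
  simp only [dx_zero] at v1
  have hxI : ∀ x ∈ Icc a b, x ∈ Icc (0 : ℝ) 1 := fun x hx => ⟨ha.le.trans hx.1, hx.2.trans hb.le⟩
  have est := zeta_est (M := 2 * (9 + A)) hab.le (by linarith) q1 q2 v1 v2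
    (fun x hx => (abs_sub _ _).trans (by
      have e1 := (h.F_bound hT ht (hE t ht) (hxI x hx)).2
      have e2 := (h.F_bound hT h0 (hE 0 h0) (hxI x hx)).2
      show |x ^ 7 * φ t x| + |x ^ 7 * φ 0 x| ≤ _
      linarith only [e1, e2]))
    (fun x hx => (abs_sub _ _).trans (by
      have e1 := (h.F_bound hT ht (hE t ht) (hxI x hx)).1
      have e2 := (h.F_bound hT h0 (hE 0 h0) (hxI x hx)).1
      show |7 * x ^ 6 * φ t x + x ^ 7 * dx T 1 (pr φ) (t, x)| +
        |7 * x ^ 6 * φ 0 x + x ^ 7 * dx T 1 (pr φ) (0, x)| ≤ _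
      linarith))
  have c7 : ContinuousOn (fun x : ℝ => x ^ 7) (uIcc a b) := by fun_prop
  have cz : ContinuousOn (fun x : ℝ => (x - a) ^ 2 * (b - x) ^ 2) (uIcc a b) := by (clear * -; fun_prop)
  have cφt := h.cs_phi ht ha.le hab.le hb.le
  have cφ0 := h.cs_phi h0 ha.le hab.le hb.le
  have cU2t := h.cs_U2 hT ht ha.le hab.le hb.le
  have cU20 := h.cs_U2 hT h0 ha.le hab.le hb.le
  have i1 : IntervalIntegrable (fun x => ((x - a) ^ 2 * (b - x) ^ 2 * (x ^ 7 * φ t x - x ^ 7 * φ 0 x)) *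
        (dx T 2 (pr U) (t, x) - dx T 2 (pr U) (0, x))) volume a b :=
    ((cz.mul ((c7.mul cφt).sub (c7.mul cφ0))).mul (cU2t.sub cU20)).intervalIntegrable
  have i2 : IntervalIntegrable (fun x => ((x - a) ^ 2 * (b - x) ^ 2) * (x ^ 7 * (φ t x - φ 0 x) ^ 2))
      volume a b := (cz.mul (c7.mul ((cφt.sub cφ0).pow 2))).intervalIntegrable
  have low := intervalIntegral.integral_mono_on hab.le (i2.const_mul (1 / ((9 + A) / a ^ 7) ^ 2))
    i1.neg (fun x hx => h.low_bound hT hA hE ht ha hx.1 (hx.2.trans_lt hb)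
      (z := (x - a) ^ 2 * (b - x) ^ 2) (by (clear * -; positivity)))
  rw [intervalIntegral.integral_const_mul] at low
  have e1 : ∫ x in a..b, (-fun x => ((x - a) ^ 2 * (b - x) ^ 2 * (x ^ 7 * φ t x - x ^ 7 * φ 0 x)) *
        (dx T 2 (pr U) (t, x) - dx T 2 (pr U) (0, x))) x =
      -∫ x in a..b, ((x - a) ^ 2 * (b - x) ^ 2 * (x ^ 7 * φ t x - x ^ 7 * φ 0 x)) *
        (dx T 2 (pr U) (t, x) - dx T 2 (pr U) (0, x)) := by
    rw [← intervalIntegral.integral_neg]
    rfl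
  rw [e1] at low
  refine low.trans (le_trans est ?_)
  have e2 : ∫ x in a..b, (20 * (2 * (9 + A)) * |U (t, x).1 (t, x).2 - U (0, x).1 (0, x).2| +
      |(42 * x ^ 5 * φ (t, x).1 (t, x).2 + 14 * x ^ 6 * dx T 1 (fun p : ℝ × ℝ => φ p.1 p.2) (t, x) +
          x ^ 7 * dx T 2 (fun p : ℝ × ℝ => φ p.1 p.2) (t, x) -
        (42 * x ^ 5 * φ (0, x).1 (0, x).2 + 14 * x ^ 6 * dx T 1 (fun p : ℝ × ℝ => φ p.1 p.2) (0, x) +
          x ^ 7 * dx T 2 (fun p : ℝ × ℝ => φ p.1 p.2) (0, x))) *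
        (U (t, x).1 (t, x).2 - U (0, x).1 (0, x).2)|) =
      ∫ x in a..b, (20 * (2 * (9 + A)) * |U t x - U 0 x| +
      |x ^ 7 * (pdt (bx T) (pr U) (t, x) - pdt (bx T) (pr U) (0, x)) * (U t x - U 0 x)|) := by
    refine intervalIntegral.integral_congr fun x hx => ?_
    rw [uIcc_of_le hab.le] at hx
    have u1 := h.ut_eq hT ht (hxI x hx)
    have u2 := h.ut_eq hT h0 (hxI x hx)
    have e3 : 42 * x ^ 5 * φ t x + 14 * x ^ 6 * dx T 1 (fun p : ℝ × ℝ => φ p.1 p.2) (t, x) +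
          x ^ 7 * dx T 2 (fun p : ℝ × ℝ => φ p.1 p.2) (t, x) -
        (42 * x ^ 5 * φ 0 x + 14 * x ^ 6 * dx T 1 (fun p : ℝ × ℝ => φ p.1 p.2) (0, x) +
          x ^ 7 * dx T 2 (fun p : ℝ × ℝ => φ p.1 p.2) (0, x)) =
        x ^ 7 * (pdt (bx T) (fun p : ℝ × ℝ => U p.1 p.2) (t, x)
          - pdt (bx T) (fun p : ℝ × ℝ => U p.1 p.2) (0, x)) := by
      linarith only [u1, u2]
    simp only [e3]
  refine (le_of_eq e2).trans ?_
  exact h.up_bound hT hA hE ht ha hab hb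

end IsFlowU

/-- **Outer lemma** (M4c): if the Calabi energy stays below `A` then, on every compact subset of
`(0,1)`, the profile moves by at most `C T^{1/4}` during `[0,T]`, `T ≤ 1`. -/
theorem outer_lemma {a b A : ℝ} (ha : 0 < a) (hab : a < b) (hb : b < 1) (hA : 0 ≤ A) :
    ∃ C : ℝ, 0 ≤ C ∧ ∀ (T : ℝ) (U₀ : ℝ → ℝ) (U φ : ℝ → ℝ → ℝ), 0 < T → T ≤ 1 →
      IsFlowU 8 T U₀ U φ → (∀ t ∈ Icc 0 T, En T U t ≤ A) →
      ∀ t ∈ Icc 0 T, ∀ x ∈ Icc a b, |φ t x - φ 0 x| ≤ C * T ^ (1 / 4 : ℝ) := by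
  set a' := a / 2 with ha'
  set b' := (1 + b) / 2 with hb'
  have ha'0 : 0 < a' := by rw [ha']; linarith only [ha]
  have hb'1 : b' < 1 := by rw [hb']; linarith only [hb]
  have haa : a' < a := by rw [ha']; linarith only [ha]
  have hbb : b < b' := by rw [hb']; linarith only [hb', hb'1]
  have hab' : a' < b' := haa.trans (hab.trans hbb)
  set Φ := (9 + A) / a' ^ 7 with hΦ
  have hΦ0 : 0 < Φ := by positivity
  set C1 := 200 * (2 * (9 + A)) ^ 2 + 3 / 2 * (1 + 1 / a' ^ 7) * A + 2 * A with hC1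
  have hC1' : 0 ≤ C1 := by (clear * - hA ha; positivity)
  set ζ0 := (a - a') ^ 2 * (b' - b) ^ 2 * a ^ 7 with hζ0
  have hζ0' : 0 < ζ0 := by
    have h1 : 0 < a - a' := by linarith only [ha', ha'0]
    have h2 : 0 < b' - b := by linarith only [hb', hb'1]
    positivity
  set C2 := Φ ^ 2 * C1 / ζ0 with hC2
  have hC2' : 0 ≤ C2 := by (clear * - hA ha haa hbb; positivity)
  set D := 2 * ((9 + A) * (1 + 7 / a) / a ^ 7) with hD
  have hD' : 0 ≤ D := by positivity
  have hba : 0 < b - a := by linarith only [hab]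
  set C3 := C2 / (b - a) + 2 * Real.sqrt (C2 * D ^ 2) with hC3
  have hC3' : 0 ≤ C3 := by (clear * - hA ha haa hbb hab; positivity)
  refine ⟨Real.sqrt C3, Real.sqrt_nonneg _, ?_⟩
  intro T U₀ U φ hT hT1 h hE t ht x hx
  have h0 : (0 : ℝ) ∈ Icc 0 T := ⟨le_rfl, hT.le⟩
  have l2 := h.phi_l2 hT hA hE ht ha'0 hab' hb'1
  rw [← hΦ, ← hC1, div_mul_eq_mul_div, one_mul, div_le_iff₀ (by positivity : 0 < Φ ^ 2)] at l2
  -- restrict to [a,b]
  have cφt := h.cs_phi ht ha'0.le hab'.le hb'1.le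
  have cφ0 := h.cs_phi h0 ha'0.le hab'.le hb'1.le
  have c7 : ContinuousOn (fun x : ℝ => x ^ 7) (uIcc a' b') := by fun_prop
  have cz : ContinuousOn (fun x : ℝ => (x - a') ^ 2 * (b' - x) ^ 2) (uIcc a' b') := by (clear * -; fun_prop)
  have ibig : IntervalIntegrable (fun x => ((x - a') ^ 2 * (b' - x) ^ 2) *
      (x ^ 7 * (φ t x - φ 0 x) ^ 2)) volume a' b' :=
    (cz.mul (c7.mul ((cφt.sub cφ0).pow 2))).intervalIntegrable
  have ismall : IntervalIntegrable (fun x => (φ t x - φ 0 x) ^ 2) volume a b :=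
    (((h.cs_phi ht ha.le hab.le hb.le).sub (h.cs_phi h0 ha.le hab.le hb.le)).pow 2).intervalIntegrable
  have r1 := intervalIntegral.integral_mono_interval (μ := volume) (a := a) (b := b) (c := a')
      (d := b') haa.le hab.le hbb.le (by
        refine (ae_restrict_iff' measurableSet_Ioc).mpr (Filter.Eventually.of_forall ?_)
        intro y hy
        have h7 : 0 ≤ y ^ 7 := pow_nonneg (ha'0.trans hy.1).le 7
        show 0 ≤ _
        (clear * - h7; positivity)) ibig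
  have r2 := intervalIntegral.integral_mono_on hab.le (ismall.const_mul ζ0)
    (ibig.mono_set (by
      rw [uIcc_of_le hab.le, uIcc_of_le hab'.le]
      exact Icc_subset_Icc haa.le hbb.le)) (fun y hy => by
      have e1 : (a - a') ^ 2 ≤ (y - a') ^ 2 :=
        pow_le_pow_left₀ (by linarith only [ha, ha']) (by linarith only [hy.1]) 2
      have e2 : (b' - b) ^ 2 ≤ (b' - y) ^ 2 :=
        pow_le_pow_left₀ (by linarith only [hb', hb'1]) (by linarith only [hy.2]) 2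
      have e3 : a ^ 7 ≤ y ^ 7 := pow_le_pow_left₀ ha.le hy.1 7
      have e4 : ζ0 ≤ (y - a') ^ 2 * (b' - y) ^ 2 * y ^ 7 :=
        mul_le_mul (mul_le_mul e1 e2 (sq_nonneg _) (sq_nonneg _)) e3 (by positivity) (by (clear * -; positivity))
      have := mul_le_mul_of_nonneg_right e4 (sq_nonneg (φ t y - φ 0 y))
      linarith only [this])
  rw [intervalIntegral.integral_const_mul] at r2
  have r3 : ∫ y in a..b, (φ t y - φ 0 y) ^ 2 ≤ C2 * T := by
    have h1 : ζ0 * (∫ y in a..b, (φ t y - φ 0 y) ^ 2) ≤ C1 * T * Φ ^ 2 := (r2.trans r1).trans l2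
    have h2 : C2 * T = C1 * T * Φ ^ 2 / ζ0 := by rw [hC2]; ring
    rw [h2, le_div_iff₀ hζ0']
    linarith only [r2, r1, l2]
  -- the derivative
  have p1 := ((pc1_dx (s := ∅) hT h.sφ 0 ht).sub (pc1_dx (s := ∅) hT h.sφ 0 h0)).restrict
    ha.le hab.le hb.le
  simp only [dx_zero, zero_add] at p1
  have cd : ∀ s ∈ Icc 0 T, ContinuousOn (fun x => dx T 1 (pr φ) (s, x)) (uIcc a b) := by
    intro s hs
    rw [uIcc_of_le hab.le]
    exact (cont_dx hT h.sφ 1 hs).mono (Icc_subset_Icc ha.le hb.le)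
  have id2 : IntervalIntegrable (fun x => (dx T 1 (pr φ) (t, x) - dx T 1 (pr φ) (0, x)) ^ 2)
      volume a b := (((cd t ht).sub (cd 0 h0)).pow 2).intervalIntegrable
  have dbound : ∀ y ∈ Icc a b, (dx T 1 (pr φ) (t, y) - dx T 1 (pr φ) (0, y)) ^ 2 ≤ D ^ 2 := by
    intro y hy
    have e1 := (h.phi_bound hT ht (hE t ht) ha (x := y) ⟨hy.1, hy.2.trans hb.le⟩).2
    have e2 := (h.phi_bound hT h0 (hE 0 h0) ha (x := y) ⟨hy.1, hy.2.trans hb.le⟩).2
    have e3 : |dx T 1 (pr φ) (t, y) - dx T 1 (pr φ) (0, y)| ≤ D :=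
      (abs_sub _ _).trans (by rw [hD]; linarith only [e1, e2])
    exact sq_le_sq' (by linarith only [(abs_le.mp e3).1]) (abs_le.mp e3).2
  have dint : ∫ y in a..b, (dx T 1 (pr φ) (t, y) - dx T 1 (pr φ) (0, y)) ^ 2 ≤ D ^ 2 := by
    have h1 := intervalIntegral.integral_mono_on hab.le id2 (intervalIntegrable_const
      (c := D ^ 2)) dbound
    rw [intervalIntegral.integral_const, smul_eq_mul] at h1
    have h2 : (b - a) * D ^ 2 ≤ 1 * D ^ 2 :=
      mul_le_mul_of_nonneg_right (by linarith only [ha, hb', hb'1]) (sq_nonneg _)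
    linarith only [h1, h2]
  have ag := Vale.Agent.P264.Cal.agmon (A := C2 * T) (B := D ^ 2) (x := x) countable_empty hab p1
    id2 r3 dint hx
  have hsT : Real.sqrt T ≤ 1 := by
    rw [Real.sqrt_le_one]; exact hT1
  have hTs : T ≤ Real.sqrt T := by
    have h1 := Real.mul_self_sqrt hT.le
    linarith only [mul_nonneg_of_nonpos_of_nonpos (Mathlib.Tactic.Linarith.sub_nonpos_of_le hsT) (Mathlib.Tactic.Linarith.sub_nonpos_of_le (Real.sqrt_nonneg T)), h1]
  have f2 : (φ t x - φ 0 x) ^ 2 ≤ C3 * Real.sqrt T := by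
    have e1 : Real.sqrt (C2 * T * D ^ 2) = Real.sqrt (C2 * D ^ 2) * Real.sqrt T := by
      rw [← Real.sqrt_mul (by (clear * - hA ha haa hbb; positivity))]
      congr 1
      ring
    have e2 : C2 * T / (b - a) ≤ C2 / (b - a) * Real.sqrt T := by
      rw [mul_div_right_comm]
      exact mul_le_mul_of_nonneg_left hTs (by (clear * - hA ha haa hbb hab; positivity))
    have ag' : (φ t x - φ 0 x) ^ 2 ≤ C2 * T / (b - a) + 2 * Real.sqrt (C2 * T * D ^ 2) := ag
    rw [e1] at ag'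
    rw [hC3]
    linarith only [e2, e1, ag]
  have hq : (Real.sqrt C3 * T ^ (1 / 4 : ℝ)) ^ 2 = C3 * Real.sqrt T := by
    rw [mul_pow, Real.sq_sqrt hC3', Real.sqrt_eq_rpow, ← Real.rpow_natCast, ← Real.rpow_mul hT.le]
    norm_num
  apply abs_le_of_sq_le_sq _ (by (clear * - hA ha haa hbb hab hT; positivity))
  rw [hq]
  exact f2

end P264.B
end
end

section

section

/-!
# P264 / B / Near / StaticF : the static energy inequality (S1), final form
-/

open MeasureTheory Set Filter Real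
open scoped ContDiff Topology

namespace P264.B

variable {R ρ : ℝ → ℝ} {psi : Fin 2 → ℝ → ℝ} {lam : Fin 2 → ℝ}
  {ν c₁ c₂ Rmin α δ κ C₀ e₁ e₂ Kr Kp Kq K₂ Kinf z₀ : ℝ}

/-- `kap R` is bounded for `z ≥ 0`. -/
theorem Profile.kap_right (hR : Profile R Rmin α) :
    ∃ C : ℝ, 0 ≤ C ∧ ∀ z, 0 ≤ z → |kap R z| ≤ C := by
  obtain ⟨C, hC⟩ := hR.right
  have hC0 : 0 ≤ C := by
    have := (abs_nonneg _).trans (hC 0 (by norm_num) 0 le_rfl)
    simpa only [ge_iff_le, mul_zero, exp_zero, mul_one] using this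
  refine ⟨276 * C + 112 * |α - 1|, by (clear * - hC0; positivity), fun z hz => ?_⟩
  have he : exp (-2 * z) ≤ 1 := exp_le_one_iff.2 (by linarith only [hz])
  have hj : ∀ j, 1 ≤ j → j ≤ 4 → |iteratedDeriv j (fun s => R s - 1) z| ≤ C := by
    intro j h1 h4
    have h : iteratedDeriv j (fun s => R s - 1) z = iteratedDeriv j (fun s => R s - α) z := by
      obtain ⟨i, rfl⟩ := Nat.exists_eq_add_of_le' h1
      rw [iteratedDeriv_succ', iteratedDeriv_succ']
      congr 1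
      funext s
      simp only [deriv_sub_const]
    rw [h]
    calc _ ≤ C * exp (-2 * z) := hC j h4 z hz
      _ ≤ C * 1 := by (clear * - he hC0; gcongr)
      _ = C := mul_one C
  have h0 : |R z - 1| ≤ C + |α - 1| := by
    have := hC 0 (by norm_num) z hz
    rw [iteratedDeriv_zero] at this
    calc |R z - 1| = |(R z - α) + (α - 1)| := by ring_nf
      _ ≤ |R z - α| + |α - 1| := abs_add_le _ _
      _ ≤ C * exp (-2 * z) + |α - 1| := by gcongr
      _ ≤ C * 1 + |α - 1| := by (clear * - he hC0; gcongr)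
      _ = _ := by ring
  have h1 := hj 1 le_rfl (by norm_num)
  have h2 := hj 2 (by norm_num) (by norm_num)
  have h3 := hj 3 (by norm_num) (by norm_num)
  have h4 := hj 4 (by norm_num) le_rfl
  unfold kap piD
  rw [abs_le] at *
  constructor <;> linarith

/-- Integrability needed for (H3₂). -/
theorem int_kb (hρ : Weight ρ ν c₁ c₂) (hR : Profile R Rmin α)
    (hbc : Continuous (bsq ρ)) (hb0 : ∀ z, 0 ≤ bsq ρ z)
    (hbb : ∃ C, ∀ z, bsq ρ z ≤ C * exp (2 * ν * z)) :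
    Integrable fun z => exp (-2 * z) * kap R z ^ 2 * ρ z * bsq ρ z := by
  obtain ⟨C, hC⟩ := hbb
  obtain ⟨D, hD, hw⟩ := hρ.bounds
  obtain ⟨K, hK, hk⟩ := hR.kap_left
  obtain ⟨K', hK', hk'⟩ := hR.kap_right
  have hC0 : 0 ≤ C := by
    have := (hb0 0).trans (hC 0)
    simpa only [ge_iff_le, mul_zero, exp_zero, mul_one] using this
  have hcont : Continuous fun z => exp (-2 * z) * kap R z ^ 2 * ρ z * bsq ρ z := by
    have r0 := hρ.smooth.continuous
    have hk0 := cont_kap hR.smooth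
    fun_prop
  have hprod : ∀ z, ρ z * bsq ρ z ≤ D * C := by
    intro z
    calc ρ z * bsq ρ z ≤ (D * exp (-(2 * ν) * z)) * (C * exp (2 * ν * z)) := by
          have := hC z
          have h1 := (hw z).1
          have := hb0 z
          have := (hρ.pos z).le
          gcongr
      _ = D * C * (exp (-(2 * ν) * z) * exp (2 * ν * z)) := by ring
      _ = D * C := by rw [← exp_add]; simp
  have hprod0 : ∀ z, 0 ≤ ρ z * bsq ρ z := fun z => mul_nonneg (hρ.pos z).le (hb0 z)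
  have h1 : IntegrableOn (fun z => exp (-2 * z) * kap R z ^ 2 * ρ z * bsq ρ z) (Iic 0) := by
    have hexp : IntegrableOn (fun z : ℝ => (K ^ 2 * (D * C)) * exp (4 * z)) (Iic 0) :=
      (integrableOn_exp_mul_Iic (by norm_num : (0:ℝ) < 4) 0).const_mul _
    refine Integrable.mono' hexp hcont.aestronglyMeasurable.restrict ?_
    rw [ae_restrict_iff' measurableSet_Iic]
    refine Eventually.of_forall fun z hz => ?_
    have h3 := hk z hz
    rw [Real.norm_eq_abs, abs_of_nonneg (by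
      have := hprod0 z
      have : 0 ≤ exp (-2 * z) * kap R z ^ 2 := by (clear * -; positivity)
      calc (0:ℝ) ≤ (exp (-2 * z) * kap R z ^ 2) * (ρ z * bsq ρ z) := by positivity
        _ = _ := by ring)]
    calc exp (-2 * z) * kap R z ^ 2 * ρ z * bsq ρ z
        = exp (-2 * z) * kap R z ^ 2 * (ρ z * bsq ρ z) := by ring
      _ ≤ exp (-2 * z) * (K * exp (3 * z)) ^ 2 * (D * C) := by
          have e1 : kap R z ^ 2 ≤ (K * exp (3 * z)) ^ 2 := by rw [← sq_abs]; (clear * - h3; gcongr)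
          have := hprod z
          have := hprod0 z
          gcongr
      _ = _ := by
          rw [mul_pow, ← exp_nat_mul, show 4 * z = -2 * z + (2 : ℕ) * (3 * z) by push_cast; ring,
            exp_add]
          ring
  have h2 : IntegrableOn (fun z => exp (-2 * z) * kap R z ^ 2 * ρ z * bsq ρ z) (Ioi 0) := by
    have hexp : IntegrableOn (fun z : ℝ => (K' ^ 2 * (D * C)) * exp (-2 * z)) (Ioi 0) := by
      have := integrableOn_exp_mul_Ioi (show (-2 : ℝ) < 0 by norm_num) 0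
      exact this.const_mul _
    refine Integrable.mono' hexp hcont.aestronglyMeasurable.restrict ?_
    rw [ae_restrict_iff' measurableSet_Ioi]
    refine Eventually.of_forall fun z hz => ?_
    have h3 := hk' z (le_of_lt hz)
    rw [Real.norm_eq_abs, abs_of_nonneg (by
      have := hprod0 z
      have : 0 ≤ exp (-2 * z) * kap R z ^ 2 := by (clear * -; positivity)
      calc (0:ℝ) ≤ (exp (-2 * z) * kap R z ^ 2) * (ρ z * bsq ρ z) := by positivity
        _ = _ := by ring)]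
    calc exp (-2 * z) * kap R z ^ 2 * ρ z * bsq ρ z
        = exp (-2 * z) * kap R z ^ 2 * (ρ z * bsq ρ z) := by ring
      _ ≤ exp (-2 * z) * K' ^ 2 * (D * C) := by
          have e1 : kap R z ^ 2 ≤ K' ^ 2 := by rw [← sq_abs]; (clear * - h3; gcongr)
          have := hprod z
          have := hprod0 z
          gcongr
      _ = _ := by ring
  have hU : (univ : Set ℝ) = Iic 0 ∪ Ioi 0 := by
    ext z; simp
  rw [← integrableOn_univ, hU]
  exact h1.union h2

/-- (S1) with the Green bound as a hypothesis. -/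
theorem static_energy_aux
    (hC : Cert R ρ psi lam ν c₁ c₂ Rmin α δ κ C₀ e₁ e₂ Kr Kp Kq K₂ Kinf z₀)
    {G Gs f : ℝ → ℝ} (hG : Adm G) (hgreen : ∀ z, G z ^ 2 ≤ bsq ρ z * NN ρ G)
    (hbc : Continuous (bsq ρ)) (hb0 : ∀ z, 0 ≤ bsq ρ z)
    (hbb : ∃ C, ∀ z, bsq ρ z ≤ C * exp (2 * ν * z))
    {ηn η : ℝ} (hηn : 0 ≤ ηn) (hη : 0 ≤ η)
    (hη2 : ηn ^ 2 * K₂ + η ^ 2 / 1000000 ≤ κ * δ / 8)
    (hGs : AEStronglyMeasurable Gs) (_hf : AEStronglyMeasurable f)
    (hfI : Integrable fun z => exp (2 * z) * ρ z * f z ^ 2 / R z ^ 2)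
    (hb : ∀ z, |Gs z - Lop R G z| ≤ exp (-2 * z) * (κ * R z ^ 2 * |piD G z|
      + (if z ≤ z₀ then ηn else η) * R z * |kap R z| * |G z|) + |f z|) :
    ∫ z, Gs z * Top ρ G z ≤ -(15 / 16) * δ * NN ρ G
      + C₀ * ∑ i, qf R (psi i) G ^ 2
      + 1 / (2 * κ) * ∫ z, exp (2 * z) * ρ z * f z ^ 2 / R z ^ 2 := by
  have hκ := hC.κ_pos
  have iL := int_LT hC.weight hC.profile hG
  have iD := int_Dis hC.weight hC.profile hG
  have iK := int_kG hC.weight hC.profile hG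
  have ikb := int_kb hC.weight hC.profile hbc hb0 hbb
  have hN0 : 0 ≤ NN ρ G := integral_nonneg fun z =>
    mul_nonneg (hC.weight.pos z).le (sq_nonneg _)
  set F : ℝ → ℝ := fun z => exp (-2 * z) * kap R z ^ 2 * ρ z * bsq ρ z with hF
  have hF0 : ∀ z, 0 ≤ F z := fun z => by
    have := (hC.weight.pos z).le
    have := hb0 z
    simp only [hF]
    (clear G Gs f hG hgreen hbc hbb ηn η hηn hη hη2 hGs _hf hfI hb hκ iL iD iK hN0 F ikb hF; positivity)
  set M : ℝ → ℝ := fun z => 1 / (2 * κ) * NN ρ G *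
    (ηn ^ 2 * F z + η ^ 2 * (Ioi z₀).indicator F z) with hM
  have iFi : Integrable ((Ioi z₀).indicator F) := ikb.indicator measurableSet_Ioi
  have iM : Integrable M := ((ikb.const_mul _).add (iFi.const_mul _)).const_mul _
  -- the error integral
  set E : ℝ → ℝ := fun z => (Gs z - Lop R G z) * Top ρ G z with hE
  have hbnd : ∀ z, |E z| ≤ κ * (exp (-2 * z) * R z ^ 2 *
        (1 / 2 * (ρ z * piD G z ^ 2) + 2 * (Top ρ G z ^ 2 / ρ z)))
      + M z + 1 / (2 * κ) * (exp (2 * z) * ρ z * f z ^ 2 / R z ^ 2) := by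
    intro z
    have hη' : 0 ≤ (if z ≤ z₀ then ηn else η) := by split_ifs <;> assumption
    have h1 := pointwise_bound hκ hη'
      (hC.profile.Rmin_pos.trans_le (hC.profile.lower z)) (hC.weight.pos z) (hb z)
    have h2 : (if z ≤ z₀ then ηn else η) ^ 2 / (2 * κ)
        * (exp (-2 * z) * kap R z ^ 2 * ρ z * G z ^ 2) ≤ M z := by
      have h3 : exp (-2 * z) * kap R z ^ 2 * ρ z * G z ^ 2 ≤ F z * NN ρ G := by
        have h4 : 0 ≤ exp (-2 * z) * kap R z ^ 2 * ρ z := by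
          have := (hC.weight.pos z).le
          (clear * - this; positivity)
        calc exp (-2 * z) * kap R z ^ 2 * ρ z * G z ^ 2
            ≤ exp (-2 * z) * kap R z ^ 2 * ρ z * (bsq ρ z * NN ρ G) := by
              have := hgreen z; (clear * - this h4; gcongr)
          _ = _ := by simp only [hF]; ring
      have h5 : (if z ≤ z₀ then ηn else η) ^ 2 * F z
          ≤ ηn ^ 2 * F z + η ^ 2 * (Ioi z₀).indicator F z := by
        have := hF0 z
        by_cases hz : z ≤ z₀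
        · simp only [hz, if_true]
          rw [indicator_of_notMem (by simpa only [mem_Ioi, not_lt] using hz)]
          simp
        · simp only [hz, if_false]
          rw [indicator_of_mem (by simpa using hz)]
          have : 0 ≤ ηn ^ 2 * F z := by (clear * - this; positivity)
          linarith only [this]
      calc (if z ≤ z₀ then ηn else η) ^ 2 / (2 * κ)
            * (exp (-2 * z) * kap R z ^ 2 * ρ z * G z ^ 2)
          ≤ (if z ≤ z₀ then ηn else η) ^ 2 / (2 * κ) * (F z * NN ρ G) := by (clear * - h3 hκ; gcongr)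
        _ = 1 / (2 * κ) * NN ρ G * ((if z ≤ z₀ then ηn else η) ^ 2 * F z) := by ring
        _ ≤ 1 / (2 * κ) * NN ρ G * (ηn ^ 2 * F z + η ^ 2 * (Ioi z₀).indicator F z) := by
            (clear * - h5 hκ hN0; gcongr)
    linarith only [h2, h1]
  have iB : Integrable fun z => κ * (exp (-2 * z) * R z ^ 2 *
        (1 / 2 * (ρ z * piD G z ^ 2) + 2 * (Top ρ G z ^ 2 / ρ z)))
      + M z + 1 / (2 * κ) * (exp (2 * z) * ρ z * f z ^ 2 / R z ^ 2) :=
    ((iD.const_mul _).add iM).add (hfI.const_mul _)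
  have hEm : AEStronglyMeasurable E :=
    (hGs.sub (cont_Lop hC.profile.smooth hG.smooth).aestronglyMeasurable).mul
      (cont_Top hC.weight.smooth hG.smooth).aestronglyMeasurable
  have iE : Integrable E := Integrable.mono' iB hEm (Eventually.of_forall fun z => by
    rw [Real.norm_eq_abs]; exact hbnd z)
  have hsplit : ∫ z, Gs z * Top ρ G z = (∫ z, Lop R G z * Top ρ G z) + ∫ z, E z := by
    rw [← integral_add iL iE]
    congr 1
    funext z
    simp only [hE]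
    ring
  have hEle : ∫ z, E z ≤ κ * Dis R ρ G + (∫ z, M z)
      + 1 / (2 * κ) * ∫ z, exp (2 * z) * ρ z * f z ^ 2 / R z ^ 2 := by
    calc ∫ z, E z ≤ ∫ z, (κ * (exp (-2 * z) * R z ^ 2 *
        (1 / 2 * (ρ z * piD G z ^ 2) + 2 * (Top ρ G z ^ 2 / ρ z)))
      + M z + 1 / (2 * κ) * (exp (2 * z) * ρ z * f z ^ 2 / R z ^ 2)) :=
          integral_mono iE iB fun z => (le_abs_self _).trans (hbnd z)
      _ = _ := by
          have q1 := integral_add ((iD.const_mul κ).add iM) (hfI.const_mul (1 / (2 * κ)))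
          have q2 := integral_add (iD.const_mul κ) iM
          simp only [Pi.add_apply] at q1 q2
          have q3 : (∫ a, 1 / (2 * κ) * (exp (2 * a) * ρ a * f a ^ 2 / R a ^ 2))
              = 1 / (2 * κ) * ∫ z, exp (2 * z) * ρ z * f z ^ 2 / R z ^ 2 :=
            integral_const_mul _ _
          have q4 : (∫ a, κ * (exp (-2 * a) * R a ^ 2 *
              (1 / 2 * (ρ a * piD G a ^ 2) + 2 * (Top ρ G a ^ 2 / ρ a)))) = κ * Dis R ρ G :=
            integral_const_mul _ _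
          rw [q1, q2, q3, q4]
  have hMle : ∫ z, M z ≤ δ / 16 * NN ρ G := by
    have q1 : ∫ z, M z = 1 / (2 * κ) * NN ρ G *
        (ηn ^ 2 * (∫ z, F z) + η ^ 2 * ∫ z in Ioi z₀, F z) := by
      simp only [hM]
      rw [integral_const_mul]
      congr 1
      have q2 := integral_add (ikb.const_mul (ηn ^ 2)) (iFi.const_mul (η ^ 2))
      rw [integral_const_mul, integral_const_mul, integral_indicator measurableSet_Ioi] at q2
      rw [← q2]
    have h2 := hC.H32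
    have h3 := hC.H32f
    have h4 : ηn ^ 2 * (∫ z, F z) + η ^ 2 * (∫ z in Ioi z₀, F z) ≤ κ * δ / 8 := by
      calc ηn ^ 2 * (∫ z, F z) + η ^ 2 * (∫ z in Ioi z₀, F z)
          ≤ ηn ^ 2 * K₂ + η ^ 2 * (1 / 1000000) := by (clear * - h2 h3; gcongr)
        _ ≤ _ := by linarith only [hη2]
    rw [q1]
    calc 1 / (2 * κ) * NN ρ G * (ηn ^ 2 * (∫ z, F z) + η ^ 2 * ∫ z in Ioi z₀, F z)
        ≤ 1 / (2 * κ) * NN ρ G * (κ * δ / 8) := by (clear * - h4 hκ hN0; gcongr)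
      _ = δ / 16 * NN ρ G := by field_simp; ring
  have hH2 := hC.H2 G hG
  rw [hsplit]
  linarith only [hH2, hMle, hEle]

/-- (S1) the static energy inequality. -/
theorem static_energy
    (hC : Cert R ρ psi lam ν c₁ c₂ Rmin α δ κ C₀ e₁ e₂ Kr Kp Kq K₂ Kinf z₀)
    {G Gs f : ℝ → ℝ} (hG : Adm G) {ηn η : ℝ} (hηn : 0 ≤ ηn) (hη : 0 ≤ η)
    (hη2 : ηn ^ 2 * K₂ + η ^ 2 / 1000000 ≤ κ * δ / 8)
    (hGs : AEStronglyMeasurable Gs) (hf : AEStronglyMeasurable f)
    (hfI : Integrable fun z => exp (2 * z) * ρ z * f z ^ 2 / R z ^ 2)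
    (hb : ∀ z, |Gs z - Lop R G z| ≤ exp (-2 * z) * (κ * R z ^ 2 * |piD G z|
      + (if z ≤ z₀ then ηn else η) * R z * |kap R z| * |G z|) + |f z|) :
    ∫ z, Gs z * Top ρ G z ≤ -(15 / 16) * δ * NN ρ G
      + C₀ * ∑ i, qf R (psi i) G ^ 2
      + 1 / (2 * κ) * ∫ z, exp (2 * z) * ρ z * f z ^ 2 / R z ^ 2 := by
  obtain ⟨h1, h2, h3⟩ := bsq_facts hC.weight
  exact static_energy_aux hC hG (green_bound hC.weight hG) h1 h2 h3 hηn hη hη2 hGs hf hfI hb

end P264.B
end
end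

section

section

/-!
# P264 / B / Near / Resid : decay of the residual of the profile
-/

open MeasureTheory Set Filter Real
open scoped ContDiff Topology

namespace P264.B

variable {R ρ : ℝ → ℝ} {ν c₁ c₂ Rmin α : ℝ}

/-- `R' = O(e^z)` at `-∞`. -/
theorem Profile.deriv_left (hR : Profile R Rmin α) :
    ∃ C : ℝ, 0 ≤ C ∧ ∀ z ≤ (0 : ℝ), |deriv R z| ≤ C * exp z := by
  obtain ⟨p, hp0, Z, hZ⟩ := hR.left
  have hloc : ∀ z < Z, deriv R z = (theta p).eval (exp z) := by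
    intro z hz
    have he : R =ᶠ[𝓝 z] fun s => p.eval (exp s) := by
      filter_upwards [Iio_mem_nhds hz] with s hs
      exact hZ s (le_of_lt hs)
    rw [he.deriv_eq]
    exact (hasDerivAt_eval_exp p z).deriv
  obtain ⟨C₁, hC₁, hb₁⟩ := eval_exp_bound (theta p) 1 (by
    rw [Polynomial.X_pow_dvd_iff]
    intro d hd
    have : d = 0 := by omega
    subst this
    rw [theta_coeff]
    simp)
  have hcont : Continuous (deriv R) := by
    have := cont_iter (n := 4) hR.smooth (show 1 ≤ 4 by norm_num)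
    rwa [iteratedDeriv_one] at this
  obtain ⟨M, hM⟩ := isCompact_Icc.exists_bound_of_continuousOn
    (s := Icc (min Z 0 - 1) 0) (f := deriv R) hcont.continuousOn
  have hM0 : 0 ≤ M := (norm_nonneg _).trans (hM 0 (by
    constructor
    · have := min_le_right Z 0; linarith only [this]
    · exact le_rfl))
  refine ⟨C₁ + M * exp (1 - min Z 0), by (clear * - hC₁ hM0; positivity), fun z hz => ?_⟩
  rcases lt_or_ge z (min Z 0) with hz1 | hz1
  · rw [hloc z (lt_of_lt_of_le hz1 (min_le_left _ _))]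
    have := hb₁ z hz
    push_cast at this
    rw [one_mul] at this
    calc _ ≤ C₁ * exp z := this
      _ ≤ _ := by
        have : 0 ≤ M * exp (1 - min Z 0) := by (clear * - hM0; positivity)
        linarith only [mul_nonneg (sub_nonneg.2 this) (le_of_lt (sub_pos.2 (exp_pos z)))]
  · have h1 := hM z ⟨by linarith, hz⟩
    rw [Real.norm_eq_abs] at h1
    calc |deriv R z| ≤ M := h1
      _ ≤ M * exp (1 - min Z 0) * exp z := by
          rw [mul_assoc, ← exp_add]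
          have : 1 ≤ exp (1 - min Z 0 + z) := by
            apply one_le_exp; linarith
          nlinarith only [hM0, this]
      _ ≤ _ := by nlinarith only [hC₁, exp_pos z]

theorem Profile.sq_le_one (hR : Profile R Rmin α) (z : ℝ) : R z ^ 2 ≤ 1 := by
  have h1 := hR.upper z
  have h2 := hR.Rmin_pos.trans_le (hR.lower z)
  nlinarith

theorem Profile.resid_left (hR : Profile R Rmin α) :
    ∃ C : ℝ, 0 ≤ C ∧ ∀ z ≤ (0 : ℝ), |resid R z| ≤ C * exp z := by
  obtain ⟨C, hC, hd⟩ := hR.deriv_left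
  obtain ⟨K, hK, hk⟩ := hR.kap_left
  refine ⟨C + K, by (clear * - hC hK; positivity), fun z hz => ?_⟩
  have h1 := hd z hz
  have h2 := hk z hz
  have h3 : |exp (-2 * z) * R z ^ 2 * kap R z| ≤ K * exp z := by
    rw [abs_mul, abs_mul, abs_of_pos (exp_pos _), abs_of_nonneg (sq_nonneg (R z))]
    calc exp (-2 * z) * R z ^ 2 * |kap R z| ≤ exp (-2 * z) * 1 * (K * exp (3 * z)) := by
          have := hR.sq_le_one z
          (clear * - this h2; gcongr)
      _ = K * (exp (-2 * z) * exp (3 * z)) := by ring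
      _ = K * exp z := by rw [← exp_add]; ring_nf
  unfold resid
  calc |-(1 / 2) * deriv R z - exp (-2 * z) * R z ^ 2 * kap R z|
      ≤ |-(1 / 2) * deriv R z| + |exp (-2 * z) * R z ^ 2 * kap R z| := abs_sub _ _
    _ ≤ C * exp z + K * exp z := by
        refine add_le_add ?_ h3
        rw [abs_mul]
        have : |(-(1 / 2) : ℝ)| = 1 / 2 := by norm_num
        rw [this]
        have := abs_nonneg (deriv R z)
        linarith only [h1, this]
    _ = _ := by ring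

theorem Profile.deriv_right (hR : Profile R Rmin α) :
    ∃ C : ℝ, 0 ≤ C ∧ ∀ z, 0 ≤ z → |deriv R z| ≤ C * exp (-2 * z) := by
  obtain ⟨C, hC⟩ := hR.right
  have hC0 : 0 ≤ C := by
    have := (abs_nonneg _).trans (hC 0 (by norm_num) 0 le_rfl)
    simpa only [ge_iff_le, mul_zero, exp_zero, mul_one] using this
  refine ⟨C, hC0, fun z hz => ?_⟩
  have h := hC 1 (by norm_num) z hz
  rw [iteratedDeriv_one] at h
  simpa only [neg_mul, ge_iff_le, deriv_sub_const_fun] using h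

theorem Profile.resid_right (hR : Profile R Rmin α) :
    ∃ C : ℝ, 0 ≤ C ∧ ∀ z, 0 ≤ z → |resid R z| ≤ C * exp (-2 * z) := by
  obtain ⟨C, hC, hd⟩ := hR.deriv_right
  obtain ⟨K, hK, hk⟩ := hR.kap_right
  refine ⟨C + K, by positivity, fun z hz => ?_⟩
  have h1 := hd z hz
  have h2 := hk z hz
  have h3 : |exp (-2 * z) * R z ^ 2 * kap R z| ≤ K * exp (-2 * z) := by
    rw [abs_mul, abs_mul, abs_of_pos (exp_pos _), abs_of_nonneg (sq_nonneg (R z))]
    calc exp (-2 * z) * R z ^ 2 * |kap R z| ≤ exp (-2 * z) * 1 * K := by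
          have := hR.sq_le_one z
          gcongr
      _ = _ := by ring
  unfold resid
  calc |-(1 / 2) * deriv R z - exp (-2 * z) * R z ^ 2 * kap R z|
      ≤ |-(1 / 2) * deriv R z| + |exp (-2 * z) * R z ^ 2 * kap R z| := abs_sub _ _
    _ ≤ C * exp (-2 * z) + K * exp (-2 * z) := by
        refine add_le_add ?_ h3
        rw [abs_mul]
        have : |(-(1 / 2) : ℝ)| = 1 / 2 := by norm_num
        rw [this]
        have := abs_nonneg (deriv R z)
        linarith only [h1, this]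
    _ = _ := by ring

theorem cont_resid (hR : ContDiff ℝ 4 R) : Continuous (resid R) := by
  have h1 : Continuous (deriv R) := by
    have := cont_iter (n := 4) hR (show 1 ≤ 4 by norm_num)
    rwa [iteratedDeriv_one] at this
  have hk := cont_kap hR
  have hR0 := hR.continuous
  unfold resid
  (clear * - h1 hR0 hk; continuity)

/-- Integrability of the weighted square of the residual. -/
theorem int_resid (hρ : Weight ρ ν c₁ c₂) (hR : Profile R Rmin α) :
    Integrable fun z => exp (2 * z) * ρ z * resid R z ^ 2 / R z ^ 2 := by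
  obtain ⟨D, hD, hw⟩ := hρ.bounds
  obtain ⟨K, hK, hk⟩ := hR.resid_left
  obtain ⟨K', hK', hk'⟩ := hR.resid_right
  have hν := hρ.nu
  have hcont : Continuous fun z => exp (2 * z) * ρ z * resid R z ^ 2 / R z ^ 2 := by
    have r0 := hρ.smooth.continuous
    have h0 := cont_resid hR.smooth
    have hR0 := hR.smooth.continuous
    refine Continuous.div (by fun_prop) (by fun_prop) fun z => ?_
    have := hR.Rmin_pos.trans_le (hR.lower z)
    positivity
  have hbase : ∀ z, ∀ B : ℝ, |resid R z| ≤ B →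
      ‖exp (2 * z) * ρ z * resid R z ^ 2 / R z ^ 2‖
        ≤ D / Rmin ^ 2 * (exp (2 * z) * exp (-(2 * ν) * z) * B ^ 2) := by
    intro z B hB
    have h1 := hR.Rmin_pos.trans_le (hR.lower z)
    have h2 := hρ.pos z
    rw [Real.norm_eq_abs, abs_of_nonneg (by (clear * - h2 h1; positivity))]
    have h3 : resid R z ^ 2 ≤ B ^ 2 := by rw [← sq_abs]; gcongr
    calc exp (2 * z) * ρ z * resid R z ^ 2 / R z ^ 2
        ≤ exp (2 * z) * (D * exp (-(2 * ν) * z)) * B ^ 2 / Rmin ^ 2 := by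
          have := hR.Rmin_pos
          have := hR.lower z
          have := (hw z).1
          gcongr
      _ = _ := by ring
  have h1 : IntegrableOn (fun z => exp (2 * z) * ρ z * resid R z ^ 2 / R z ^ 2) (Iic 0) := by
    have hexp : IntegrableOn (fun z : ℝ => (D / Rmin ^ 2 * K ^ 2) * exp ((4 - 2 * ν) * z))
        (Iic 0) := (integrableOn_exp_mul_Iic (by linarith only [hν] : (0:ℝ) < 4 - 2 * ν) 0).const_mul _
    refine Integrable.mono' hexp hcont.aestronglyMeasurable.restrict ?_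
    rw [ae_restrict_iff' measurableSet_Iic]
    refine Eventually.of_forall fun z hz => (hbase z _ (hk z hz)).trans (le_of_eq ?_)
    rw [mul_pow, ← exp_nat_mul, show (4 - 2 * ν) * z = 2 * z + -(2 * ν) * z + (2 : ℕ) * z by
      push_cast; ring, exp_add, exp_add]
    ring
  have h2 : IntegrableOn (fun z => exp (2 * z) * ρ z * resid R z ^ 2 / R z ^ 2) (Ioi 0) := by
    have hexp : IntegrableOn (fun z : ℝ => (D / Rmin ^ 2 * K' ^ 2) * exp (-(2 + 2 * ν) * z))
        (Ioi 0) :=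
      (integrableOn_exp_mul_Ioi (show -(2 + 2 * ν) < 0 by linarith only [hν]) 0).const_mul _
    refine Integrable.mono' hexp hcont.aestronglyMeasurable.restrict ?_
    rw [ae_restrict_iff' measurableSet_Ioi]
    refine Eventually.of_forall fun z hz => (hbase z _ (hk' z (le_of_lt hz))).trans (le_of_eq ?_)
    rw [mul_pow, ← exp_nat_mul, show -(2 + 2 * ν) * z
      = 2 * z + -(2 * ν) * z + (2 : ℕ) * (-2 * z) by push_cast; ring, exp_add, exp_add]
    ring
  have hU : (univ : Set ℝ) = Iic 0 ∪ Ioi 0 := by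
    ext z; simp
  rw [← integrableOn_univ, hU]
  exact h1.union h2

end P264.B
end
end

section

section

/-!
# P264 / B / Near / EnergyReg : continuity of the terms of the equation for `G`
-/

open MeasureTheory Set Filter Real
open scoped ContDiff Topology

namespace P264.B

section Reg
variable {R ρ χ : ℝ → ℝ} {ν c₁ c₂ Rmin α T X s : ℝ} {U₀ : ℝ → ℝ} {U φ : ℝ → ℝ → ℝ}

theorem contOn_iter {f : ℝ → ℝ} {O : Set ℝ} (hO : IsOpen O) (hf : ContDiffOn ℝ 4 f O) {j : ℕ}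
    (hj : j ≤ 4) : ContinuousOn (iteratedDeriv j f) O := by
  have h1 := hf.continuousOn_iteratedDerivWithin (m := j) (by exact_mod_cast hj)
    hO.uniqueDiffOn
  exact h1.congr (fun z hz => (iteratedDerivWithin_of_isOpen hO hz).symm)

theorem contOn_piD {f : ℝ → ℝ} {O : Set ℝ} (hO : IsOpen O) (hf : ContDiffOn ℝ 4 f O) :
    ContinuousOn (piD f) O := by
  have h4 := contOn_iter hO hf (le_refl 4)
  have h3 := contOn_iter hO hf (show 3 ≤ 4 by norm_num)
  have h2 := contOn_iter hO hf (show 2 ≤ 4 by norm_num)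
  have h1 := contOn_iter hO hf (show 1 ≤ 4 by norm_num)
  have h0 := hf.continuousOn
  unfold piD
  fun_prop

theorem contDiffOn_WW (hR : ContDiff ℝ 4 R) (hφ : IsFlowU 8 T U₀ U φ) (hs : exp (-s) ≤ T) :
    ContDiffOn ℝ 4 (WW R φ T s) {z | xx s z < 1} := by
  intro z hz
  have h1 : ContDiffAt ℝ 4 (HH φ T s) z := (contDiffAt_HH hφ hs hz).of_le (by
    exact WithTop.coe_le_coe.2 le_top)
  exact (h1.sub hR.contDiffAt).contDiffWithinAt

theorem continuous_of_two {f : ℝ → ℝ} (hX1 : X < 1) (h1 : ContinuousOn f {z | xx s z < 1})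
    (h2 : ∀ z, X < xx s z → f z = 0) : Continuous f := by
  rw [continuous_iff_continuousAt]
  intro z
  rcases lt_or_ge (xx s z) 1 with hz | hz
  · exact h1.continuousAt ((isOpen_xx s 1).mem_nhds hz)
  · have ho : IsOpen {z | X < xx s z} := isOpen_lt continuous_const (continuous_xx s)
    have he : f =ᶠ[𝓝 z] fun _ => 0 := by
      filter_upwards [ho.mem_nhds (lt_of_lt_of_le hX1 hz)] with y hy using h2 y hy
    exact (continuousAt_const (y := (0:ℝ))).congr he.symm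

theorem cutE_right (hχ : Cutoff χ X) {z : ℝ} (hz : X < xx s z) : cutE χ R φ T s z = 0 := by
  have h0 := GG_eventually_zero (R := R) (φ := φ) (T := T) hχ hz
  unfold cutE
  rw [piD_zero_of_eventually h0, hχ.zero _ hz.le]
  ring

theorem GG_eq_WW_nhds (hχ : Cutoff χ X) {z : ℝ} (hz : xx s z < X / 2) :
    GG χ R φ T s =ᶠ[𝓝 z] WW R φ T s := by
  filter_upwards [(isOpen_xx s (X / 2)).mem_nhds hz] with y hy
  unfold GG
  rw [hχ.one _ (le_of_lt hy), one_mul]

theorem piD_congr {f g : ℝ → ℝ} {z : ℝ} (h : f =ᶠ[𝓝 z] g) : piD f z = piD g z := by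
  unfold piD
  rw [h.iteratedDeriv_eq 4, h.iteratedDeriv_eq 3, h.iteratedDeriv_eq 2, h.iteratedDeriv_eq 1,
    h.eq_of_nhds]

theorem cutE_left (hχ : Cutoff χ X) {z : ℝ} (hz : xx s z < X / 2) : cutE χ R φ T s z = 0 := by
  unfold cutE
  rw [piD_congr (GG_eq_WW_nhds (R := R) (φ := φ) (T := T) hχ hz), hχ.one _ hz.le]
  ring

theorem cutE_cont (hR : ContDiff ℝ 4 R) (hφ : IsFlowU 8 T U₀ U φ) (hχ : Cutoff χ X)
    (hs : exp (-s) ≤ T) (hG : ContDiff ℝ 4 (GG χ R φ T s)) :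
    Continuous (cutE χ R φ T s) := by
  refine continuous_of_two (s := s) hχ.X_lt ?_ fun z hz => cutE_right hχ hz
  have h1 : ContinuousOn (HH φ T s) {z | xx s z < 1} := fun z hz =>
    (contDiffAt_HH hφ hs hz).continuousAt.continuousWithinAt
  have h2 := contOn_piD (isOpen_xx s 1) (contDiffOn_WW hR hφ hs)
  have h3 := cont_piD hG
  have h4 : Continuous fun z => χ (xx s z) := hχ.smooth.continuous.comp (continuous_xx s)
  have h5 := h3.continuousOn (s := {z | xx s z < 1})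
  have h6 := h4.continuousOn (s := {z | xx s z < 1})
  have h7 : ContinuousOn (fun z : ℝ => exp (-2 * z)) {z | xx s z < 1} := by fun_prop
  exact (h7.mul (h1.pow 2)).mul (h5.sub (h6.mul h2))

theorem GS_cont (hR : ContDiff ℝ 4 R) (hφ : IsFlowU 8 T U₀ U φ) (hχ : Cutoff χ X)
    (hs : exp (-s) ≤ T) (hG : ContDiff ℝ 4 (GG χ R φ T s)) :
    Continuous (GS χ R φ T s) := by
  have hcut := cutE_cont hR hφ hχ hs hG
  have hL := cont_Lop hR hG
  have h4 : Continuous fun z => χ (xx s z) := hχ.smooth.continuous.comp (continuous_xx s)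
  have hr := cont_resid hR
  have hN : Continuous fun z => exp (-2 * z) *
      ((2 * R z + WW R φ T s z) * WW R φ T s z * piD (GG χ R φ T s) z
        + WW R φ T s z * kap R z * GG χ R φ T s z) := by
    refine continuous_of_two (s := s) hχ.X_lt ?_ fun z hz => ?_
    · have h1 : ContinuousOn (WW R φ T s) {z | xx s z < 1} :=
        (contDiffOn_WW hR hφ hs).continuousOn
      have h3 := (cont_piD hG).continuousOn (s := {z | xx s z < 1})
      have h5 := hG.continuous.continuousOn (s := {z | xx s z < 1})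
      have h6 := hR.continuous.continuousOn (s := {z | xx s z < 1})
      have h7 := (cont_kap hR).continuousOn (s := {z | xx s z < 1})
      fun_prop
    · have h0 := GG_eventually_zero (R := R) (φ := φ) (T := T) hχ hz
      rw [piD_zero_of_eventually h0, h0.eq_of_nhds]
      ring
  unfold GS
  exact ((hL.sub hN).add hcut).add (h4.mul hr)

theorem cutE_compact (hχ : Cutoff χ X) {z : ℝ}
    (hz : z ∉ Icc (Real.log (X / 2) + s / 2) (Real.log X + s / 2)) : cutE χ R φ T s z = 0 := by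
  have hX := hχ.X_pos
  rw [mem_Icc, not_and_or, not_le, not_le] at hz
  rcases hz with hz | hz
  · refine cutE_left hχ ?_
    unfold xx
    rw [← Real.lt_log_iff_exp_lt (by positivity)]
    linarith only [hz]
  · refine cutE_right hχ ?_
    unfold xx
    rw [← Real.log_lt_iff_lt_exp hX]
    linarith only [hz]

/-- Integrability of the cut-off error. -/
theorem int_cutE (hρ : Weight ρ ν c₁ c₂) (hR : Profile R Rmin α) (hφ : IsFlowU 8 T U₀ U φ)
    (hχ : Cutoff χ X) (hs : exp (-s) ≤ T) (hG : ContDiff ℝ 4 (GG χ R φ T s)) :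
    Integrable fun z => exp (2 * z) * ρ z * cutE χ R φ T s z ^ 2 / R z ^ 2 := by
  refine Continuous.integrable_of_hasCompactSupport ?_ ?_
  · have h1 := cutE_cont hR.smooth hφ hχ hs hG
    have h2 := hρ.smooth.continuous
    have h3 := hR.smooth.continuous
    refine Continuous.div (by fun_prop) (by fun_prop) fun z => ?_
    have := hR.Rmin_pos.trans_le (hR.lower z)
    positivity
  · refine HasCompactSupport.intro (isCompact_Icc
      (a := Real.log (X / 2) + s / 2) (b := Real.log X + s / 2)) fun z hz => ?_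
    rw [cutE_compact hχ hz]
    simp

end Reg

end P264.B
end
end

section

section

/-!
# P264 / B / Near / Scalar : (S2a), (S2b) of the skeleton (helper868)
-/

open MeasureTheory Set Filter Real
open scoped ContDiff Topology

namespace P264.B

namespace Scal

variable {ψ : ℝ → ℝ}

theorem ev_zero {z : ℝ} (hz : z ∉ tsupport ψ) : ψ =ᶠ[𝓝 z] fun _ => 0 := by
  have := (isClosed_tsupport ψ).isOpen_compl.mem_nhds hz
  filter_upwards [this] with y hy
  exact image_eq_zero_of_notMem_tsupport hy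

theorem psi_zero {z : ℝ} (hz : z ∉ tsupport ψ) : ψ z = 0 := image_eq_zero_of_notMem_tsupport hz

theorem dpsi_zero {z : ℝ} (hz : z ∉ tsupport ψ) : deriv ψ z = 0 := by
  rw [(ev_zero hz).deriv_eq]
  simp

theorem piDadj_zero {z : ℝ} (hz : z ∉ tsupport ψ) :
    piDadj (fun u => exp (-2 * u) * ψ u) z = 0 := by
  have h : (fun u => exp (-2 * u) * ψ u) =ᶠ[𝓝 z] fun _ => 0 := by
    filter_upwards [ev_zero hz] with y hy
    rw [hy, mul_zero]
  have h1 : ∀ k, iteratedDeriv k (fun u => exp (-2 * u) * ψ u) z = 0 := by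
    intro k
    rw [h.iteratedDeriv_eq k]
    simp
  unfold piDadj
  rw [h1, h1, h1, h1]
  simp only [psi_zero hz]
  ring

theorem piDadj_cont (hψ : ContDiff ℝ 4 ψ) :
    Continuous (piDadj (fun u => exp (-2 * u) * ψ u)) := by
  have hF : ContDiff ℝ 4 (fun u => exp (-2 * u) * ψ u) :=
    (by fun_prop : ContDiff ℝ 4 (fun u : ℝ => exp (-2 * u))).mul hψ
  unfold piDadj
  have h : ∀ k : ℕ, (k : WithTop ℕ∞) ≤ 4 →
      Continuous (iteratedDeriv k (fun u => exp (-2 * u) * ψ u)) := fun k hk =>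
    hF.continuous_iteratedDeriv k hk
  have h4 := h 4 (by norm_num)
  have h3 := h 3 (by norm_num)
  have h2 := h 2 (by norm_num)
  have h1 := h 1 (by norm_num)
  exact ((((h4.sub (h3.const_smul (12 : ℝ))).add (h2.const_smul (13 : ℝ))).add
    (h1.const_smul (138 : ℝ))).add (hF.continuous.const_smul (112 : ℝ)))

/-- An integrand supported in `tsupport ψ` and continuous on it, is integrable. -/
theorem integrable_of_tsupport (hψ : HasCompactSupport ψ) {F : ℝ → ℝ}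
    (h0 : ∀ z, z ∉ tsupport ψ → F z = 0) (hc : ContinuousOn F (tsupport ψ)) : Integrable F := by
  have h1 : IntegrableOn F (tsupport ψ) := hc.integrableOn_compact hψ
  rwa [integrableOn_iff_integrable_of_support_subset] at h1
  intro z hz
  by_contra hcon
  exact hz (h0 z hcon)

/-- Elementary facts about `w = h - R` with `|w| ≤ η R`, `η ≤ 1/4`. -/
theorem elem {R w η : ℝ} (hR : 0 < R) (hη4 : η ≤ 1 / 4) (hw : |w| ≤ η * R) :
    0 < R + w ∧ |1 / (R + w) - 1 / R| ≤ 4 / 3 * (|w| / R ^ 2) ∧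
      |w ^ 2 / (R + w)| ≤ 4 / 3 * (w ^ 2 / R) ∧ |w ^ 2 / (R + w)| ≤ 4 / 3 * (η * |w|) ∧
      1 / (R + w) - 1 / R + w / R ^ 2 = w ^ 2 / (R ^ 2 * (R + w)) := by
  have h1 : |w| ≤ 1 / 4 * R := hw.trans (mul_le_mul_of_nonneg_right hη4 hR.le)
  have h2 := abs_le.mp h1
  have hpos : 3 / 4 * R ≤ R + w := by linarith only [h2]
  have hp : 0 < R + w := by linarith only [hR, h2]
  have hinv : 1 / (R + w) ≤ 4 / 3 * (1 / R) := by
    rw [div_le_iff₀ hp]
    have : 4 / 3 * (1 / R) * (3 / 4 * R) = 1 := by field_simp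
    have h3 : 0 ≤ 4 / 3 * (1 / R) := by positivity
    nlinarith only [h2, hR, this]
  have e2 : |w ^ 2 / (R + w)| ≤ 4 / 3 * (w ^ 2 / R) := by
    rw [abs_of_nonneg (by positivity)]
    calc w ^ 2 / (R + w) = w ^ 2 * (1 / (R + w)) := by ring
      _ ≤ w ^ 2 * (4 / 3 * (1 / R)) := mul_le_mul_of_nonneg_left hinv (sq_nonneg _)
      _ = _ := by ring
  refine ⟨hp, ?_, e2, ?_, ?_⟩
  · have e : 1 / (R + w) - 1 / R = -(w * (1 / R) * (1 / (R + w))) := by
      field_simp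
      ring
    rw [e, abs_neg, abs_mul, abs_mul, abs_of_pos (by positivity : 0 < 1 / R),
      abs_of_pos (by positivity : 0 < 1 / (R + w))]
    calc |w| * (1 / R) * (1 / (R + w)) ≤ |w| * (1 / R) * (4 / 3 * (1 / R)) :=
          mul_le_mul_of_nonneg_left hinv (by positivity)
      _ = _ := by
        field_simp
  · refine e2.trans ?_
    refine mul_le_mul_of_nonneg_left ?_ (by norm_num)
    rw [div_le_iff₀ hR]
    have : w ^ 2 = |w| * |w| := by rw [← sq_abs]; ring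
    rw [this]
    have := mul_le_mul_of_nonneg_left hw (abs_nonneg w)
    linarith only [this]
  · field_simp
    ring

end Scal

section

variable {R ρ χ ψ : ℝ → ℝ} {ν c₁ c₂ Rmin α z₀ : ℝ}
variable {U₀ : ℝ → ℝ} {U φ : ℝ → ℝ → ℝ} {T X s η : ℝ}

/-- Pointwise information on the support of `ψ`. -/
theorem supp_facts (hρ : Weight ρ ν c₁ c₂) (hR : Profile R Rmin α) (hψf : ∀ z, z₀ ≤ z → ψ z = 0)
    (hφ : IsFlowU 8 T U₀ U φ) (hχ : Cutoff χ X) (hs : exp (-s) ≤ T)
    (hsm : Small R φ T X η s) (hz : exp (z₀ - s / 2) ≤ X / 2) {z : ℝ} (hzs : z ∈ tsupport ψ) :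
    xx s z < 1 ∧ HH φ T s z = R z + WW R φ T s z ∧ |WW R φ T s z| ≤ η * R z ∧
      |WW R φ T s z| ≤ √(bsq ρ z) * √(NN ρ (GG χ R φ T s)) ∧
      WW R φ T s z ^ 2 ≤ bsq ρ z * NN ρ (GG χ R φ T s) ∧ GG χ R φ T s z = WW R φ T s z := by
  have hzz : z ≤ z₀ := by
    have : tsupport ψ ⊆ Iic z₀ := by
      apply closure_minimal _ isClosed_Iic
      intro y hy
      by_contra hcon
      simp only [mem_Iic, not_le] at hcon
      exact hy (hψf y hcon.le)
    exact this hzs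
  have hx : xx s z ≤ X / 2 := by
    refine le_trans ?_ hz
    unfold xx
    exact exp_le_exp.mpr (by linarith only [hzz])
  have hx1 : xx s z < 1 := by
    have := hχ.X_lt
    have := hχ.X_pos
    linarith
  have hG : GG χ R φ T s z = WW R φ T s z := by
    unfold GG
    rw [hχ.one _ hx, one_mul]
  have hsq : WW R φ T s z ^ 2 ≤ bsq ρ z * NN ρ (GG χ R φ T s) := by
    have := green_bound hρ (GG_adm hR hφ hχ hs) z
    rwa [hG] at this
  refine ⟨hx1, ?_, ?_, ?_, hsq, hG⟩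
  · unfold WW; ring
  · refine hsm z ?_
    have := hχ.X_pos
    linarith only [hx, this]
  · have hb := (bsq_facts hρ).2.1 z
    rw [← Real.sqrt_mul hb]
    exact Real.abs_le_sqrt hsq

/-- Continuity of `h` on the support. -/
theorem HH_contOn (hφ : IsFlowU 8 T U₀ U φ) (hs : exp (-s) ≤ T) {K : Set ℝ}
    (hK : ∀ z ∈ K, xx s z < 1) : ContinuousOn (HH φ T s) K := fun z hz =>
  (contDiffAt_HH hφ hs (hK z hz)).continuousAt.continuousWithinAt

section core

variable (hρ : Weight ρ ν c₁ c₂) (hR : Profile R Rmin α) (hψ : ContDiff ℝ 4 ψ)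
  (hψc : HasCompactSupport ψ) (hψf : ∀ z, z₀ ≤ z → ψ z = 0)
  (hφ : IsFlowU 8 T U₀ U φ) (hχ : Cutoff χ X) (hs : exp (-s) ≤ T) (hη4 : η ≤ 1 / 4)
  (hsm : Small R φ T X η s) (hz : exp (z₀ - s / 2) ≤ X / 2)

include hρ hR hψ hψc hψf hφ hχ hs hsm hz

/-- The scalar equation, recombined. -/
theorem scalar_split (lam : ℝ) :
    aS ψ R φ T s - lam * aa ψ R φ T s =
      (∫ z, ((1 / 2) * deriv ψ z - R z ^ 2 * piDadj (fun u => exp (-2 * u) * ψ u) z - lam * ψ z)
        * (1 / HH φ T s z - 1 / R z))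
      + (∫ z, piDadj (fun u => exp (-2 * u) * ψ u) z * (WW R φ T s z ^ 2 / HH φ T s z))
      - ∫ z, ψ z * resid R z / R z ^ 2 := by
  have hRpos : ∀ z, 0 < R z := fun z => hR.Rmin_pos.trans_le (hR.lower z)
  have hK : ∀ z ∈ tsupport ψ, xx s z < 1 := fun z hzs =>
    (supp_facts hρ hR hψf hφ hχ hs hsm hz hzs).1
  have cH := HH_contOn hφ hs hK
  have hHpos : ∀ z ∈ tsupport ψ, HH φ T s z ≠ 0 := fun z hzs =>
    (div_pos ((hφ.profile _ (tt_mem hs)).pos _ ⟨xx_pos, hK z hzs⟩) xx_pos).ne'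
  have cR : Continuous R := hR.smooth.continuous
  have cμ : ContinuousOn (fun z => 1 / HH φ T s z - 1 / R z) (tsupport ψ) :=
    (continuousOn_const.div cH hHpos).sub
      (continuousOn_const.div cR.continuousOn fun z _ => (hRpos z).ne')
  have cd : Continuous (deriv ψ) := hψ.continuous_deriv (by norm_num)
  have i1 : Integrable (fun z => ((1 / 2) * deriv ψ z
      - R z ^ 2 * piDadj (fun u => exp (-2 * u) * ψ u) z) * (1 / HH φ T s z - 1 / R z)) := by
    refine Scal.integrable_of_tsupport hψc (fun z hz => ?_) ?_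
    · rw [Scal.dpsi_zero hz, Scal.piDadj_zero hz]; simp
    · exact (((cd.const_smul (1 / 2 : ℝ)).sub ((cR.pow 2).mul
        (Scal.piDadj_cont hψ))).continuousOn).mul cμ
  have i2 : Integrable (fun z => ψ z * (1 / HH φ T s z - 1 / R z)) := by
    refine Scal.integrable_of_tsupport hψc (fun z hz => ?_) (hψ.continuous.continuousOn.mul cμ)
    rw [Scal.psi_zero hz, zero_mul]
  have e : ∫ z, ((1 / 2) * deriv ψ z - R z ^ 2 * piDadj (fun u => exp (-2 * u) * ψ u) z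
      - lam * ψ z) * (1 / HH φ T s z - 1 / R z) =
      (∫ z, ((1 / 2) * deriv ψ z - R z ^ 2 * piDadj (fun u => exp (-2 * u) * ψ u) z)
        * (1 / HH φ T s z - 1 / R z)) - lam * ∫ z, ψ z * (1 / HH φ T s z - 1 / R z) := by
    rw [← integral_const_mul, ← integral_sub i1 (i2.const_mul lam)]
    congr 1
    ext z
    ring
  rw [e]
  unfold aS aa
  ring

include hη4

/-- Part 1: the residual of the adjoint equation. -/
theorem scalar_part1 (lam : ℝ) :
    |∫ z, ((1 / 2) * deriv ψ z - R z ^ 2 * piDadj (fun u => exp (-2 * u) * ψ u) z - lam * ψ z)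
        * (1 / HH φ T s z - 1 / R z)| ≤
      4 / 3 * √(NN ρ (GG χ R φ T s)) *
        ∫ z, |(1 / 2) * deriv ψ z - R z ^ 2 * piDadj (fun u => exp (-2 * u) * ψ u) z
          - lam * ψ z| / R z ^ 2 * √(bsq ρ z) := by
  have hRpos : ∀ z, 0 < R z := fun z => hR.Rmin_pos.trans_le (hR.lower z)
  have cR : Continuous R := hR.smooth.continuous
  have cd : Continuous (deriv ψ) := hψ.continuous_deriv (by norm_num)
  have cb := (bsq_facts hρ).1
  have cA : Continuous (fun z => (1 / 2) * deriv ψ z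
      - R z ^ 2 * piDadj (fun u => exp (-2 * u) * ψ u) z - lam * ψ z) :=
    ((continuous_const.mul cd).sub ((cR.pow 2).mul (Scal.piDadj_cont hψ))).sub
      (continuous_const.mul hψ.continuous)
  rw [← integral_const_mul]
  refine norm_integral_le_of_norm_le (f := fun z => ((1 / 2) * deriv ψ z
      - R z ^ 2 * piDadj (fun u => exp (-2 * u) * ψ u) z - lam * ψ z)
        * (1 / HH φ T s z - 1 / R z)) ?_ (Filter.Eventually.of_forall fun z => ?_)
  · refine Integrable.const_mul ?_ _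
    refine Scal.integrable_of_tsupport hψc (fun z hz => ?_) ?_
    · rw [Scal.dpsi_zero hz, Scal.piDadj_zero hz, Scal.psi_zero hz]; simp
    · exact ((cA.abs.div (cR.pow 2) fun z => (pow_pos (hRpos z) 2).ne').mul
        (continuous_sqrt.comp cb)).continuousOn
  · by_cases hzs : z ∈ tsupport ψ
    · obtain ⟨-, hH, hw, hwb, -, -⟩ := supp_facts hρ hR hψf hφ hχ hs hsm hz hzs
      have el := (Scal.elem (hRpos z) hη4 hw).2.1
      rw [Real.norm_eq_abs, abs_mul, hH]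
      have h1 : |1 / (R z + WW R φ T s z) - 1 / R z| ≤
          4 / 3 * (√(bsq ρ z) * √(NN ρ (GG χ R φ T s)) / R z ^ 2) := by
        refine el.trans (mul_le_mul_of_nonneg_left ?_ (by norm_num))
        exact div_le_div_of_nonneg_right hwb (by (clear * -; positivity))
      have h2 := mul_le_mul_of_nonneg_left h1 (abs_nonneg ((1 / 2) * deriv ψ z
        - R z ^ 2 * piDadj (fun u => exp (-2 * u) * ψ u) z - lam * ψ z))
      refine h2.trans (le_of_eq ?_)
      ring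
    · rw [Scal.dpsi_zero hzs, Scal.piDadj_zero hzs, Scal.psi_zero hzs]; simp only [one_div, mul_zero, sub_self, zero_mul, norm_zero, abs_zero, zero_div, Std.le_refl]

/-- Part 2, quadratic form. -/
theorem scalar_part2' :
    |∫ z, piDadj (fun u => exp (-2 * u) * ψ u) z * (WW R φ T s z ^ 2 / HH φ T s z)| ≤
      4 / 3 * NN ρ (GG χ R φ T s) *
        ∫ z, |piDadj (fun u => exp (-2 * u) * ψ u) z| * bsq ρ z / R z := by
  have hRpos : ∀ z, 0 < R z := fun z => hR.Rmin_pos.trans_le (hR.lower z)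
  have cR : Continuous R := hR.smooth.continuous
  have cb := (bsq_facts hρ).1
  rw [← integral_const_mul]
  refine norm_integral_le_of_norm_le (f := fun z => piDadj (fun u => exp (-2 * u) * ψ u) z *
    (WW R φ T s z ^ 2 / HH φ T s z)) ?_ (Filter.Eventually.of_forall fun z => ?_)
  · refine Integrable.const_mul ?_ _
    refine Scal.integrable_of_tsupport hψc (fun z hz => ?_) ?_
    · rw [Scal.piDadj_zero hz]; simp only [abs_zero, zero_mul, zero_div]
    · exact (((Scal.piDadj_cont hψ).abs.mul cb).div cR fun z => (hRpos z).ne').continuousOn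
  · by_cases hzs : z ∈ tsupport ψ
    · obtain ⟨-, hH, hw, -, hwb, -⟩ := supp_facts hρ hR hψf hφ hχ hs hsm hz hzs
      have el := (Scal.elem (hRpos z) hη4 hw).2.2.1
      rw [Real.norm_eq_abs, abs_mul, hH]
      have h1 : |WW R φ T s z ^ 2 / (R z + WW R φ T s z)| ≤
          4 / 3 * (bsq ρ z * NN ρ (GG χ R φ T s) / R z) :=
        el.trans (mul_le_mul_of_nonneg_left (div_le_div_of_nonneg_right hwb (hRpos z).le)
          (by norm_num))
      have h2 := mul_le_mul_of_nonneg_left h1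
        (abs_nonneg (piDadj (fun u => exp (-2 * u) * ψ u) z))
      refine h2.trans (le_of_eq ?_)
      ring
    · rw [Scal.piDadj_zero hzs]; simp only [zero_mul, norm_zero, abs_zero, zero_div, mul_zero, Std.le_refl]

/-- (S2a), quadratic form. -/
theorem scalar_bound_gen' (lam : ℝ) {Kr Kpp e₂ : ℝ}
    (hKr : ∫ z, |(1 / 2) * deriv ψ z - R z ^ 2 * piDadj (fun u => exp (-2 * u) * ψ u) z
          - lam * ψ z| / R z ^ 2 * √(bsq ρ z) ≤ Kr)
    (hKp : ∫ z, |piDadj (fun u => exp (-2 * u) * ψ u) z| * bsq ρ z / R z ≤ Kpp)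
    (he₂ : |∫ z, ψ z * resid R z / R z ^ 2| ≤ e₂) :
    |aS ψ R φ T s - lam * aa ψ R φ T s|
      ≤ 4 / 3 * (Kr * √(NN ρ (GG χ R φ T s)) + Kpp * NN ρ (GG χ R φ T s)) + e₂ := by
  rw [scalar_split hρ hR hψ hψc hψf hφ hχ hs hsm hz lam]
  have p1 := scalar_part1 hρ hR hψ hψc hψf hφ hχ hs hη4 hsm hz lam
  have p2 := scalar_part2' hρ hR hψ hψc hψf hφ hχ hs hη4 hsm hz
  have hN := Real.sqrt_nonneg (NN ρ (GG χ R φ T s))
  have hNN : 0 ≤ NN ρ (GG χ R φ T s) :=
    integral_nonneg fun z => mul_nonneg (hρ.pos z).le (sq_nonneg _)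
  generalize √(NN ρ (GG χ R φ T s)) = N at p1 hN ⊢
  generalize NN ρ (GG χ R φ T s) = M at p2 hNN ⊢
  have q1 := mul_le_mul_of_nonneg_left hKr (by (clear * - hN; positivity) : 0 ≤ 4 / 3 * N)
  have q2 := mul_le_mul_of_nonneg_left hKp (by (clear * - hNN; positivity) : 0 ≤ 4 / 3 * M)
  refine (abs_sub _ _).trans ?_
  refine (add_le_add (abs_add_le _ _) he₂).trans ?_
  linarith only [p1, p2, q1, q2]

/-- The difference `a - q(G)`. -/
theorem scalar_diff_eq :
    aa ψ R φ T s - qf R ψ (GG χ R φ T s) =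
      ∫ z, ψ z * (WW R φ T s z ^ 2 / (R z ^ 2 * HH φ T s z)) := by
  have hRpos : ∀ z, 0 < R z := fun z => hR.Rmin_pos.trans_le (hR.lower z)
  have hK : ∀ z ∈ tsupport ψ, xx s z < 1 := fun z hzs =>
    (supp_facts hρ hR hψf hφ hχ hs hsm hz hzs).1
  have cH := HH_contOn hφ hs hK
  have hHpos : ∀ z ∈ tsupport ψ, HH φ T s z ≠ 0 := fun z hzs =>
    (div_pos ((hφ.profile _ (tt_mem hs)).pos _ ⟨xx_pos, hK z hzs⟩) xx_pos).ne'
  have cR : Continuous R := hR.smooth.continuous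
  have cμ : ContinuousOn (fun z => 1 / HH φ T s z - 1 / R z) (tsupport ψ) :=
    (continuousOn_const.div cH hHpos).sub
      (continuousOn_const.div cR.continuousOn fun z _ => (hRpos z).ne')
  have cG : Continuous (GG χ R φ T s) := (GG_adm hR hφ hχ hs).smooth.continuous
  have i2 : Integrable (fun z => ψ z * (1 / HH φ T s z - 1 / R z)) := by
    refine Scal.integrable_of_tsupport hψc (fun z hz => ?_) (hψ.continuous.continuousOn.mul cμ)
    rw [Scal.psi_zero hz, zero_mul]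
  have i3 : Integrable (fun z => ψ z * GG χ R φ T s z / R z ^ 2) := by
    refine Scal.integrable_of_tsupport hψc (fun z hz => ?_)
      ((hψ.continuous.mul cG).div (cR.pow 2) fun z => (pow_pos (hRpos z) 2).ne').continuousOn
    rw [Scal.psi_zero hz, zero_mul, zero_div]
  unfold aa qf
  rw [sub_neg_eq_add, ← integral_add i2 i3]
  refine integral_congr_ae (Filter.Eventually.of_forall fun z => ?_)
  by_cases hzs : z ∈ tsupport ψ
  · obtain ⟨-, hH, hw, -, -, hG⟩ := supp_facts hρ hR hψf hφ hχ hs hsm hz hzs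
    have el := (Scal.elem (hRpos z) hη4 hw).2.2.2.2
    show ψ z * (1 / HH φ T s z - 1 / R z) + ψ z * GG χ R φ T s z / R z ^ 2 =
      ψ z * (WW R φ T s z ^ 2 / (R z ^ 2 * HH φ T s z))
    rw [hG, hH, ← el]
    ring
  · simp only [Scal.psi_zero hzs, zero_mul, zero_div, add_zero]

/-- (S2b), quadratic form. -/
theorem scalar_diff_gen' {Kqq : ℝ}
    (hKq : ∫ z, |ψ z| * bsq ρ z / R z ^ 3 ≤ Kqq) :
    |aa ψ R φ T s - qf R ψ (GG χ R φ T s)| ≤ 4 / 3 * Kqq * NN ρ (GG χ R φ T s) := by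
  have hRpos : ∀ z, 0 < R z := fun z => hR.Rmin_pos.trans_le (hR.lower z)
  have cR : Continuous R := hR.smooth.continuous
  have cb := (bsq_facts hρ).1
  rw [scalar_diff_eq hρ hR hψ hψc hψf hφ hχ hs hη4 hsm hz]
  have hNN : 0 ≤ NN ρ (GG χ R φ T s) :=
    integral_nonneg fun z => mul_nonneg (hρ.pos z).le (sq_nonneg _)
  have key : |∫ z, ψ z * (WW R φ T s z ^ 2 / (R z ^ 2 * HH φ T s z))| ≤
      ∫ z, (4 / 3 * NN ρ (GG χ R φ T s)) * (|ψ z| * bsq ρ z / R z ^ 3) := by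
    refine norm_integral_le_of_norm_le (f := fun z => ψ z * (WW R φ T s z ^ 2 /
      (R z ^ 2 * HH φ T s z))) ?_ (Filter.Eventually.of_forall fun z => ?_)
    · refine Integrable.const_mul ?_ _
      refine Scal.integrable_of_tsupport hψc (fun z hz => ?_) ?_
      · rw [Scal.psi_zero hz]; simp
      · exact ((hψ.continuous.abs.mul cb).div (cR.pow 3)
          fun z => (pow_pos (hRpos z) 3).ne').continuousOn
    · by_cases hzs : z ∈ tsupport ψ
      · obtain ⟨-, hH, hw, -, hwb, -⟩ := supp_facts hρ hR hψf hφ hχ hs hsm hz hzs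
        have el := (Scal.elem (hRpos z) hη4 hw).2.2.1
        rw [Real.norm_eq_abs, abs_mul, hH]
        have hR2 : 0 < R z ^ 2 := pow_pos (hRpos z) 2
        have e1 : WW R φ T s z ^ 2 / (R z ^ 2 * (R z + WW R φ T s z)) =
            (WW R φ T s z ^ 2 / (R z + WW R φ T s z)) / R z ^ 2 := by
          rw [mul_comm, div_div]
        rw [e1, abs_div, abs_of_pos hR2]
        have h1 : |WW R φ T s z ^ 2 / (R z + WW R φ T s z)| ≤
            4 / 3 * (bsq ρ z * NN ρ (GG χ R φ T s) / R z) :=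
          el.trans (mul_le_mul_of_nonneg_left (div_le_div_of_nonneg_right hwb (hRpos z).le)
            (by norm_num))
        have h2 := mul_le_mul_of_nonneg_left (div_le_div_of_nonneg_right h1 hR2.le)
          (abs_nonneg (ψ z))
        refine h2.trans (le_of_eq ?_)
        have := (hRpos z).ne'
        field_simp
      · rw [Scal.psi_zero hzs]; simp
  rw [integral_const_mul] at key
  have q1 := mul_le_mul_of_nonneg_left hKq (by (clear * - hNN; positivity) : 0 ≤ 4 / 3 * NN ρ (GG χ R φ T s))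
  linarith only [q1, key]

end core

end

/-- (S2a) of the skeleton. -/
theorem scalar_bound {R ρ χ : ℝ → ℝ} {psi : Fin 2 → ℝ → ℝ} {lam : Fin 2 → ℝ}
    {ν c₁ c₂ Rmin α δ κ C₀ e₁ e₂ Kr Kp Kq K₂ Kinf z₀ : ℝ}
    (hC : Cert R ρ psi lam ν c₁ c₂ Rmin α δ κ C₀ e₁ e₂ Kr Kp Kq K₂ Kinf z₀)
    {U₀ : ℝ → ℝ} {U φ : ℝ → ℝ → ℝ} {T X s η : ℝ}
    (hφ : IsFlowU 8 T U₀ U φ) (hχ : Cutoff χ X) (hs : exp (-s) ≤ T)
    (_hη : 0 ≤ η) (hη4 : η ≤ 1 / 4) (hsm : Small R φ T X η s)
    (hz : exp (z₀ - s / 2) ≤ X / 2) (i : Fin 2) :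
    |aS (psi i) R φ T s - lam i * aa (psi i) R φ T s|
      ≤ 4 / 3 * (Kr * √(NN ρ (GG χ R φ T s)) + Kp * NN ρ (GG χ R φ T s)) + e₂ :=
  scalar_bound_gen' hC.weight hC.profile (hC.psi_smooth i) (hC.psi_supp i) (hC.psi_far i) hφ hχ hs
    hη4 hsm hz (lam i) (hC.H3r i) (hC.H3p i) (hC.H1' i)

/-- (S2b) of the skeleton. -/
theorem scalar_diff {R ρ χ : ℝ → ℝ} {psi : Fin 2 → ℝ → ℝ} {lam : Fin 2 → ℝ}
    {ν c₁ c₂ Rmin α δ κ C₀ e₁ e₂ Kr Kp Kq K₂ Kinf z₀ : ℝ}
    (hC : Cert R ρ psi lam ν c₁ c₂ Rmin α δ κ C₀ e₁ e₂ Kr Kp Kq K₂ Kinf z₀)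
    {U₀ : ℝ → ℝ} {U φ : ℝ → ℝ → ℝ} {T X s η : ℝ}
    (hφ : IsFlowU 8 T U₀ U φ) (hχ : Cutoff χ X) (hs : exp (-s) ≤ T)
    (_hη : 0 ≤ η) (hη4 : η ≤ 1 / 4) (hsm : Small R φ T X η s)
    (hz : exp (z₀ - s / 2) ≤ X / 2) (i : Fin 2) :
    |aa (psi i) R φ T s - qf R (psi i) (GG χ R φ T s)|
      ≤ 4 / 3 * Kq * NN ρ (GG χ R φ T s) :=
  scalar_diff_gen' hC.weight hC.profile (hC.psi_smooth i) (hC.psi_supp i) (hC.psi_far i) hφ hχ hs
    hη4 hsm hz (hC.H3q i)

end P264.B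
end
end

section

section

/-!
# P264 / B / Near / EnergyIneq : the energy inequality (S3) along the flow
-/

open MeasureTheory Set Filter Real
open scoped ContDiff Topology

namespace P264.B

variable {R ρ χ : ℝ → ℝ} {psi : Fin 2 → ℝ → ℝ} {lam : Fin 2 → ℝ}
  {ν c₁ c₂ Rmin α δ κ C₀ e₁ e₂ Kr Kp Kq K₂ Kinf z₀ : ℝ}

/-- (S3) with the scalar difference bound as a hypothesis. -/
theorem energy_ineq_aux
    (hC : Cert R ρ psi lam ν c₁ c₂ Rmin α δ κ C₀ e₁ e₂ Kr Kp Kq K₂ Kinf z₀)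
    {U₀ : ℝ → ℝ} {U φ : ℝ → ℝ → ℝ} {T X s η Ns : ℝ}
    (hφ : IsFlowU 8 T U₀ U φ) (hχ : Cutoff χ X) (hs : exp (-s) ≤ T)
    (hη : 0 ≤ η) (_hη4 : η ≤ 1 / 4) (hη1 : η * (2 + η) ≤ κ)
    (hη2 : Kinf ^ 2 * Ns * K₂ + η ^ 2 / 1000000 ≤ κ * δ / 8)
    (hη3 : 285 * C₀ * Kq ^ 2 * Ns ≤ δ)
    (hN : NN ρ (GG χ R φ T s) ≤ Ns)
    (hsm : Small R φ T X η s) (hz : exp (z₀ - s / 2) ≤ X / 2)
    (hsc : ∀ i, |aa (psi i) R φ T s - qf R (psi i) (GG χ R φ T s)|
      ≤ 4 / 3 * Kq * NN ρ (GG χ R φ T s)) :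
    2 * ∫ z, GS χ R φ T s z * Top ρ (GG χ R φ T s) z ≤
      -(7 / 4) * δ * NN ρ (GG χ R φ T s)
      + 5 / 2 * C₀ * ∑ i, aa (psi i) R φ T s ^ 2
      + 2 / κ * (e₁ ^ 2 + ecut2 χ R ρ φ T s) := by
  have hR := hC.profile
  have hρ := hC.weight
  have hκ := hC.κ_pos
  have hC0 := hC.C₀_nonneg
  have hadm : Adm (GG χ R φ T s) := GG_adm hR hφ hχ hs
  have hG4 := hadm.smooth
  have hN0 : 0 ≤ NN ρ (GG χ R φ T s) := integral_nonneg fun z =>
    mul_nonneg (hρ.pos z).le (sq_nonneg _)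
  have hNs0 : 0 ≤ Ns := hN0.trans hN
  have hRp : ∀ z, 0 < R z := fun z => hR.Rmin_pos.trans_le (hR.lower z)
  have hKinf : 0 ≤ Kinf := by
    have h := (sqrt_nonneg _).trans (hC.H3inf z₀ le_rfl)
    exact nonneg_of_mul_nonneg_left h (hRp z₀)
  -- the near radius
  have hηn0 : 0 ≤ Kinf * √Ns := by (clear * - hKinf; positivity)
  have hηn2 : (Kinf * √Ns) ^ 2 = Kinf ^ 2 * Ns := by
    rw [mul_pow, sq_sqrt hNs0]
  have hnear : ∀ z, z ≤ z₀ → |WW R φ T s z| ≤ Kinf * √Ns * R z := by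
    intro z hzz
    have hx : xx s z ≤ X / 2 := by
      refine le_trans ?_ hz
      exact exp_le_exp.2 (by linarith only [hzz])
    have hGW : WW R φ T s z = GG χ R φ T s z := by
      unfold GG
      rw [hχ.one _ hx, one_mul]
    have hgb := green_bound hρ hadm z
    obtain ⟨-, hb0, -⟩ := bsq_facts hρ
    rw [hGW]
    calc |GG χ R φ T s z| = √(GG χ R φ T s z ^ 2) := (sqrt_sq_eq_abs _).symm
      _ ≤ √(bsq ρ z * NN ρ (GG χ R φ T s)) := sqrt_le_sqrt hgb
      _ = √(bsq ρ z) * √(NN ρ (GG χ R φ T s)) := sqrt_mul (hb0 z) _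
      _ ≤ (Kinf * R z) * √Ns := by
          have := hC.H3inf z hzz
          have := (hRp z).le
          (clear U₀ U X η hφ hχ hs hη _hη4 hη1 hη2 hη3 hsm hz hsc hρ hκ hC0 hadm hG4 hN0 hNs0 hηn0 hηn2 hx hGW hgb hb0; gcongr)
      _ = _ := by ring
  -- the forcing
  set f : ℝ → ℝ := fun z => cutE χ R φ T s z + χ (xx s z) * resid R z with hf
  have hfc : Continuous f := by
    have h1 := cutE_cont hR.smooth hφ hχ hs hG4
    have h4 : Continuous fun z => χ (xx s z) := hχ.smooth.continuous.comp (continuous_xx s)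
    exact h1.add (h4.mul (cont_resid hR.smooth))
  have iC := int_cutE hρ hR hφ hχ hs hG4
  have iRs := int_resid hρ hR
  have hfle : ∀ z, exp (2 * z) * ρ z * f z ^ 2 / R z ^ 2
      ≤ 2 * (exp (2 * z) * ρ z * cutE χ R φ T s z ^ 2 / R z ^ 2)
        + 2 * (exp (2 * z) * ρ z * resid R z ^ 2 / R z ^ 2) := by
    intro z
    have h1 : f z ^ 2 ≤ 2 * cutE χ R φ T s z ^ 2 + 2 * resid R z ^ 2 := by
      have hm := hχ.mem (xx s z)
      have h2 : (χ (xx s z) * resid R z) ^ 2 ≤ resid R z ^ 2 := by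
        rw [mul_pow]
        have : χ (xx s z) ^ 2 ≤ 1 := by
          have := hm.1; have := hm.2
          nlinarith
        nlinarith only [this]
      simp only [hf]
      linarith only [sq_nonneg (cutE χ R φ T s z - χ (xx s z) * resid R z), h2]
    have h2 := hρ.pos z
    have h3 := hRp z
    calc exp (2 * z) * ρ z * f z ^ 2 / R z ^ 2
        ≤ exp (2 * z) * ρ z * (2 * cutE χ R φ T s z ^ 2 + 2 * resid R z ^ 2) / R z ^ 2 := by
          (clear * - h1 h2 h3; gcongr)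
      _ = _ := by ring
  have hfI : Integrable fun z => exp (2 * z) * ρ z * f z ^ 2 / R z ^ 2 := by
    refine Integrable.mono' ((iC.const_mul 2).add (iRs.const_mul 2)) ?_
      (Eventually.of_forall fun z => ?_)
    · have h2 := hρ.smooth.continuous
      have h3 := hR.smooth.continuous
      refine (Continuous.div (by fun_prop) (by fun_prop) fun z => ?_).aestronglyMeasurable
      have := hRp z
      (clear * - this; positivity)
    · have h2 := hρ.pos z
      have h3 := hRp z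
      rw [Real.norm_eq_abs, abs_of_nonneg (by (clear * - h2 h3; positivity))]
      exact hfle z
  have hfint : ∫ z, exp (2 * z) * ρ z * f z ^ 2 / R z ^ 2
      ≤ 2 * ecut2 χ R ρ φ T s + 2 * e₁ ^ 2 := by
    calc ∫ z, exp (2 * z) * ρ z * f z ^ 2 / R z ^ 2
        ≤ ∫ z, (2 * (exp (2 * z) * ρ z * cutE χ R φ T s z ^ 2 / R z ^ 2)
          + 2 * (exp (2 * z) * ρ z * resid R z ^ 2 / R z ^ 2)) :=
          integral_mono hfI ((iC.const_mul 2).add (iRs.const_mul 2)) hfle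
      _ = 2 * ecut2 χ R ρ φ T s
          + 2 * ∫ z, exp (2 * z) * ρ z * resid R z ^ 2 / R z ^ 2 := by
          rw [integral_add (iC.const_mul 2) (iRs.const_mul 2), integral_const_mul,
            integral_const_mul]
          rfl
      _ ≤ _ := by linarith only [hC.H1]
  -- pointwise bound
  have hb : ∀ z, |GS χ R φ T s z - Lop R (GG χ R φ T s) z| ≤ exp (-2 * z) *
      (κ * R z ^ 2 * |piD (GG χ R φ T s) z|
      + (if z ≤ z₀ then Kinf * √Ns else η) * R z * |kap R z| * |GG χ R φ T s z|) + |f z| := by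
    intro z
    have hdiff : GS χ R φ T s z - Lop R (GG χ R φ T s) z
        = -(exp (-2 * z) * ((2 * R z + WW R φ T s z) * WW R φ T s z * piD (GG χ R φ T s) z
        + WW R φ T s z * kap R z * GG χ R φ T s z)) + f z := by
      simp only [hf]
      unfold GS
      ring
    rw [hdiff]
    refine (abs_add_le _ _).trans (add_le_add ?_ le_rfl)
    rw [abs_neg, abs_mul, abs_of_pos (exp_pos _)]
    rcases lt_or_ge X (xx s z) with hx | hx
    · have h0 := GG_eventually_zero (R := R) (φ := φ) (T := T) hχ hx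
      rw [piD_zero_of_eventually h0, h0.eq_of_nhds]
      simp
    · have hW := hsm z hx
      have hW1 : |WW R φ T s z| ≤ (if z ≤ z₀ then Kinf * √Ns else η) * R z := by
        split_ifs with hzz
        · exact hnear z hzz
        · exact hW
      have h1 : |(2 * R z + WW R φ T s z) * WW R φ T s z| ≤ κ * R z ^ 2 := by
        rw [abs_mul]
        have h2 : |2 * R z + WW R φ T s z| ≤ (2 + η) * R z := by
          have := hRp z
          calc |2 * R z + WW R φ T s z| ≤ |2 * R z| + |WW R φ T s z| := abs_add_le _ _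
            _ ≤ 2 * R z + η * R z := by
                rw [abs_of_pos (by linarith only [this] : (0:ℝ) < 2 * R z)]
                linarith only [hW]
            _ = _ := by ring
        have := hRp z
        calc |2 * R z + WW R φ T s z| * |WW R φ T s z| ≤ ((2 + η) * R z) * (η * R z) := by
              (clear * - h2 hW hη this; gcongr)
          _ = η * (2 + η) * R z ^ 2 := by ring
          _ ≤ κ * R z ^ 2 := by (clear * - hη1 this; gcongr)
      gcongr
      refine (abs_add_le _ _).trans (add_le_add ?_ ?_)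
      · rw [abs_mul]
        (clear * - h1; gcongr)
      · rw [abs_mul, abs_mul]
        (clear * - hW1; gcongr)
  have hη2' : (Kinf * √Ns) ^ 2 * K₂ + η ^ 2 / 1000000 ≤ κ * δ / 8 := by
    rw [hηn2]; exact hη2
  have hmain := static_energy hC hadm hηn0 hη hη2'
    (GS_cont hR.smooth hφ hχ hs hG4).aestronglyMeasurable hfc.aestronglyMeasurable hfI hb
  -- the scalar terms
  have hq : ∀ i, qf R (psi i) (GG χ R φ T s) ^ 2 ≤ 5 / 4 * aa (psi i) R φ T s ^ 2
      + 5 * (16 / 9 * Kq ^ 2 * (NN ρ (GG χ R φ T s)) ^ 2) := by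
    intro i
    have h1 : (aa (psi i) R φ T s - qf R (psi i) (GG χ R φ T s)) ^ 2
        ≤ 16 / 9 * Kq ^ 2 * (NN ρ (GG χ R φ T s)) ^ 2 := by
      calc (aa (psi i) R φ T s - qf R (psi i) (GG χ R φ T s)) ^ 2
          = |aa (psi i) R φ T s - qf R (psi i) (GG χ R φ T s)| ^ 2 := (sq_abs _).symm
        _ ≤ (4 / 3 * Kq * NN ρ (GG χ R φ T s)) ^ 2 := by
            have := hsc i
            (clear * - this; gcongr)
        _ = _ := by ring
    set a := aa (psi i) R φ T s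
    set q := qf R (psi i) (GG χ R φ T s)
    linarith only [h1, sq_nonneg (a / 2 + 2 * (a - q))]
  have hq2 : ∑ i, qf R (psi i) (GG χ R φ T s) ^ 2 ≤ 5 / 4 * ∑ i, aa (psi i) R φ T s ^ 2
      + 160 / 9 * Kq ^ 2 * (NN ρ (GG χ R φ T s)) ^ 2 := by
    rw [Fin.sum_univ_two, Fin.sum_univ_two]
    have := hq 0
    have := hq 1
    linarith
  have hq3 : 2 * C₀ * (160 / 9 * Kq ^ 2 * (NN ρ (GG χ R φ T s)) ^ 2)
      ≤ δ / 8 * NN ρ (GG χ R φ T s) := by
    have h1 : 285 * C₀ * Kq ^ 2 * NN ρ (GG χ R φ T s) ≤ δ :=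
      le_trans (by (clear * - hN hC0; gcongr)) hη3
    have h2 : 0 ≤ C₀ * Kq ^ 2 * NN ρ (GG χ R φ T s) := by (clear * - hC0 hN0; positivity)
    have h3 : 2 * C₀ * (160 / 9 * Kq ^ 2 * NN ρ (GG χ R φ T s)) ≤ δ / 8 := by linarith only [h2, h1]
    calc 2 * C₀ * (160 / 9 * Kq ^ 2 * (NN ρ (GG χ R φ T s)) ^ 2)
        = 2 * C₀ * (160 / 9 * Kq ^ 2 * NN ρ (GG χ R φ T s)) * NN ρ (GG χ R φ T s) := by ring
      _ ≤ _ := by (clear * - h3 hN0; gcongr)
  have hq4 : C₀ * ∑ i, qf R (psi i) (GG χ R φ T s) ^ 2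
      ≤ C₀ * (5 / 4 * ∑ i, aa (psi i) R φ T s ^ 2
      + 160 / 9 * Kq ^ 2 * (NN ρ (GG χ R φ T s)) ^ 2) := by (clear * - hq2 hC0; gcongr)
  have hF : 1 / (2 * κ) * ∫ z, exp (2 * z) * ρ z * f z ^ 2 / R z ^ 2
      ≤ 1 / (2 * κ) * (2 * ecut2 χ R ρ φ T s + 2 * e₁ ^ 2) := by gcongr
  have hF2 : 1 / (2 * κ) * (2 * ecut2 χ R ρ φ T s + 2 * e₁ ^ 2)
      = (1 / κ) * (e₁ ^ 2 + ecut2 χ R ρ φ T s) := by field_simp; ring
  have hF3 : 2 / κ * (e₁ ^ 2 + ecut2 χ R ρ φ T s)
      = 2 * ((1 / κ) * (e₁ ^ 2 + ecut2 χ R ρ φ T s)) := by ring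
  rw [hF3]
  linarith only [hF2, hF, hq4, hq3, hmain]

/-- (S3) the energy inequality along the flow. -/
theorem energy_ineq
    (hC : Cert R ρ psi lam ν c₁ c₂ Rmin α δ κ C₀ e₁ e₂ Kr Kp Kq K₂ Kinf z₀)
    {U₀ : ℝ → ℝ} {U φ : ℝ → ℝ → ℝ} {T X s η Ns : ℝ}
    (hφ : IsFlowU 8 T U₀ U φ) (hχ : Cutoff χ X) (hs : exp (-s) ≤ T)
    (hη : 0 ≤ η) (hη4 : η ≤ 1 / 4) (hη1 : η * (2 + η) ≤ κ)
    (hη2 : Kinf ^ 2 * Ns * K₂ + η ^ 2 / 1000000 ≤ κ * δ / 8)
    (hη3 : 285 * C₀ * Kq ^ 2 * Ns ≤ δ)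
    (hN : NN ρ (GG χ R φ T s) ≤ Ns)
    (hsm : Small R φ T X η s) (hz : exp (z₀ - s / 2) ≤ X / 2) :
    2 * ∫ z, GS χ R φ T s z * Top ρ (GG χ R φ T s) z ≤
      -(7 / 4) * δ * NN ρ (GG χ R φ T s)
      + 5 / 2 * C₀ * ∑ i, aa (psi i) R φ T s ^ 2
      + 2 / κ * (e₁ ^ 2 + ecut2 χ R ρ φ T s) :=
  energy_ineq_aux hC hφ hχ hs hη hη4 hη1 hη2 hη3 hN hsm hz
    fun i => scalar_diff hC hφ hχ hs hη hη4 hsm hz i

end P264.B
end
end

section

section

/-!
# P264 / B / Data : construction of smooth initial data from a profile `m = 1/h` in `z = log (x/ℓ)`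
-/

open Set Real
open scoped ContDiff

namespace P264.B

/-- The fixed cut-off in `x`: `1` for `x ≤ 1/4`, `0` for `x ≥ 1/2`. -/
noncomputable def chi0 (x : ℝ) : ℝ := smoothTransition (2 - 4 * x)

theorem chi0_contDiff : ContDiff ℝ ∞ chi0 :=
  smoothTransition.contDiff.comp (contDiff_const.sub (contDiff_const.mul contDiff_id))

theorem chi0_one {x : ℝ} (hx : x ≤ 1 / 4) : chi0 x = 1 :=
  smoothTransition.one_of_one_le (by linarith only [hx])

theorem chi0_zero {x : ℝ} (hx : 1 / 2 ≤ x) : chi0 x = 0 :=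
  smoothTransition.zero_of_nonpos (by linarith)

theorem chi0_nonneg (x : ℝ) : 0 ≤ chi0 x := smoothTransition.nonneg _

theorem chi0_le_one (x : ℝ) : chi0 x ≤ 1 := smoothTransition.le_one _

/-- Smooth initial data `U₀` with `1/φ₀ = 1/x + 1/(1-x) + U₀'' = χ₀ m(log (x/ℓ))/x
+ (1-χ₀)(1/x+1/(1-x))`. -/
theorem exists_U0 {m : ℝ → ℝ} {p : Polynomial ℝ} (hm : ContDiff ℝ ∞ m) (hpos : ∀ z, 0 < m z)
    (hp : p.eval 0 = 1) {Z : ℝ} (hZ : ∀ z ≤ Z, m z = 1 / p.eval (exp z)) {ℓ : ℝ} (hℓ : 0 < ℓ) :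
    ∃ U₀ : ℝ → ℝ, IsInit U₀ ∧ U₀ 0 = 0 ∧ deriv U₀ 0 = 0 ∧
      ∀ x, 0 < x → x < 1 → deriv (deriv U₀) x
        = chi0 x * ((m (log (x / ℓ)) - 1) / x - 1 / (1 - x)) := by
  -- `p = 1 + y q`
  obtain ⟨q, hq⟩ : ∃ q : Polynomial ℝ, p = 1 + Polynomial.X * q := by
    have : Polynomial.X ∣ p - 1 := by
      rw [Polynomial.X_dvd_iff]
      have : (p - 1).coeff 0 = (p - 1).eval 0 := by
        rw [Polynomial.coeff_zero_eq_eval_zero]
      rw [this]
      simp [hp]
    obtain ⟨q, hq⟩ := this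
    exact ⟨q, by rw [← hq]; ring⟩
  have hpe : ∀ y, p.eval y = 1 + y * q.eval y := by
    intro y; rw [hq]; simp
  -- `p > 0` on `[-3δ, y_a]`
  have hpc : Continuous fun y => p.eval y := p.continuous
  obtain ⟨δ, hδ, hδp⟩ : ∃ δ > 0, ∀ y, |y| < 4 * δ → 0 < p.eval y := by
    have h1 : ∀ᶠ y in nhds (0 : ℝ), 0 < p.eval y :=
      hpc.continuousAt.eventually (lt_mem_nhds (by simp only [hp]; exact one_pos))
    obtain ⟨ε, hε, h⟩ := Metric.eventually_nhds_iff.1 h1
    refine ⟨ε / 4, by positivity, fun y hy => h ?_⟩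
    rw [dist_zero_right, Real.norm_eq_abs]
    linarith only [hy]
  -- cut-off on the negative side
  set χ₁ : ℝ → ℝ := fun y => smoothTransition (2 + y / δ) with hχ₁
  have hχ₁c : ContDiff ℝ ∞ χ₁ :=
    smoothTransition.contDiff.comp (contDiff_const.add (contDiff_id.div_const _))
  have hχ₁1 : ∀ y, -δ ≤ y → χ₁ y = 1 := by
    intro y hy
    refine smoothTransition.one_of_one_le ?_
    have : -1 ≤ y / δ := by rw [le_div_iff₀ hδ]; linarith only [hy]
    linarith only [this]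
  have hχ₁0 : ∀ y, y ≤ -2 * δ → χ₁ y = 0 := by
    intro y hy
    refine smoothTransition.zero_of_nonpos ?_
    have : y / δ ≤ -2 := by rw [div_le_iff₀ hδ]; linarith only [hy]
    linarith only [this]
  set ya : ℝ := min (exp Z) (3 * δ) with hya
  have hya0 : 0 < ya := lt_min (exp_pos _) (by positivity)
  -- the two formulas
  set F₁ : ℝ → ℝ := fun x => χ₁ (x / ℓ) * chi0 x *
    (ℓ⁻¹ * (-(q.eval (x / ℓ)) / p.eval (x / ℓ)) - 1 / (1 - x)) with hF₁
  set F₂ : ℝ → ℝ := fun x => chi0 x * ((m (log (x / ℓ)) - 1) / x - 1 / (1 - x)) with hF₂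
  set K : ℝ → ℝ := fun x => if x ≤ 0 then F₁ x else if x < 1 then F₂ x else 0 with hK
  have hF12 : ∀ x, 0 < x → x < ℓ * ya → F₁ x = F₂ x := by
    intro x hx hx'
    have hy0 : 0 < x / ℓ := by (clear * - hx hℓ; positivity)
    have hy1 : x / ℓ < ya := by rw [div_lt_iff₀ hℓ]; linarith only [hx']
    have hy2 : x / ℓ < exp Z := hy1.trans_le (min_le_left _ _)
    have hpz : 0 < p.eval (x / ℓ) := hδp _ (by
      rw [abs_of_pos hy0]
      have := hy1.trans_le (min_le_right _ _)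
      linarith only [hδ, this])
    have h1 : χ₁ (x / ℓ) = 1 := hχ₁1 _ (by linarith only [hδ, hy0])
    have h2 : m (log (x / ℓ)) = 1 / p.eval (x / ℓ) := by
      rw [hZ _ ((log_lt_iff_lt_exp hy0).2 hy2).le, exp_log hy0]
    simp only [hF₁, hF₂, h1, h2]
    have h3 : 1 / p.eval (x / ℓ) - 1 = -(x / ℓ * q.eval (x / ℓ)) / p.eval (x / ℓ) := by
      rw [eq_div_iff hpz.ne', sub_mul, one_mul, one_div, inv_mul_cancel₀ hpz.ne']
      rw [hpe]; ring
    rw [h3]
    have hx0 : x ≠ 0 := hx.ne'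
    have hl0 : ℓ ≠ 0 := hℓ.ne'
    (clear * - hpz hl0 hx0; field_simp)
  -- local smoothness
  have hKA : ∀ x, 1 / 2 < x → ContDiffAt ℝ ∞ K x := by
    intro x hx
    have : K =ᶠ[nhds x] fun _ => 0 := by
      filter_upwards [Ioi_mem_nhds hx] with y hy
      have hy0 : ¬ y ≤ 0 := by
        have : (1:ℝ)/2 < y := hy
        intro h; linarith only [this, h]
      simp only [hK, hF₂, hy0, chi0_zero (le_of_lt hy), zero_mul, ite_self, if_false]
    exact contDiffAt_const.congr_of_eventuallyEq this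
  have hKB : ∀ x, 0 < x → x < 1 → ContDiffAt ℝ ∞ K x := by
    intro x hx hx'
    have : K =ᶠ[nhds x] F₂ := by
      filter_upwards [Ioo_mem_nhds hx hx'] with y hy
      have hy0 : ¬ y ≤ 0 := not_le.2 hy.1
      simp only [hK, hy0, if_false, hy.2, if_true]
    refine ContDiffAt.congr_of_eventuallyEq ?_ this
    have hxl : x / ℓ ≠ 0 := by (clear * - hx hℓ; positivity)
    have e1 : ContDiffAt ℝ ∞ (fun x => m (log (x / ℓ))) x :=
      hm.contDiffAt.comp x ((contDiffAt_id.div_const ℓ).log hxl)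
    exact chi0_contDiff.contDiffAt.mul (((e1.sub contDiffAt_const).div contDiffAt_id hx.ne').sub
      (contDiffAt_const.div (contDiffAt_const.sub contDiffAt_id) (by
        change (1 : ℝ) - x ≠ 0; linarith only [hx'])))
  have hKC : ∀ x, x < min (ℓ * ya) 1 → ContDiffAt ℝ ∞ K x := by
    intro x hx
    have hx1 : x < ℓ * ya := hx.trans_le (min_le_left _ _)
    have hx2 : x < 1 := hx.trans_le (min_le_right _ _)
    have hKF : K =ᶠ[nhds x] F₁ := by
      filter_upwards [Iio_mem_nhds hx] with y hy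
      by_cases hy0 : y ≤ 0
      · simp only [hK, hy0, if_true]
      · have hy1 : y < ℓ * ya := lt_of_lt_of_le hy (min_le_left _ _)
        have hy2 : y < 1 := lt_of_lt_of_le hy (min_le_right _ _)
        simp only [hK, hy0, if_false, hy2, if_true]
        exact (hF12 y (not_le.1 hy0) hy1).symm
    refine ContDiffAt.congr_of_eventuallyEq ?_ hKF
    have hdiv : ContDiffAt ℝ ∞ (fun x : ℝ => x / ℓ) x := contDiffAt_id.div_const ℓ
    by_cases hneg : x / ℓ < -2 * δ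
    · have : F₁ =ᶠ[nhds x] fun _ => 0 := by
        have hx3 : x < -2 * δ * ℓ := by rwa [div_lt_iff₀ hℓ] at hneg
        filter_upwards [Iio_mem_nhds hx3] with y hy
        have : y / ℓ ≤ -2 * δ := by
          rw [div_le_iff₀ hℓ]; exact le_of_lt hy
        simp only [hF₁, hχ₁0 _ this, zero_mul]
      exact contDiffAt_const.congr_of_eventuallyEq this
    · have hpz : p.eval (x / ℓ) ≠ 0 := by
        refine (hδp _ ?_).ne'
        rw [abs_lt]
        have h3 : x / ℓ < ya := by rw [div_lt_iff₀ hℓ]; linarith only [hx1]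
        have h4 := h3.trans_le (min_le_right _ _)
        constructor <;> linarith only [hδ, h4, hneg]
      have hq' : ContDiffAt ℝ ∞ (fun x => q.eval (x / ℓ)) x := by
        have : ContDiff ℝ ∞ (fun y => q.eval y) := by simpa using q.contDiff_aeval (𝕜 := ℝ) ∞
        exact this.contDiffAt.comp x hdiv
      have hp' : ContDiffAt ℝ ∞ (fun x => p.eval (x / ℓ)) x := by
        have : ContDiff ℝ ∞ (fun y => p.eval y) := by simpa using p.contDiff_aeval (𝕜 := ℝ) ∞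
        exact this.contDiffAt.comp x hdiv
      have hχ' : ContDiffAt ℝ ∞ (fun x => χ₁ (x / ℓ)) x := hχ₁c.contDiffAt.comp x hdiv
      exact (hχ'.mul chi0_contDiff.contDiffAt).mul
        ((contDiffAt_const.mul (hq'.neg.div hp' hpz)).sub
          (contDiffAt_const.div (contDiffAt_const.sub contDiffAt_id) (by
            change (1 : ℝ) - x ≠ 0; linarith only [hx2])))
  have hKc : ContDiff ℝ ∞ K := by
    rw [contDiff_iff_contDiffAt]
    intro x
    rcases lt_or_ge x (min (ℓ * ya) 1) with h | h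
    · exact hKC x h
    · have hx0 : 0 < x := (lt_min (by (clear * - hℓ hδ; positivity)) one_pos).trans_le h
      rcases lt_or_ge x 1 with h1 | h1
      · exact hKB x hx0 h1
      · exact hKA x (by linarith only [h1])
  obtain ⟨V, hV, hV0, dV⟩ := exists_primitive hKc 0 0
  obtain ⟨U, hU, hU0, dU⟩ := exists_primitive hV 0 0
  have e1 : deriv U = V := funext fun x => (dU x).deriv
  have e2 : deriv (deriv U) = K := by rw [e1]; exact funext fun x => (dV x).deriv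
  have hform : ∀ x, 0 < x → x < 1 → deriv (deriv U) x
        = chi0 x * ((m (log (x / ℓ)) - 1) / x - 1 / (1 - x)) := by
    intro x hx hx'
    rw [e2]
    simp only [hK, not_le.2 hx, if_false, hx', if_true, hF₂]
  refine ⟨U, ⟨hU, ?_⟩, hU0, by rw [e1]; exact hV0, hform⟩
  intro x hx
  rcases hx.1.eq_or_lt with h | h
  · rw [← h]; simp
  rcases hx.2.eq_or_lt with h' | h'
  · rw [h']; simp only [sub_self, mul_zero, zero_mul, add_zero, zero_lt_one]
  rw [hform x h h']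
  have h1x : 0 < 1 - x := by linarith only [h']
  have key : 1 + x * (1 - x) * (chi0 x * ((m (log (x / ℓ)) - 1) / x - 1 / (1 - x)))
      = (1 - chi0 x) + chi0 x * ((1 - x) * m (log (x / ℓ))) := by
    field_simp
    ring
  rw [key]
  have hmz := hpos (log (x / ℓ))
  rcases (chi0_nonneg x).eq_or_lt with hc | hc
  · rw [← hc]; norm_num
  · have := mul_pos hc (mul_pos h1x hmz)
    linarith only [this, chi0_le_one x]

end P264.B
end
end

section

section

/-!
# P264 / B / Data3 : uniform bounds for the initial data of `exists_U0`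

`1/φ₀ = χ₀ m(log (x/ℓ))/x + (1-χ₀)(1/x + 1/(1-x))`.
-/

open Set Filter Topology Real
open scoped ContDiff

namespace P264.B

/-- bounds for `m`: `C²`, `c₀ ≤ m`, `|m|, |m'|, |m''| ≤ B`. -/
structure MBound (c₀ B : ℝ) (m : ℝ → ℝ) : Prop where
  smooth : ContDiff ℝ 2 m
  low : ∀ z, c₀ ≤ m z
  b0 : ∀ z, |m z| ≤ B
  b1 : ∀ z, |deriv m z| ≤ B
  b2 : ∀ z, |deriv (deriv m) z| ≤ B

/-- `M(x) = x/φ₀(x)`. -/
noncomputable def Mt (m : ℝ → ℝ) (ℓ x : ℝ) : ℝ :=
  chi0 x * m (log (x / ℓ)) + (1 - chi0 x) * (1 / (1 - x))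

theorem chi0_bounds : ∃ K : ℝ, 0 ≤ K ∧ ∀ x ∈ Icc (0 : ℝ) 1, |deriv chi0 x| ≤ K ∧
    |deriv (deriv chi0) x| ≤ K := by
  have h1 : ContDiff ℝ ∞ (deriv chi0) := (contDiff_infty_iff_deriv.1 chi0_contDiff).2
  have h2 : ContDiff ℝ ∞ (deriv (deriv chi0)) := (contDiff_infty_iff_deriv.1 h1).2
  obtain ⟨K1, hK1⟩ := (isCompact_Icc (a := (0 : ℝ)) (b := 1)).exists_bound_of_continuousOn
    h1.continuous.continuousOn
  obtain ⟨K2, hK2⟩ := (isCompact_Icc (a := (0 : ℝ)) (b := 1)).exists_bound_of_continuousOn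
    h2.continuous.continuousOn
  refine ⟨max (max K1 K2) 0, le_max_right _ _, fun x hx => ⟨?_, ?_⟩⟩
  · exact (hK1 x hx).trans ((le_max_left _ _).trans (le_max_left _ _))
  · exact (hK2 x hx).trans ((le_max_right _ _).trans (le_max_left _ _))

section
variable {c₀ B ℓ : ℝ} {m : ℝ → ℝ}

theorem hasDerivAt_chi0 (x : ℝ) : HasDerivAt chi0 (deriv chi0 x) x :=
  ((chi0_contDiff.differentiable (by simp)) x).hasDerivAt

theorem hasDerivAt_chi0' (x : ℝ) : HasDerivAt (deriv chi0) (deriv (deriv chi0) x) x :=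
  (((contDiff_infty_iff_deriv.1 chi0_contDiff).2.differentiable (by simp)) x).hasDerivAt

theorem MBound.d1 (h : MBound c₀ B m) (z : ℝ) : HasDerivAt m (deriv m z) z :=
  ((h.smooth.differentiable (by norm_num)) z).hasDerivAt

theorem MBound.d2 (h : MBound c₀ B m) (z : ℝ) : HasDerivAt (deriv m) (deriv (deriv m) z) z := by
  have : ContDiff ℝ (1 + 1) m := by simpa [one_add_one_eq_two] using h.smooth
  exact (((contDiff_succ_iff_deriv.1 this).2.2.differentiable (by norm_num)) z).hasDerivAt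

theorem hasDerivAt_logdiv (hℓ : 0 < ℓ) {x : ℝ} (hx : 0 < x) :
    HasDerivAt (fun x => log (x / ℓ)) (1 / x) x := by
  have h1 : HasDerivAt (fun x : ℝ => x / ℓ) (1 / ℓ) x := (hasDerivAt_id x).div_const ℓ
  have h2 := h1.log (by positivity)
  refine h2.congr_deriv ?_
  (clear * - hℓ hx; field_simp)

/-- first derivative of `Mt`. -/
noncomputable def Mt1 (m : ℝ → ℝ) (ℓ x : ℝ) : ℝ :=
  deriv chi0 x * m (log (x / ℓ)) + chi0 x * (deriv m (log (x / ℓ)) / x)
    + (-deriv chi0 x * (1 / (1 - x)) + (1 - chi0 x) * (1 / (1 - x) ^ 2))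

/-- second derivative of `Mt`. -/
noncomputable def Mt2 (m : ℝ → ℝ) (ℓ x : ℝ) : ℝ :=
  (deriv (deriv chi0) x * m (log (x / ℓ)) + deriv chi0 x * (deriv m (log (x / ℓ)) / x))
    + (deriv chi0 x * (deriv m (log (x / ℓ)) / x)
      + chi0 x * ((deriv (deriv m) (log (x / ℓ)) - deriv m (log (x / ℓ))) / x ^ 2))
    + ((-deriv (deriv chi0) x * (1 / (1 - x)) + -deriv chi0 x * (1 / (1 - x) ^ 2))
      + (-deriv chi0 x * (1 / (1 - x) ^ 2) + (1 - chi0 x) * (2 / (1 - x) ^ 3)))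

theorem hasDerivAt_one_sub_inv {x : ℝ} (hx : x < 1) :
    HasDerivAt (fun x : ℝ => 1 / (1 - x)) (1 / (1 - x) ^ 2) x := by
  have h0 : 1 - x ≠ 0 := by linarith only [hx]
  have h1 : HasDerivAt (fun x : ℝ => 1 - x) (-1) x := by
    simpa only [id_eq] using (hasDerivAt_id x).const_sub 1
  have h2 := h1.inv h0
  have e : (fun x : ℝ => 1 / (1 - x)) = (fun x : ℝ => 1 - x)⁻¹ := by funext y; simp
  rw [e]
  refine h2.congr_deriv ?_
  ring

theorem hasDerivAt_one_sub_inv2 {x : ℝ} (hx : x < 1) :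
    HasDerivAt (fun x : ℝ => 1 / (1 - x) ^ 2) (2 / (1 - x) ^ 3) x := by
  have h0 : 1 - x ≠ 0 := by linarith only [hx]
  have h1 : HasDerivAt (fun x : ℝ => 1 - x) (-1) x := by
    simpa using (hasDerivAt_id x).const_sub 1
  have h2 := (h1.pow 2).inv (pow_ne_zero 2 h0)
  have e : (fun x : ℝ => 1 / (1 - x) ^ 2) = ((fun x : ℝ => 1 - x) ^ 2)⁻¹ := by funext y; simp
  rw [e]
  refine h2.congr_deriv ?_
  simp only [Pi.pow_apply]
  field_simp
  norm_num
  ring

theorem hasDerivAt_Mt (h : MBound c₀ B m) (hℓ : 0 < ℓ) {x : ℝ} (hx : x ∈ Ioo (0 : ℝ) 1) :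
    HasDerivAt (Mt m ℓ) (Mt1 m ℓ x) x := by
  have h1 := hasDerivAt_chi0 x
  have h2 := (h.d1 (log (x / ℓ))).comp x (hasDerivAt_logdiv hℓ hx.1)
  have h3 := hasDerivAt_one_sub_inv hx.2
  have h4 := (h1.mul h2).add ((h1.const_sub 1).mul h3)
  refine h4.congr_deriv ?_
  unfold Mt1
  simp only [Function.comp]
  ring

theorem hasDerivAt_Mt1 (h : MBound c₀ B m) (hℓ : 0 < ℓ) {x : ℝ} (hx : x ∈ Ioo (0 : ℝ) 1) :
    HasDerivAt (Mt1 m ℓ) (Mt2 m ℓ x) x := by
  have hx0 : x ≠ 0 := hx.1.ne'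
  have h1 := hasDerivAt_chi0 x
  have h1' := hasDerivAt_chi0' x
  have h2 := (h.d1 (log (x / ℓ))).comp x (hasDerivAt_logdiv hℓ hx.1)
  have h2' := ((h.d2 (log (x / ℓ))).comp x (hasDerivAt_logdiv hℓ hx.1)).div (hasDerivAt_id x) hx0
  have h3 := hasDerivAt_one_sub_inv hx.2
  have h3' := hasDerivAt_one_sub_inv2 hx.2
  have h4 := ((h1'.mul h2).add (h1.mul h2')).add ((h1'.neg.mul h3).add ((h1.const_sub 1).mul h3'))
  refine h4.congr_deriv ?_
  unfold Mt2
  simp only [Function.comp, id, Pi.neg_apply, Pi.div_apply]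
  (clear * - hx0; field_simp)

theorem Mt_low (h : MBound c₀ B m) {x : ℝ} (hx : x ∈ Ioo (0 : ℝ) 1) :
    min c₀ 1 ≤ Mt m ℓ x := by
  unfold Mt
  have h1 := h.low (log (x / ℓ))
  have h2 : 1 ≤ 1 / (1 - x) := by
    rw [le_div_iff₀ (by linarith only [hx.2])]
    linarith only [hx.1]
  have h3 := chi0_nonneg x
  have h4 := chi0_le_one x
  have h5 : min c₀ 1 ≤ m (log (x / ℓ)) := (min_le_left _ _).trans h1
  have h6 : min c₀ 1 ≤ 1 / (1 - x) := (min_le_right _ _).trans h2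
  nlinarith only [h3, h5, h4, h6]

theorem Mt_eq_half {x : ℝ} (hx : 1 / 2 ≤ x) : Mt m ℓ x = 1 / (1 - x) := by
  unfold Mt
  rw [chi0_zero hx]
  ring

/-- `φ₀ = x / M`, and the derivatives of `h = 1/M`. -/
theorem scal_of_M {φ M M1 M2 : ℝ → ℝ}
    (hφ : ∀ x ∈ Ioo (0 : ℝ) 1, φ x = x * (1 / M x))
    (h0 : ∀ x ∈ Ioo (0 : ℝ) 1, M x ≠ 0)
    (h1 : ∀ x ∈ Ioo (0 : ℝ) 1, HasDerivAt M (M1 x) x)
    (h2 : ∀ x ∈ Ioo (0 : ℝ) 1, HasDerivAt M1 (M2 x) x) {x : ℝ} (hx : x ∈ Ioo (0 : ℝ) 1) :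
    x * scal 8 φ x = 56 - (56 * (1 / M x) + 16 * (x * (-M1 x / M x ^ 2))
      + x ^ 2 * (2 * M1 x ^ 2 / M x ^ 3 - M2 x / M x ^ 2)) := by
  have hopen : IsOpen (Ioo (0 : ℝ) 1) := isOpen_Ioo
  have hinv : ∀ y ∈ Ioo (0 : ℝ) 1, HasDerivAt (fun y => 1 / M y) (-M1 y / M y ^ 2) y := by
    intro y hy
    have := (h1 y hy).inv (h0 y hy)
    have e : (fun y => 1 / M y) = M⁻¹ := by funext z; simp
    rw [e]
    exact this
  have hinv2 : ∀ y ∈ Ioo (0 : ℝ) 1, HasDerivAt (fun y => -M1 y / M y ^ 2)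
      (2 * M1 y ^ 2 / M y ^ 3 - M2 y / M y ^ 2) y := by
    intro y hy
    have := ((h2 y hy).neg).div ((h1 y hy).pow 2) (pow_ne_zero 2 (h0 y hy))
    have e : (fun y => -M1 y / M y ^ 2) = (-M1) / (M ^ 2) := by funext z; simp
    rw [e]
    refine this.congr_deriv ?_
    have := h0 y hy
    simp only [Pi.pow_apply, Pi.neg_apply]
    field_simp
    ring
  have e1 : ∀ y ∈ Ioo (0 : ℝ) 1, y ^ (8 - 1) * φ y = y ^ 8 * (1 / M y) := by
    intro y hy
    rw [hφ y hy]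
    ring
  have d1 : ∀ y ∈ Ioo (0 : ℝ) 1, HasDerivAt (fun y => y ^ 8 * (1 / M y))
      (8 * y ^ 7 * (1 / M y) + y ^ 8 * (-M1 y / M y ^ 2)) y := by
    intro y hy
    have := (hasDerivAt_pow 8 y).mul (hinv y hy)
    refine this.congr_deriv ?_
    push_cast
    ring
  have f1 : ∀ y ∈ Ioo (0 : ℝ) 1, deriv (fun y => y ^ (8 - 1) * φ y) y
      = 8 * y ^ 7 * (1 / M y) + y ^ 8 * (-M1 y / M y ^ 2) := by
    intro y hy
    have : (fun y => y ^ (8 - 1) * φ y) =ᶠ[𝓝 y] fun y => y ^ 8 * (1 / M y) := by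
      filter_upwards [hopen.mem_nhds hy] with z hz
      exact e1 z hz
    rw [this.deriv_eq]
    exact (d1 y hy).deriv
  have d2 : HasDerivAt (fun y => 8 * y ^ 7 * (1 / M y) + y ^ 8 * (-M1 y / M y ^ 2))
      ((8 * (7 * x ^ 6) * (1 / M x) + 8 * x ^ 7 * (-M1 x / M x ^ 2))
        + (8 * x ^ 7 * (-M1 x / M x ^ 2)
          + x ^ 8 * (2 * M1 x ^ 2 / M x ^ 3 - M2 x / M x ^ 2))) x := by
    have a1 : HasDerivAt (fun y : ℝ => 8 * y ^ 7) (8 * (7 * x ^ 6)) x := by
      simpa only [Nat.cast_ofNat, Nat.add_one_sub_one] using (hasDerivAt_pow 7 x).const_mul 8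
    have a2 : HasDerivAt (fun y : ℝ => y ^ 8) (8 * x ^ 7) x := by
      simpa only [Nat.cast_ofNat, Nat.add_one_sub_one] using hasDerivAt_pow 8 x
    exact (a1.mul (hinv x hx)).add (a2.mul (hinv2 x hx))
  have f2 : deriv (deriv (fun y => y ^ (8 - 1) * φ y)) x
      = (8 * (7 * x ^ 6) * (1 / M x) + 8 * x ^ 7 * (-M1 x / M x ^ 2))
        + (8 * x ^ 7 * (-M1 x / M x ^ 2)
          + x ^ 8 * (2 * M1 x ^ 2 / M x ^ 3 - M2 x / M x ^ 2)) := by
    have : deriv (fun y => y ^ (8 - 1) * φ y) =ᶠ[𝓝 x]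
        fun y => 8 * y ^ 7 * (1 / M y) + y ^ 8 * (-M1 y / M y ^ 2) := by
      filter_upwards [hopen.mem_nhds hx] with z hz
      exact f1 z hz
    rw [this.deriv_eq]
    exact d2.deriv
  unfold scal
  rw [f2]
  have hx0 : x ≠ 0 := hx.1.ne'
  have hM := h0 x hx
  norm_num
  field_simp
  ring

/-- **Uniform bound for `x S₀`.** -/
theorem exists_scal_bound {c₀ B : ℝ} (hc : 0 < c₀) : ∃ C : ℝ, 0 ≤ C ∧
    ∀ (m : ℝ → ℝ) (_ : MBound c₀ B m) (ℓ : ℝ) (_ : 0 < ℓ) (φ : ℝ → ℝ)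
      (_ : ∀ x ∈ Ioo (0 : ℝ) 1, φ x * (Mt m ℓ x / x) = 1), ∀ x ∈ Ioo (0 : ℝ) 1,
        |x * scal 8 φ x| ≤ C := by
  obtain ⟨K, hK, hKb⟩ := chi0_bounds
  set c₁ := min c₀ 1 with hc₁
  have hc1 : 0 < c₁ := lt_min hc one_pos
  set B' := max B 0 with hB'
  have hB0 : 0 ≤ B' := le_max_right _ _
  -- bound for `|x M'|`, `|x² M''|` on `(0, 3/4]`
  set P := K * B' + B' + 4 * K + 16 with hP
  set Q := K * B' + 2 * K * B' + 2 * B' + 4 * K + 32 * K + 128 with hQ
  have hP0 : 0 ≤ P := by (clear * - hK; positivity)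
  have hQ0 : 0 ≤ Q := by (clear * - hK; positivity)
  refine ⟨56 + (56 / c₁ + 16 * (P / c₁ ^ 2) + (2 * P ^ 2 / c₁ ^ 3 + Q / c₁ ^ 2)) + 72,
    by (clear * - hc hK; positivity), ?_⟩
  intro m hm ℓ hℓ φ hφ x hx
  have hMpos : ∀ y ∈ Ioo (0 : ℝ) 1, 0 < Mt m ℓ y := fun y hy =>
    lt_of_lt_of_le hc1 (Mt_low hm hy)
  have hφ' : ∀ y ∈ Ioo (0 : ℝ) 1, φ y = y * (1 / Mt m ℓ y) := by
    intro y hy
    have h1 := hφ y hy
    have h2 := hMpos y hy
    have h3 := hy.1
    field_simp at h1 ⊢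
    linarith only [h1]
  have hB : ∀ z, |m z| ≤ B' ∧ |deriv m z| ≤ B' ∧ |deriv (deriv m) z| ≤ B' := fun z =>
    ⟨(hm.b0 z).trans (le_max_left _ _), (hm.b1 z).trans (le_max_left _ _),
      (hm.b2 z).trans (le_max_left _ _)⟩
  rcases le_or_gt x (3 / 4) with hx34 | hx34
  · rw [scal_of_M hφ' (fun y hy => (hMpos y hy).ne') (fun y hy => hasDerivAt_Mt hm hℓ hy)
      (fun y hy => hasDerivAt_Mt1 hm hℓ hy) hx]
    have hM := Mt_low (ℓ := ℓ) hm hx
    have hMp := hMpos x hx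
    obtain ⟨k1, k2⟩ := hKb x ⟨hx.1.le, hx.2.le⟩
    obtain ⟨m0, m1, m2⟩ := hB (log (x / ℓ))
    have hx0 := hx.1
    have hx1 : x ≤ 1 := hx.2.le
    have hchi0 := chi0_nonneg x
    have hchi1 := chi0_le_one x
    have hi : 0 < 1 - x := by linarith only [hx34]
    have i1 : 1 / (1 - x) ≤ 4 := by
      rw [div_le_iff₀ hi]; linarith only [hx34]
    have i1' : 0 ≤ 1 / (1 - x) := by (clear * - hi; positivity)
    have i2 : 1 / (1 - x) ^ 2 ≤ 16 := by
      have : 1 / (1 - x) ^ 2 = (1 / (1 - x)) ^ 2 := by (clear * - hi; field_simp)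
      rw [this]; nlinarith only [i1, i1']
    have i2' : 0 ≤ 1 / (1 - x) ^ 2 := by (clear * - hi; positivity)
    have i3 : 2 / (1 - x) ^ 3 ≤ 128 := by
      have : 2 / (1 - x) ^ 3 = 2 * ((1 / (1 - x)) * (1 / (1 - x) ^ 2)) := by (clear * - hi; field_simp)
      rw [this]; nlinarith only [i2, i1, i2']
    have i3' : 0 ≤ 2 / (1 - x) ^ 3 := by (clear * - hi; positivity)
    -- |x M'| ≤ P
    have hM1 : |x * Mt1 m ℓ x| ≤ P := by
      have e : x * Mt1 m ℓ x = x * (deriv chi0 x * m (log (x / ℓ)))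
          + chi0 x * deriv m (log (x / ℓ))
          + (-(x * (deriv chi0 x * (1 / (1 - x)))) + x * ((1 - chi0 x) * (1 / (1 - x) ^ 2))) := by
        unfold Mt1
        (clear * - hx0 hi; field_simp)
      rw [e]
      have t1 : |x * (deriv chi0 x * m (log (x / ℓ)))| ≤ K * B' := by
        rw [abs_mul, abs_mul, abs_of_pos hx0]
        calc x * (|deriv chi0 x| * |m (log (x / ℓ))|) ≤ 1 * (K * B') := by
              apply mul_le_mul hx1 (mul_le_mul k1 m0 (abs_nonneg _) hK) (by (clear * -; positivity)) zero_le_one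
          _ = K * B' := one_mul _
      have t2 : |chi0 x * deriv m (log (x / ℓ))| ≤ B' := by
        rw [abs_mul, abs_of_nonneg hchi0]
        calc chi0 x * |deriv m (log (x / ℓ))| ≤ 1 * B' :=
              mul_le_mul hchi1 m1 (abs_nonneg _) zero_le_one
          _ = B' := one_mul _
      have t3 : |-(x * (deriv chi0 x * (1 / (1 - x))))| ≤ 4 * K := by
        rw [abs_neg, abs_mul, abs_mul, abs_of_pos hx0, abs_of_nonneg i1']
        calc x * (|deriv chi0 x| * (1 / (1 - x))) ≤ 1 * (K * 4) := by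
              apply mul_le_mul hx1 (mul_le_mul k1 i1 i1' hK) (by (clear * - hi; positivity)) zero_le_one
          _ = 4 * K := by ring
      have t4 : |x * ((1 - chi0 x) * (1 / (1 - x) ^ 2))| ≤ 16 := by
        have hc' : 0 ≤ 1 - chi0 x := by linarith only [hchi1]
        rw [abs_of_nonneg (by (clear * - hx0 hchi1 hi; positivity))]
        calc x * ((1 - chi0 x) * (1 / (1 - x) ^ 2)) ≤ 1 * (1 * 16) := by
              apply mul_le_mul hx1 (mul_le_mul (by linarith only [hchi0]) i2 i2' zero_le_one) (by (clear * - hchi1 hi; positivity))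
                zero_le_one
          _ = 16 := by ring
      refine (abs_add_le _ _).trans ?_
      have u1 := abs_add_le (x * (deriv chi0 x * m (log (x / ℓ))))
        (chi0 x * deriv m (log (x / ℓ)))
      have u2 := abs_add_le (-(x * (deriv chi0 x * (1 / (1 - x)))))
        (x * ((1 - chi0 x) * (1 / (1 - x) ^ 2)))
      rw [hP]; linarith only [t1, t2, t3, t4, u1, u2]
    have hM2 : |x ^ 2 * Mt2 m ℓ x| ≤ Q := by
      have e : x ^ 2 * Mt2 m ℓ x = x ^ 2 * (deriv (deriv chi0) x * m (log (x / ℓ)))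
          + x * (2 * (deriv chi0 x * deriv m (log (x / ℓ))))
          + chi0 x * (deriv (deriv m) (log (x / ℓ)) - deriv m (log (x / ℓ)))
          + (-(x ^ 2 * (deriv (deriv chi0) x * (1 / (1 - x))))
            + (-(x ^ 2 * (2 * (deriv chi0 x * (1 / (1 - x) ^ 2))))
            + x ^ 2 * ((1 - chi0 x) * (2 / (1 - x) ^ 3)))) := by
        unfold Mt2
        field_simp
        ring
      rw [e]
      have hxx : x ^ 2 ≤ 1 := by nlinarith only [hx0, hx34]
      have hxx0 : 0 ≤ x ^ 2 := by (clear * - hx0; positivity)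
      have t1 : |x ^ 2 * (deriv (deriv chi0) x * m (log (x / ℓ)))| ≤ K * B' := by
        rw [abs_mul, abs_mul, abs_of_nonneg hxx0]
        calc x ^ 2 * (|deriv (deriv chi0) x| * |m (log (x / ℓ))|) ≤ 1 * (K * B') := by
              apply mul_le_mul hxx (mul_le_mul k2 m0 (abs_nonneg _) hK) (by (clear * -; positivity)) zero_le_one
          _ = K * B' := one_mul _
      have t2 : |x * (2 * (deriv chi0 x * deriv m (log (x / ℓ))))| ≤ 2 * K * B' := by
        rw [abs_mul, abs_mul, abs_mul, abs_of_pos hx0, abs_of_pos (two_pos : (0 : ℝ) < 2)]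
        calc x * (2 * (|deriv chi0 x| * |deriv m (log (x / ℓ))|)) ≤ 1 * (2 * (K * B')) := by
              apply mul_le_mul hx1 _ (by (clear * -; positivity)) zero_le_one
              exact mul_le_mul_of_nonneg_left (mul_le_mul k1 m1 (abs_nonneg _) hK) two_pos.le
          _ = 2 * K * B' := by ring
      have t3 : |chi0 x * (deriv (deriv m) (log (x / ℓ)) - deriv m (log (x / ℓ)))| ≤ 2 * B' := by
        rw [abs_mul, abs_of_nonneg hchi0]
        calc chi0 x * |deriv (deriv m) (log (x / ℓ)) - deriv m (log (x / ℓ))|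
            ≤ 1 * (B' + B') := by
              apply mul_le_mul hchi1 _ (abs_nonneg _) zero_le_one
              exact (abs_sub _ _).trans (add_le_add m2 m1)
          _ = 2 * B' := by ring
      have t4 : |-(x ^ 2 * (deriv (deriv chi0) x * (1 / (1 - x))))| ≤ 4 * K := by
        rw [abs_neg, abs_mul, abs_mul, abs_of_nonneg hxx0, abs_of_nonneg i1']
        calc x ^ 2 * (|deriv (deriv chi0) x| * (1 / (1 - x))) ≤ 1 * (K * 4) := by
              apply mul_le_mul hxx (mul_le_mul k2 i1 i1' hK) (by (clear * - hi; positivity)) zero_le_one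
          _ = 4 * K := by ring
      have t5 : |-(x ^ 2 * (2 * (deriv chi0 x * (1 / (1 - x) ^ 2))))| ≤ 32 * K := by
        rw [abs_neg, abs_mul, abs_mul, abs_mul, abs_of_nonneg hxx0,
          abs_of_pos (two_pos : (0 : ℝ) < 2), abs_of_nonneg i2']
        calc x ^ 2 * (2 * (|deriv chi0 x| * (1 / (1 - x) ^ 2))) ≤ 1 * (2 * (K * 16)) := by
              apply mul_le_mul hxx _ (by (clear * - hi; positivity)) zero_le_one
              exact mul_le_mul_of_nonneg_left (mul_le_mul k1 i2 i2' hK) two_pos.le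
          _ = 32 * K := by ring
      have t6 : |x ^ 2 * ((1 - chi0 x) * (2 / (1 - x) ^ 3))| ≤ 128 := by
        have hc' : 0 ≤ 1 - chi0 x := by linarith only [hchi1]
        rw [abs_of_nonneg (by (clear * - hx0 hchi1 hi; positivity))]
        calc x ^ 2 * ((1 - chi0 x) * (2 / (1 - x) ^ 3)) ≤ 1 * (1 * 128) := by
              apply mul_le_mul hxx (mul_le_mul (by linarith only [hchi0]) i3 i3' zero_le_one) (by (clear * - hchi1 hi; positivity))
                zero_le_one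
          _ = 128 := by ring
      set a1 := x ^ 2 * (deriv (deriv chi0) x * m (log (x / ℓ)))
      set a2 := x * (2 * (deriv chi0 x * deriv m (log (x / ℓ))))
      set a3 := chi0 x * (deriv (deriv m) (log (x / ℓ)) - deriv m (log (x / ℓ)))
      set a4 := -(x ^ 2 * (deriv (deriv chi0) x * (1 / (1 - x))))
      set a5 := -(x ^ 2 * (2 * (deriv chi0 x * (1 / (1 - x) ^ 2))))
      set a6 := x ^ 2 * ((1 - chi0 x) * (2 / (1 - x) ^ 3))
      have u1 := abs_add_le (a1 + a2 + a3) (a4 + (a5 + a6))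
      have u2 := abs_add_le (a1 + a2) a3
      have u3 := abs_add_le a1 a2
      have u4 := abs_add_le a4 (a5 + a6)
      have u5 := abs_add_le a5 a6
      rw [hQ]; linarith only [t1, t2, t3, t4, t5, t6, u1, u2, u3, u4, u5]
    -- final
    have j1 : 1 / Mt m ℓ x ≤ 1 / c₁ := one_div_le_one_div_of_le hc1 hM
    have j1' : 0 ≤ 1 / Mt m ℓ x := by (clear * - hMp; positivity)
    have j2 : 1 / Mt m ℓ x ^ 2 ≤ 1 / c₁ ^ 2 :=
      one_div_le_one_div_of_le (by positivity) (pow_le_pow_left₀ hc1.le hM 2)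
    have j3 : 1 / Mt m ℓ x ^ 3 ≤ 1 / c₁ ^ 3 :=
      one_div_le_one_div_of_le (by positivity) (pow_le_pow_left₀ hc1.le hM 3)
    have s1 : |16 * (x * (-Mt1 m ℓ x / Mt m ℓ x ^ 2))| ≤ 16 * (P / c₁ ^ 2) := by
      have e : 16 * (x * (-Mt1 m ℓ x / Mt m ℓ x ^ 2))
          = -(16 * ((x * Mt1 m ℓ x) * (1 / Mt m ℓ x ^ 2))) := by ring
      rw [e, abs_neg, abs_mul, abs_mul, abs_of_pos (by norm_num : (0 : ℝ) < 16),
        abs_of_nonneg (by positivity : 0 ≤ 1 / Mt m ℓ x ^ 2)]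
      have := mul_le_mul hM1 j2 (by positivity) hP0
      have e2 : P * (1 / c₁ ^ 2) = P / c₁ ^ 2 := by ring
      rw [e2] at this
      linarith only [this]
    have s2 : |x ^ 2 * (2 * Mt1 m ℓ x ^ 2 / Mt m ℓ x ^ 3 - Mt2 m ℓ x / Mt m ℓ x ^ 2)|
        ≤ 2 * P ^ 2 / c₁ ^ 3 + Q / c₁ ^ 2 := by
      have e : x ^ 2 * (2 * Mt1 m ℓ x ^ 2 / Mt m ℓ x ^ 3 - Mt2 m ℓ x / Mt m ℓ x ^ 2)
          = 2 * (x * Mt1 m ℓ x) ^ 2 * (1 / Mt m ℓ x ^ 3)
            - (x ^ 2 * Mt2 m ℓ x) * (1 / Mt m ℓ x ^ 2) := by ring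
      rw [e]
      refine (abs_sub _ _).trans (add_le_add ?_ ?_)
      · rw [abs_of_nonneg (by (clear * - hMp; positivity))]
        have h1 : (x * Mt1 m ℓ x) ^ 2 ≤ P ^ 2 := sq_le_sq' (by
          have := (abs_le.1 hM1).1; linarith only [this]) (abs_le.1 hM1).2
        have h2 := mul_le_mul h1 j3 (by positivity) (by (clear * - hK; positivity) : 0 ≤ P ^ 2)
        have e2 : 2 * P ^ 2 / c₁ ^ 3 = 2 * (P ^ 2 * (1 / c₁ ^ 3)) := by ring
        rw [e2]
        linarith only [h2]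
      · rw [abs_mul, abs_of_nonneg (by (clear * - hMp; positivity) : 0 ≤ 1 / Mt m ℓ x ^ 2)]
        have := mul_le_mul hM2 j2 (by (clear * - hMp; positivity)) hQ0
        have e2 : Q / c₁ ^ 2 = Q * (1 / c₁ ^ 2) := by ring
        rw [e2]
        exact this
    have s0 : |56 * (1 / Mt m ℓ x)| ≤ 56 / c₁ := by
      rw [abs_of_nonneg (by positivity)]
      have : 56 / c₁ = 56 * (1 / c₁) := by ring
      rw [this]; linarith only [j1]
    set b0 := 56 * (1 / Mt m ℓ x)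
    set b1 := 16 * (x * (-Mt1 m ℓ x / Mt m ℓ x ^ 2))
    set b2 := x ^ 2 * (2 * Mt1 m ℓ x ^ 2 / Mt m ℓ x ^ 3 - Mt2 m ℓ x / Mt m ℓ x ^ 2)
    have u1 := abs_sub (56 : ℝ) (b0 + b1 + b2)
    have u2 := abs_add_le (b0 + b1) b2
    have u3 := abs_add_le b0 b1
    have h56 : |(56 : ℝ)| = 56 := by norm_num
    linarith only [s0, s1, s2, u1, u2, u3, h56]
  · -- Fubini–Study part
    have hx12 : (1 : ℝ) / 2 < x := by linarith only [hx34]
    have e1 : ∀ y ∈ Ioo (1 / 2 : ℝ) 1, y ^ (8 - 1) * φ y = y ^ 8 * (1 - y) := by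
      intro y hy
      have hy' : y ∈ Ioo (0 : ℝ) 1 := ⟨by linarith only [hy.1], hy.2⟩
      rw [hφ' y hy', Mt_eq_half hy.1.le, one_div_one_div]
      ring
    have hd : ∀ y : ℝ, HasDerivAt (fun y : ℝ => y ^ 8 * (1 - y)) (8 * y ^ 7 * (1 - y) - y ^ 8) y := by
      intro y
      have := (hasDerivAt_pow 8 y).mul ((hasDerivAt_id y).const_sub 1)
      refine this.congr_deriv ?_
      simp only [id]
      push_cast
      ring
    have hd2 : ∀ y : ℝ, HasDerivAt (fun y : ℝ => 8 * y ^ 7 * (1 - y) - y ^ 8)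
        (56 * y ^ 6 * (1 - y) - 8 * y ^ 7 - 8 * y ^ 7) y := by
      intro y
      have a1 := ((hasDerivAt_pow 7 y).const_mul 8).mul ((hasDerivAt_id y).const_sub 1)
      have := a1.sub (hasDerivAt_pow 8 y)
      refine this.congr_deriv ?_
      simp only [id]
      push_cast
      ring
    have f1 : ∀ y ∈ Ioo (1 / 2 : ℝ) 1, deriv (fun y => y ^ (8 - 1) * φ y) y
        = 8 * y ^ 7 * (1 - y) - y ^ 8 := by
      intro y hy
      have : (fun y => y ^ (8 - 1) * φ y) =ᶠ[𝓝 y] fun y => y ^ 8 * (1 - y) := by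
        filter_upwards [isOpen_Ioo.mem_nhds hy] with z hz
        exact e1 z hz
      rw [this.deriv_eq]
      exact (hd y).deriv
    have hxI : x ∈ Ioo (1 / 2 : ℝ) 1 := ⟨hx12, hx.2⟩
    have f2 : deriv (deriv (fun y => y ^ (8 - 1) * φ y)) x
        = 56 * x ^ 6 * (1 - x) - 8 * x ^ 7 - 8 * x ^ 7 := by
      have : deriv (fun y => y ^ (8 - 1) * φ y) =ᶠ[𝓝 x]
          fun y => 8 * y ^ 7 * (1 - y) - y ^ 8 := by
        filter_upwards [isOpen_Ioo.mem_nhds hxI] with z hz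
        exact f1 z hz
      rw [this.deriv_eq]
      exact (hd2 x).deriv
    have hS : x * scal 8 φ x = 72 * x := by
      unfold scal
      rw [f2]
      have hx0 : x ≠ 0 := hx.1.ne'
      norm_num
      field_simp
      ring
    rw [hS, abs_of_nonneg (by linarith only [hx34])]
    have : 0 ≤ 56 + (56 / c₁ + 16 * (P / c₁ ^ 2) + (2 * P ^ 2 / c₁ ^ 3 + Q / c₁ ^ 2)) := by
      (clear * - hc hK; positivity)
    linarith only [this, hx.2]


/-- The momentum profile of a solution at time `0`. -/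
theorem phi_init {T : ℝ} (hT : 0 < T) {U₀ : ℝ → ℝ} {U φ : ℝ → ℝ → ℝ}
    (H : IsFlowU 8 T U₀ U φ)
    (hU₀ : ∀ x, 0 < x → x < 1 → deriv (deriv U₀) x
        = chi0 x * ((m (log (x / ℓ)) - 1) / x - 1 / (1 - x))) {x : ℝ} (hx : x ∈ Ioo (0 : ℝ) 1) :
    φ 0 x * (Mt m ℓ x / x) = 1 := by
  have h0 : (0 : ℝ) ∈ Icc 0 T := ⟨le_rfl, hT.le⟩
  have h1 := H.rel 0 h0 x hx
  have hopen : IsOpen (Ioo (0 : ℝ) 1) := isOpen_Ioo
  have e1 : ∀ y ∈ Ioo (0 : ℝ) 1, deriv (U 0) y = deriv U₀ y := by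
    intro y hy
    apply Filter.EventuallyEq.deriv_eq
    filter_upwards [hopen.mem_nhds hy] with z hz
    exact H.init z ⟨hz.1.le, hz.2.le⟩
  have e2 : deriv (deriv (U 0)) x = deriv (deriv U₀) x := by
    apply Filter.EventuallyEq.deriv_eq
    filter_upwards [hopen.mem_nhds hx] with z hz
    exact e1 z hz
  rw [e2, hU₀ x hx.1 hx.2] at h1
  have hx0 : x ≠ 0 := hx.1.ne'
  have hx1 : 1 - x ≠ 0 := by linarith only [hx.2]
  rw [← h1]
  congr 1
  unfold Mt
  field_simp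
  ring

/-- `h(0,x) = φ(0,x)/x = 1/m(log (x/ℓ))` for `x ≤ 1/4`. -/
theorem h_init {T : ℝ} (hT : 0 < T) {U₀ : ℝ → ℝ} {U φ : ℝ → ℝ → ℝ}
    (H : IsFlowU 8 T U₀ U φ)
    (hU₀ : ∀ x, 0 < x → x < 1 → deriv (deriv U₀) x
        = chi0 x * ((m (log (x / ℓ)) - 1) / x - 1 / (1 - x))) {x : ℝ} (hx : 0 < x)
    (hx4 : x ≤ 1 / 4) : φ 0 x / x = 1 / m (log (x / ℓ)) := by
  have h1 := phi_init hT H hU₀ (x := x) ⟨hx, by linarith⟩
  have h2 : Mt m ℓ x = m (log (x / ℓ)) := by
    unfold Mt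
    rw [chi0_one hx4]
    ring
  rw [h2] at h1
  have h3 : m (log (x / ℓ)) ≠ 0 := by
    intro h
    rw [h] at h1
    simp at h1
  field_simp at h1 ⊢
  linarith only [h1]

/-- **Lipschitz dependence** of `U₀` on `m`. -/
theorem U0_lipschitz {m m' : ℝ → ℝ} {ℓ Za D : ℝ} (hℓ : 0 < ℓ)
    (hD : ∀ z, |m z - m' z| ≤ D) (hZ : ∀ z ≤ Za, m z = m' z) {U₀ V₀ : ℝ → ℝ}
    (hU : ContDiff ℝ ∞ U₀) (hV : ContDiff ℝ ∞ V₀) (hU0 : U₀ 0 = 0) (hV0 : V₀ 0 = 0)
    (hU1 : deriv U₀ 0 = 0) (hV1 : deriv V₀ 0 = 0)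
    (hU₀ : ∀ x, 0 < x → x < 1 → deriv (deriv U₀) x
        = chi0 x * ((m (log (x / ℓ)) - 1) / x - 1 / (1 - x)))
    (hV₀ : ∀ x, 0 < x → x < 1 → deriv (deriv V₀) x
        = chi0 x * ((m' (log (x / ℓ)) - 1) / x - 1 / (1 - x))) :
    ∀ x ∈ Icc (0 : ℝ) 1, |U₀ x - V₀ x| ≤ D * exp (-Za) / ℓ := by
  have hD0 : 0 ≤ D := (abs_nonneg _).trans (hD 0)
  have hU' : ContDiff ℝ ∞ (deriv U₀) := (contDiff_infty_iff_deriv.1 hU).2
  have hU'' : ContDiff ℝ ∞ (deriv (deriv U₀)) := (contDiff_infty_iff_deriv.1 hU').2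
  have hV' : ContDiff ℝ ∞ (deriv V₀) := (contDiff_infty_iff_deriv.1 hV).2
  have hV'' : ContDiff ℝ ∞ (deriv (deriv V₀)) := (contDiff_infty_iff_deriv.1 hV').2
  set K := D * exp (-Za) / ℓ with hK
  have h2 : ∀ x ∈ Ioo (0 : ℝ) 1, |deriv (deriv U₀) x - deriv (deriv V₀) x| ≤ K := by
    intro x hx
    have hx0 := hx.1
    rw [hU₀ x hx.1 hx.2, hV₀ x hx.1 hx.2]
    have e : chi0 x * ((m (log (x / ℓ)) - 1) / x - 1 / (1 - x))
        - chi0 x * ((m' (log (x / ℓ)) - 1) / x - 1 / (1 - x))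
        = chi0 x * ((m (log (x / ℓ)) - m' (log (x / ℓ))) / x) := by ring
    rw [e, abs_mul, abs_of_nonneg (chi0_nonneg x), abs_div, abs_of_pos hx0]
    have hy : 0 < x / ℓ := by (clear * - hx0 hℓ; positivity)
    rcases le_or_gt (log (x / ℓ)) Za with h | h
    · rw [hZ _ h, sub_self, abs_zero, zero_div, mul_zero]
      (clear * - hD0 hℓ; positivity)
    · have h3 : ℓ * exp Za < x := by
        rw [lt_log_iff_exp_lt hy, lt_div_iff₀ hℓ] at h
        linarith only [h]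
      calc chi0 x * (|m (log (x / ℓ)) - m' (log (x / ℓ))| / x) ≤ 1 * (D / (ℓ * exp Za)) := by
            apply mul_le_mul (chi0_le_one x) _ (by (clear * - hx0; positivity)) zero_le_one
            exact div_le_div₀ hD0 (hD _) (by positivity) h3.le
        _ = K := by
            rw [hK, exp_neg]
            (clear * - hℓ; field_simp)
  have h2' : ∀ x ∈ Icc (0 : ℝ) 1, |deriv (deriv U₀) x - deriv (deriv V₀) x| ≤ K := by
    intro x hx
    have hcl : x ∈ closure (Ioo (0 : ℝ) 1) := by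
      rw [closure_Ioo zero_ne_one]
      exact hx
    have hcont : Continuous fun x => |deriv (deriv U₀) x - deriv (deriv V₀) x| :=
      (hU''.continuous.sub hV''.continuous).abs
    have hclosed : IsClosed {x | |deriv (deriv U₀) x - deriv (deriv V₀) x| ≤ K} :=
      isClosed_le hcont continuous_const
    exact closure_minimal (fun y hy => h2 y hy) hclosed hcl
  have hd : ∀ {f : ℝ → ℝ}, ContDiff ℝ ∞ f → ∀ x, HasDerivAt f (deriv f x) x := fun hf x =>
    ((hf.differentiable (by simp)) x).hasDerivAt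
  have h1 := abs_sub_le_of_deriv (f := deriv U₀) (g := deriv V₀) (a := 0) (b := 1) (τ := K)
    (fun x _ => hd hU' x) (fun x _ => hd hV' x) (by rw [hU1, hV1]) h2'
  have h0 := abs_sub_le_of_deriv (f := U₀) (g := V₀) (a := 0) (b := 1) (τ := K)
    (fun x _ => hd hU x) (fun x _ => hd hV x) (by rw [hU0, hV0])
    (fun x hx => by simpa only [sub_zero, mul_one] using h1 x hx)
  intro x hx
  simpa only [sub_zero, mul_one] using h0 x hx

/-- `L²` version of `U0_lipschitz`. -/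
theorem U0_lipschitz_L2 {m m' : ℝ → ℝ} {ℓ Za D : ℝ} (hℓ : 0 < ℓ)
    (hD : ∀ z, |m z - m' z| ≤ D) (hZ : ∀ z ≤ Za, m z = m' z) {U₀ V₀ : ℝ → ℝ}
    (hU : ContDiff ℝ ∞ U₀) (hV : ContDiff ℝ ∞ V₀) (hU0 : U₀ 0 = 0) (hV0 : V₀ 0 = 0)
    (hU1 : deriv U₀ 0 = 0) (hV1 : deriv V₀ 0 = 0)
    (hU₀ : ∀ x, 0 < x → x < 1 → deriv (deriv U₀) x
        = chi0 x * ((m (log (x / ℓ)) - 1) / x - 1 / (1 - x)))
    (hV₀ : ∀ x, 0 < x → x < 1 → deriv (deriv V₀) x
        = chi0 x * ((m' (log (x / ℓ)) - 1) / x - 1 / (1 - x))) (k : ℕ) :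
    ∫ x in (0 : ℝ)..1, x ^ k * (U₀ x - V₀ x) ^ 2 ≤ (D * exp (-Za) / ℓ) ^ 2 := by
  have h := U0_lipschitz hℓ hD hZ hU hV hU0 hV0 hU1 hV1 hU₀ hV₀
  have h1 : ‖∫ x in (0 : ℝ)..1, x ^ k * (U₀ x - V₀ x) ^ 2‖
      ≤ (D * exp (-Za) / ℓ) ^ 2 * |(1 : ℝ) - 0| := by
    apply intervalIntegral.norm_integral_le_of_norm_le_const
    intro x hx
    rw [uIoc_of_le zero_le_one] at hx
    have hx0 := hx.1
    have h2 : (U₀ x - V₀ x) ^ 2 ≤ (D * exp (-Za) / ℓ) ^ 2 := by
      rw [← sq_abs (U₀ x - V₀ x)]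
      exact pow_le_pow_left₀ (abs_nonneg _) (h x ⟨hx0.le, hx.2⟩) 2
    rw [Real.norm_eq_abs, abs_of_nonneg (by (clear * - hx0; positivity))]
    calc x ^ k * (U₀ x - V₀ x) ^ 2 ≤ 1 * (D * exp (-Za) / ℓ) ^ 2 :=
          mul_le_mul (pow_le_one₀ hx0.le hx.2) h2 (sq_nonneg _) zero_le_one
      _ = _ := one_mul _
  have h2 := le_of_abs_le h1
  simpa only [ge_iff_le, sub_zero, abs_one, mul_one] using h2

end

end P264.B
end
end

section

section

/-!
# P264 / B / Data5 : the hypothesis `hdata` of the final assembly from a family `m_b`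
-/

open MeasureTheory Set Filter Topology Real
open scoped ContDiff

namespace P264.B

/-- Soft `C²` bound for the profile. -/
theorem Profile.exists_C2_bound {R : ℝ → ℝ} {Rmin α : ℝ} (hR : Profile R Rmin α) :
    ∃ d : ℝ, 0 ≤ d ∧ ∀ z, |deriv R z| ≤ d ∧ |deriv (deriv R) z| ≤ d := by
  obtain ⟨p, hp0, Zl, hZl⟩ := hR.left
  obtain ⟨C, hC⟩ := hR.right
  have hR1 : ContDiff ℝ 3 (deriv R) := by
    have : ContDiff ℝ (3 + 1) R := by
      convert hR.smooth using 1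
      norm_num
    exact (contDiff_succ_iff_deriv.1 this).2.2
  have hR2 : ContDiff ℝ 2 (deriv (deriv R)) := by
    have : ContDiff ℝ (2 + 1) (deriv R) := by
      convert hR1 using 1
      norm_num
    exact (contDiff_succ_iff_deriv.1 this).2.2
  -- left part
  set P1 : ℝ → ℝ := fun y => p.derivative.eval y * y with hP1
  set P2 : ℝ → ℝ := fun y => (p.derivative.derivative.eval y * y) * y + p.derivative.eval y * y
    with hP2
  have hP1c : Continuous P1 := p.derivative.continuous.mul continuous_id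
  have hP2c : Continuous P2 := ((p.derivative.derivative.continuous.mul continuous_id).mul
    continuous_id).add (p.derivative.continuous.mul continuous_id)
  have hd1 : ∀ z, HasDerivAt (fun z => p.eval (exp z)) (P1 (exp z)) z := fun z =>
    (p.hasDerivAt (exp z)).comp z (Real.hasDerivAt_exp z)
  have hd2 : ∀ z, HasDerivAt (fun z => P1 (exp z)) (P2 (exp z)) z := by
    intro z
    have h := ((p.derivative.hasDerivAt (exp z)).comp z (Real.hasDerivAt_exp z)).mul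
      (Real.hasDerivAt_exp z)
    exact h
  have hl1 : ∀ z < Zl, deriv R z = P1 (exp z) := by
    intro z hz
    have : R =ᶠ[𝓝 z] fun z => p.eval (exp z) := by
      filter_upwards [Iio_mem_nhds hz] with y hy
      exact hZl y (le_of_lt hy)
    rw [this.deriv_eq]
    exact (hd1 z).deriv
  have hl2 : ∀ z < Zl, deriv (deriv R) z = P2 (exp z) := by
    intro z hz
    have : deriv R =ᶠ[𝓝 z] fun z => P1 (exp z) := by
      filter_upwards [Iio_mem_nhds hz] with y hy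
      exact hl1 y hy
    rw [this.deriv_eq]
    exact (hd2 z).deriv
  obtain ⟨a1, ha1⟩ := (isCompact_Icc (a := (0 : ℝ)) (b := exp Zl)).exists_bound_of_continuousOn
    hP1c.continuousOn
  obtain ⟨a2, ha2⟩ := (isCompact_Icc (a := (0 : ℝ)) (b := exp Zl)).exists_bound_of_continuousOn
    hP2c.continuousOn
  obtain ⟨b1, hb1⟩ := (isCompact_Icc (a := Zl) (b := 0)).exists_bound_of_continuousOn
    hR1.continuous.continuousOn
  obtain ⟨b2, hb2⟩ := (isCompact_Icc (a := Zl) (b := 0)).exists_bound_of_continuousOn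
    hR2.continuous.continuousOn
  have hr1 : ∀ z, 0 ≤ z → |deriv R z| ≤ |C| := by
    intro z hz
    have h := hC 1 (by norm_num) z hz
    rw [iteratedDeriv_one, deriv_sub_const] at h
    refine h.trans ?_
    calc C * exp (-2 * z) ≤ |C| * exp (-2 * z) :=
          mul_le_mul_of_nonneg_right (le_abs_self C) (exp_pos _).le
      _ ≤ |C| * 1 := by
          apply mul_le_mul_of_nonneg_left _ (abs_nonneg C)
          rw [exp_le_one_iff]; linarith only [hz]
      _ = |C| := mul_one _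
  have hr2 : ∀ z, 0 ≤ z → |deriv (deriv R) z| ≤ |C| := by
    intro z hz
    have h := hC 2 (by norm_num) z hz
    have e : iteratedDeriv 2 (fun s => R s - α) = deriv (deriv R) := by
      rw [iteratedDeriv_succ, iteratedDeriv_one]
      congr 1
      funext y
      exact deriv_sub_const _
    rw [e] at h
    refine h.trans ?_
    calc C * exp (-2 * z) ≤ |C| * exp (-2 * z) :=
          mul_le_mul_of_nonneg_right (le_abs_self C) (exp_pos _).le
      _ ≤ |C| * 1 := by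
          apply mul_le_mul_of_nonneg_left _ (abs_nonneg C)
          rw [exp_le_one_iff]; linarith only [hz]
      _ = |C| := mul_one _
  refine ⟨|a1| + |a2| + |b1| + |b2| + |C|, by (clear * -; positivity), fun z => ?_⟩
  have na1 := abs_nonneg a1
  have na2 := abs_nonneg a2
  have nb1 := abs_nonneg b1
  have nb2 := abs_nonneg b2
  have nC := abs_nonneg C
  rcases lt_or_ge z Zl with h | h
  · have hm : exp z ∈ Icc (0 : ℝ) (exp Zl) := ⟨(exp_pos z).le, exp_le_exp.2 h.le⟩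
    have t1 := ha1 _ hm
    have t2 := ha2 _ hm
    rw [Real.norm_eq_abs] at t1 t2
    rw [hl1 z h, hl2 z h]
    exact ⟨by linarith only [na2, nb1, nb2, nC, t1, le_abs_self a1], by linarith only [na1, nb1, nb2, nC, t2, le_abs_self a2]⟩
  · rcases le_or_gt z 0 with h' | h'
    · have t1 := hb1 z ⟨h, h'⟩
      have t2 := hb2 z ⟨h, h'⟩
      rw [Real.norm_eq_abs] at t1 t2
      exact ⟨by linarith only [na1, na2, nb2, nC, t1, le_abs_self b1], by linarith only [na1, na2, nb1, nC, t2, le_abs_self b2]⟩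
    · exact ⟨by linarith only [na1, na2, nb1, nb2, hr1 z h'.le], by linarith only [na1, na2, nb1, nb2, hr2 z h'.le]⟩

/-- Soft `C²` bound for `1/R`. -/
theorem Profile.exists_inv_bound {R : ℝ → ℝ} {Rmin α : ℝ} (hR : Profile R Rmin α) :
    ∃ d : ℝ, 0 ≤ d ∧ ∀ z, |1 / R z| ≤ d ∧ |deriv (fun z => 1 / R z) z| ≤ d ∧
      |deriv (deriv (fun z => 1 / R z)) z| ≤ d := by
  obtain ⟨d, hd0, hd⟩ := hR.exists_C2_bound
  have hR0 : ∀ z, 0 < R z := fun z => hR.Rmin_pos.trans_le (hR.lower z)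
  have hR2 : ContDiff ℝ 2 R := hR.smooth.of_le (by norm_num)
  have hR1' : ContDiff ℝ 1 (deriv R) := by
    have : ContDiff ℝ (1 + 1) R := by simpa [one_add_one_eq_two] using hR2
    exact (contDiff_succ_iff_deriv.1 this).2.2
  have dR : ∀ x, HasDerivAt R (deriv R x) x := fun x =>
    (hR2.differentiable (by simp) x).hasDerivAt
  have dR1 : ∀ x, HasDerivAt (deriv R) (deriv (deriv R) x) x := fun x =>
    (hR1'.differentiable (by simp) x).hasDerivAt
  have dr : ∀ x, HasDerivAt (fun z => 1 / R z) (-deriv R x / R x ^ 2) x := by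
    intro x
    have := (dR x).fun_inv (hR0 x).ne'
    simpa only [one_div] using this
  have er : deriv (fun z => 1 / R z) = fun x => -deriv R x / R x ^ 2 :=
    funext fun x => (dr x).deriv
  have dr1 : ∀ x, HasDerivAt (fun x => -deriv R x / R x ^ 2)
      (-deriv (deriv R) x / R x ^ 2 + 2 * deriv R x ^ 2 / R x ^ 3) x := by
    intro x
    have h := (dR1 x).fun_neg.fun_div ((dR x).fun_pow 2) (pow_ne_zero 2 (hR0 x).ne')
    refine h.congr_deriv ?_
    have := (hR0 x).ne'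
    field_simp
    ring
  have er1 : deriv (deriv (fun z => 1 / R z)) = fun x =>
      -deriv (deriv R) x / R x ^ 2 + 2 * deriv R x ^ 2 / R x ^ 3 := by
    rw [er]; exact funext fun x => (dr1 x).deriv
  set k := 1 / Rmin with hk
  have hRm := hR.Rmin_pos
  have hk0 : 0 < k := by (clear * - hRm; positivity)
  have hi : ∀ z, 1 / R z ≤ k := fun z => one_div_le_one_div_of_le hRm (hR.lower z)
  have hi0 : ∀ z, 0 ≤ 1 / R z := fun z => (one_div_pos.2 (hR0 z)).le
  refine ⟨k + d * k ^ 2 + (d * k ^ 2 + 2 * d ^ 2 * k ^ 3), by (clear * - hRm hd0; positivity), fun z => ?_⟩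
  obtain ⟨h1, h2⟩ := hd z
  have q2 : (1 / R z) ^ 2 ≤ k ^ 2 := pow_le_pow_left₀ (hi0 z) (hi z) 2
  have q3 : (1 / R z) ^ 3 ≤ k ^ 3 := pow_le_pow_left₀ (hi0 z) (hi z) 3
  have t0 : |1 / R z| ≤ k := by rw [abs_of_nonneg (hi0 z)]; exact hi z
  have t1 : |deriv (fun z => 1 / R z) z| ≤ d * k ^ 2 := by
    rw [er]
    have e : -deriv R z / R z ^ 2 = -(deriv R z * (1 / R z) ^ 2) := by ring
    simp only
    rw [e, abs_neg, abs_mul, abs_of_nonneg (by (clear * -; positivity) : 0 ≤ (1 / R z) ^ 2)]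
    exact mul_le_mul h1 q2 (by (clear * -; positivity)) hd0
  have t2 : |deriv (deriv (fun z => 1 / R z)) z| ≤ d * k ^ 2 + 2 * d ^ 2 * k ^ 3 := by
    rw [er1]
    have e : -deriv (deriv R) z / R z ^ 2 + 2 * deriv R z ^ 2 / R z ^ 3
        = -(deriv (deriv R) z * (1 / R z) ^ 2) + 2 * (deriv R z ^ 2) * (1 / R z) ^ 3 := by ring
    simp only
    rw [e]
    refine (abs_add_le _ _).trans (add_le_add ?_ ?_)
    · rw [abs_neg, abs_mul, abs_of_nonneg (by (clear * -; positivity) : 0 ≤ (1 / R z) ^ 2)]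
      exact mul_le_mul h2 q2 (by (clear * -; positivity)) hd0
    · have hR0z := hi0 z
      rw [abs_of_nonneg (by (clear * - hR0z; positivity))]
      have : deriv R z ^ 2 ≤ d ^ 2 := by
        rw [← sq_abs]; exact pow_le_pow_left₀ (abs_nonneg _) h1 2
      exact mul_le_mul (by linarith only [this]) q3 (by (clear * - hR0z; positivity)) (by (clear * -; positivity))
  have p1 : 0 ≤ d * k ^ 2 := by (clear * - hd0 hRm; positivity)
  have p2 : 0 ≤ 2 * d ^ 2 * k ^ 3 := by (clear * - hRm; positivity)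
  exact ⟨by linarith only [t0, p1, p2], by linarith only [hk0, t1, p1, p2], by linarith only [hk0, t2, p1]⟩

end P264.B
end
end

section

section

/-!
# P264 / B / Fam : the two-parameter family of initial profiles, with its energy

`m_b = 1/h_b`, `q_b = R² m_b - R = Σ β_k g_k + r`, `w_b = 1/m_b - R = -q_b + q_b²/(R+q_b)`.
-/

open Set Real MeasureTheory Filter
open scoped ContDiff Topology

namespace P264.B

/-- Approximate right eigenfunctions `g j` (in the variable `w = h - R`). -/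
structure RDirs (R ρ : ℝ → ℝ) (psi g : Fin 2 → ℝ → ℝ) (za zb Γ₀ Γ₁ Γ₂ E : ℝ) : Prop where
  smooth : ∀ j, ContDiff ℝ 2 (g j)
  le : za ≤ zb
  supp : ∀ j z, z ≤ za ∨ zb ≤ z → g j z = 0
  gram : ∀ i j, |(∫ z, psi i z * g j z / R z ^ 2) - (if i = j then 1 else 0)| ≤ 1 / 8
  b0 : ∀ j z, |g j z| ≤ Γ₀
  b1 : ∀ j z, |deriv (g j) z| ≤ Γ₁
  b2 : ∀ j z, |deriv (deriv (g j)) z| ≤ Γ₂
  E_nonneg : 0 ≤ E
  energy : ∀ j, NN ρ (g j) ≤ E ^ 2

/-- `C²` bounds of a product `R² u`. -/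
theorem sq_mul_bounds {R u : ℝ → ℝ} (hR : ContDiff ℝ 2 R) (hu : ContDiff ℝ 2 u)
    {d₁ d₂ τ : ℝ} (hR0 : ∀ z, 0 < R z) (hR1 : ∀ z, R z ≤ 1) (hd1 : ∀ z, |deriv R z| ≤ d₁)
    (hd2 : ∀ z, |deriv (deriv R) z| ≤ d₂) (h0 : ∀ z, |u z| ≤ τ) (h1 : ∀ z, |deriv u z| ≤ τ)
    (h2 : ∀ z, |deriv (deriv u) z| ≤ τ) (z : ℝ) :
    |R z ^ 2 * u z| ≤ (2 * d₁ ^ 2 + 2 * d₂ + 4 * d₁ + 1) * τ ∧
      |deriv (fun z => R z ^ 2 * u z) z| ≤ (2 * d₁ ^ 2 + 2 * d₂ + 4 * d₁ + 1) * τ ∧
      |deriv (deriv (fun z => R z ^ 2 * u z)) z| ≤ (2 * d₁ ^ 2 + 2 * d₂ + 4 * d₁ + 1) * τ := by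
  have hR1' : ContDiff ℝ 1 (deriv R) := by
    have : ContDiff ℝ (1 + 1) R := by simpa [one_add_one_eq_two] using hR
    exact (contDiff_succ_iff_deriv.1 this).2.2
  have hu1' : ContDiff ℝ 1 (deriv u) := by
    have : ContDiff ℝ (1 + 1) u := by simpa [one_add_one_eq_two] using hu
    exact (contDiff_succ_iff_deriv.1 this).2.2
  have dR : ∀ x, HasDerivAt R (deriv R x) x := fun x =>
    (hR.differentiable (by simp) x).hasDerivAt
  have dR1 : ∀ x, HasDerivAt (deriv R) (deriv (deriv R) x) x := fun x =>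
    (hR1'.differentiable (by simp) x).hasDerivAt
  have du : ∀ x, HasDerivAt u (deriv u x) x := fun x =>
    (hu.differentiable (by simp) x).hasDerivAt
  have du1 : ∀ x, HasDerivAt (deriv u) (deriv (deriv u) x) x := fun x =>
    (hu1'.differentiable (by simp) x).hasDerivAt
  have e1 : ∀ x, HasDerivAt (fun z => R z ^ 2 * u z)
      (2 * R x * deriv R x * u x + R x ^ 2 * deriv u x) x := by
    intro x
    refine (((dR x).fun_pow 2).fun_mul (du x)).congr_deriv ?_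
    norm_num
  have e2 : ∀ x, HasDerivAt (fun x => 2 * R x * deriv R x * u x + R x ^ 2 * deriv u x)
      ((2 * deriv R x ^ 2 + 2 * R x * deriv (deriv R) x) * u x
        + 4 * R x * deriv R x * deriv u x + R x ^ 2 * deriv (deriv u) x) x := by
    intro x
    refine (((((dR x).const_mul 2).fun_mul (dR1 x)).fun_mul (du x)).fun_add
      (((dR x).fun_pow 2).fun_mul (du1 x))).congr_deriv ?_
    push_cast
    ring
  have f1 : deriv (fun z => R z ^ 2 * u z) = fun x =>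
      2 * R x * deriv R x * u x + R x ^ 2 * deriv u x := funext fun x => (e1 x).deriv
  rw [f1, (e2 z).deriv]
  have hτ : 0 ≤ τ := (abs_nonneg _).trans (h0 z)
  have hd10 : 0 ≤ d₁ := (abs_nonneg _).trans (hd1 z)
  have hd20 : 0 ≤ d₂ := (abs_nonneg _).trans (hd2 z)
  have hr0 := (hR0 z).le
  have hr1 := hR1 z
  have hr2 : R z ^ 2 ≤ 1 := pow_le_one₀ hr0 hr1
  have hr20 : 0 ≤ R z ^ 2 := sq_nonneg _
  have k1 : 0 ≤ d₁ * τ := mul_nonneg hd10 hτ
  have k2 : 0 ≤ d₂ * τ := mul_nonneg hd20 hτ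
  have k3 : 0 ≤ d₁ ^ 2 * τ := mul_nonneg (sq_nonneg _) hτ
  have a0 : |R z ^ 2 * u z| ≤ τ := by
    rw [abs_mul, abs_of_nonneg hr20]
    calc R z ^ 2 * |u z| ≤ 1 * τ := mul_le_mul hr2 (h0 z) (abs_nonneg _) zero_le_one
      _ = τ := one_mul _
  have a1 : |R z ^ 2 * deriv u z| ≤ τ := by
    rw [abs_mul, abs_of_nonneg hr20]
    calc R z ^ 2 * |deriv u z| ≤ 1 * τ := mul_le_mul hr2 (h1 z) (abs_nonneg _) zero_le_one
      _ = τ := one_mul _
  have a2 : |R z ^ 2 * deriv (deriv u) z| ≤ τ := by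
    rw [abs_mul, abs_of_nonneg hr20]
    calc R z ^ 2 * |deriv (deriv u) z| ≤ 1 * τ :=
          mul_le_mul hr2 (h2 z) (abs_nonneg _) zero_le_one
      _ = τ := one_mul _
  have a3 : |R z * deriv R z| ≤ d₁ := by
    rw [abs_mul, abs_of_nonneg hr0]
    calc R z * |deriv R z| ≤ 1 * d₁ := mul_le_mul hr1 (hd1 z) (abs_nonneg _) zero_le_one
      _ = d₁ := one_mul _
  have a4 : |R z * deriv (deriv R) z| ≤ d₂ := by
    rw [abs_mul, abs_of_nonneg hr0]
    calc R z * |deriv (deriv R) z| ≤ 1 * d₂ := mul_le_mul hr1 (hd2 z) (abs_nonneg _) zero_le_one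
      _ = d₂ := one_mul _
  have a5 : |R z * deriv R z * u z| ≤ d₁ * τ := by
    rw [abs_mul]; exact mul_le_mul a3 (h0 z) (abs_nonneg _) hd10
  have a6 : |R z * deriv R z * deriv u z| ≤ d₁ * τ := by
    rw [abs_mul]; exact mul_le_mul a3 (h1 z) (abs_nonneg _) hd10
  have a7 : |R z * deriv (deriv R) z * u z| ≤ d₂ * τ := by
    rw [abs_mul]; exact mul_le_mul a4 (h0 z) (abs_nonneg _) hd20
  have a8 : |deriv R z ^ 2 * u z| ≤ d₁ ^ 2 * τ := by
    rw [abs_mul, abs_pow]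
    exact mul_le_mul (pow_le_pow_left₀ (abs_nonneg _) (hd1 z) 2) (h0 z) (abs_nonneg _)
      (sq_nonneg _)
  refine ⟨?_, ?_, ?_⟩
  · linarith only [k1, k2, k3, a0]
  · change |2 * R z * deriv R z * u z + R z ^ 2 * deriv u z| ≤ _
    have e : 2 * R z * deriv R z * u z + R z ^ 2 * deriv u z
        = 2 * (R z * deriv R z * u z) + R z ^ 2 * deriv u z := by ring
    rw [e]
    refine (abs_add_le _ _).trans ?_
    rw [abs_mul, abs_two]
    linarith only [k1, k2, k3, a1, a5]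
  · have e : (2 * deriv R z ^ 2 + 2 * R z * deriv (deriv R) z) * u z
        + 4 * R z * deriv R z * deriv u z + R z ^ 2 * deriv (deriv u) z
        = (2 * (deriv R z ^ 2 * u z) + 2 * (R z * deriv (deriv R) z * u z))
          + (4 * (R z * deriv R z * deriv u z) + R z ^ 2 * deriv (deriv u) z) := by ring
    rw [e]
    refine (abs_add_le _ _).trans ?_
    have b1 := abs_add_le (2 * (deriv R z ^ 2 * u z)) (2 * (R z * deriv (deriv R) z * u z))
    have b2 := abs_add_le (4 * (R z * deriv R z * deriv u z)) (R z ^ 2 * deriv (deriv u) z)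
    rw [abs_mul 2, abs_mul 2, abs_two] at b1
    rw [abs_mul 4, abs_of_nonneg (by norm_num : (0:ℝ) ≤ 4)] at b2
    linarith only [a2, a6, a7, a8, b1, b2]

/-- The family of initial profiles `m_b = 1/h_b`. -/
theorem exists_fam {R ρ : ℝ → ℝ} {Rmin α : ℝ} (hR : Profile R Rmin α) {p : Polynomial ℝ}
    {zm zM : ℝ} (hl : ∀ z ≤ zm, R z = p.eval (exp z)) (hr : ∀ z, zM < z → ContDiffAt ℝ ∞ R z)
    {psi g : Fin 2 → ℝ → ℝ} (hψ : ∀ i, Continuous (psi i)) (hψc : ∀ i, HasCompactSupport (psi i))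
    {za zb Γ₀ Γ₁ Γ₂ E : ℝ}
    (hg : RDirs R ρ psi g za zb Γ₀ Γ₁ Γ₂ E) (hza : zm ≤ za) (hzb : zb ≤ zM) {A τ : ℝ} (hA : 0 ≤ A) (hτ : 0 < τ) :
    ∃ (m : (Fin 2 → ℝ) → ℝ → ℝ) (e : Fin 2 → ℝ → ℝ) (β : (Fin 2 → ℝ) → Fin 2 → ℝ)
      (u : (Fin 2 → ℝ) → ℝ → ℝ),
      (∀ b, ContDiff ℝ ∞ (m b)) ∧
      (∀ b z, z ≤ zm - 2 ∨ zM + 2 ≤ z → m b z = 1 / R z) ∧
      (∀ b i, ∫ z, psi i z * (m b z - 1 / R z) = b i) ∧
      (∀ b b' z, m b z - m b' z = ∑ j, (b j - b' j) * e j z) ∧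
      (∀ j, ContDiff ℝ ∞ (e j)) ∧ (∀ j z, z ≤ zm - 2 ∨ zM + 2 ≤ z → e j z = 0) ∧
      (∀ b, ContDiff ℝ 2 (u b)) ∧
      (∀ b z, m b z = 1 / R z + (∑ k, β b k * (g k z / R z ^ 2)) + u b z) ∧
      ∀ b, (∀ i, |b i| ≤ A) → (∀ k, |β b k| ≤ 2 * A + τ) ∧
        ∀ z, |u b z| ≤ τ ∧ |deriv (u b) z| ≤ τ ∧ |deriv (deriv (u b)) z| ≤ τ := by
  have hRpos : ∀ z, 0 < R z := fun z => hR.Rmin_pos.trans_le (hR.lower z)
  set r : ℝ → ℝ := fun z => 1 / R z with hr'
  have hmM : zm ≤ zM := hza.trans (hg.le.trans hzb)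
  have hR2 : ContDiff ℝ 2 R := hR.smooth.of_le (by (clear * -; norm_num))
  have hr2 : ContDiff ℝ 2 r := by
    rw [contDiff_iff_contDiffAt]
    intro z
    exact inv_contDiffAt (hR2.contDiffAt) (hRpos z).ne'
  have hrl : ∀ z, z < zm → ContDiffAt ℝ ∞ r z := by
    intro z hz
    refine inv_contDiffAt ?_ (hRpos z).ne'
    have : R =ᶠ[𝓝 z] fun z => p.eval (exp z) := by
      filter_upwards [Iio_mem_nhds hz] with y hy
      exact hl y (le_of_lt hy)
    refine ContDiffAt.congr_of_eventuallyEq ?_ this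
    have h1 : ContDiff ℝ ∞ (fun y : ℝ => p.eval y) := by simpa using p.contDiff_aeval (𝕜 := ℝ) ∞
    exact (h1.comp Real.contDiff_exp).contDiffAt
  have hrr : ∀ z, zM < z → ContDiffAt ℝ ∞ r z := fun z hz =>
    inv_contDiffAt (hr z hz) (hRpos z).ne'
  -- the functions `f k = g k / R²`
  set f : Fin 2 → ℝ → ℝ := fun k z => g k z / R z ^ 2 with hf
  have hf2 : ∀ k, ContDiff ℝ 2 (f k) := fun k =>
    (hg.smooth k).div (hR2.pow 2) fun z => pow_ne_zero 2 (hRpos z).ne'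
  have hfs0 : ∀ k z, z ≤ za ∨ zb ≤ z → f k z = 0 := by
    intro k z hz
    simp only [hf]
    rw [hg.supp k z hz, zero_div]
  -- constants
  set I : ℝ := ∑ i, ∫ z, |psi i z| with hI
  have hI0 : ∀ i, 0 ≤ ∫ z, |psi i z| := fun i => integral_nonneg fun z => abs_nonneg _
  have hIi : ∀ i, (∫ z, |psi i z|) ≤ I := fun i =>
    Finset.single_le_sum (f := fun i => ∫ z, |psi i z|) (fun j _ => hI0 j) (Finset.mem_univ i)
  have hI00 : 0 ≤ I := Finset.sum_nonneg fun j _ => hI0 j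
  set τ₂ : ℝ := min (1 / (24 * (1 + I))) (τ / (8 * (2 * A + τ))) with hτ₂
  have h2Aτ : 0 < 2 * A + τ := by linarith only [hA, hτ]
  have hτ₂0 : 0 < τ₂ := by
    refine lt_min (by (clear * -; positivity)) (by (clear * - hτ hA; positivity))
  have hτ₂a : I * τ₂ ≤ 1 / 24 := by
    have : τ₂ ≤ 1 / (24 * (1 + I)) := min_le_left _ _
    calc I * τ₂ ≤ (1 + I) * (1 / (24 * (1 + I))) :=
          mul_le_mul (by linarith only []) this hτ₂0.le (by linarith only [hI00])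
      _ = 1 / 24 := by (clear * - hI00; field_simp)
  have hτ₂b : 8 * (2 * A + τ) * τ₂ ≤ τ := by
    have : τ₂ ≤ τ / (8 * (2 * A + τ)) := min_le_right _ _
    calc 8 * (2 * A + τ) * τ₂ ≤ 8 * (2 * A + τ) * (τ / (8 * (2 * A + τ))) := by (clear * - this hA hτ; gcongr)
      _ = τ := by field_simp
  set τ₁ : ℝ := min (τ / 4) (τ / (2 * (1 + I))) with hτ₁
  have hτ₁0 : 0 < τ₁ := by
    refine lt_min (by positivity) (by (clear * - hτ; positivity))
  have hτ₁a : τ₁ ≤ τ / 4 := min_le_left _ _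
  have hτ₁b : I * τ₁ ≤ τ / 2 := by
    have : τ₁ ≤ τ / (2 * (1 + I)) := min_le_right _ _
    calc I * τ₁ ≤ (1 + I) * (τ / (2 * (1 + I))) :=
          mul_le_mul (by linarith only []) this hτ₁0.le (by linarith only [hI00])
      _ = _ := by (clear * - hI00 hτ; field_simp)
  -- smooth approximations
  obtain ⟨S, hS, hSR, hSb⟩ := exists_smooth_near_global hr2 hmM hrl hrr hτ₁0
  have hfs : ∀ j, (∀ z, z < zm → ContDiffAt ℝ ∞ (f j) z) ∧
      (∀ z, zM < z → ContDiffAt ℝ ∞ (f j) z) := by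
    intro j
    constructor
    · intro z hz
      have : f j =ᶠ[𝓝 z] fun _ => 0 := by
        filter_upwards [Iio_mem_nhds hz] with y hy
        exact hfs0 j y (Or.inl ((le_of_lt hy).trans hza))
      exact contDiffAt_const.congr_of_eventuallyEq this
    · intro z hz
      have : f j =ᶠ[𝓝 z] fun _ => 0 := by
        filter_upwards [Ioi_mem_nhds hz] with y hy
        exact hfs0 j y (Or.inr (hzb.trans (le_of_lt hy)))
      exact contDiffAt_const.congr_of_eventuallyEq this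
  choose γ hγ hγf hγb using fun j =>
    exists_smooth_near_global (hf2 j) hmM (hfs j).1 (hfs j).2 hτ₂0
  have hγ0 : ∀ j z, z ≤ zm - 2 ∨ zM + 2 ≤ z → γ j z = 0 := by
    intro j z hz
    rw [hγf j z hz]
    refine hfs0 j z ?_
    rcases hz with h | h
    · exact Or.inl (by linarith only [hza, h])
    · exact Or.inr (by linarith only [hzb, h])
  -- Gram matrix
  set M : Fin 2 → Fin 2 → ℝ := fun i j => ∫ z, psi i z * γ j z with hM
  have hfc : ∀ j, Continuous (f j) := fun j => (hf2 j).continuous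
  have intg : ∀ i (u : ℝ → ℝ), Continuous u → Integrable (fun z => psi i z * u z) := by
    intro i u hu
    exact ((hψ i).mul hu).integrable_of_hasCompactSupport ((hψc i).mul_right)
  have hgram : ∀ i j, |(∫ z, psi i z * f j z) - (if i = j then 1 else 0)| ≤ 1 / 8 := by
    intro i j
    have : (fun z => psi i z * f j z) = fun z => psi i z * g j z / R z ^ 2 := by
      funext z; simp only [hf]; ring
    rw [this]
    exact hg.gram i j
  have hMd : ∀ i j, |M i j - (if i = j then 1 else 0)| ≤ 1 / 6 := by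
    intro i j
    have h1 : M i j - (∫ z, psi i z * f j z) = ∫ z, psi i z * (γ j z - f j z) := by
      simp only [hM]
      rw [← integral_sub (intg i _ (hγ j).continuous) (intg i _ (hfc j))]
      congr 1; funext z; ring
    have h2 : |M i j - (∫ z, psi i z * f j z)| ≤ 1 / 24 := by
      rw [h1]
      refine (abs_integral_mul_le (hψ i) (hψc i) ((hγ j).continuous.sub (hfc j))
        (fun z => (hγb j z).1)).trans ?_
      exact (mul_le_mul_of_nonneg_right (hIi i) hτ₂0.le).trans hτ₂a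
    have h3 := hgram i j
    have : M i j - (if i = j then 1 else 0)
        = (M i j - (∫ z, psi i z * f j z)) + ((∫ z, psi i z * f j z) - (if i = j then 1 else 0)) := by
      ring
    rw [this]
    refine (abs_add_le _ _).trans ?_
    linarith only [h2, h3]
  obtain ⟨N, hMN, hN⟩ := exists_inverse hMd
  set c : Fin 2 → ℝ := fun i => ∫ z, psi i z * (S z - r z) with hc
  have hrc : Continuous r := hr2.continuous
  have hcb : ∀ i, |c i| ≤ τ / 2 := by
    intro i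
    refine (abs_integral_mul_le (hψ i) (hψc i) (hS.continuous.sub hrc)
        (fun z => (hSb z).1)).trans ?_
    exact (mul_le_mul_of_nonneg_right (hIi i) hτ₁0.le).trans hτ₁b
  set e : Fin 2 → ℝ → ℝ := fun j z => ∑ k, γ k z * N k j with he
  have hec : ∀ j, ContDiff ℝ ∞ (e j) := by
    intro j
    exact ContDiff.sum fun k _ => (hγ k).mul contDiff_const
  set m : (Fin 2 → ℝ) → ℝ → ℝ := fun b z => S z + ∑ j, (b j - c j) * e j z with hm
  set β : (Fin 2 → ℝ) → Fin 2 → ℝ := fun b k => ∑ j, (b j - c j) * N k j with hβ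
  have hmβ : ∀ b z, m b z = S z + ∑ k, β b k * γ k z := by
    intro b z
    simp only [hm, he, hβ, Fin.sum_univ_two]
    ring
  have hβb : ∀ b, (∀ i, |b i| ≤ A) → ∀ k, |β b k| ≤ 2 * A + τ := by
    intro b hb k
    have h1 : ∀ j, |b j - c j| ≤ A + τ / 2 := fun j =>
      (abs_sub _ _).trans (add_le_add (hb j) (hcb j))
    calc |β b k| ≤ ∑ j, |(b j - c j) * N k j| := Finset.abs_sum_le_sum_abs _ _
      _ ≤ ∑ j, (A + τ / 2) * |N k j| := by
          refine Finset.sum_le_sum fun j _ => ?_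
          rw [abs_mul]
          exact mul_le_mul_of_nonneg_right (h1 j) (abs_nonneg _)
      _ = (A + τ / 2) * ∑ j, |N k j| := by rw [Finset.mul_sum]
      _ ≤ (A + τ / 2) * 2 := mul_le_mul_of_nonneg_left (hN k) (by (clear * - hA hτ; positivity))
      _ = _ := by ring
  -- the remainder
  set u : (Fin 2 → ℝ) → ℝ → ℝ := fun b z => (S z - r z) + ∑ k, β b k * (γ k z - f k z) with hu
  have hS2 : ContDiff ℝ 2 S := contDiff_infty.1 hS 2
  have hγ2 : ∀ k, ContDiff ℝ 2 (γ k) := fun k => contDiff_infty.1 (hγ k) 2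
  have hu2 : ∀ b, ContDiff ℝ 2 (u b) := fun b =>
    (hS2.sub hr2).add (ContDiff.sum fun k _ => contDiff_const.mul ((hγ2 k).sub (hf2 k)))
  have hd : ∀ (v : ℝ → ℝ), ContDiff ℝ 2 v → (∀ z, HasDerivAt v (deriv v z) z) ∧
      ∀ z, HasDerivAt (deriv v) (deriv (deriv v) z) z := by
    intro v hv
    have hv1 : ContDiff ℝ 1 (deriv v) := by
      have : ContDiff ℝ (1 + 1) v := by simpa [one_add_one_eq_two] using hv
      exact (contDiff_succ_iff_deriv.1 this).2.2
    exact ⟨fun z => (hv.differentiable (by simp) z).hasDerivAt,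
      fun z => (hv1.differentiable (by simp) z).hasDerivAt⟩
  have du : ∀ b z, HasDerivAt (u b) ((deriv S z - deriv r z)
      + ∑ k, β b k * (deriv (γ k) z - deriv (f k) z)) z := by
    intro b z
    exact (((hd S hS2).1 z).fun_sub ((hd r hr2).1 z)).fun_add
      (HasDerivAt.fun_sum fun k _ =>
        (((hd _ (hγ2 k)).1 z).fun_sub ((hd _ (hf2 k)).1 z)).const_mul (β b k))
  have eu : ∀ b, deriv (u b) = fun z => (deriv S z - deriv r z)
      + ∑ k, β b k * (deriv (γ k) z - deriv (f k) z) := fun b => funext fun z => (du b z).deriv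
  have du1 : ∀ b z, HasDerivAt (deriv (u b)) ((deriv (deriv S) z - deriv (deriv r) z)
      + ∑ k, β b k * (deriv (deriv (γ k)) z - deriv (deriv (f k)) z)) z := by
    intro b z
    rw [eu b]
    exact (((hd S hS2).2 z).fun_sub ((hd r hr2).2 z)).fun_add
      (HasDerivAt.fun_sum fun k _ =>
        (((hd _ (hγ2 k)).2 z).fun_sub ((hd _ (hf2 k)).2 z)).const_mul (β b k))
  have hbd : ∀ b, (∀ i, |b i| ≤ A) → ∀ (x y : ℝ) (X Y : Fin 2 → ℝ), |x - y| ≤ τ₁ →
      (∀ k, |X k - Y k| ≤ τ₂) → |(x - y) + ∑ k, β b k * (X k - Y k)| ≤ τ := by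
    intro b hb x y X Y hxy hXY
    have h1 : |∑ k, β b k * (X k - Y k)| ≤ ∑ _k : Fin 2, (2 * A + τ) * τ₂ := by
      refine (Finset.abs_sum_le_sum_abs _ _).trans (Finset.sum_le_sum fun k _ => ?_)
      rw [abs_mul]
      exact mul_le_mul (hβb b hb k) (hXY k) (abs_nonneg _) h2Aτ.le
    refine (abs_add_le _ _).trans ?_
    simp only [Fin.sum_univ_two] at h1 ⊢
    linarith only [hτ₂b, hτ₁0, hτ₁a, hxy, h1]
  refine ⟨m, e, β, u, ?_, ?_, ?_, ?_, hec, ?_, hu2, ?_, ?_⟩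
  · intro b
    exact hS.add (ContDiff.sum fun j _ => contDiff_const.mul (hec j))
  · intro b z hz
    rw [hmβ]
    have h1 : S z = r z := hSR z hz
    have h2 : ∀ k, γ k z = 0 := fun k => hγ0 k z hz
    simp [h1, h2, hr']
  · intro b i
    have h1 : ∀ z, psi i z * (m b z - 1 / R z)
        = psi i z * (S z - r z) + ∑ k, β b k * (psi i z * γ k z) := by
      intro z
      rw [hmβ]
      simp only [hr', Fin.sum_univ_two]
      ring
    simp_rw [h1]
    have i1 : Integrable (fun z => psi i z * (S z - r z)) :=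
      intg i (fun z => S z - r z) (hS.continuous.sub hrc)
    have i2 : ∀ k ∈ Finset.univ, Integrable (fun z => β b k * (psi i z * γ k z)) :=
      fun k _ => (intg i _ (hγ k).continuous).const_mul _
    rw [integral_add i1 (integrable_finsetSum _ i2), integral_finsetSum _ i2]
    simp_rw [integral_const_mul]
    change c i + ∑ k, β b k * M i k = b i
    have h2 : ∑ k, β b k * M i k = ∑ j, (b j - c j) * ∑ k, M i k * N k j := by
      simp only [hβ, Fin.sum_univ_two]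
      ring
    rw [h2]
    simp_rw [hMN]
    simp
  · intro b b' z
    simp only [hm, Fin.sum_univ_two]
    ring
  · intro j z hz
    simp only [he, Fin.sum_univ_two, Fin.isValue, hγ0 _ z hz, zero_mul, add_zero]
  · intro b z
    rw [hmβ]
    simp only [hu, hr', hf, Fin.sum_univ_two]
    ring
  · intro b hb
    refine ⟨hβb b hb, fun z => ⟨?_, ?_, ?_⟩⟩
    · exact hbd b hb _ _ _ _ (hSb z).1 fun k => (hγb k z).1
    · rw [(du b z).deriv]
      exact hbd b hb _ _ _ _ (hSb z).2.1 fun k => (hγb k z).2.1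
    · rw [(du1 b z).deriv]
      exact hbd b hb _ _ _ _ (hSb z).2.2 fun k => (hγb k z).2.2

/-- derivatives of a `C²` function -/
theorem derivs2 {v : ℝ → ℝ} (hv : ContDiff ℝ 2 v) :
    (∀ z, HasDerivAt v (deriv v z) z) ∧ (∀ z, HasDerivAt (deriv v) (deriv (deriv v) z) z) ∧
      Continuous (deriv (deriv v)) := by
  have hv1 : ContDiff ℝ 1 (deriv v) := by
    have : ContDiff ℝ (1 + 1) v := by simpa [one_add_one_eq_two] using hv
    exact (contDiff_succ_iff_deriv.1 this).2.2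
  exact ⟨fun z => (hv.differentiable (by simp) z).hasDerivAt,
    fun z => (hv1.differentiable (by simp) z).hasDerivAt, hv1.continuous_deriv le_rfl⟩

theorem om_eq (v : ℝ → ℝ) (z : ℝ) : om v z = deriv (deriv v) z - 3 * deriv v z + 2 * v z := by
  rw [om, iteratedDeriv_succ, iteratedDeriv_one]

theorem om_bound {v : ℝ → ℝ} {ε z : ℝ} (h0 : |v z| ≤ ε) (h1 : |deriv v z| ≤ ε)
    (h2 : |deriv (deriv v) z| ≤ ε) : |om v z| ≤ 6 * ε := by
  rw [om_eq]
  rw [abs_le] at *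
  constructor <;> linarith only [h0, h1, h2]

/-- Algebra of `F = q²/(R+q)`. -/
theorem quad_alg {h h₁ h₂ q q₁ q₂ μ D₁ D₂ ε₀ ε₁ ε₂ : ℝ} (hμ : 0 < μ) (hh : μ ≤ h)
    (hh1 : |h₁| ≤ D₁) (hh2 : |h₂| ≤ D₂) (hq : |q| ≤ ε₀) (hq1 : |q₁| ≤ ε₁) (hq2 : |q₂| ≤ ε₂) :
    |(2 * q₁ ^ 2 / h + 2 * q * q₂ / h - 4 * q * q₁ * h₁ / h ^ 2 - q ^ 2 * h₂ / h ^ 2
        + 2 * q ^ 2 * h₁ ^ 2 / h ^ 3) - 3 * (2 * q * q₁ / h - q ^ 2 * h₁ / h ^ 2)
        + 2 * (q ^ 2 / h)|
      ≤ (2 * ε₁ ^ 2 + 2 * ε₀ * ε₂ + 6 * ε₀ * ε₁ + 2 * ε₀ ^ 2) / μ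
        + (4 * ε₀ * ε₁ * D₁ + ε₀ ^ 2 * (3 * D₁ + D₂)) / μ ^ 2
        + 2 * ε₀ ^ 2 * D₁ ^ 2 / μ ^ 3 := by
  have h0 : 0 < h := hμ.trans_le hh
  have hε0 : 0 ≤ ε₀ := (abs_nonneg _).trans hq
  have hε1 : 0 ≤ ε₁ := (abs_nonneg _).trans hq1
  have hε2 : 0 ≤ ε₂ := (abs_nonneg _).trans hq2
  have hD1 : 0 ≤ D₁ := (abs_nonneg _).trans hh1
  have hD2 : 0 ≤ D₂ := (abs_nonneg _).trans hh2
  have i1 : 1 / h ≤ 1 / μ := one_div_le_one_div_of_le hμ hh
  have i10 : 0 ≤ 1 / h := by positivity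
  have i2 : 1 / h ^ 2 ≤ 1 / μ ^ 2 := one_div_le_one_div_of_le (by positivity) (by gcongr)
  have i20 : 0 ≤ 1 / h ^ 2 := by positivity
  have i3 : 1 / h ^ 3 ≤ 1 / μ ^ 3 := one_div_le_one_div_of_le (by positivity) (by (clear * - hμ hh; gcongr))
  have i30 : 0 ≤ 1 / h ^ 3 := by positivity
  -- products of two small quantities
  have pr : ∀ x y a b : ℝ, |x| ≤ a → |y| ≤ b → 0 ≤ a → |x * y| ≤ a * b := by
    intro x y a b hx hy ha
    rw [abs_mul]
    exact mul_le_mul hx hy (abs_nonneg _) ha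
  have t1 : ∀ x y a i j : ℝ, |x * y| ≤ a → 0 ≤ i → i ≤ j → |x * y * i| ≤ a * j := by
    intro x y a i j hxy hi hij
    rw [abs_mul, abs_of_nonneg hi]
    exact mul_le_mul hxy hij hi ((abs_nonneg _).trans hxy)
  have t2 : ∀ x y e a D i j : ℝ, |x * y| ≤ e → |a| ≤ D → 0 ≤ i → i ≤ j →
      |x * y * a * i| ≤ e * D * j := by
    intro x y e a D i j hxy ha hi hij
    have he := (abs_nonneg _).trans hxy
    have hD := (abs_nonneg _).trans ha
    rw [abs_mul, abs_of_nonneg hi, abs_mul]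
    exact mul_le_mul (mul_le_mul hxy ha (abs_nonneg _) he) hij hi (by (clear * - he hD; positivity))
  have a1 := t1 q₁ q₁ _ _ _ (pr _ _ _ _ hq1 hq1 hε1) i10 i1
  have a2 := t1 q q₂ _ _ _ (pr _ _ _ _ hq hq2 hε0) i10 i1
  have a3 := t2 q q₁ _ h₁ D₁ _ _ (pr _ _ _ _ hq hq1 hε0) hh1 i20 i2
  have a4 := t2 q q _ h₂ D₂ _ _ (pr _ _ _ _ hq hq hε0) hh2 i20 i2
  have a5 := t2 q q _ (h₁ ^ 2) (D₁ ^ 2) _ _ (pr _ _ _ _ hq hq hε0)
    (by rw [abs_pow]; exact pow_le_pow_left₀ (abs_nonneg _) hh1 2) i30 i3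
  have a6 := t1 q q₁ _ _ _ (pr _ _ _ _ hq hq1 hε0) i10 i1
  have a7 := t2 q q _ h₁ D₁ _ _ (pr _ _ _ _ hq hq hε0) hh1 i20 i2
  have a8 := t1 q q _ _ _ (pr _ _ _ _ hq hq hε0) i10 i1
  have e : (2 * q₁ ^ 2 / h + 2 * q * q₂ / h - 4 * q * q₁ * h₁ / h ^ 2 - q ^ 2 * h₂ / h ^ 2
        + 2 * q ^ 2 * h₁ ^ 2 / h ^ 3) - 3 * (2 * q * q₁ / h - q ^ 2 * h₁ / h ^ 2)
        + 2 * (q ^ 2 / h)
      = 2 * (q₁ * q₁ * (1 / h)) + 2 * (q * q₂ * (1 / h)) - 4 * (q * q₁ * h₁ * (1 / h ^ 2))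
        - q * q * h₂ * (1 / h ^ 2) + 2 * (q * q * h₁ ^ 2 * (1 / h ^ 3))
        - 6 * (q * q₁ * (1 / h)) + 3 * (q * q * h₁ * (1 / h ^ 2)) + 2 * (q * q * (1 / h)) := by
    ring
  have e' : (2 * ε₁ ^ 2 + 2 * ε₀ * ε₂ + 6 * ε₀ * ε₁ + 2 * ε₀ ^ 2) / μ
        + (4 * ε₀ * ε₁ * D₁ + ε₀ ^ 2 * (3 * D₁ + D₂)) / μ ^ 2
        + 2 * ε₀ ^ 2 * D₁ ^ 2 / μ ^ 3
      = 2 * (ε₁ * ε₁ * (1 / μ)) + 2 * (ε₀ * ε₂ * (1 / μ)) + 4 * (ε₀ * ε₁ * D₁ * (1 / μ ^ 2))
        + ε₀ * ε₀ * D₂ * (1 / μ ^ 2) + 2 * (ε₀ * ε₀ * D₁ ^ 2 * (1 / μ ^ 3))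
        + 6 * (ε₀ * ε₁ * (1 / μ)) + 3 * (ε₀ * ε₀ * D₁ * (1 / μ ^ 2))
        + 2 * (ε₀ * ε₀ * (1 / μ)) := by
    ring
  rw [e, e']
  rw [abs_le] at *
  constructor <;> linarith only [a1, a2, a3, a4, a5, a6, a7, a8]

/-- `om (q²/(R+q))`. -/
theorem quad_bound {R q : ℝ → ℝ} (hR : ContDiff ℝ 2 R) (hq : ContDiff ℝ 2 q)
    {μ D₁ D₂ ε₀ ε₁ ε₂ : ℝ}
    (hμ : 0 < μ) (hh : ∀ z, μ ≤ R z + q z) (hD1 : ∀ z, |deriv R z| + ε₁ ≤ D₁)
    (hD2 : ∀ z, |deriv (deriv R) z| + ε₂ ≤ D₂) (h0 : ∀ z, |q z| ≤ ε₀)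
    (h1 : ∀ z, |deriv q z| ≤ ε₁) (h2 : ∀ z, |deriv (deriv q) z| ≤ ε₂) (z : ℝ) :
    |om (fun z => q z ^ 2 / (R z + q z)) z|
      ≤ (2 * ε₁ ^ 2 + 2 * ε₀ * ε₂ + 6 * ε₀ * ε₁ + 2 * ε₀ ^ 2) / μ
        + (4 * ε₀ * ε₁ * D₁ + ε₀ ^ 2 * (3 * D₁ + D₂)) / μ ^ 2
        + 2 * ε₀ ^ 2 * D₁ ^ 2 / μ ^ 3 := by
  obtain ⟨dR, dR1, -⟩ := derivs2 hR
  obtain ⟨dq, dq1, -⟩ := derivs2 hq
  have hne : ∀ z, R z + q z ≠ 0 := fun z => (hμ.trans_le (hh z)).ne'
  have e1 : ∀ x, HasDerivAt (fun z => q z ^ 2 / (R z + q z))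
      (2 * q x * deriv q x / (R x + q x)
        - q x ^ 2 * (deriv R x + deriv q x) / (R x + q x) ^ 2) x := by
    intro x
    refine (((dq x).fun_pow 2).fun_div ((dR x).fun_add (dq x)) (hne x)).congr_deriv ?_
    have := hne x
    push_cast
    (clear * - this; field_simp)
  have f1 : deriv (fun z => q z ^ 2 / (R z + q z)) = fun x =>
      2 * q x * deriv q x / (R x + q x)
        - q x ^ 2 * (deriv R x + deriv q x) / (R x + q x) ^ 2 := funext fun x => (e1 x).deriv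
  have e2 : HasDerivAt (fun x => 2 * q x * deriv q x / (R x + q x)
        - q x ^ 2 * (deriv R x + deriv q x) / (R x + q x) ^ 2)
      (2 * deriv q z ^ 2 / (R z + q z) + 2 * q z * deriv (deriv q) z / (R z + q z)
        - 4 * q z * deriv q z * (deriv R z + deriv q z) / (R z + q z) ^ 2
        - q z ^ 2 * (deriv (deriv R) z + deriv (deriv q) z) / (R z + q z) ^ 2
        + 2 * q z ^ 2 * (deriv R z + deriv q z) ^ 2 / (R z + q z) ^ 3) z := by
    refine (((((dq z).const_mul 2).fun_mul (dq1 z)).fun_div ((dR z).fun_add (dq z))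
      (hne z)).fun_sub ((((dq z).fun_pow 2).fun_mul ((dR1 z).fun_add (dq1 z))).fun_div
        (((dR z).fun_add (dq z)).fun_pow 2) (pow_ne_zero 2 (hne z)))).congr_deriv ?_
    have := hne z
    push_cast
    field_simp
    ring
  rw [om_eq, f1, e2.deriv]
  have g1 : |deriv R z + deriv q z| ≤ D₁ :=
    (abs_add_le _ _).trans (by linarith only [hD1 z, h1 z])
  have g2 : |deriv (deriv R) z + deriv (deriv q) z| ≤ D₂ :=
    (abs_add_le _ _).trans (by linarith only [hD2 z, h2 z])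
  exact quad_alg hμ (hh z) g1 g2 (h0 z) (h1 z) (h2 z)

/-- Minkowski for three terms with weight. -/
theorem nrm_add {ρ u v : ℝ → ℝ} (hρ : Continuous ρ) (hρ0 : ∀ z, 0 < ρ z) (hu : Continuous u)
    (hv : Continuous v) (hu0 : HasCompactSupport u) (hv0 : HasCompactSupport v) {a b : ℝ}
    (ha : 0 ≤ a) (hb : 0 ≤ b)
    (hua : ∫ z, ρ z * u z ^ 2 ≤ a ^ 2) (hvb : ∫ z, ρ z * v z ^ 2 ≤ b ^ 2) :
    ∫ z, ρ z * (u z + v z) ^ 2 ≤ (a + b) ^ 2 := by
  set s : ℝ → ℝ := fun z => √(ρ z) with hs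
  have hsc : Continuous s := hρ.sqrt
  have hs2 : ∀ z, s z ^ 2 = ρ z := fun z => Real.sq_sqrt (hρ0 z).le
  have key : ∀ (w F : ℝ → ℝ), HasCompactSupport w → Continuous F → (∀ z, w z = 0 → F z = 0) →
      Integrable F := by
    intro w F hw hF h
    refine hF.integrable_of_hasCompactSupport (hw.mono ?_)
    intro z hz h'
    exact hz (h z h')
  have iu : Integrable (fun z => (s z * u z) ^ 2) :=
    key u _ hu0 ((hsc.mul hu).pow 2) fun z hz => by
      rw [hz]; simp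
  have iv : Integrable (fun z => (s z * v z) ^ 2) :=
    key v _ hv0 ((hsc.mul hv).pow 2) fun z hz => by
      rw [hz]; simp
  have iuv : Integrable (fun z => (s z * u z) * (s z * v z)) :=
    key u _ hu0 ((hsc.mul hu).mul (hsc.mul hv)) fun z hz => by
      rw [hz]; simp
  have cs := integral_mul_sq_le iu iv iuv
  have e1 : ∀ z, (s z * u z) ^ 2 = ρ z * u z ^ 2 := fun z => by rw [mul_pow, hs2]
  have e2 : ∀ z, (s z * v z) ^ 2 = ρ z * v z ^ 2 := fun z => by rw [mul_pow, hs2]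
  have e3 : ∀ z, ρ z * (u z + v z) ^ 2
      = (s z * u z) ^ 2 + 2 * ((s z * u z) * (s z * v z)) + (s z * v z) ^ 2 := by
    intro z; rw [← hs2]; ring
  simp_rw [← e1] at hua
  simp_rw [← e2] at hvb
  simp_rw [e3]
  have i12 : Integrable (fun z => (s z * u z) ^ 2 + 2 * ((s z * u z) * (s z * v z))) :=
    iu.add (iuv.const_mul 2)
  rw [integral_add i12 iv, integral_add iu (iuv.const_mul 2),
    integral_const_mul]
  have h0 : 0 ≤ ∫ z, (s z * u z) ^ 2 := integral_nonneg fun z => sq_nonneg _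
  have h1 : 0 ≤ ∫ z, (s z * v z) ^ 2 := integral_nonneg fun z => sq_nonneg _
  have h2 : (∫ z, (s z * u z) * (s z * v z)) ≤ a * b := by
    refine abs_le_of_sq_le_sq' ?_ (mul_nonneg ha hb) |>.2
    calc _ ≤ _ := cs
      _ ≤ a ^ 2 * b ^ 2 := mul_le_mul hua hvb h1 (sq_nonneg _)
      _ = _ := by ring
  linarith

/-- Energy of a compactly supported function with bounded `om`. -/
theorem NN_le_of_bound {ρ v : ℝ → ℝ} (hρ : Continuous ρ) (hρ0 : ∀ z, 0 < ρ z)
    (_hv : ContDiff ℝ 2 v) {z₁ z₂ K P : ℝ} (h12 : ∀ z, z ≤ z₁ ∨ z₂ ≤ z → om v z = 0)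
    (hK : ∀ z, |om v z| ≤ K) (_hP0 : 0 ≤ P) (hP : ∫ z in Icc z₁ z₂, ρ z ≤ P ^ 2) :
    NN ρ v ≤ (P * K) ^ 2 := by
  have hK0 : 0 ≤ K := (abs_nonneg _).trans (hK 0)
  unfold NN
  have hρi : IntegrableOn ρ (Icc z₁ z₂) := hρ.continuousOn.integrableOn_Icc
  calc ∫ z, ρ z * om v z ^ 2 ≤ ∫ z, (Icc z₁ z₂).indicator (fun z => ρ z * K ^ 2) z := by
        refine integral_mono_of_nonneg (Eventually.of_forall fun z =>
          mul_nonneg (hρ0 z).le (sq_nonneg _)) ?_ (Eventually.of_forall fun z => ?_)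
        · exact (integrable_indicator_iff measurableSet_Icc).2 (hρi.mul_const _)
        · by_cases hz : z ∈ Icc z₁ z₂
          · simp only [indicator_of_mem hz]
            have : om v z ^ 2 ≤ K ^ 2 := by
              rw [← sq_abs (om v z)]
              exact pow_le_pow_left₀ (abs_nonneg _) (hK z) 2
            exact mul_le_mul_of_nonneg_left this (hρ0 z).le
          · simp only [indicator_of_notMem hz]
            have : z ≤ z₁ ∨ z₂ ≤ z := by
              by_contra h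
              push Not at h
              exact hz ⟨h.1.le, h.2.le⟩
            rw [h12 z this]
            simp
    _ = (∫ z in Icc z₁ z₂, ρ z) * K ^ 2 := by
        rw [integral_indicator measurableSet_Icc, integral_mul_const]
    _ ≤ P ^ 2 * K ^ 2 := mul_le_mul_of_nonneg_right hP (sq_nonneg _)
    _ = _ := by ring

theorem om_add {u v : ℝ → ℝ} (hu : ContDiff ℝ 2 u) (hv : ContDiff ℝ 2 v) (z : ℝ) :
    om (fun z => u z + v z) z = om u z + om v z := by
  obtain ⟨du, du1, -⟩ := derivs2 hu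
  obtain ⟨dv, dv1, -⟩ := derivs2 hv
  have e1 : deriv (fun z => u z + v z) = fun z => deriv u z + deriv v z :=
    funext fun z => ((du z).fun_add (dv z)).deriv
  rw [om_eq, om_eq, om_eq, e1, ((du1 z).fun_add (dv1 z)).deriv]
  ring

theorem om_smul {u : ℝ → ℝ} (hu : ContDiff ℝ 2 u) (c z : ℝ) :
    om (fun z => c * u z) z = c * om u z := by
  obtain ⟨du, du1, -⟩ := derivs2 hu
  have e1 : deriv (fun z => c * u z) = fun z => c * deriv u z :=
    funext fun z => ((du z).const_mul c).deriv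
  rw [om_eq, om_eq, e1, ((du1 z).const_mul c).deriv]
  ring

theorem NN_smul {ρ u : ℝ → ℝ} (hu : ContDiff ℝ 2 u) (c : ℝ) :
    NN ρ (fun z => c * u z) = c ^ 2 * NN ρ u := by
  unfold NN
  rw [← integral_const_mul]
  congr 1
  funext z
  rw [om_smul hu]
  ring

theorem om_continuous {v : ℝ → ℝ} (hv : ContDiff ℝ 2 v) : Continuous (om v) := by
  have h : om v = fun z => deriv (deriv v) z - 3 * deriv v z + 2 * v z := funext (om_eq v)
  have h1 := (derivs2 hv).2.2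
  have h2 : Continuous (deriv v) := by
    rw [continuous_iff_continuousAt]
    exact fun z => ((derivs2 hv).2.1 z).continuousAt
  have h3 := hv.continuous
  rw [h]
  (clear * - hv h2 h3; fun_prop)

/-- derivatives vanish where the function vanishes on a closed half-line (by continuity) -/
theorem om_zero_of {v : ℝ → ℝ} (hv : ContDiff ℝ 2 v) {z₁ z₂ : ℝ}
    (h : ∀ z, z ≤ z₁ ∨ z₂ ≤ z → v z = 0) : ∀ z, z ≤ z₁ ∨ z₂ ≤ z → om v z = 0 := by
  have hopen : ∀ z, z < z₁ ∨ z₂ < z → om v z = 0 := by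
    intro z hz
    have hev : v =ᶠ[𝓝 z] fun _ => 0 := by
      rcases hz with hz | hz
      · filter_upwards [Iio_mem_nhds hz] with y hy using h y (Or.inl (le_of_lt hy))
      · filter_upwards [Ioi_mem_nhds hz] with y hy using h y (Or.inr (le_of_lt hy))
    have h1 : deriv v =ᶠ[𝓝 z] fun _ => 0 := by
      have := hev.deriv
      simpa only [deriv_const'] using this
    rw [om_eq, hev.eq_of_nhds, h1.eq_of_nhds, h1.deriv_eq]
    simp
  have hc := om_continuous hv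
  intro z hz
  rcases hz with hz | hz
  · have : z ∈ closure (Iio z₁) := by rw [closure_Iio]; exact hz
    exact (isClosed_eq hc continuous_const).closure_subset_iff.2
      (fun y hy => hopen y (Or.inl hy)) this
  · have : z ∈ closure (Ioi z₂) := by rw [closure_Ioi]; exact hz
    exact (isClosed_eq hc continuous_const).closure_subset_iff.2
      (fun y hy => hopen y (Or.inr hy)) this

theorem NN_add {ρ u v : ℝ → ℝ} (hρ : Continuous ρ) (hρ0 : ∀ z, 0 < ρ z) (hu : ContDiff ℝ 2 u)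
    (hv : ContDiff ℝ 2 v) {z₁ z₂ : ℝ} (hu0 : ∀ z, z ≤ z₁ ∨ z₂ ≤ z → u z = 0)
    (hv0 : ∀ z, z ≤ z₁ ∨ z₂ ≤ z → v z = 0) {a b : ℝ} (ha : 0 ≤ a) (hb : 0 ≤ b)
    (hua : NN ρ u ≤ a ^ 2) (hvb : NN ρ v ≤ b ^ 2) :
    NN ρ (fun z => u z + v z) ≤ (a + b) ^ 2 := by
  have hc : ∀ w : ℝ → ℝ, (∀ z, z ≤ z₁ ∨ z₂ ≤ z → w z = 0) → HasCompactSupport w := by
    intro w hw
    refine HasCompactSupport.of_support_subset_isCompact (isCompact_Icc (a := z₁) (b := z₂)) ?_
    intro z hz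
    by_contra h
    refine hz (hw z ?_)
    by_contra h'
    push Not at h'
    exact h ⟨h'.1.le, h'.2.le⟩
  have := nrm_add hρ hρ0 (om_continuous hu) (om_continuous hv) (hc _ (om_zero_of hu hu0))
    (hc _ (om_zero_of hv hv0)) ha hb hua hvb
  unfold NN
  simp_rw [om_add hu hv]
  exact this

/-- `C²` bounds and energy of `w = 1/m - R` for `m = 1/R + (β₀ g₀ + β₁ g₁)/R² + u`. -/
theorem w_energy {R ρ : ℝ → ℝ} {Rmin α : ℝ} (hρ : Continuous ρ) (hρ0 : ∀ z, 0 < ρ z)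
    (hR : Profile R Rmin α) {psi g : Fin 2 → ℝ → ℝ} {za zb Γ₀ Γ₁ Γ₂ E : ℝ}
    (hg : RDirs R ρ psi g za zb Γ₀ Γ₁ Γ₂ E) {z₁ z₂ : ℝ} (hza : z₁ ≤ za) (hzb : zb ≤ z₂)
    {d₁ d₂ D₁ D₂ K P ε₀ ε₁ ε₂ τ B : ℝ} (hd1 : ∀ z, |deriv R z| ≤ d₁)
    (hd2 : ∀ z, |deriv (deriv R) z| ≤ d₂) (hP0 : 0 ≤ P) (hP : ∫ z in Icc z₁ z₂, ρ z ≤ P ^ 2)
    {m u : ℝ → ℝ} {β : Fin 2 → ℝ} (hu : ContDiff ℝ 2 u)
    (hu0 : ∀ z, z ≤ z₁ ∨ z₂ ≤ z → u z = 0)
    (hm : ∀ z, m z = 1 / R z + (∑ k, β k * (g k z / R z ^ 2)) + u z)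
    (hβ : ∀ k, |β k| ≤ B) (hub : ∀ z, |u z| ≤ τ ∧ |deriv u z| ≤ τ ∧ |deriv (deriv u) z| ≤ τ)
    (hε0 : 2 * B * Γ₀ + (2 * d₁ ^ 2 + 2 * d₂ + 4 * d₁ + 1) * τ ≤ ε₀)
    (hε1 : 2 * B * Γ₁ + (2 * d₁ ^ 2 + 2 * d₂ + 4 * d₁ + 1) * τ ≤ ε₁)
    (hε2 : 2 * B * Γ₂ + (2 * d₁ ^ 2 + 2 * d₂ + 4 * d₁ + 1) * τ ≤ ε₂)
    (hεR : ε₀ ≤ Rmin / 2) (hD1 : d₁ + ε₁ ≤ D₁) (hD2 : d₂ + ε₂ ≤ D₂)
    (hK : (2 * ε₁ ^ 2 + 2 * ε₀ * ε₂ + 6 * ε₀ * ε₁ + 2 * ε₀ ^ 2) / (Rmin / 2)
        + (4 * ε₀ * ε₁ * D₁ + ε₀ ^ 2 * (3 * D₁ + D₂)) / (Rmin / 2) ^ 2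
        + 2 * ε₀ ^ 2 * D₁ ^ 2 / (Rmin / 2) ^ 3 ≤ K) :
    (∀ z, 1 / (2 * R z) ≤ m z) ∧ (∀ z, |1 / m z - R z| ≤ 2 * ε₀) ∧
      NN ρ (fun z => 1 / m z - R z)
        ≤ (2 * B * E + P * (6 * ((2 * d₁ ^ 2 + 2 * d₂ + 4 * d₁ + 1) * τ)) + P * K) ^ 2 := by
  have hRpos : ∀ z, 0 < R z := fun z => hR.Rmin_pos.trans_le (hR.lower z)
  have hRm := hR.Rmin_pos
  have hR2 : ContDiff ℝ 2 R := hR.smooth.of_le (by norm_num)
  have hB : 0 ≤ B := (abs_nonneg _).trans (hβ 0)
  set κ := (2 * d₁ ^ 2 + 2 * d₂ + 4 * d₁ + 1) * τ with hκ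
  set v : ℝ → ℝ := fun z => R z ^ 2 * u z with hv
  have hv2 : ContDiff ℝ 2 v := (hR2.pow 2).mul hu
  have hvb := sq_mul_bounds hR2 hu hRpos hR.upper hd1 hd2 (fun z => (hub z).1)
    (fun z => (hub z).2.1) (fun z => (hub z).2.2)
  have hκ0 : 0 ≤ κ := (abs_nonneg _).trans (hvb 0).1
  -- `q`
  set l : ℝ → ℝ := fun z => β 0 * g 0 z + β 1 * g 1 z with hl
  set q : ℝ → ℝ := fun z => l z + v z with hq
  have hl2 : ContDiff ℝ 2 l := (contDiff_const.mul (hg.smooth 0)).add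
    (contDiff_const.mul (hg.smooth 1))
  have hq2 : ContDiff ℝ 2 q := hl2.add hv2
  have hlin : ∀ x y Γ : ℝ, |x| ≤ Γ → |y| ≤ Γ → |β 0 * x + β 1 * y| ≤ 2 * B * Γ := by
    intro x y Γ hx hy
    refine (abs_add_le _ _).trans ?_
    rw [abs_mul, abs_mul]
    have h1 := mul_le_mul (hβ 0) hx (abs_nonneg _) hB
    have h2 := mul_le_mul (hβ 1) hy (abs_nonneg _) hB
    linarith only [h1, h2]
  obtain ⟨dg0, dg01, -⟩ := derivs2 (hg.smooth 0)
  obtain ⟨dg1, dg11, -⟩ := derivs2 (hg.smooth 1)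
  obtain ⟨dv, dv1, -⟩ := derivs2 hv2
  have el : deriv l = fun z => β 0 * deriv (g 0) z + β 1 * deriv (g 1) z :=
    funext fun z => (((dg0 z).const_mul (β 0)).fun_add ((dg1 z).const_mul (β 1))).deriv
  have el1 : deriv (deriv l) = fun z => β 0 * deriv (deriv (g 0)) z + β 1 * deriv (deriv (g 1)) z := by
    rw [el]
    exact funext fun z => (((dg01 z).const_mul (β 0)).fun_add ((dg11 z).const_mul (β 1))).deriv
  obtain ⟨dl, dl1, -⟩ := derivs2 hl2
  have eq1 : deriv q = fun z => deriv l z + deriv v z :=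
    funext fun z => ((dl z).fun_add (dv z)).deriv
  have eq2 : deriv (deriv q) = fun z => deriv (deriv l) z + deriv (deriv v) z := by
    rw [eq1]
    exact funext fun z => ((dl1 z).fun_add (dv1 z)).deriv
  have hq0 : ∀ z, |q z| ≤ ε₀ := fun z =>
    (abs_add_le _ _).trans ((add_le_add (hlin _ _ _ (hg.b0 0 z) (hg.b0 1 z)) (hvb z).1).trans hε0)
  have hq1 : ∀ z, |deriv q z| ≤ ε₁ := by
    intro z
    rw [eq1, el]
    exact (abs_add_le _ _).trans
      ((add_le_add (hlin _ _ _ (hg.b1 0 z) (hg.b1 1 z)) (hvb z).2.1).trans hε1)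
  have hq2' : ∀ z, |deriv (deriv q) z| ≤ ε₂ := by
    intro z
    rw [eq2, el1]
    exact (abs_add_le _ _).trans
      ((add_le_add (hlin _ _ _ (hg.b2 0 z) (hg.b2 1 z)) (hvb z).2.2).trans hε2)
  have hlow : ∀ z, Rmin / 2 ≤ R z + q z := by
    intro z
    have h1 := (abs_le.1 (hq0 z)).1
    have h2 := hR.lower z
    linarith only [hεR, h1, h2]
  have hlow2 : ∀ z, R z / 2 ≤ R z + q z := by
    intro z
    have h1 := (abs_le.1 (hq0 z)).1
    have h2 := hR.lower z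
    linarith only [hεR, h1, h2]
  have hpos : ∀ z, 0 < R z + q z := fun z => (by linarith only [hRm, hlow z] : 0 < R z + q z)
  have hmq : ∀ z, m z = (R z + q z) / R z ^ 2 := by
    intro z
    have := (hRpos z).ne'
    rw [hm z, Fin.sum_univ_two]
    simp only [hq, hl, hv]
    field_simp
    ring
  have hm0 : ∀ z, 0 < m z := fun z => by
    rw [hmq z]
    exact div_pos (hpos z) (pow_pos (hRpos z) 2)
  have hw : ∀ z, 1 / m z - R z = (-1) * q z + q z ^ 2 / (R z + q z) := by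
    intro z
    have h1 := (hRpos z).ne'
    have h2 := (hpos z).ne'
    rw [hmq z]
    field_simp
    ring
  refine ⟨?_, ?_, ?_⟩
  · intro z
    have h1 := hRpos z
    rw [hmq z, div_le_div_iff₀ (by (clear * - h1; positivity)) (by (clear * - h1; positivity))]
    have h2 := hlow2 z
    (by_contra nlg; linarith only [nlg, mul_pos (sub_pos.2 (not_le.1 nlg)) (sub_pos.2 h1), mul_nonneg (sq_nonneg (R z : ℝ)) (sub_nonneg.2 h2)])
  · intro z
    have e : 1 / m z - R z = -(q z * (R z / (R z + q z))) := by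
      have h1 := (hRpos z).ne'
      have h2 := (hpos z).ne'
      rw [hmq z]
      field_simp
      ring
    rw [e, abs_neg, abs_mul, abs_of_pos (div_pos (hRpos z) (hpos z))]
    have h3 : R z / (R z + q z) ≤ 2 := by
      rw [div_le_iff₀ (hpos z)]
      linarith only [hlow2 z]
    have h4 : 0 ≤ R z / (R z + q z) := (div_pos (hRpos z) (hpos z)).le
    calc |q z| * (R z / (R z + q z)) ≤ ε₀ * 2 :=
          mul_le_mul (hq0 z) h3 h4 ((abs_nonneg _).trans (hq0 z))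
      _ = 2 * ε₀ := by ring
  · -- energy
    have hg0 : ∀ k z, z ≤ z₁ ∨ z₂ ≤ z → g k z = 0 := by
      intro k z hz
      refine hg.supp k z ?_
      rcases hz with h | h
      · exact Or.inl (h.trans hza)
      · exact Or.inr (hzb.trans h)
    have hv0 : ∀ z, z ≤ z₁ ∨ z₂ ≤ z → v z = 0 := by
      intro z hz
      simp only [hv, hu0 z hz, mul_zero]
    have hl0 : ∀ z, z ≤ z₁ ∨ z₂ ≤ z → l z = 0 := by
      intro z hz
      simp only [hl, hg0 _ z hz, mul_zero, add_zero]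
    have hqz : ∀ z, z ≤ z₁ ∨ z₂ ≤ z → q z = 0 := by
      intro z hz
      simp only [hq, hl0 z hz, hv0 z hz, add_zero]
    have hE := hg.E_nonneg
    have n0 : ∀ k, NN ρ (fun z => β k * g k z) ≤ (B * E) ^ 2 := by
      intro k
      rw [NN_smul (hg.smooth k), mul_pow]
      refine mul_le_mul ?_ (hg.energy k) ?_ (sq_nonneg _)
      · rw [← sq_abs]; exact pow_le_pow_left₀ (abs_nonneg _) (hβ k) 2
      · exact integral_nonneg fun z => mul_nonneg (hρ0 z).le (sq_nonneg _)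
    have hc : ∀ k, ContDiff ℝ 2 (fun z => β k * g k z) := fun k =>
      contDiff_const.mul (hg.smooth k)
    have nl : NN ρ l ≤ (B * E + B * E) ^ 2 :=
      NN_add hρ hρ0 (hc 0) (hc 1) (z₁ := z₁) (z₂ := z₂)
        (fun z hz => by rw [hg0 0 z hz, mul_zero]) (fun z hz => by rw [hg0 1 z hz, mul_zero])
        (mul_nonneg hB hE) (mul_nonneg hB hE) (n0 0) (n0 1)
    have nv : NN ρ v ≤ (P * (6 * κ)) ^ 2 :=
      NN_le_of_bound hρ hρ0 hv2 (om_zero_of hv2 hv0)
        (fun z => om_bound (hvb z).1 (hvb z).2.1 (hvb z).2.2) hP0 hP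
    have nq : NN ρ q ≤ (B * E + B * E + P * (6 * κ)) ^ 2 :=
      NN_add hρ hρ0 hl2 hv2 hl0 hv0 (by (clear * - hB hE; positivity)) (by (clear * - hP0 hκ0; positivity)) nl nv
    have nq' : NN ρ (fun z => (-1) * q z) ≤ (B * E + B * E + P * (6 * κ)) ^ 2 := by
      rw [NN_smul hq2]
      linarith only [nq]
    set F : ℝ → ℝ := fun z => q z ^ 2 / (R z + q z) with hF
    have hF2 : ContDiff ℝ 2 F := (hq2.pow 2).div (hR2.add hq2) fun z => (hpos z).ne'
    have hF0 : ∀ z, z ≤ z₁ ∨ z₂ ≤ z → F z = 0 := by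
      intro z hz
      simp [hF, hqz z hz]
    have hFb : ∀ z, |om F z| ≤ K := by
      intro z
      exact (quad_bound (D₁ := D₁) (D₂ := D₂) hR2 hq2 (half_pos hRm) hlow
        (fun z => by linarith only [hD1, hd1 z]) (fun z => by linarith only [hD2, hd2 z]) hq0 hq1 hq2' z).trans hK
    have nF : NN ρ F ≤ (P * K) ^ 2 :=
      NN_le_of_bound hρ hρ0 hF2 (om_zero_of hF2 hF0) hFb hP0 hP
    have hKε : 0 ≤ K := (abs_nonneg _).trans (hFb 0)
    have hfin := NN_add hρ hρ0 (contDiff_const.mul hq2 : ContDiff ℝ 2 (fun z => (-1) * q z)) hF2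
      (fun z hz => by rw [hqz z hz, mul_zero]) hF0 (by (clear * - hB hE hP0 hκ0; positivity)) (by (clear * - hP0 hKε; positivity)) nq' nF
    have e : (fun z => 1 / m z - R z) = fun z => (-1) * q z + F z := funext hw
    rw [e]
    refine hfin.trans (le_of_eq ?_)
    ring

theorem exists_bound_C2 {f : ℝ → ℝ} (hf : ContDiff ℝ 2 f) {z₁ z₂ : ℝ}
    (h0 : ∀ z, z ≤ z₁ ∨ z₂ ≤ z → f z = 0) :
    ∃ F, 0 ≤ F ∧ ∀ z, |f z| ≤ F ∧ |deriv f z| ≤ F ∧ |deriv (deriv f) z| ≤ F := by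
  have hc : HasCompactSupport f := by
    refine HasCompactSupport.of_support_subset_isCompact (isCompact_Icc (a := z₁) (b := z₂)) ?_
    intro z hz
    by_contra h
    refine hz (h0 z ?_)
    by_contra h'
    push Not at h'
    exact h ⟨h'.1.le, h'.2.le⟩
  obtain ⟨d0, d1, c2⟩ := derivs2 hf
  have c1 : Continuous (deriv f) := by
    rw [continuous_iff_continuousAt]
    exact fun z => (d1 z).continuousAt
  obtain ⟨F0, h0⟩ := hc.exists_bound_of_continuous hf.continuous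
  obtain ⟨F1, h1⟩ := hc.deriv.exists_bound_of_continuous c1
  obtain ⟨F2, h2⟩ := hc.deriv.deriv.exists_bound_of_continuous c2
  refine ⟨|F0| + |F1| + |F2|, by (clear * -; positivity), fun z => ?_⟩
  have g0 := h0 z
  have g1 := h1 z
  have g2 := h2 z
  rw [Real.norm_eq_abs] at g0 g1 g2
  have a0 := abs_nonneg F0
  have a1 := abs_nonneg F1
  have a2 := abs_nonneg F2
  have b0 := le_abs_self F0
  have b1 := le_abs_self F1
  have b2 := le_abs_self F2
  exact ⟨by linarith only [g0, a1, a2, b0], by linarith only [g1, a0, a2, b1], by linarith⟩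

/-- **The family of initial profiles**, all properties. `m b = 1/h_b`. -/
theorem exists_family {R ρ : ℝ → ℝ} {Rmin α : ℝ} (hρ : Continuous ρ) (hρ0 : ∀ z, 0 < ρ z)
    (hR : Profile R Rmin α) {p : Polynomial ℝ} {zm zM : ℝ} (hl : ∀ z ≤ zm, R z = p.eval (exp z))
    (hr : ∀ z, zM < z → ContDiffAt ℝ ∞ R z) {psi g : Fin 2 → ℝ → ℝ}
    (hψ : ∀ i, Continuous (psi i)) (hψc : ∀ i, HasCompactSupport (psi i))
    {za zb Γ₀ Γ₁ Γ₂ E : ℝ}
    (hg : RDirs R ρ psi g za zb Γ₀ Γ₁ Γ₂ E) (hza : zm ≤ za) (hzb : zb ≤ zM)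
    {d₁ d₂ D₁ D₂ K P A τ : ℝ} (hd1 : ∀ z, |deriv R z| ≤ d₁)
    (hd2 : ∀ z, |deriv (deriv R) z| ≤ d₂) (hP0 : 0 ≤ P)
    (hP : ∫ z in Icc (zm - 2) (zM + 2), ρ z ≤ P ^ 2) (hA : 0 ≤ A) (hτ : 0 < τ)
    (hεR : 4 * A * Γ₀ + τ ≤ Rmin / 2) (hD1 : d₁ + (4 * A * Γ₁ + τ) ≤ D₁)
    (hD2 : d₂ + (4 * A * Γ₂ + τ) ≤ D₂)
    (hK : (2 * (4 * A * Γ₁ + τ) ^ 2 + 2 * (4 * A * Γ₀ + τ) * (4 * A * Γ₂ + τ)
          + 6 * (4 * A * Γ₀ + τ) * (4 * A * Γ₁ + τ) + 2 * (4 * A * Γ₀ + τ) ^ 2) / (Rmin / 2)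
        + (4 * (4 * A * Γ₀ + τ) * (4 * A * Γ₁ + τ) * D₁
          + (4 * A * Γ₀ + τ) ^ 2 * (3 * D₁ + D₂)) / (Rmin / 2) ^ 2
        + 2 * (4 * A * Γ₀ + τ) ^ 2 * D₁ ^ 2 / (Rmin / 2) ^ 3 ≤ K) :
    ∃ (m : (Fin 2 → ℝ) → ℝ → ℝ) (e : Fin 2 → ℝ → ℝ),
      (∀ b, ContDiff ℝ ∞ (m b)) ∧
      (∀ b z, z ≤ zm - 2 ∨ zM + 2 ≤ z → m b z = 1 / R z) ∧
      (∀ b i, ∫ z, psi i z * (m b z - 1 / R z) = b i) ∧
      (∀ b b' z, m b z - m b' z = ∑ j, (b j - b' j) * e j z) ∧
      (∀ j, ContDiff ℝ ∞ (e j)) ∧ (∀ j z, z ≤ zm - 2 ∨ zM + 2 ≤ z → e j z = 0) ∧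
      (∃ B, ∀ b, (∀ i, |b i| ≤ A) → MBound (1 / 2) B (m b)) ∧
      ∀ b, (∀ i, |b i| ≤ A) → (∀ z, |1 / m b z - R z| ≤ 2 * (4 * A * Γ₀ + τ)) ∧
        NN ρ (fun z => 1 / m b z - R z) ≤ (4 * A * E + P * K + τ) ^ 2 := by
  have hd10 : 0 ≤ d₁ := (abs_nonneg _).trans (hd1 0)
  have hd20 : 0 ≤ d₂ := (abs_nonneg _).trans (hd2 0)
  have hΓ0 : 0 ≤ Γ₀ := (abs_nonneg _).trans (hg.b0 0 0)
  have hΓ1 : 0 ≤ Γ₁ := (abs_nonneg _).trans (hg.b1 0 0)
  have hΓ2 : 0 ≤ Γ₂ := (abs_nonneg _).trans (hg.b2 0 0)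
  have hE := hg.E_nonneg
  set κ := 2 * d₁ ^ 2 + 2 * d₂ + 4 * d₁ + 1 with hκ
  have hκ0 : 0 ≤ κ := by (clear * - hd20 hd10; positivity)
  set c := 2 * Γ₀ + 2 * Γ₁ + 2 * Γ₂ + 2 * E + (6 * P + 1) * κ + 1 with hc
  have hc0 : 0 < c := by (clear * - hΓ0 hΓ1 hΓ2 hE hP0 hd20 hd10; positivity)
  set t := τ / c with ht
  have ht0 : 0 < t := div_pos hτ hc0
  have htc : t * c = τ := by rw [ht]; field_simp
  have f1 : 0 ≤ t * Γ₀ := by (clear * - hτ hΓ0 hΓ1 hΓ2 hE hP0 hd20 hd10; positivity)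
  have f1' : 0 ≤ t * Γ₁ := by (clear * - hτ hΓ0 hΓ1 hΓ2 hE hP0 hd20 hd10; positivity)
  have f1'' : 0 ≤ t * Γ₂ := by (clear * - hτ hΓ0 hΓ1 hΓ2 hE hP0 hd20 hd10; positivity)
  have f2 : 0 ≤ t * E := by (clear * - hτ hΓ0 hΓ1 hΓ2 hE hP0 hd20 hd10; positivity)
  have f3 : 0 ≤ t * (P * κ) := by (clear * - hτ hΓ0 hΓ1 hΓ2 hE hP0 hd20 hd10; positivity)
  have f4 : 0 ≤ t * κ := by (clear * - hτ hΓ0 hΓ1 hΓ2 hE hP0 hd20 hd10; positivity)
  have hsum : 2 * (t * Γ₀) + 2 * (t * Γ₁) + 2 * (t * Γ₂) + 2 * (t * E) + 6 * (t * (P * κ))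
      + t * κ + t = τ := by
    rw [← htc, hc]; ring
  obtain ⟨m, e, β, u, hm1, hm2, hm3, hm4, he1, he2, hu2, hm5, hm6⟩ :=
    exists_fam hR hl hr hψ hψc hg hza hzb hA ht0
  have hRpos : ∀ z, 0 < R z := fun z => hR.Rmin_pos.trans_le (hR.lower z)
  have hR2 : ContDiff ℝ 2 R := hR.smooth.of_le (by norm_num)
  have key : ∀ b, (∀ i, |b i| ≤ A) → (∀ z, 1 / (2 * R z) ≤ m b z) ∧
      (∀ z, |1 / m b z - R z| ≤ 2 * (4 * A * Γ₀ + τ)) ∧
      NN ρ (fun z => 1 / m b z - R z) ≤ (4 * A * E + P * K + τ) ^ 2 := by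
    intro b hb
    obtain ⟨hβ, hub⟩ := hm6 b hb
    have hu0 : ∀ z, z ≤ zm - 2 ∨ zM + 2 ≤ z → u b z = 0 := by
      intro z hz
      have h1 := hm5 b z
      rw [hm2 b z hz] at h1
      have h2 : ∀ k, g k z = 0 := fun k => hg.supp k z (by
        rcases hz with h | h
        · exact Or.inl (by linarith only [hza, h])
        · exact Or.inr (by linarith only [hzb, h]))
      simp only [h2, zero_div, mul_zero, Finset.sum_const_zero, add_zero] at h1
      linarith only [h1]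
    obtain ⟨w1, w2, w3⟩ := w_energy hρ hρ0 hR hg (z₁ := zm - 2) (z₂ := zM + 2) (by linarith only [hza])
      (by linarith only [hzb]) hd1 hd2 hP0 hP (hu2 b) hu0 (hm5 b) hβ hub (ε₀ := 4 * A * Γ₀ + τ)
      (ε₁ := 4 * A * Γ₁ + τ) (ε₂ := 4 * A * Γ₂ + τ)
      (by rw [← hκ]; (clear * - ht0 htc f1' f1'' f2 f3; linarith only [f3, f2, f1'', f1', htc, ht0])) (by rw [← hκ]; linarith only [f3, f2, f1'', f1, htc, ht0]) (by rw [← hκ]; linarith only [ht0, htc, f1, f1', f2, f3])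
      hεR hD1 hD2 hK
    refine ⟨w1, w2, w3.trans ?_⟩
    rw [← hκ]
    have hK0 : 0 ≤ K := by
      have hRm := hR.Rmin_pos
      have : 0 ≤ D₁ := by
        have : 0 ≤ 4 * A * Γ₁ + τ := by (clear * - hA hΓ1 hτ; positivity)
        linarith only [hD1, hd10, this]
      have : 0 ≤ D₂ := by
        have : 0 ≤ 4 * A * Γ₂ + τ := by (clear * - hA hΓ2 hτ; positivity)
        linarith only [hD2, hd20, this]
      refine le_trans ?_ hK
      (clear hρ hρ0 p zm zM hl hr hψ hψc hza hzb K P hP0 hP hεR hK hE κ hκ hκ0 c hc hc0 t ht ht0 htc f1 f1' f1'' f2 f3 f4 hsum m e β u hm1 hm2 hm3 hm4 he1 he2 hu2 hm5 hm6 hRpos hR2 b hb hβ hub hu0 w1 w2 w3; positivity)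
    refine pow_le_pow_left₀ (by (clear * - hA hτ hΓ0 hΓ1 hΓ2 hE hP0 hd20 hd10 hK0; positivity)) ?_ 2
    linarith only [f4, f1'', f1', f1, htc, ht0]
  refine ⟨m, e, hm1, hm2, hm3, hm4, he1, he2, ?_, fun b hb => (key b hb).2⟩
  -- soft bounds
  obtain ⟨d, hd0, hd⟩ := hR.exists_inv_bound
  set f : Fin 2 → ℝ → ℝ := fun k z => g k z / R z ^ 2 with hf
  have hf2 : ∀ k, ContDiff ℝ 2 (f k) := fun k =>
    (hg.smooth k).div (hR2.pow 2) fun z => pow_ne_zero 2 (hRpos z).ne'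
  have hfs0 : ∀ k z, z ≤ za ∨ zb ≤ z → f k z = 0 := by
    intro k z hz
    simp only [hf]
    rw [hg.supp k z hz, zero_div]
  choose F hF0 hF using fun k => exists_bound_C2 (hf2 k) (hfs0 k)
  refine ⟨d + (2 * A + t) * (F 0 + F 1) + t, fun b hb => ?_⟩
  obtain ⟨hβ, hub⟩ := hm6 b hb
  have hr2 : ContDiff ℝ 2 (fun z => 1 / R z) := by
    rw [contDiff_iff_contDiffAt]
    intro z
    exact inv_contDiffAt (hR2.contDiffAt) (hRpos z).ne'
  obtain ⟨dr, dr1, -⟩ := derivs2 hr2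
  obtain ⟨df0, df01, -⟩ := derivs2 (hf2 0)
  obtain ⟨df1, df11, -⟩ := derivs2 (hf2 1)
  obtain ⟨du, du1, -⟩ := derivs2 (hu2 b)
  have em : m b = fun z => 1 / R z + (β b 0 * f 0 z + β b 1 * f 1 z) + u b z := by
    funext z
    rw [hm5 b z, Fin.sum_univ_two]
  have em1 : deriv (m b) = fun z => deriv (fun z => 1 / R z) z
      + (β b 0 * deriv (f 0) z + β b 1 * deriv (f 1) z) + deriv (u b) z := by
    rw [em]
    exact funext fun z => (((dr z).fun_add (((df0 z).const_mul _).fun_add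
      ((df1 z).const_mul _))).fun_add (du z)).deriv
  have em2 : deriv (deriv (m b)) = fun z => deriv (deriv (fun z => 1 / R z)) z
      + (β b 0 * deriv (deriv (f 0)) z + β b 1 * deriv (deriv (f 1)) z)
      + deriv (deriv (u b)) z := by
    rw [em1]
    exact funext fun z => (((dr1 z).fun_add (((df01 z).const_mul _).fun_add
      ((df11 z).const_mul _))).fun_add (du1 z)).deriv
  have hbd : ∀ x y0 y1 w : ℝ, |x| ≤ d → |y0| ≤ F 0 → |y1| ≤ F 1 → |w| ≤ t →
      |x + (β b 0 * y0 + β b 1 * y1) + w| ≤ d + (2 * A + t) * (F 0 + F 1) + t := by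
    intro x y0 y1 w hx hy0 hy1 hw
    have h0 : |β b 0 * y0| ≤ (2 * A + t) * F 0 := by
      rw [abs_mul]; exact mul_le_mul (hβ 0) hy0 (abs_nonneg _) (by (clear * - hA hτ hΓ0 hΓ1 hΓ2 hE hP0 hd20 hd10; positivity))
    have h1 : |β b 1 * y1| ≤ (2 * A + t) * F 1 := by
      rw [abs_mul]; exact mul_le_mul (hβ 1) hy1 (abs_nonneg _) (by (clear * - hA hτ hΓ0 hΓ1 hΓ2 hE hP0 hd20 hd10; positivity))
    have h2 := abs_add_le (x + (β b 0 * y0 + β b 1 * y1)) w
    have h3 := abs_add_le x (β b 0 * y0 + β b 1 * y1)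
    have h4 := abs_add_le (β b 0 * y0) (β b 1 * y1)
    linarith only [hx, hw, h0, h1, h2, h3, h4]
  refine ⟨contDiff_infty.1 (hm1 b) 2, fun z => ?_, fun z => ?_, fun z => ?_, fun z => ?_⟩
  · refine le_trans ?_ ((key b hb).1 z)
    exact one_div_le_one_div_of_le (by linarith only [hRpos z]) (by linarith only [hR.upper z])
  · rw [em]
    exact hbd _ _ _ _ (hd z).1 (hF 0 z).1 (hF 1 z).1 (hub z).1
  · rw [em1]
    exact hbd _ _ _ _ (hd z).2.1 (hF 0 z).2.1 (hF 1 z).2.1 (hub z).2.1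
  · rw [em2]
    exact hbd _ _ _ _ (hd z).2.2 (hF 0 z).2.2 (hF 1 z).2.2 (hub z).2.2

end P264.B
end
end

section

section

section

section

open scoped ENNReal ContDiff Topology ComplexOrder
open MeasureTheory Set Filter

noncomputable section

namespace Vale.Agent.P264

set_option linter.unusedSectionVars false
set_option linter.unusedVariables false

section Pde

variable {n : ℕ} {Γ : Type*} [AddCommGroup Γ] {q : Γ →+ Cn n}

/-- data at a fixed time -/
structure St (q : Γ →+ Cn n) (a : Γ → ℂ) (C : Γ → Op n) (c : Γ → ℂ) : Prop where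
  rda : RD q a
  rdC : RD q C
  rdc : RD q c
  rdF : RD q (C1 q a (one + C))
  lam_c : ∀ ξ, (lam q ξ : ℂ) * c ξ = a ξ
  c_neg : ∀ ξ, c (-ξ) = (starRingEnd ℂ) (c ξ)
  eqC : ∀ ξ, C ξ = PA q a ξ + C0 q a C ξ
  small : ∑' ξ, ‖a ξ‖ < 1

lemma rd_one : RD q (one : Γ → Op n) := by
  intro N
  apply summable_of_ne_finset_zero (s := {0})
  intro ξ hξ
  rw [Finset.mem_singleton] at hξ
  simp only [one, hξ, ↓reduceIte, norm_zero, mul_zero]

lemma ch_zero (z : Cn n) : ch (0 : Cn n) z = 1 := by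
  unfold ch
  rw [prL_apply]
  simp only [PiLp.zero_apply, zero_mul, Complex.zero_re, Finset.sum_const_zero, Complex.ofReal_zero, mul_zero, Complex.exp_zero]

lemma sy_one (z : Cn n) : sy q (one : Γ → Op n) z = Op.id := by
  unfold sy
  rw [tsum_eq_single 0]
  · unfold one
    rw [map_zero, ch_zero, if_pos rfl, one_smul]
  · intro ξ hξ
    simp only [one, hξ, ↓reduceIte, smul_zero]

lemma L0_lin (η : Γ) (x : ℂ) (c : ℂ) (y : Op n) : L0 (q η) x (c • y) = c • L0 (q η) x y := by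
  rw [L0_apply, L0_apply, Op.cp_smul, smul_comm]

lemma L1_lin (η : Γ) (x : ℂ) (c : ℂ) (y : Op n) : L1 (q η) x (c • y) = c • L1 (q η) x y := by
  rw [L1_apply, L1_apply, Op.smul_ap, inner_smul_right, smul_smul]
  congr 1
  ring

lemma L2_lin (η : Γ) (x : Dl n) (c : ℂ) (y : Op n) : L2 (q η) x (c • y) = c • L2 (q η) x y := by
  rw [L2_apply, L2_apply, Op.smul_ap, Dl.ap_smul, smul_eq_mul]

lemma L0_bd (ξ : Γ) : ‖L0 (q ξ)‖ ≤ 1 * (1 + ‖q ξ‖) ^ 0 := by simpa only [pow_zero, mul_one] using norm_L0 (q ξ)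
lemma L1_bd (ξ : Γ) : ‖L1 (q ξ)‖ ≤ 1 * (1 + ‖q ξ‖) ^ 1 := by
  have := norm_L1 (q ξ)
  linarith
lemma L2_bd (ξ : Γ) : ‖L2 (q ξ)‖ ≤ 1 * (1 + ‖q ξ‖) ^ 1 := by
  have := norm_L2 (q ξ)
  linarith only [this]

/-- linear combinations of syntheses -/
lemma sy_sum2 {ι' κ : Type*} [Fintype ι'] [Fintype κ] {h : ι' → κ → Γ → ℂ}
    (hr : ∀ i r, RD q (h i r)) (K : ι' → κ → ℂ) (z : Cn n) :
    ∑ i, ∑ r, K i r * sy q (h i r) z = ∑' ξ, ch (q ξ) z * ∑ i, ∑ r, K i r * h i r ξ := by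
  have h1 : ∀ i r, Summable fun ξ => K i r * (ch (q ξ) z • h i r ξ) := fun i r =>
    ((hr i r).summable z).mul_left _
  have h2 : ∑ i, ∑ r, K i r * sy q (h i r) z =
      ∑' ξ, ∑ i, ∑ r, K i r * (ch (q ξ) z • h i r ξ) := by
    rw [Summable.tsum_finsetSum]
    · apply Finset.sum_congr rfl
      intro i _
      rw [Summable.tsum_finsetSum]
      · apply Finset.sum_congr rfl
        intro r _
        unfold sy
        rw [tsum_mul_left]
      · intro r _
        exact h1 i r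
    · intro i _
      exact summable_sum fun r _ => h1 i r
  rw [h2]
  congr 1
  funext ξ
  simp_rw [Finset.mul_sum, smul_eq_mul]
  apply Finset.sum_congr rfl
  intro i _
  apply Finset.sum_congr rfl
  intro r _
  ring

variable {a : Γ → ℂ} {C : Γ → Op n} {c : Γ → ℂ} (S : St q a C c)
include S

lemma St.rdPA : RD q (PA q a) := by
  refine S.rda.bound (K := 1) (d := 0) fun ξ => ?_
  unfold PA
  rw [norm_smul, pow_zero, one_mul, one_mul]
  exact mul_le_of_le_one_right (norm_nonneg _) (norm_Pr_le _)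

lemma St.rdB : RD q (one + C) := rd_one.add S.rdC

/-- the operator `-(complex Hessian)` -/
lemma St.inv (z : Cn n) :
    (Op.id - sy q (PA q a) z).cp (sy q (one + C) z) = Op.id := by
  have h1 : sy q (one + C) z = Op.id + sy q C z := by
    have := sy_add rd_one S.rdC z
    rw [sy_one] at this
    exact this
  have h0 : RD q (C0 q a C) := by
    have h2 : C0 q a C = fun ξ => C ξ + (fun ξ => -PA q a ξ) ξ := by
      funext ξ
      change C0 q a C ξ = C ξ + -PA q a ξ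
      rw [← sub_eq_add_neg, eq_sub_iff_add_eq, add_comm]
      exact (S.eqC ξ).symm
    rw [h2]
    refine S.rdC.add (S.rdPA.bound (K := 1) (d := 0) fun ξ => ?_)
    rw [norm_neg]
    simp only [pow_zero, mul_one, one_mul, Std.le_refl]
  have h3 : sy q C z = sy q (PA q a) z + sy q (C0 q a C) z := by
    have := sy_add S.rdPA h0 z
    rw [← this]
    congr 1
    funext ξ
    exact S.eqC ξ
  have h4 : sy q (C0 q a C) z = (sy q (PA q a) z).cp (sy q C z) := by
    have e1 : sy q (C0 q a C) z = ∑' η, ch (q η) z • L0 (q η) (a η) (sy q C z) :=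
      sy_tc L0_bd L0_lin S.rda S.rdC z
    rw [e1]
    have e2 := (cpR (sy q C z)).map_tsum (S.rdPA.summable z)
    refine Eq.trans ?_ e2.symm
    congr 1
  have h5 : sy q C z = sy q (PA q a) z + (sy q (PA q a) z).cp (sy q C z) := by
    rw [← h4, ← h3]
  rw [h1]
  have h6 : (Op.id - sy q (PA q a) z).cp (Op.id + sy q C z) =
      Op.id + sy q C z - (sy q (PA q a) z + (sy q (PA q a) z).cp (sy q C z)) := by
    apply Op.ext
    intro x
    change (Op.id + sy q C z).ap x - (sy q (PA q a) z).ap ((Op.id + sy q C z).ap x) =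
      (Op.id + sy q C z).ap x - ((sy q (PA q a) z).ap x + (sy q (PA q a) z).ap ((sy q C z).ap x))
    rw [Op.add_ap, Op.ap_add, Op.id_ap]
  rw [h6, ← h5]
  abel

/-- reality of the potential -/
lemma St.real (z : Cn n) : (((sy q c z).re : ℝ) : ℂ) = sy q c z := by
  have h1 : (starRingEnd ℂ) (sy q c z) = sy q c z := by
    unfold sy
    have e1 := (Complex.conjCLE : ℂ →L[ℝ] ℂ).map_tsum (S.rdc.summable z)
    refine Eq.trans e1 ?_
    rw [← (Equiv.neg Γ).tsum_eq (fun ξ => ch (q ξ) z • c ξ)]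
    congr 1
    funext ξ
    change (starRingEnd ℂ) (ch (q ξ) z • c ξ) = ch (q (-ξ)) z • c (-ξ)
    rw [smul_eq_mul, smul_eq_mul, map_mul, S.c_neg, map_neg, ch_neg]
  exact Complex.conj_eq_iff_re.mp h1

omit S in
/-- the symbol of the Hessian -/
lemma symb (x : Cn n) (c a : ℂ) (h : (((‖x‖ / 2) ^ 2 : ℝ) : ℂ) * c = a) (j k : Fin n) :
    (Complex.I / 2) * x j * ((Complex.I / 2) * (starRingEnd ℂ) (x k) * c) =
      -(a * ((starRingEnd ℂ) ((nv x) k) * (nv x) j)) := by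
  by_cases h0 : x = 0
  · subst h0
    simp only [PiLp.zero_apply, mul_zero, map_zero, zero_mul, nv, norm_zero, inv_zero, Complex.ofReal_zero, smul_zero, neg_zero]
  · have h1 : (‖x‖ : ℂ) ≠ 0 := by
      rw [Complex.ofReal_ne_zero]
      exact norm_ne_zero_iff.mpr h0
    have h2 : ∀ i, (nv x) i = (‖x‖ : ℂ)⁻¹ * x i := by
      intro i
      unfold nv
      simp only [Complex.ofReal_inv, PiLp.smul_apply, smul_eq_mul]
    rw [← h, h2, h2, map_mul, map_inv₀, Complex.conj_ofReal]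
    push_cast
    field_simp
    ring_nf
    rw [Complex.I_sq]
    ring

omit S in
lemma Pr_entry (x : Cn n) (j k : Fin n) :
    ((Pr x).ap (unit k 1)) j = (starRingEnd ℂ) ((nv x) k) * (nv x) j := by
  rw [Pr_ap]
  simp [EuclideanSpace.inner_single_right]

/-- the coefficients of the Hessian entries -/
lemma St.rdh (j k : Fin n) :
    RD q (fun ξ => -(a ξ * ((starRingEnd ℂ) ((nv (q ξ)) k) * (nv (q ξ)) j))) := by
  refine S.rda.bound (K := 1) (d := 0) fun ξ => ?_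
  rw [norm_neg, norm_mul, norm_mul, pow_zero, one_mul, one_mul]
  have h1 : ∀ i, ‖(nv (q ξ)) i‖ ≤ 1 := fun i =>
    (PiLp.norm_apply_le _ _).trans (norm_nv_le _)
  have h2 : ‖(starRingEnd ℂ) ((nv (q ξ)) k)‖ * ‖(nv (q ξ)) j‖ ≤ 1 * 1 := by
    gcongr
    · rw [RCLike.norm_conj]
      exact h1 k
    · exact h1 j
  rw [one_mul] at h2
  exact mul_le_of_le_one_right (norm_nonneg _) h2

lemma St.rdk (k : Fin n) : RD q (fun ξ => (Complex.I / 2) * (starRingEnd ℂ) ((q ξ) k) * c ξ) := by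
  refine S.rdc.bound (K := 1) (d := 1) fun ξ => ?_
  rw [norm_mul, norm_mul]
  have h1 : ‖(q ξ) k‖ ≤ ‖q ξ‖ := PiLp.norm_apply_le _ _
  have h2 : ‖Complex.I / 2‖ = 1 / 2 := by simp
  rw [h2, RCLike.norm_conj]
  have h3 : 1 / 2 * ‖(q ξ) k‖ ≤ 1 * (1 + ‖q ξ‖) ^ 1 := by linarith [norm_nonneg (q ξ)]
  (clear * - h3; gcongr)

/-- the complex Hessian of the potential -/
lemma St.hess (z : Cn n) (j k : Fin n) :
    cHess (fun y => (sy q c y).re) z j k =
      sy q (fun ξ => -(a ξ * ((starRingEnd ℂ) ((nv (q ξ)) k) * (nv (q ξ)) j))) z := by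
  unfold cHess
  rw [Matrix.of_apply]
  have e1 : (fun y => (((sy q c y).re : ℝ) : ℂ)) = sy q c := funext fun y => S.real y
  rw [e1]
  have e2 : dzbar k (sy q c) =
      sy q (fun ξ => (Complex.I / 2) * (starRingEnd ℂ) ((q ξ) k) * c ξ) :=
    funext fun y => dzbar_sy S.rdc k y
  rw [e2, dz_sy (S.rdk k)]
  congr 1
  funext ξ
  exact symb (q ξ) (c ξ) (a ξ) (S.lam_c ξ) j k

lemma St.hessMt (z : Cn n) :
    1 + cHess (fun y => (sy q c y).re) z = 1 - Mt (sy q (PA q a) z) := by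
  rw [sub_eq_add_neg]
  congr 1
  ext j k
  rw [S.hess z j k, Matrix.neg_apply, Mt_apply]
  have e := (apE (unit k 1) j).map_tsum (S.rdPA.summable z)
  have e3 : (sy q (PA q a) z).ap (unit k 1) j = ∑' ξ, (apE (unit k 1) j) (ch (q ξ) z • PA q a ξ) := e
  rw [e3, ← tsum_neg]
  unfold sy
  congr 1
  funext ξ
  change _ = -((ch (q ξ) z • (a ξ • Pr (q ξ))).ap (unit k 1) j)
  rw [Op.smul_ap, Op.smul_ap]
  change _ = -(ch (q ξ) z * (a ξ * ((Pr (q ξ)).ap (unit k 1)) j))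
  rw [Pr_entry, smul_eq_mul]
  ring

lemma St.a_neg (ξ : Γ) : a (-ξ) = (starRingEnd ℂ) (a ξ) := by
  rw [← S.lam_c, ← S.lam_c, S.c_neg, map_mul, Complex.conj_ofReal]
  congr 2
  simp only [lam, map_neg, norm_neg]

lemma St.herm (z : Cn n) : (Mt (sy q (PA q a) z)).IsHermitian := by
  have h1 : ∀ j k, (starRingEnd ℂ) (cHess (fun y => (sy q c y).re) z j k) =
      cHess (fun y => (sy q c y).re) z k j := by
    intro j k
    rw [S.hess, S.hess]
    unfold sy
    have e1 := (Complex.conjCLE : ℂ →L[ℝ] ℂ).map_tsum ((S.rdh j k).summable z)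
    refine Eq.trans e1 ?_
    rw [← (Equiv.neg Γ).tsum_eq (fun ξ => ch (q ξ) z •
      (-(a ξ * ((starRingEnd ℂ) ((nv (q ξ)) j) * (nv (q ξ)) k))))]
    congr 1
    funext ξ
    change (starRingEnd ℂ) (ch (q ξ) z • -(a ξ * ((starRingEnd ℂ) ((nv (q ξ)) k) *
      (nv (q ξ)) j))) = ch (q (-ξ)) z • -(a (-ξ) * ((starRingEnd ℂ) ((nv (q (-ξ))) j) *
      (nv (q (-ξ))) k))
    have e2 : nv (q (-ξ)) = -nv (q ξ) := by
      unfold nv
      simp only [map_neg, norm_neg, Complex.ofReal_inv, smul_neg]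
    have e4 : ch (q (-ξ)) z = (starRingEnd ℂ) (ch (q ξ) z) := by rw [map_neg, ch_neg]
    rw [smul_eq_mul, smul_eq_mul, map_mul, S.a_neg, e2, e4, map_neg, map_mul, map_mul,
      Complex.conj_conj]
    simp only [PiLp.neg_apply, map_neg]
    ring
  have h2 := S.hessMt z
  have h3 : Mt (sy q (PA q a) z) = -cHess (fun y => (sy q c y).re) z := by
    have : 1 + cHess (fun y => (sy q c y).re) z = 1 + (-Mt (sy q (PA q a) z)) := by
      rw [h2, sub_eq_add_neg]
    rw [add_left_cancel this, neg_neg]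
  rw [h3]
  ext j k
  rw [Matrix.conjTranspose_apply, Matrix.neg_apply, Matrix.neg_apply, star_neg]
  congr 1
  exact h1 k j

lemma St.norm_lt (z : Cn n) : ‖sy q (PA q a) z‖ < 1 := by
  refine lt_of_le_of_lt ?_ S.small
  unfold sy
  refine (norm_tsum_le_tsum_norm ?_).trans ?_
  · simp_rw [norm_ch_smul]
    exact S.rdPA.summable_norm
  · simp_rw [norm_ch_smul]
    apply S.rdPA.summable_norm.tsum_le_tsum _ S.rda.summable_norm
    intro ξ
    unfold PA
    rw [norm_smul]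
    exact mul_le_of_le_one_right (norm_nonneg _) (norm_Pr_le _)

/-- positivity of the metric -/
theorem St.posDef (z : Cn n) : (1 + cHess (fun y => (sy q c y).re) z).PosDef := by
  rw [S.hessMt z]
  exact posDef_of_small (S.herm z) (S.norm_lt z)

/-- inverse of the metric -/
lemma St.inverse (z : Cn n) :
    (1 + cHess (fun y => (sy q c y).re) z)⁻¹ = Mt (sy q (one + C) z) := by
  apply Matrix.inv_eq_right_inv
  have h := congrArg Mt (S.inv z)
  rw [Mt_cp, Mt_sub, Mt_id] at h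
  rw [S.hessMt z]
  exact h

/-- coefficients of the gradient of `log det` -/
lemma St.rdFk (k : Fin n) : RD q (fun η => (C1 q a (one + C) η).ap (unit k 1)) := by
  refine S.rdF.bound (K := 1) (d := 0) fun ξ => ?_
  rw [pow_zero, one_mul, one_mul]
  refine (Dl.norm_ap_le _ _).trans ?_
  have : ‖(unit k 1 : Cn n)‖ = 1 := by simp only [PiLp.norm_single, norm_one]
  rw [this, mul_one]

/-- `∂_k̄ log det g` -/
lemma St.logdet (k : Fin n) (z : Cn n) :
    dzbar k (fun y => ((Real.log (1 + cHess (fun x => (sy q c x).re) y).det.re : ℝ) : ℂ)) z =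
      sy q (fun η => -(Complex.I / 2) * (C1 q a (one + C) η).ap (unit k 1)) z := by
  classical
  set h : Fin n → Fin n → Γ → ℂ := fun r i ξ =>
    -(a ξ * ((starRingEnd ℂ) ((nv (q ξ)) i) * (nv (q ξ)) r)) with hh
  have hD : ∀ i j, HasFDerivAt (fun y => (1 + cHess (fun x => (sy q c x).re) y) i j)
      (fderiv ℝ (sy q (h i j)) z) z := by
    intro i j
    have e1 : (fun y => (1 + cHess (fun x => (sy q c x).re) y) i j) =
        fun y => (1 : Matrix (Fin n) (Fin n) ℂ) i j + sy q (h i j) y := by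
      funext y
      rw [Matrix.add_apply, S.hess y i j]
    rw [e1]
    exact (hasFDerivAt_sy (S.rdh i j) z).differentiableAt.hasFDerivAt.const_add _
  have hL := hasFDerivAt_logdet hD (fun y => S.posDef y)
  rw [S.inverse z] at hL
  set B := sy q (one + C) z with hB
  have e2 : ∀ v, fderiv ℝ (fun y => ((Real.log (1 + cHess (fun x => (sy q c x).re) y).det.re : ℝ) :
      ℂ)) z v = ∑ i, ∑ r, Mt B i r * fderiv ℝ (sy q (h r i)) z v := by
    intro v
    rw [hL.fderiv, FunLike.coe_sum, Finset.sum_apply]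
    apply Finset.sum_congr rfl
    intro i _
    rw [FunLike.coe_sum, Finset.sum_apply]
    rfl
  have e3 : dzbar k (fun y => ((Real.log (1 + cHess (fun x => (sy q c x).re) y).det.re : ℝ) : ℂ)) z
      = ∑ i, ∑ r, Mt B i r * dzbar k (sy q (h r i)) z := by
    unfold dzbar
    rw [e2, e2, Finset.mul_sum, ← Finset.sum_add_distrib, Finset.sum_div]
    apply Finset.sum_congr rfl
    intro i _
    rw [Finset.mul_sum, ← Finset.sum_add_distrib, Finset.sum_div]
    apply Finset.sum_congr rfl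
    intro r _
    ring
  have hr2 : ∀ i r, RD q (fun ξ => (Complex.I / 2) * (starRingEnd ℂ) ((q ξ) k) * h r i ξ) := by
    intro i r
    refine (S.rdh r i).bound (K := 1) (d := 1) fun ξ => ?_
    rw [norm_mul, norm_mul]
    have h1 : ‖(q ξ) k‖ ≤ ‖q ξ‖ := PiLp.norm_apply_le _ _
    have h2 : ‖Complex.I / 2‖ = 1 / 2 := by simp
    rw [h2, RCLike.norm_conj]
    have h3 : 1 / 2 * ‖(q ξ) k‖ ≤ 1 * (1 + ‖q ξ‖) ^ 1 := by linarith only [h1, norm_nonneg (q ξ)]
    gcongr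
  have e4 : ∀ i r, dzbar k (sy q (h r i)) z =
      sy q (fun ξ => (Complex.I / 2) * (starRingEnd ℂ) ((q ξ) k) * h r i ξ) z :=
    fun i r => dzbar_sy (S.rdh r i) k z
  rw [e3]
  simp_rw [e4]
  rw [sy_sum2 hr2 (Mt B) z]
  -- the right-hand side
  have e5 : sy q (fun η => -(Complex.I / 2) * (C1 q a (one + C) η).ap (unit k 1)) z =
      -(Complex.I / 2) * (sy q (C1 q a (one + C)) z).ap (unit k 1) := by
    have e := (apD (unit k 1)).map_tsum (S.rdF.summable z)
    have e' : (sy q (C1 q a (one + C)) z).ap (unit k 1) =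
      ∑' ξ, (apD (unit k 1)) (ch (q ξ) z • C1 q a (one + C) ξ) := e
    rw [e', ← tsum_mul_left]
    unfold sy
    congr 1
    funext ξ
    change _ = -(Complex.I / 2) * (ch (q ξ) z • C1 q a (one + C) ξ).ap (unit k 1)
    rw [Dl.smul_ap, smul_eq_mul]
    ring
  have e6 : sy q (C1 q a (one + C)) z = ∑' η, ch (q η) z • L1 (q η) (a η) B :=
    sy_tc L1_bd L1_lin S.rda S.rdB z
  have hs6 : Summable fun η => ch (q η) z • L1 (q η) (a η) B := by
    apply Summable.of_norm_bounded (g := fun η => (1 + ‖q η‖) ^ 1 * ‖a η‖ * ‖B‖)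
      ((S.rda 1).mul_right _)
    intro η
    rw [norm_smul, norm_ch, one_mul]
    calc ‖L1 (q η) (a η) B‖ ≤ ‖L1 (q η)‖ * ‖a η‖ * ‖B‖ := (L1 (q η)).le_opNorm₂ _ _
      _ ≤ (1 + ‖q η‖) ^ 1 * ‖a η‖ * ‖B‖ := by
          gcongr
          simpa only [pow_one, one_mul] using L1_bd (q := q) η
  have e7 : (sy q (C1 q a (one + C)) z).ap (unit k 1) =
      ∑' η, ch (q η) z * ((a η * inner ℂ (nv (q η)) (B.ap (nv (q η)))) *
        (starRingEnd ℂ) ((q η) k)) := by
    rw [e6]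
    have e := (apD (unit k 1)).map_tsum hs6
    refine Eq.trans e ?_
    congr 1
    funext η
    change (ch (q η) z • L1 (q η) (a η) B).ap (unit k 1) = _
    rw [Dl.smul_ap, L1_apply, Dl.smul_ap, Ri_ap]
    congr 2
    simp only [EuclideanSpace.inner_single_right, one_mul]
  rw [e5, e7, ← tsum_mul_left]
  congr 1
  funext ξ
  have e8 : inner ℂ (nv (q ξ)) (B.ap (nv (q ξ))) =
      ∑ i, ∑ r, Mt B i r * ((starRingEnd ℂ) ((nv (q ξ)) i) * (nv (q ξ)) r) := by
    rw [PiLp.inner_apply]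
    apply Finset.sum_congr rfl
    intro i _
    rw [Op.ap_expand]
    change (∑ r, Mt B i r * (nv (q ξ)) r) * (starRingEnd ℂ) ((nv (q ξ)) i) = _
    rw [Finset.sum_mul]
    apply Finset.sum_congr rfl
    intro r _
    ring
  rw [e8, hh]
  simp only [Finset.mul_sum, Finset.sum_mul]
  apply Finset.sum_congr rfl
  intro i _
  apply Finset.sum_congr rfl
  intro r _
  ring

/-- the scalar curvature -/
theorem St.scal (z : Cn n) :
    scalarCurv (fun y => 1 + cHess (fun x => (sy q c x).re) y) z =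
      (sy q (fun ξ => tri q a (one + C) (one + C) ξ) z).re := by
  classical
  set B := sy q (one + C) z with hB
  set F : Fin n → Γ → ℂ := fun k η => (C1 q a (one + C) η).ap (unit k 1) with hF
  unfold scalarCurv
  rw [S.inverse z, Matrix.trace]
  have e1 : ∀ j k, cHess (fun y => Real.log (1 + cHess (fun x => (sy q c x).re) y).det.re) z j k =
      sy q (fun η => (Complex.I / 2) * (q η) j * (-(Complex.I / 2) * F k η)) z := by
    intro j k
    unfold cHess
    rw [Matrix.of_apply]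
    have e2 : dzbar k (fun y => ((Real.log (1 + cHess (fun x => (sy q c x).re) y).det.re : ℝ) : ℂ))
        = sy q (fun η => -(Complex.I / 2) * F k η) := funext fun y => S.logdet k y
    unfold cHess at e2
    rw [e2]
    have hr : RD q (fun η => -(Complex.I / 2) * F k η) := by
      refine (S.rdFk k).bound (K := 1) (d := 0) fun ξ => ?_
      rw [norm_mul, norm_neg]
      have h2 : ‖Complex.I / 2‖ = 1 / 2 := by simp only [Complex.norm_div, Complex.norm_I, Complex.norm_ofNat, one_div]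
      rw [h2, pow_zero, one_mul]
      gcongr
      (clear * -; norm_num)
    exact dz_sy hr j z
  have hr3 : ∀ k j, RD q (fun η => (Complex.I / 2) * (q η) j * (-(Complex.I / 2) * F k η)) := by
    intro k j
    refine (S.rdFk k).bound (K := 1) (d := 1) fun ξ => ?_
    rw [norm_mul, norm_mul, norm_mul, norm_neg]
    have h1 : ‖(q ξ) j‖ ≤ ‖q ξ‖ := PiLp.norm_apply_le _ _
    have h2 : ‖Complex.I / 2‖ = 1 / 2 := by simp
    rw [h2]
    calc 1 / 2 * ‖(q ξ) j‖ * (1 / 2 * ‖F k ξ‖) = (1 / 4 * ‖(q ξ) j‖) * ‖F k ξ‖ := by ring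
      _ ≤ (1 * (1 + ‖q ξ‖) ^ 1) * ‖F k ξ‖ := by
          apply mul_le_mul_of_nonneg_right _ (norm_nonneg _)
          linarith only [h1, norm_nonneg (q ξ)]
  have e3 : ∑ k, (Mt B * cHess (fun y => Real.log (1 + cHess (fun x => (sy q c x).re) y).det.re)
      z).diag k = ∑ k, ∑ j, Mt B k j *
      sy q (fun η => (Complex.I / 2) * (q η) j * (-(Complex.I / 2) * F k η)) z := by
    apply Finset.sum_congr rfl
    intro k _
    rw [Matrix.diag_apply, Matrix.mul_apply]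
    apply Finset.sum_congr rfl
    intro j _
    rw [e1]
  rw [e3, sy_sum2 hr3 (Mt B) z, ← Complex.neg_re]
  congr 1
  have e4 : sy q (fun ξ => tri q a (one + C) (one + C) ξ) z =
      -(1 / 4) * sy q (C2 q (C1 q a (one + C)) (one + C)) z := by
    unfold sy
    rw [← tsum_mul_left]
    congr 1
    funext ξ
    unfold tri
    rw [smul_eq_mul, smul_eq_mul]
    ring
  have e5 : sy q (C2 q (C1 q a (one + C)) (one + C)) z =
      ∑' η, ch (q η) z • L2 (q η) (C1 q a (one + C) η) B :=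
    sy_tc L2_bd L2_lin S.rdF S.rdB z
  rw [e4, e5, ← tsum_mul_left, ← tsum_neg]
  congr 1
  funext η
  rw [L2_apply, Dl.ap_expand, smul_eq_mul]
  simp only [Finset.mul_sum, Op.ap_expand]
  rw [← Finset.sum_neg_distrib]
  apply Finset.sum_congr rfl
  intro k _
  rw [← Finset.sum_neg_distrib]
  apply Finset.sum_congr rfl
  intro j _
  rw [hF]
  dsimp only
  ring_nf
  rw [Complex.I_sq]
  ring

end Pde

end Vale.Agent.P264
end
end
end
end
end

section

section

/-!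
# P264 / B / Far / BlockBound : time integration of the differential inequality of one block (D8)
-/

open MeasureTheory Set Filter Real
open scoped ContDiff Topology

namespace P264.B

variable {R ρ χ : ℝ → ℝ} {Rmin α z₀ rf E₃ : ℝ}

/-- Abstract time integration. -/
theorem block_bound_aux {e e' g : ℝ → ℝ} {c sc σ K L : ℝ} (hsσ : sc ≤ σ) (hK : 0 ≤ K)
    (he : ContinuousOn e (Icc sc σ))
    (hd : ∀ s ∈ Ico sc σ, HasDerivWithinAt e (e' s) (Ici s) s)
    (hg : Continuous g) (hgI : ∫ s in sc..σ, g s ≤ L)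
    (hle : ∀ s ∈ Ico sc σ, e' s ≤ exp (-2 * (c + s / 2)) * K + 44000 * g s) :
    e σ ≤ e sc + exp (-2 * c - sc) * K + 44000 * L := by
  have hc1 : Continuous fun s : ℝ => exp (-2 * (c + s / 2)) * K := by fun_prop
  have hc2 : Continuous fun s : ℝ => 44000 * g s := continuous_const.mul hg
  have h1 := intervalIntegral.sub_le_integral_of_hasDeriv_right_of_le hsσ he
    (fun s hs => (hd s ⟨hs.1.le, hs.2⟩).Ioi_of_Ici)
    ((hc1.add hc2).continuousOn.integrableOn_compact isCompact_Icc)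
    (fun s hs => hle s ⟨hs.1.le, hs.2⟩)
  have h2 : ∫ s in sc..σ, (exp (-2 * (c + s / 2)) * K + 44000 * g s)
      = (∫ s in sc..σ, exp (-2 * (c + s / 2)) * K) + 44000 * ∫ s in sc..σ, g s := by
    rw [intervalIntegral.integral_add (hc1.intervalIntegrable _ _) (hc2.intervalIntegrable _ _),
      intervalIntegral.integral_const_mul]
  have h3 : ∫ s in sc..σ, exp (-2 * (c + s / 2)) * K
      = (exp (-2 * c - sc) - exp (-2 * c - σ)) * K := by
    rw [intervalIntegral.integral_mul_const]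
    congr 1
    have hF : ∀ s ∈ uIcc sc σ, HasDerivAt (fun s => -exp (-2 * c - s))
        (exp (-2 * (c + s / 2))) s := by
      intro s _
      have h4 : HasDerivAt (fun s : ℝ => -2 * c - s) (-1) s := by
        simpa only [neg_mul, id_eq] using (hasDerivAt_id s).const_sub (-2 * c)
      have h5 := h4.exp.neg
      have h6 : -(exp (-2 * c - s) * -1) = exp (-2 * (c + s / 2)) := by
        have : -2 * (c + s / 2) = -2 * c - s := by ring
        rw [this]; ring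
      rw [h6] at h5
      exact h5
    have hcI : Continuous fun s : ℝ => exp (-2 * (c + s / 2)) := by fun_prop
    rw [intervalIntegral.integral_eq_sub_of_hasDerivAt hF (hcI.intervalIntegrable _ _)]
    ring
  have h7 : (exp (-2 * c - sc) - exp (-2 * c - σ)) * K ≤ exp (-2 * c - sc) * K := by
    have := mul_nonneg (exp_pos (-2 * c - σ)).le hK
    nlinarith only [this]
  have h1' : e σ - e sc ≤ ∫ s in sc..σ, (exp (-2 * (c + s / 2)) * K + 44000 * g s) := h1
  rw [h2, h3] at h1'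
  linarith only [hgI, h7, h1']

/-- (D8) One block, integrated in time: from `s_c` (entrance or initial time) to `σ`. -/
theorem block_bound (hR : Profile R Rmin α) (hF : FarCert R ρ z₀ rf E₃)
    {U₀ : ℝ → ℝ} {U φ : ℝ → ℝ → ℝ} {T X c sc σ η M A : ℝ}
    (hφ : IsFlowU 8 T U₀ U φ) (hχ : Cutoff χ X) (hs : exp (-sc) ≤ T) (hsσ : sc ≤ σ)
    (hc : exp (c + 5 / 3) ≤ X / 2) (hz : z₀ ≤ c + sc / 2) (hη : 0 ≤ η) (hη2 : η ≤ 1 / 20)
    (hM : 0 ≤ M) (hA : 0 ≤ A)
    (hsm : ∀ s ∈ Ico sc σ, Small R φ T X η s)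
    (hb : ∀ s ∈ Ico sc σ, blockE χ R φ T (c - 2 / 3) s ≤ M ∧ blockE χ R φ T c s ≤ M ∧
      blockE χ R φ T (c + 2 / 3) s ≤ M + A) :
    blockE χ R φ T c σ ≤ blockE χ R φ T c sc
      + exp (-2 * c - sc) * (961800000 * (3 * M + A) + 25000000 * η ^ 2)
      + 1320000 * E₃ := by
  have hc' : exp (c + 1) ≤ X / 2 := le_trans (exp_le_exp.2 (by linarith only [])) hc
  have hT : 0 < T := (exp_pos _).trans_le hs
  have hsT : ∀ s, sc ≤ s → exp (-s) ≤ T := fun s h =>
    le_trans (exp_le_exp.2 (by linarith only [h])) hs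
  have hrc := resid_continuous_of_profile hR
  have hgc : Continuous fun s : ℝ =>
      exp (2 * (c + s / 2)) * ∫ u in (-1 : ℝ)..1, resid R (c + s / 2 + u) ^ 2 := by
    refine (by fun_prop : Continuous fun s : ℝ => exp (2 * (c + s / 2))).mul ?_
    refine intervalIntegral.continuous_parametric_intervalIntegral_of_continuous' ?_ _ _
    exact (hrc.comp (by fun_prop : Continuous fun p : ℝ × ℝ => c + p.1 / 2 + p.2)).pow 2
  have hcont : ContinuousOn (fun s => blockE χ R φ T c s) (Icc sc σ) := by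
    refine (blockE_cont hR hφ hT hχ).comp (f := fun s : ℝ => ((c, s) : ℝ × ℝ))
      (by fun_prop) ?_
    intro s hs'
    exact ⟨hsT s hs'.1, hc'⟩
  have h := block_bound_aux (e := fun s => blockE χ R φ T c s)
    (e' := fun s => blockD χ R φ T c s)
    (g := fun s => exp (2 * (c + s / 2)) * ∫ u in (-1 : ℝ)..1, resid R (c + s / 2 + u) ^ 2)
    (c := c) (K := 961800000 * (3 * M + A) + 25000000 * η ^ 2) (L := 30 * E₃)
    hsσ (by (clear * - hM hA; positivity)) hcont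
    (fun s hs' => blockE_deriv hR hφ hχ (hsT s hs'.1) hc') hgc
    (resid_time hR hF hsσ (by linarith only [hz])) (by
      intro s hs'
      have h1 := blockD_le hR hF hφ hχ (hsT s hs'.1) hc (by linarith only [hz, hs'.1]) hη hη2
        (hsm s hs')
      obtain ⟨b1, b2, b3⟩ := hb s hs'
      have h2 : exp (-2 * (c + s / 2)) * (961800000 *
          (blockE χ R φ T (c - 2 / 3) s + blockE χ R φ T c s + blockE χ R φ T (c + 2 / 3) s)
          + 25000000 * η ^ 2)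
          ≤ exp (-2 * (c + s / 2)) * (961800000 * (3 * M + A) + 25000000 * η ^ 2) :=
        mul_le_mul_of_nonneg_left (by linarith only [b3, b2, b1]) (exp_pos _).le
      have h3 : 44000 * exp (2 * (c + s / 2)) * ∫ u in (-1 : ℝ)..1, resid R (c + s / 2 + u) ^ 2
          = 44000 * (exp (2 * (c + s / 2)) * ∫ u in (-1 : ℝ)..1, resid R (c + s / 2 + u) ^ 2) := by
        ring
      linarith only [h1, h2])
  have h' : blockE χ R φ T c σ ≤ blockE χ R φ T c sc
      + exp (-2 * c - sc) * (961800000 * (3 * M + A) + 25000000 * η ^ 2)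
      + 44000 * (30 * E₃) := h
  linarith only [h]

end P264.B
end
end

section

section

/-!
# P264 / B / Far / OuterCtlThm : (O1) control of the outer region (helper868)
-/

open MeasureTheory Set Filter Real
open scoped ContDiff Topology

namespace P264.B

section

variable {T : ℝ} {U₀ : ℝ → ℝ} {U φ : ℝ → ℝ → ℝ}

/-- The jets on the box are the iterated derivatives inside. -/
theorem iter_eq_dx (hT : 0 < T) {F : ℝ × ℝ → ℝ} (hF : ContDiffOn ℝ ∞ F (bx T)) {t : ℝ}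
    (ht : t ∈ Icc 0 T) (k : ℕ) {x : ℝ} (hx : x ∈ Ioo (0 : ℝ) 1) :
    iteratedDeriv k (fun y => F (t, y)) x = dx T k F (t, x) := by
  induction k generalizing x with
  | zero => rw [iteratedDeriv_zero]; rfl
  | succ k ih =>
    rw [iteratedDeriv_succ]
    have h : iteratedDeriv k (fun y => F (t, y)) =ᶠ[𝓝 x] fun y => dx T k F (t, y) := by
      filter_upwards [isOpen_Ioo.mem_nhds hx] with y hy using ih hy
    rw [h.deriv_eq]
    exact (der_dx hT hF k ht hx).deriv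

theorem En_eq_E0 (t : ℝ) : En T U t = E0 8 T U t := by
  unfold En E0 Sf
  congr 1
  ext x
  have : (-P264.Cal.pdt (KT T) (fun p => U p.1 p.2) (t, x)) ^ 2 =
      P264.Cal.pdt (bx T) (pr U) (t, x) ^ 2 := by
    rw [neg_sq]
  show _ = x ^ (8 - 1) * (-P264.Cal.pdt (KT T) (fun p => U p.1 p.2) (t, x)) ^ 2
  rw [this]

theorem E0_zero_le (hT : 0 < T) (hφ : IsFlowU 8 T U₀ U φ) {A : ℝ}
    (h : ∫ x in (0 : ℝ)..1, x ^ 7 * scal 8 (φ 0) x ^ 2 ≤ A) : E0 8 T U 0 ≤ A := by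
  refine le_trans (le_of_eq ?_) h
  unfold E0
  rw [intervalIntegral.integral_of_le zero_le_one, intervalIntegral.integral_of_le zero_le_one,
    integral_Ioc_eq_integral_Ioo, integral_Ioc_eq_integral_Ioo]
  refine setIntegral_congr_fun measurableSet_Ioo fun x hx => ?_
  show x ^ (8 - 1) * Sf T U (0, x) ^ 2 = x ^ 7 * scal 8 (φ 0) x ^ 2
  rw [Sf_eq_scal hT hφ ⟨le_rfl, hT.le⟩ hx]

end

/-- (O1) The outer lemma. -/
theorem outer_ctl {a b A c : ℝ} (ha : 0 < a) (hab : a < b) (hb : b < 1) (hA : 0 ≤ A)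
    (hc : 0 < c) :
    ∃ C : ℝ, 0 ≤ C ∧ ∀ T : ℝ, 0 < T → T ≤ 1 → C * T ^ (1 / 4 : ℝ) ≤ c / 2 →
      ∀ (U₀ : ℝ → ℝ) (U φ : ℝ → ℝ → ℝ), IsFlowU 8 T U₀ U φ →
        ∫ x in (0 : ℝ)..1, x ^ 7 * scal 8 (φ 0) x ^ 2 ≤ A →
        (∀ x ∈ Icc a b, c ≤ φ 0 x) → OuterCtl T a b C φ := by
  obtain ⟨C1, hC1, h1⟩ := outer_lemma ha hab hb hA
  obtain ⟨C2, hC2, h2⟩ := H2_bound ha hab.le hb hA
  obtain ⟨C3, hC3, h3⟩ := H3_bound ha hab hb hA (half_pos hc)
  refine ⟨C1 + C2 + C3, by (clear * - hC1 hC2 hC3; positivity), ?_⟩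
  intro T hT hT1 hCT U₀ U φ hφ hE hlow
  have hE0 := E0_zero_le hT hφ hE
  have hEn : ∀ t ∈ Icc 0 T, En T U t ≤ A := by
    intro t ht
    rw [En_eq_E0]
    exact (E0_le (by norm_num) hT hφ ht).trans hE0
  have hTp : 0 ≤ T ^ (1 / 4 : ℝ) := Real.rpow_nonneg hT.le _
  have sup : ∀ t ∈ Icc 0 T, ∀ x ∈ Icc a b, |φ t x - φ 0 x| ≤ (C1 + C2 + C3) * T ^ (1 / 4 : ℝ) := by
    intro t ht x hx
    refine (h1 T U₀ U φ hT hT1 hφ hEn t ht x hx).trans ?_
    exact mul_le_mul_of_nonneg_right (by linarith only [hC2, hC3]) hTp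
  have hin : ∀ x ∈ uIcc a b, x ∈ Ioo (0 : ℝ) 1 := by
    intro x hx
    rw [uIcc_of_le hab.le] at hx
    exact ⟨ha.trans_le hx.1, hx.2.trans_lt hb⟩
  have it : ∀ k, ∀ t ∈ Icc 0 T, ∀ x ∈ uIcc a b,
      iteratedDeriv k (φ t) x = dx T k (ph φ) (t, x) := fun k t ht x hx =>
    iter_eq_dx (F := ph φ) hT hφ.smooth ht k (hin x hx)
  refine ⟨sup, ?_, ?_⟩
  · intro t ht
    have e : ∫ x in a..b, (φ t x ^ 2 + deriv (φ t) x ^ 2 + iteratedDeriv 2 (φ t) x ^ 2) =
        ∫ x in a..b, (φ t x ^ 2 + dx T 1 (ph φ) (t, x) ^ 2 + dx T 2 (ph φ) (t, x) ^ 2) := by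
      refine intervalIntegral.integral_congr fun x hx => ?_
      have e1 := it 1 t ht x hx
      rw [iteratedDeriv_one] at e1
      show φ t x ^ 2 + deriv (φ t) x ^ 2 + iteratedDeriv 2 (φ t) x ^ 2 = _
      rw [e1, it 2 t ht x hx]
    rw [e]
    exact ((h2 hT hφ hE0 t ht).2).trans (by linarith only [hC1, hC3])
  · have e : ∫ t in (0 : ℝ)..T, ∫ x in a..b, iteratedDeriv 3 (φ t) x ^ 2 =
        ∫ t in (0 : ℝ)..T, ∫ x in a..b, dx T 3 (ph φ) (t, x) ^ 2 := by
      refine intervalIntegral.integral_congr fun t ht => ?_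
      rw [uIcc_of_le hT.le] at ht
      refine intervalIntegral.integral_congr fun x hx => ?_
      show iteratedDeriv 3 (φ t) x ^ 2 = _
      rw [it 3 t ht x hx]
    rw [e]
    refine (h3 hT hT1 hφ hE0 ?_).trans (by linarith only [hC1, hC2])
    intro t ht x hx
    have e1 := abs_le.mp (sup t ht x hx)
    have e2 := hlow x hx
    linarith only [hCT, e1, e2]

end P264.B
end
end
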