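import Mathlib.Algebra.BigOperators.Fin
import Mathlib.Analysis.Normed.Module.FiniteDimension
import Mathlib.Data.Fintype.BigOperators
import Mathlib.Data.Fintype.Pi
import Mathlib.Data.Int.Interval
import Mathlib.Data.ZMod.Basic
import Mathlib.LinearAlgebra.Dimension.Finrank
import Mathlib.Topology.Order.Lattice
import Mathlib.Topology.UniformSpace.HeineCantor
import Vale.Agent.P264.MathlibUsed
import Vale.Agent.P264.Bdl.B1
attribute [-instance] Pi.preorder Std.Time.WallTime.instHAddOffset_1 Vector.instHMul Std.Time.Duration.instHMulInt_1 instCoeT instCoeTOfCoeDep OrderDual.instPow_1 IdemCommSemiring.toIdemSemiring KleeneAlgebra.toIdemSemiring Pi.instFintype SemiRingCat.instSemiringObjForgetRingHomCarrier IdemCommSemiring.toCommSemiring Valued.toUniformSpace IdemSemiring.toSemiring UpgradedStandardBorel.toTopologicalSpace IntermediateField.instNontriviallyNormedFieldSubtypeMem SemimoduleCat.isAddCommMonoid ModuleCat.isModule instCoeTC MeasureTheory.MeasureSpace.pi AddGrpCat.str instCoeHTC ModuleCat.instAddCommGroupCarrierMkOfSMul'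 instCoeHTCT Std.Time.Duration.instHMulInt System.FilePath.instHDivString Pi.addGroupWithOne CompleteAtomicBooleanAlgebra.toCompletelyDistribLattice Pi.partialOrder CompletelyDistribLattice.toCompleteDistribLattice AlgebraicClosure.instGroupWithZero BoxIntegral.Box.instMembershipForallReal CompleteDistribLattice.toCoframe CompleteLinearOrder.toCompleteLattice Order.Coframe.toCompleteLattice Order.Frame.toCompleteLattice instCoeTCOfCoe Pi.instLattice LinOrd.str Pi.normedRing CommSemiRingCat.instCommSemiringObjForgetRingHomCarrier LinearOrderedAddCommGroupWithTop.instLinearOrderedAddCommMonoidWithTop Pi.nonUnitalNonAssocSemiring TopologicalSpace.UpgradedIsCompletelyPseudoMetrizableSpace.toPseudoMetricSpace ChainCompletePartialOrder.instOmegaCompletePartialOrder CompletePartialOrder.toOmegaCompletePartialOrder OmegaCompletePartialOrder.toPartialOrder UniformSpace.Completion.instNormedFieldOfCompletableTopField AbsoluteValue.funLike AddMonCat.addMonoidObj instContinuousSMulForall_1 NonUnitalCommCStarAlgebra.toNonUnitalNormedCommRing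 CStarAlgebra.toNonUnitalCStarAlgebra NonUnitalCStarAlgebra.toNonUnitalNormedRing Pi.instTopForall NonUnitalNormedCommRing.toNonUnitalSeminormedCommRing LinearOrderedAddCommGroupWithTop.toAddCommMonoid Complex.instPow Std.Time.WallTime.instHSubDuration_1 LinearOrderedCommGroupWithZero.toCommGroupWithZero SeminormedRing.toNonUnitalSeminormedRing EuclideanDomain.toCommRing SeminormedCommRing.toCommRing LinearOrderedAddCommGroupWithTop.toSubNegMonoid LinearOrderedCommGroupWithZero.toLinearOrderedCommMonoidWithZero CommRing.toAddCommGroupWithOne NormedCommGroup.toSeminormedCommGroup instCoeHTCOfCoeHeadOfCoeOTC NormedCommGroup.toCommGroup SeminormedCommGroup.toCommGroup Invertible.toNeZero NeZero.of_gt' Nat.AtLeastTwo.toNeZero MeasurableSpace.pi Fintype.decidablePiFintype ContinuousAddMonoidHom.instCoeOutOfAddMonoidHomClassOfContinuousMapClass ContinuousMonoidHom.instCoeOutOfMonoidHomClassOfContinuousMapClass HomeomorphClass.instCoeOutHomeomorph IsometryClass.instCoeOutIsometryEquiv instCoeHTCTOfCoeTailOfCoeHTC instCoeOutOfCoeFun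 instCoeTailIntOfIntCast instCoeTailNatOfNatCast instCoeTailRatOfRatCast DivisionRing.toNNRatCast DivisionRing.toRatCast DivisionSemiring.toNNRatCast LinearMapClass.instCoeToLinearMap NNRatCast.toCoeTail NonUnitalStarRingHomClass.instCoeHeadNonUnitalStarRingHom SemilinearMapClass.instCoeToSemilinearMap StarAlgEquivClass.instCoeHead StarRingEquivClass.instCoeHead CanonicallyOrderedAdd.toMulLeftMono CanonicallyOrderedMul.toMulLeftMono IsOrderedCancelMonoid.toIsOrderedMonoid IsOrderedMonoid.toIsOrderedCancelMonoid IsOrderedMonoid.toMulLeftMono LinearOrderedCommMonoidWithZero.toIsOrderedMonoid LieAlgebra.toModule CompleteBooleanAlgebra.toBooleanAlgebra MonCat.monoidObj Set.instAddLeftMono Set.instAddRightMono RingCat.instRingObjForgetRingHomCarrier instSubsingleton IsEmpty.instSubsingleton Unique.instSubsingleton BooleanAlgebra.toBiheytingAlgebra CompleteDistribLattice.toBiheytingAlgebra CompleteLinearOrder.toBiheytingAlgebra CompletelyDistribLattice.toBiheytingAlgebra CommSemiring.toNonAssocCommSemiring NonAssocCommRing.toNonAssocCommSemiring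 NonAssocCommSemiring.toNonAssocSemiring NonAssocRing.toNonAssocSemiring CompleteLinearOrder.toConditionallyCompleteLinearOrderBot AddCommGroupWithOne.toAddCommMonoidWithOne Nat.Prime.one_lt' ConditionallyCompleteLinearOrderBot.toConditionallyCompleteLinearOrder BiheytingAlgebra.toCoheytingAlgebra BiheytingAlgebra.toHeytingAlgebra BooleanAlgebra.toGeneralizedBooleanAlgebra Order.Coframe.toCoheytingAlgebra NormedCommGroup.toNormedGroup coePNatNat Nat.Primes.coeNat Nat.Primes.coePNat CompleteLinearOrder.toLinearOrder ConditionallyCompleteLinearOrder.toLinearOrder LinearOrderedAddCommGroupWithTop.toLinearOrder LinearOrderedAddCommMonoidWithTop.toLinearOrder LinearOrderedCommMonoidWithZero.toLinearOrder CoheytingAlgebra.toGeneralizedCoheytingAlgebra GeneralizedBooleanAlgebra.toGeneralizedCoheytingAlgebra HeytingAlgebra.toGeneralizedHeytingAlgebra TopologicalSpace.Compacts.instSetLike Pi.normedAddGroup instPosMulMonoWithZeroOfMulLeftMono NormedGroup.toSeminormedGroup SeminormedCommGroup.toSeminormedGroup instConditionallyCompletePartialOrderSup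 CompleteLattice.toCompleteSemilatticeInf CompleteLattice.toCompleteSemilatticeSup CompleteLattice.toConditionallyCompleteLattice ConditionallyCompletePartialOrder.toConditionallyCompletePartialOrderInf MulSemiringAction.toDistribMulAction CommGroup.toGroup NormedGroup.toGroup SeminormedGroup.toGroup BooleanAlgebra.toDistribLattice CompleteLattice.toLattice CompleteLattice.toPartialOrder' CompleteSemilatticeInf.toPartialOrder CompleteSemilatticeSup.toPartialOrder ConditionallyCompleteLattice.toLattice ConditionallyCompletePartialOrderInf.toPartialOrder GeneralizedBooleanAlgebra.toDistribLattice GeneralizedCoheytingAlgebra.toDistribLattice GeneralizedCoheytingAlgebra.toLattice GeneralizedHeytingAlgebra.toDistribLattice GeneralizedHeytingAlgebra.toLattice IdemSemiring.toSemilatticeSup LinearOrder.toLattice Order.Coframe.toDistribLattice Order.Frame.toDistribLattice Pi.isOrderedRing NumberField.to_charZero instNatCastNat IsStrictOrderedRing.toCharZero RCLike.charZero_rclike Pi.isOrderedAddMonoid LieRing.toAddCommGroup Fin.completeLinearOrder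 OrderAddMonoidHom.instAddMonoidHomClass Matrix.instIntCastOfZero Matrix.instNatCastOfZero Matrix.SpecialLinearGroup.hasCoeToMatrix Matrix.UnitaryGroup.coeMatrix EReal.instMulPosReflectLT OrderDual.instDivisionSemiring Pi.distribMulAction' Pi.instSubtractionCommMonoid Pi.continuousMul' Pi.instZeroLEOneClass Matrix.instAddMonoidWithOne Pi.commMagma EReal.instPosMulReflectLT MulOpposite.instMulOne Pi.mulZeroOneClass Pi.orderClosedTopology' Matrix.instAddCommGroupWithOne Matrix.instAddCommMonoidWithOne Matrix.instAddGroupWithOne Matrix.instNonAssocRing Matrix.nonAssocSemiring Matrix.SpecialLinearGroup.instCoeInt NonAssocCommRing.toNonUnitalNonAssocCommRing NonUnitalNormedCommRing.toNonUnitalCommRing NonUnitalSeminormedCommRing.toNonUnitalCommRing RCLike.algebraMapCoe Fin.instBiheytingAlgebra Algebra.Extension.commRing instClosedIicTopologyOrderDual instMulPosMonoWithZeroOfMulRightMono WithTop.decidableLE Pi.seminormedAddGroup Pi.divisionCommMonoid Pi.mulOneClass AbsoluteValue.zeroHomClass OrderDual.instDivisionRing Pi.opensMeasurableSpace_of_subsingleton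 Pi.subtractionMonoid CategoryTheory.instFinCategoryOfFintypeOfIsThin SetLike.instFintype Unique.fintype CategoryTheory.FinCategory.fintypeObj NonUnitalNormedRing.toNonUnitalRing NonUnitalSeminormedRing.toNonUnitalRing Ring.toNonUnitalRing instUniqueAddUnitsOfSubsingleton CanonicallyOrderedCommMonoid.toUniqueAddUnits Pi.instIsRightCancelAdd Pi.semigroup SubfieldClass.toNormedField ValuationClass.toMonoidWithZeroHomClass NonAssocCommSemiring.toNonUnitalNonAssocCommSemiring NonUnitalRing.toNonUnitalSemiring AddOpposite.instAddZero GradedMonoid.GradeZero.smul Fin.instCoheytingAlgebra Fin.instHeytingAlgebra Pi.hasDistribNeg OrderDual.instCommGroupWithZero instNonUnitalAlgHomClassOfNonUnitalAlgEquivClass AlgEquivClass.toAlgHomClass AlgHom.instNonUnitalAlgHomClassOfAlgHomClass UniformSpace.Completion.instField Pi.complete Complex.instIntCast Pi.existsAddOfLe ValuativeRel.nonarchimedeanRing instIsDedekindDomainOfIsDomainOfIsDedekindRing IsDedekindDomainDvr.isDedekindDomain TopologicalSpace.UpgradedIsCompletelyMetrizableSpace.toMetricSpace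 MeasureTheory.OuterMeasure.instOuterMeasureClass Part.ofOptionDecidable Ordinal.instPosMulStrictMono Pi.compact_Icc_space' CStarAlgebra.toNormedAlgebra Pi.subNegZeroMonoid Nat.instIsStrictOrderedRing instFiniteProp Subsingleton.to_isCancelMulZero instNonemptyOfMonad covariant_swap_mul_of_covariant_mul CanonicallyOrderedAdd.toMulRightMono IsOrderedAddMonoid.toAddRightMono IsOrderedMonoid.toMulRightMono Subtype.fintype instIsDomain DivisionRing.isDomain ENormedAddCommMonoid.toESeminormedAddCommMonoid ENormedCommMonoid.toESeminormedCommMonoid EuclideanDomain.instIsDomain Field.isDomain IsDedekindDomain.toIsDomain IsStrictOrderedRing.isDomain NormedAddCommGroup.toENormedAddCommMonoid NormedCommGroup.toENormedCommMonoid NormedAddGroup.toSeminormedAddGroup instClosedIciTopologyOrderDual StarSubalgebra.commCStarAlgebra StarSubalgebra.cstarAlgebra SubalgebraClass.normedRing SubringClass.toNormedCommRing SubringClass.toNormedRing Pi.distribSMul' instMulActionSemiHomClassMulActionHom Pi.involutiveNeg instSMulZeroClass LinearOrderedCommMonoidWithZero.toPosMulStrictMono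 instDistribSMul SubfieldClass.toDivisionRing SubfieldClass.toField NonarchimedeanRing.toIsTopologicalRing Valued.isTopologicalDivisionRing Group.instTorsor NonUnitalNormedRing.toMetricSpace NormedAddGroup.toMetricSpace NormedCommGroup.toMetricSpace NormedDivisionRing.toMetricSpace NormedGroup.toMetricSpace NormedRing.toMetricSpace instCommCStarAlgebraForall Pi.normedCommutativeRing NonUnitalStarSubalgebra.nonUnitalCStarAlgebra NonUnitalStarSubalgebra.nonUnitalCommCStarAlgebra NonUnitalSubalgebraClass.nonUnitalNormedRing NonUnitalSubalgebraClass.nonUnitalSeminormedRing SubalgebraClass.seminormedRing SubringClass.toSeminormedCommRing SubringClass.toSeminormedRing NonUnitalSeminormedRing.toPseudoMetricSpace SeminormedCommGroup.toPseudoMetricSpace FractionalIdeal.instMulPosReflectLENonZeroDivisors Torsor.toMulAction GradedMonoid.GradeZero.mulAction MulSemiringActionSemiHomClass.toDistribMulActionSemiHomClass NonUnitalAlgSemiHomClass.toDistribMulActionSemiHomClass IsOrderedRing.toIsStrictOrderedRing LinearOrderedAddCommGroupWithTop.toSubtractionMonoid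 MulCharClass.toMonoidHomClass MulDistribMulActionSemiHomClass.toMonoidHomClass CommMonCat.str Pi.divInvMonoid Finite.of_subsingleton SetLike.instFinite NonUnitalCStarAlgebra.toSMulCommClass RingHomClass.toLinearMapClassRat SemilinearIsometryClass.toSemilinearMapClass instInfiniteOfUncountable instNontrivialOfCharZero CharZero.infinite Denumerable.instInfinite DivisionRing.toNontrivial EuclideanDomain.toNontrivial Field.instIsLocalRing Infinite.instNontrivial IsAlgClosed.instInfinite IsDiscreteValuationRing.toIsLocalRing IsDomain.toNontrivial IsLocalRing.toNontrivial IsSimpleAddGroup.toNontrivial IsSimpleGroup.toNontrivial IsSimpleOrder.toNontrivial IsSimpleRing.instNontrivial IsStrictOrderedRing.toNontrivial LinearOrderedAddCommGroupWithTop.toNontrivial NoMaxOrder.infinite NoMinOrder.infinite NontriviallyNormedField.infinite ValuationRing.isLocalRing CommGroup.toDivisionCommMonoid Group.toDivisionMonoid OrderDual.addRightStrictMono instCStarAlgebraForall instENormENNReal instIsBotOneClass UniformSpace.Completion.instNorm LinearOrderedAddCommGroupWithTop.toIsOrderedAddMonoid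 Pi.instCompl instOrderTopologyOrderDual -- iprune

set_option linter.all false

namespace AFastecaf5ex14a
@[reducible] noncomputable def a0 : Module ℝ ℂ := inferInstance
theorem a1 : CharZero ℝ := inferInstance
theorem a2 : CovariantClass ℝ ℝ (Function.swap fun x1 x2 => x1 + x2) fun x1 x2 => x1 ≤ x2 := inferInstance
@[reducible] noncomputable def a3 : NormedSpace ℝ ℝ := inferInstance
theorem a4 : ContinuousSMul ℝ ℝ := inferInstance
@[reducible] noncomputable def a5 {x1 : ℕ} : Module ℝ (Fin x1 → ℂ) := inferInstance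
theorem a6 : AddLeftMono ℝ := inferInstance
theorem a7 : AddRightReflectLE ℝ := inferInstance
@[reducible] def a8 : SMulZeroClass ℝ ℝ := inferInstance
@[reducible] def a9 : DistribMulAction ℝ ℝ := inferInstance
theorem a10 : IsRightCancelAdd ℝ := inferInstance
theorem a11 : AddLeftReflectLE ℝ := inferInstance
theorem a12 : PosMulStrictMono ℝ := inferInstance
@[reducible] noncomputable def a13 : DistribMulAction ℝ ℂ := inferInstance
theorem a14 : ContravariantClass ℝ ℝ (fun x1 x2 => x1 + x2) fun x1 x2 => x1 < x2 := inferInstance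
theorem a15 : PosMulReflectLT ℝ := inferInstance
theorem a16 : OrderClosedTopology ℝ := inferInstance
theorem a17 : PosMulReflectLE ℝ := inferInstance
@[reducible] noncomputable def a18 : SMulZeroClass ℝ ℂ := inferInstance
@[reducible] noncomputable def a19 {x1 : ℕ} : NormedSpace ℝ (Fin x1 → ℂ) := inferInstance
@[reducible] noncomputable def a20 {x1 : ℕ} : Module ℝ (Fin (x1 + 1) → ℂ) := inferInstance
theorem a21 : IsLeftCancelAdd ℝ := inferInstance
@[reducible] noncomputable def a22 : DistribSMul ℝ ℂ := inferInstance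
@[reducible] noncomputable def a23 {x1 : ℕ} : Module ℝ (P264.Geo.Cm x1) := inferInstance
@[reducible] noncomputable def a24 : NormedSpace ℝ ℂ := inferInstance
theorem a25 : IsModuleTopology ℝ ℝ := inferInstance
theorem a26 : IsBoundedSMul ℝ ℝ := inferInstance
@[reducible] noncomputable def a27 {x1 : ℕ} : SMulZeroClass (P264.Geo.SA x1) (P264.Geo.SA x1) := inferInstance
theorem a28 : ContravariantClass ℝ ℝ (Function.swap fun x1 x2 => x1 + x2) fun x1 x2 => x1 < x2 := inferInstance
@[reducible] noncomputable def a29 {x1 : ℕ} : Zero ↥(P264.Geo.Sm (P264.Geo.Om x1)) := inferInstance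
theorem a30 : IsTopologicalRing ℂ := inferInstance
theorem a31 : IsSemitopologicalSemiring ℂ := inferInstance
@[reducible] noncomputable def a32 {x1 : ℕ} {x2 : Fin x1} : SemigroupAction ℝ ((fun a => ℂ) x2) := inferInstance
@[reducible] noncomputable def a33 {x1 : ℕ} {x2 : Fin x1} : MulAction ℝ ((fun a => ℂ) x2) := inferInstance
@[reducible] noncomputable def a34 {x1 : ℕ} {x2 : Fin x1} : DistribMulAction ℝ ((fun a => ℂ) x2) := inferInstance
theorem a35 {x1 : ℕ} : AddSubgroupClass (Subalgebra ℂ (↥(P264.Geo.Om x1) → ℂ)) (↥(P264.Geo.Om x1) → ℂ) := inferInstance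
@[reducible] noncomputable def a36 {x1 : ℕ} : DistribSMul (P264.Geo.SA x1) (P264.Geo.SA x1) := inferInstance
theorem a37 : ContinuousSub ℝ := inferInstance
theorem a38 : IsSemitopologicalRing ℂ := inferInstance
theorem a39 : AddRightStrictMono ℝ := inferInstance
theorem a40 : SeparatelyContinuousMul ℂ := inferInstance
@[reducible] def a41 {x1 : ℕ} : AddZero (Vale.Agent.P264.Cn x1) := inferInstance
theorem a42 : IsCancelMulZero ℝ := inferInstance
@[reducible] noncomputable def a43 {x1 : ℕ} : SMul ℂ (P264.Geo.Cm x1 →L[ℝ] ℂ) := inferInstance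
@[reducible] def a44 {x1 : ℕ} : AddZeroClass (Vale.Agent.P264.Cn x1) := inferInstance
theorem a45 {x1 : ℕ} : ZeroMemClass (Subalgebra ℂ (↥(P264.Geo.Om x1) → ℂ)) (↥(P264.Geo.Om x1) → ℂ) := inferInstance
theorem a46 {x1 : ℕ} : AddSubmonoidClass (Subalgebra ℂ (↥(P264.Geo.Om x1) → ℂ)) (↥(P264.Geo.Om x1) → ℂ) := inferInstance
@[reducible] def a47 {x1 : ℕ} : AddMonoid (Vale.Agent.P264.Cn x1) := inferInstance
theorem a48 : ClosedIciTopology ℝ := inferInstance
theorem a49 {x1 : Type} [x2 : CommRing x1] [x3 : Algebra ℂ x1] : AddMonoidHomClass (x1 →ₗ[ℂ] ℂ) x1 ℂ := inferInstance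
@[reducible] noncomputable def a50 : NormedSpace ℝ (ℝ →L[ℝ] ℝ) := inferInstance
theorem a51 {x1 : Type} [x2 : CommRing x1] [x3 : Algebra ℂ x1] : DistribMulActionSemiHomClass (x1 →ₗ[ℂ] ℂ) (⇑(RingHom.id ℂ)) x1 ℂ := inferInstance
theorem a52 : IsLeftCancelMulZero ℝ := inferInstance
theorem a53 : IsOrderedRing ℤ := inferInstance
@[reducible] noncomputable def a54 {x1 : ℕ} : Sub ↥(P264.Geo.Sm (P264.Geo.Om x1)) := inferInstance
theorem a55 : ContinuousConstSMul ℂ ℂ := inferInstance
@[reducible] noncomputable def a56 : NormedSpace ℝ (ℝ × ℝ) := inferInstance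
theorem a57 : AddRightStrictMono ℕ := inferInstance
@[reducible] noncomputable def a58 {x1 : ℕ} : SMul ℂ (Derivation ℂ ↥(P264.Geo.Sm (P264.Geo.Om x1)) ↥(P264.Geo.Sm (P264.Geo.Om x1))) := inferInstance
@[reducible] noncomputable def a59 : NormedAddCommGroup (ℝ →L[ℝ] ℝ) := inferInstance
@[reducible] def a60 {x1 : ℕ} : SubNegMonoid (Vale.Agent.P264.Cn x1) := inferInstance
theorem a61 : ClosedIicTopology ℝ := inferInstance
@[reducible] def a62 {x1 : ℕ} : AddGroup (Vale.Agent.P264.Cn x1) := inferInstance
@[reducible] noncomputable def a63 {x1 : ℕ} : AddCommMagma ↥(P264.Geo.Sm (P264.Geo.Om x1)) := inferInstance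
@[reducible] noncomputable def a64 {x1 : ℕ} : AddCommMagma (P264.Geo.SA x1) := inferInstance
@[reducible] noncomputable def a65 {x1 : ℕ} : AddCommSemigroup (P264.Geo.SA x1) := inferInstance
@[reducible] noncomputable def a66 {x1 : ℕ} : AddCommSemigroup ↥(P264.Geo.Sm (P264.Geo.Om x1)) := inferInstance
theorem a67 : ContinuousAdd ℂ := inferInstance
theorem a68 {x1 : ℕ} : SemilinearMapClass (P264.Geo.Cm x1 →L[ℝ] ℂ) (RingHom.id ℝ) (P264.Geo.Cm x1) ℂ := inferInstance
theorem a69 {x1 : Type} [x2 : CommRing x1] [x3 : Algebra ℂ x1] : ZeroHomClass (Derivation ℂ x1 x1) x1 x1 := inferInstance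
@[reducible] noncomputable def a70 {x1 : ℕ} : CommRing ↥(P264.Geo.Sm (P264.Geo.Om x1)) := inferInstance
theorem a71 : Module.Flat ℂ ℂ := inferInstance
theorem a72 : MulHomClass (ℂ →+* ℂ) ℂ ℂ := inferInstance
theorem a73 : IsRightCancelAdd ℂ := inferInstance
theorem a74 : MulPosReflectLT ℝ := inferInstance
theorem a75 : CovariantClass ℕ ℕ (Function.swap fun x1 x2 => x1 + x2) fun x1 x2 => x1 ≤ x2 := inferInstance
@[reducible] noncomputable def a76 {x1 : ℕ} : SMulZeroClass ℝ (P264.Geo.Cm x1) := inferInstance
theorem a77 {x1 : Type} [x2 : CommRing x1] [x3 : Algebra ℂ x1] : ZeroHomClass (x1 →ₗ[ℂ] ℂ) x1 ℂ := inferInstance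
@[reducible] def a78 : AddMonoidWithOne ENNReal := inferInstance
@[reducible] noncomputable def a79 {x1 : ℕ} : DistribSMul ℂ (P264.Geo.SA x1) := inferInstance
@[reducible] noncomputable def a80 {x1 : ℕ} : DistribSMul ℝ (P264.Geo.Cm x1) := inferInstance
theorem a81 : AddRightReflectLE ℕ := inferInstance
theorem a82 {x1 : ℕ} : MulActionSemiHomClass (P264.Geo.Cm x1 →L[ℝ] ℂ) (⇑(RingHom.id ℝ)) (P264.Geo.Cm x1) ℂ := inferInstance
theorem a83 {x1 : ℕ} : AddHomClass (P264.Geo.Cm x1 →L[ℝ] ℂ) (P264.Geo.Cm x1) ℂ := inferInstance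
@[reducible] noncomputable def a84 {x1 : ℕ} : NormedSpace ℝ (Fin (x1 + 1) → ℂ) := inferInstance
theorem a85 : Module.IsTorsionFree ℂ ℂ := inferInstance
@[reducible] noncomputable def a86 {x1 : ℕ} : DistribMulAction ℝ (P264.Geo.Cm x1) := inferInstance
@[reducible] noncomputable def a87 : SemigroupAction ℝ ℂ := inferInstance
@[reducible] noncomputable def a88 : SMul ℝ ℂ := inferInstance
end AFastecaf5ex14a
attribute [local instance] AFastecaf5ex14a.a0 AFastecaf5ex14a.a1 AFastecaf5ex14a.a2
  AFastecaf5ex14a.a3 AFastecaf5ex14a.a4 AFastecaf5ex14a.a5 AFastecaf5ex14a.a6 AFastecaf5ex14a.a7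
  AFastecaf5ex14a.a8 AFastecaf5ex14a.a9 AFastecaf5ex14a.a10 AFastecaf5ex14a.a11
  AFastecaf5ex14a.a12 AFastecaf5ex14a.a13 AFastecaf5ex14a.a14 AFastecaf5ex14a.a15
  AFastecaf5ex14a.a16 AFastecaf5ex14a.a17 AFastecaf5ex14a.a18 AFastecaf5ex14a.a19
  AFastecaf5ex14a.a20 AFastecaf5ex14a.a21 AFastecaf5ex14a.a22 AFastecaf5ex14a.a23
  AFastecaf5ex14a.a24 AFastecaf5ex14a.a25 AFastecaf5ex14a.a26 AFastecaf5ex14a.a27
  AFastecaf5ex14a.a28 AFastecaf5ex14a.a29 AFastecaf5ex14a.a30 AFastecaf5ex14a.a31
  AFastecaf5ex14a.a32 AFastecaf5ex14a.a33 AFastecaf5ex14a.a34 AFastecaf5ex14a.a35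
  AFastecaf5ex14a.a36 AFastecaf5ex14a.a37 AFastecaf5ex14a.a38 AFastecaf5ex14a.a39
  AFastecaf5ex14a.a40 AFastecaf5ex14a.a41 AFastecaf5ex14a.a42 AFastecaf5ex14a.a43
  AFastecaf5ex14a.a44 AFastecaf5ex14a.a45 AFastecaf5ex14a.a46 AFastecaf5ex14a.a47
  AFastecaf5ex14a.a48 AFastecaf5ex14a.a49 AFastecaf5ex14a.a50 AFastecaf5ex14a.a51
  AFastecaf5ex14a.a52 AFastecaf5ex14a.a53 AFastecaf5ex14a.a54 AFastecaf5ex14a.a55
  AFastecaf5ex14a.a56 AFastecaf5ex14a.a57 AFastecaf5ex14a.a58 AFastecaf5ex14a.a59
  AFastecaf5ex14a.a60 AFastecaf5ex14a.a61 AFastecaf5ex14a.a62 AFastecaf5ex14a.a63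
  AFastecaf5ex14a.a64 AFastecaf5ex14a.a65 AFastecaf5ex14a.a66 AFastecaf5ex14a.a67
  AFastecaf5ex14a.a68 AFastecaf5ex14a.a69 AFastecaf5ex14a.a70 AFastecaf5ex14a.a71
  AFastecaf5ex14a.a72 AFastecaf5ex14a.a73 AFastecaf5ex14a.a74 AFastecaf5ex14a.a75
  AFastecaf5ex14a.a76 AFastecaf5ex14a.a77 AFastecaf5ex14a.a78 AFastecaf5ex14a.a79
  AFastecaf5ex14a.a80 AFastecaf5ex14a.a81 AFastecaf5ex14a.a82 AFastecaf5ex14a.a83
  AFastecaf5ex14a.a84 AFastecaf5ex14a.a85 AFastecaf5ex14a.a86 AFastecaf5ex14a.a87
  AFastecaf5ex14a.a88
namespace AFastecaf5ex14b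
@[reducible] noncomputable def a0 {x1 : ℕ} : DistribMulAction (P264.Geo.SA x1) (P264.Geo.SA x1) := inferInstance
theorem a1 {x1 : ℕ} : ContinuousSMul ℝ (Fin x1 → ℂ) := inferInstance
theorem a2 : ContinuousSMul ℝ ℂ := inferInstance
theorem a3 {x1 : ℕ} : Module.Flat ℂ (Matrix (Fin x1) (Fin x1) ℂ) := inferInstance
@[reducible] noncomputable def a4 {x1 : ℕ} : SMulZeroClass ℂ ↥(P264.Geo.Sm (P264.Geo.Om x1)) := inferInstance
@[reducible] noncomputable def a5 {x1 : ℕ} : DistribSMul ℂ ↥(P264.Geo.Sm (P264.Geo.Om x1)) := inferInstance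
theorem a6 {x1 : ℕ} : ContinuousSMul ℝ (Fin (x1 + 1) → ℂ) := inferInstance
theorem a7 {x1 : Type} [x2 : CommRing x1] [x3 : Algebra ℂ x1] : AddHomClass (Derivation ℂ x1 x1) x1 x1 := inferInstance
@[reducible] noncomputable def a8 {x1 : ℕ} : SMulZeroClass ℂ (P264.Geo.SA x1) := inferInstance
end AFastecaf5ex14b
attribute [local instance] AFastecaf5ex14b.a0 AFastecaf5ex14b.a1 AFastecaf5ex14b.a2
  AFastecaf5ex14b.a3 AFastecaf5ex14b.a4 AFastecaf5ex14b.a5 AFastecaf5ex14b.a6 AFastecaf5ex14b.a7
  AFastecaf5ex14b.a8
section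

section

/-! # P264 / Geo / PosA : linear algebra -/

open scoped ContDiff ComplexOrder
open TopologicalSpace (Opens)
open MeasureTheory Set

noncomputable section

namespace P264.Geo

variable {m : ℕ}

theorem posA_trace_mul_nonneg (P M : Matrix (Fin m) (Fin m) ℂ) (hP : P.PosSemidef)
    (hM : M.PosSemidef) : 0 ≤ (P * M).trace := by
  obtain ⟨R, hR⟩ : ∃ R : Matrix (Fin m) (Fin m) ℂ, P = R.conjTranspose * R := by
    open scoped MatrixOrder in
    have h1 := CFC.sqrt_mul_sqrt_self P hP.nonneg
    have h2 : (CFC.sqrt P).conjTranspose = CFC.sqrt P :=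
      (Matrix.nonneg_iff_posSemidef.1 (CFC.sqrt_nonneg P)).isHermitian.eq
    exact ⟨CFC.sqrt P, by rw [h2, h1]⟩
  rw [hR, Matrix.mul_assoc, Matrix.trace_mul_comm]
  exact (hM.mul_mul_conjTranspose_same R).trace_nonneg

/-- Linear algebra: `H` positive definite Hermitian, `S` (complex) symmetric, `Hᵀ B = S`; then
`Σ B_{ac} conj(B_{ca}) ≥ 0` (it is `tr(H⁻ᵀ S H⁻¹ S*)`). -/
theorem trace_nonneg (H B : Matrix (Fin m) (Fin m) ℂ) (hH : H.PosDef)
    (hB : (H.transpose * B).transpose = H.transpose * B) :
    0 ≤ ∑ a, ∑ c, B a c * (starRingEnd ℂ) (B c a) := by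
  have hHT : H.transpose.PosDef := hH.transpose
  have h1 : IsUnit H.transpose.det := (Matrix.isUnit_iff_isUnit_det _).1 hHT.isUnit
  have h2 : IsUnit H.det := (Matrix.isUnit_iff_isUnit_det _).1 hH.isUnit
  set S := H.transpose * B with hS
  have hB1 : B = (H.transpose)⁻¹ * S := by
    rw [hS, ← Matrix.mul_assoc, Matrix.nonsing_inv_mul _ h1, Matrix.one_mul]
  -- the entrywise conjugate of `B`
  have hBc : (B.transpose).conjTranspose = H⁻¹ * S.conjTranspose := by
    have h3 : H * (B.transpose).conjTranspose = S.conjTranspose := by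
      have h4 : S.conjTranspose = (S.transpose).conjTranspose := by rw [hB]
      rw [h4, hS, Matrix.transpose_mul, Matrix.transpose_transpose, Matrix.conjTranspose_mul,
        hH.isHermitian.eq]
    rw [← h3, ← Matrix.mul_assoc, Matrix.nonsing_inv_mul _ h2, Matrix.one_mul]
  have h5 : ∑ a, ∑ c, B a c * (starRingEnd ℂ) (B c a)
      = (B * (B.transpose).conjTranspose).trace := by
    simp only [Matrix.trace, Matrix.diag_apply, Matrix.mul_apply, Matrix.conjTranspose_apply,
      Matrix.transpose_apply]
    rfl
  rw [h5]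
  have h6 : B * (B.transpose).conjTranspose
      = (H.transpose)⁻¹ * (S * H⁻¹ * S.conjTranspose) := by
    rw [hBc]
    conv_lhs => rw [hB1]
    simp only [Matrix.mul_assoc]
  rw [h6]
  exact posA_trace_mul_nonneg _ _ hHT.inv.posSemidef
    (hH.inv.posSemidef.mul_mul_conjTranspose_same S)

end P264.Geo

end
end
end

section

section

/-!
# P264 / H3 / BSup : computed Bernstein bounds, evaluation of `pw` on a cell (helper288)
-/

namespace P264.Prof

/-! ## evaluation on a cell -/

theorem chain_le {l : List Cell} {r : ℤ} (hch : Chain l r) {s : Cell} (hs : s ∈ l) :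
    r ≤ s.C - s.H := by
  induction l generalizing r with
  | nil => simp at hs
  | cons t l ih =>
    obtain ⟨h1, h2, h3⟩ := hch
    rcases List.mem_cons.1 hs with h | h
    · subst h; omega
    · have := ih h3 h; omega

theorem chain_H {l : List Cell} {r : ℤ} (hch : Chain l r) {s : Cell} (hs : s ∈ l) :
    0 < s.H := by
  induction l generalizing r with
  | nil => simp at hs
  | cons t l ih =>
    obtain ⟨h1, h2, h3⟩ := hch
    rcases List.mem_cons.1 hs with h | h
    · subst h; exact h2
    · exact ih h3 h

theorem pw_of_mem {M : ℕ} {T : ℕ → ℝ → ℝ} {l : List Cell} {r : ℤ} (hch : Chain l r) {s : Cell}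
    (hs : s ∈ l) (k : ℕ) {y : ℝ} (h1 : ((s.C - s.H : ℤ) : ℝ) ≤ 16 * y)
    (h2 : 16 * y < ((s.C + s.H : ℤ) : ℝ)) : pw M T l k y = s.val M k y := by
  induction l generalizing r with
  | nil => simp at hs
  | cons t l ih =>
    obtain ⟨h3, h4, h5⟩ := hch
    rcases List.mem_cons.1 hs with h | h
    · subst h; rw [pw, if_pos h2]
    · have h6 := chain_le h5 h
      have h7 : ¬ (16 * y < ((t.C + t.H : ℤ) : ℝ)) := by
        rw [not_lt]
        refine le_trans ?_ h1
        exact_mod_cast h6
      rw [pw, if_neg h7]
      exact ih h5 h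

theorem abs_v_le {s : Cell} (hH : 0 < s.H) {y : ℝ} (h1 : ((s.C - s.H : ℤ) : ℝ) ≤ 16 * y)
    (h2 : 16 * y < ((s.C + s.H : ℤ) : ℝ)) : |(16 * y - s.C) / s.H| ≤ 1 := by
  have hH' : (0 : ℝ) < s.H := by exact_mod_cast hH
  push_cast at h1 h2
  rw [abs_le]
  constructor
  · rw [le_div_iff₀ hH']; linarith only [h1]
  · rw [div_le_iff₀ hH']; linarith only [h2]

end P264.Prof
end
end

section

section

/-!
# P264 / Prof / Rho8 : the weight of the linear certificate (helper919; weight found by helper692)

`ρ(z) = ρ̂(y)/y`, `y = e^z`, where `ρ̂ = rh8 0` is a `C²` piecewise quintic function on the same 121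
cells as the profile, equal to `1` for `y ≤ 1/2` and to the constant `cr8/2^48` for `y ≥ 256`.
It interpolates `(1+(4y/29)^7)/(1+(y/25)^7)` (value and two derivatives at the nodes, rounded).
-/

namespace P264.Prof

/-- number of binary digits -/
def MR8 : ℕ := 48

/-- value for `y ≥ 256`, times `2^48` (about `5774`) -/
def cr8 : ℤ := 1631750695880753152

/-- cells of `ρ̂` -/
def rcells8 : List Cell := [
  ⟨0, 8, [281474976710656]⟩,
  ⟨12, 4, [281475008071680, 89868288, 87715840, 37548032, 14616576, 6277120]⟩,
  ⟨20, 4, [281476251910144, 1784336384, 1068941312, 356917248, 73089024, 8589312]⟩,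
  ⟨28, 4, [281488413437952, 13435977728, 5755805696, 1370882048, 198258688, 16859136]⟩,
  ⟨36, 4, [281553010444288, 60691961856, 20227616768, 3746451456, 419350528, 27777024]⟩,
  ⟨44, 4, [281792905148416, 202317338624, 55173615616, 8360087552, 763787264, 41523200]⟩,
  ⟨50, 2, [282252921558528, 217824389632, 26138842112, 1742613504, 69768704, 1665536]⟩,
  ⟨54, 2, [282808236934656, 345659741696, 38406493184, 2370778112, 87877120, 1947136]⟩,
  ⟨58, 2, [283673617753088, 530705827840, 54900348928, 3155103744, 108872704, 2271232]⟩,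
  ⟨62, 2, [284981686701056, 791835914240, 76628813824, 4119846912, 132975616, 2551808]⟩,
  ⟨66, 2, [286907042928640, 1152252730368, 104749338624, 5290182656, 160389120, 2939904]⟩,
  ⟨70, 2, [289675527971840, 1640101896192, 140578428928, 6694068224, 191333376, 3260416]⟩,
  ⟨73, 1, [292475568176128, 1054844028672, 43349075968, 989729280, 13556736, 91904]⟩,
  ⟨75, 1, [294766790496512, 1240559214080, 49621425664, 1102627840, 14700800, 122368]⟩,
  ⟨77, 1, [297455454768768, 1452756576128, 56599606016, 1224982784, 15908480, 137088]⟩,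
  ⟨79, 1, [300597424915456, 1694374176256, 64341563392, 1357394944, 17179648, 108032]⟩,
  ⟨81, 1, [304254677346432, 1968588689024, 72908312320, 1499996928, 18516096, 151168]⟩,
  ⟨83, 1, [308495788856064, 2278825888768, 82364021248, 1653762048, 19919616, 134144]⟩,
  ⟨85, 1, [313396449959808, 2628775778432, 92776083712, 1818926848, 21393280, 149632]⟩,
  ⟨87, 1, [319040004419072, 3022403982848, 104215221248, 1996129280, 22937088, 173568]⟩,
  ⟨89, 1, [325518014632576, 3463965580928, 116755532544, 2186121984, 24552064, 151168]⟩,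
  ⟨91, 1, [332930854804864, 3958019705984, 130474554624, 2389137152, 26242432, 187520]⟩,
  ⟨93, 1, [341388331185280, 4509441618560, 145453397760, 2606177024, 28005504, 160384]⟩,
  ⟨95, 1, [351010331008256, 5123439472128, 161776727552, 2837345280, 29846784, 220672]⟩,
  ⟨97, 1, [361927499863296, 5805565919744, 179532920320, 3083803648, 31765760, 205312]⟩,
  ⟨99, 1, [374281948532352, 6561735817088, 198814089984, 3345887488, 33762944, 202624]⟩,
  ⟨101, 1, [388227990351232, 7398239582080, 219716134144, 3624243456, 35843456, 210816]⟩,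
  ⟨103, 1, [403932908242048, 8321758957440, 242338879232, 3919593728, 38003840, 208768]⟩,
  ⟨105, 1, [421577753355776, 9339383063040, 266786042880, 4232461312, 40248832, 238080]⟩,
  ⟨107, 1, [441358174756096, 10458623266048, 293165381120, 4563834368, 42577152, 204032]⟩,
  ⟨109, 1, [463485281741184, 11687431260032, 321588677888, 4913869056, 44992896, 264064]⟩,
  ⟨111, 1, [488186538038272, 13034212528896, 352171866112, 5283813888, 47494144, 250624]⟩,
  ⟨113, 1, [515706689136256, 14507846006656, 385035019008, 5673951488, 50083456, 288640]⟩,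
  ⟨115, 1, [546308723099264, 16117698185344, 420302430976, 6085353216, 52762240, 268416]⟩,
  ⟨117, 1, [580274864832768, 17873642185216, 458102664704, 6518475776, 55529728, 266752]⟩,
  ⟨119, 1, [617907604846976, 19786073507456, 498568568064, 6974063360, 58386816, 276096]⟩,
  ⟨121, 1, [659530761956096, 21865927897856, 541837306368, 7452719616, 61336320, 332544]⟩,
  ⟨123, 1, [705490580285696, 24124697578240, 588050435584, 7955687936, 64375040, 281344]⟩,
  ⟨125, 1, [756156862042752, 26574451367552, 637353843456, 8483070720, 67506816, 310912]⟩,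
  ⟨127, 1, [811924134895488, 29227849092736, 689897840896, 9035899648, 70729600, 331392]⟩,
  ⟨129, 1, [873212853940864, 32098161095808, 745837116160, 9614857984, 74044032, 357504]⟩,
  ⟨131, 1, [940470639269760, 35199284820096, 805330755840, 10220928768, 77449088, 313472]⟩,
  ⟨133, 1, [1014173549101952, 38545764129664, 868542208256, 10854197504, 80946048, 392064]⟩,
  ⟨135, 1, [1094827386956032, 42152803262976, 935639301632, 11516201984, 84531456, 348672]⟩,
  ⟨137, 1, [1182969044171776, 46036288528640, 1006794151936, 12207025664, 88206336, 372992]⟩,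
  ⟨139, 1, [1279167877223296, 50212801801856, 1082183162112, 12927738624, 91968384, 355968]⟩,
  ⟨141, 1, [1384027118669824, 54699640098304, 1161986924544, 13678650368, 95817728, 413184]⟩,
  ⟨143, 1, [1498185321747712, 59514829739776, 1246390179328, 14460981760, 99751168, 382720]⟩,
  ⟨146, 2, [1688345944781312, 134789101883904, 5528132385792, 125552311296, 1692930560, 13120000]⟩,
  ⟨150, 2, [1981068604179968, 158463486009856, 6323131831296, 139625356288, 1826334208, 13566464]⟩,
  ⟨154, 2, [2324434762908160, 185491049818624, 7205807946752, 154784017408, 1964229120, 13969920]⟩,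
  ⟨158, 2, [2725510242467840, 216235667469312, 8182777987072, 171061729280, 2106015744, 14382080]⟩,
  ⟨162, 2, [3192115339833344, 251088064273408, 9260845604864, 188487485440, 2250944512, 14572544]⟩,
  ⟨166, 2, [3732879233287168, 290466496727040, 10446964758528, 207081869312, 2398086144, 14821376]⟩,
  ⟨170, 2, [4357295584156672, 334817261969408, 11748195092480, 226859220992, 2546310144, 14819328]⟩,
  ⟨174, 2, [5075778977515008, 384615020767744, 13171647640576, 247822347264, 2694268416, 14739968]⟩,
  ⟨178, 2, [5899721767719424, 440362872926720, 14724419861504, 269963279360, 2840343040, 14438912]⟩,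
  ⟨182, 2, [6841550806020608, 502592154852864, 16413518126080, 293259412480, 2982654464, 13966848]⟩,
  ⟨186, 2, [7914783431589888, 571861897285632, 18245767135232, 317672120320, 3118989312, 13275136]⟩,
  ⟨190, 2, [9134081997963264, 648757892034560, 20227703898112, 343143981056, 3246817280, 12267520]⟩,
  ⟨194, 2, [10515306088390144, 733891304324608, 22365455967232, 369595294720, 3363225088, 11001344]⟩,
  ⟨198, 2, [12075561442894336, 827896759731712, 24664601730048, 396922295296, 3464921600, 9315840]⟩,
  ⟨202, 2, [13833244479976448, 931429839744000, 27130012284928, 424992589824, 3548206080, 7244800]⟩,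
  ⟨206, 2, [15808081147426304, 1045163902682624, 29765673702400, 453642548224, 3608950272, 4802048]⟩,
  ⟨210, 2, [18021158678432768, 1169786153775104, 32574488979456, 482674253824, 3642608640, 1880064]⟩,
  ⟨214, 2, [20494948669712384, 1305992883649536, 35558059790336, 511851784192, 3644213248, -1647616]⟩,
  ⟨218, 2, [23253319736678400, 1454483794420736, 38716448133120, 540896901120, 3608401920, -5610496]⟩,
  ⟨222, 2, [26321537837516800, 1615955328961536, 42047919058944, 569488402432, 3529459712, -10253312]⟩,
  ⟨228, 4, [31563494432436224, 3767991150977024, 189442857181184, 4885633744896, 53001121792, -587128832]⟩,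
  ⟨236, 4, [39897161556015104, 4586035761063936, 219976275234816, 5281700622336, 45116798976, -1001969664]⟩,
  ⟨244, 4, [49992080499431424, 5530680650471424, 252662578712576, 5597208776704, 32695719936, -1493149696]⟩,
  ⟨252, 4, [62109343886252032, 6609419464329216, 286903571402752, 5792937832448, 15038683136, -2045786112]⟩,
  ⟨260, 4, [76522314405070848, 7826861363152896, 321850343632896, 5824830681088, -8332277760, -2630121472]⟩,
  ⟨268, 4, [93509818313418752, 9183678418425856, 356380785602560, 5646387286016, -37512189952, -3199019008]⟩,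
  ⟨276, 4, [113347165603033088, 10675497157128192, 389095534125056, 5212440027136, -72033718272, -3687239680]⟩,
  ⟨284, 4, [136294970129491968, 12291824965535744, 418340888080384, 4484355338240, -110697715712, -4014372864]⟩,
  ⟨292, 4, [162585958431657984, 14015135724019712, 442266706616320, 3436424724480, -151455838208, -4092665856]⟩,
  ⟨300, 4, [192410234160414720, 15820266819235840, 458924780093440, 2062825791488, -191396511744, -3839545344]⟩,
  ⟨308, 4, [225899785507457024, 17674292547467264, 466408200712192, 384122081280, -226884974592, -3195832320]⟩,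
  ⟨316, 4, [263113346102642688, 19537027069511680, 463024916901888, -1548092133376, -253889509376, -2144253952]⟩,
  ⟨328, 8, [325828832422608896, 44490435618652160, 1739660826443776, -37840862576640, -4301331906560, 3197911040]⟩,
  ⟨344, 8, [421397157618753536, 50858594193760256, 1411188647116800, -70865354342400, -3713267359744, 114287960064]⟩,
  ⟨360, 8, [528136655882092544, 55544190468292608, 907428598579200, -94890492821504, -2109893902336, 198485409792]⟩,
  ⟨376, 8, [642068318904934400, 57983969269948416, 303918056194048, -103401642770432, 19377676288, 215663976448]⟩,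
  ⟨392, 8, [758431850740465664, 57976402084134912, -299243033985024, -95041673854976, 1954822864896, 162489106432]⟩,
  ⟨408, 8, [872463629202948096, 55713722599096320, -810768904159232, -73881263964160, 3138441445376, 71976370176]⟩,
  ⟨424, 8, [980109252413276160, 51689428468989952, -1174268329984000, -46928490889216, 3414722953216, -13223591936]⟩,
  ⟨440, 8, [1078469667513622528, 46536832166223872, -1375862281551872, -20859053293568, 2986748829696, -66692784128]⟩,
  ⟨456, 8, [1165918597001019392, 40873053321035776, -1435070426939392, 64770441216, 2205080616960, -84837826560]⟩,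
  ⟨472, 8, [1241957507681189888, 35197327480422400, -1388537614041088, 14332366684160, 1376544784384, -78143520768]⟩,
  ⟨488, 8, [1306932232790573056, 29853108112621568, -1275530660380672, 22407518453760, 681907191808, -59909210112]⟩,
  ⟨504, 8, [1361724627487997952, 25037087805472768, -1129226321723392, 25697523695616, 184020647936, -39901495296]⟩,
  ⟨520, 8, [1407489187962363904, 20831413741887488, -973561689882624, 25777365499904, -127662415872, -23111917568]⟩,
  ⟨536, 8, [1445461237275230208, 17240684532826112, -823619376906240, 23983058845696, -294719389696, -11018272768]⟩,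
  ⟨552, 8, [1476834946344083456, 14223773129875456, -687549148479488, 21284445732864, -363115716608, -3248054272]⟩,
  ⟨568, 8, [1502696670387372032, 11717159179075584, -568741698011136, 18308749033472, -371124273152, 1229537280]⟩,
  ⟨584, 8, [1523996599936065536, 9650145493688320, -467658183491584, 15419798896640, -346262888448, 3474366464]⟩,
  ⟨600, 8, [1541544190394032128, 7953758918270976, -383154823970816, 12801638187008, -306421932032, 4335034368]⟩,
  ⟨616, 8, [1556016738632794112, 6565303022780416, -313348656136192, 10526227955712, -262278086656, 4408213504]⟩,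
  ⟨632, 8, [1567974103937949696, 5430180775419904, -256136666529792, 8601418448896, -219640881152, 4079149056]⟩,
  ⟨656, 16, [1582174831861825536, 8206968533450752, -758092913311744, 50499262545920, -2631332659200, 105916301312]⟩,
  ⟨688, 16, [1595921599891947520, 5704551088013312, -510254366359552, 33300988067840, -1738646372352, 73474981888]⟩,
  ⟨720, 16, [1605530560807911424, 4013136892395520, -346685215834112, 22022869352448, -1134823456768, 48576593920]⟩,
  ⟨752, 16, [1612329628649865216, 2858066828328960, -238169096945664, 14672319086592, -739814260736, 31484280832]⟩,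
  ⟨784, 16, [1617199604987887616, 2060186999734272, -165551328002048, 9871351119872, -484646420480, 20292255744]⟩,
  ⟨816, 16, [1620729620194541568, 1502477883359232, -116446883708928, 6714568245248, -320096092160, 13106561024]⟩,
  ⟨848, 16, [1623317790519246848, 1108022903341056, -82867030884352, 4619764170752, -213528231936, 8519712768]⟩,
  ⟨880, 16, [1625236174624309248, 825810156290048, -59638657351680, 3215091499008, -143984836608, 5586976768]⟩,
  ⟨912, 16, [1626672831013470208, 621656513282048, -43387026243584, 2262783033344, -98173370368, 3700654080]⟩,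
  ⟨944, 16, [1627759242578313216, 472403660390400, -31889998315520, 1609949675520, -67681894400, 2477211648]⟩,
  ⟨976, 16, [1628588363731501056, 362187166760960, -23669254914048, 1157479366656, -47168815104, 1676263424]⟩,
  ⟨1008, 16, [1629226618413023232, 280019154616320, -17730750709760, 840511488000, -33219641344, 1146404864]⟩,
  ⟨1088, 64, [1630270840778522624, 608782053212160, -142843561639936, 25152692027392, -3855170404352, 492046057472]⟩,
  ⟨1216, 64, [1631071036214607872, 250292938817536, -52614038028288, 8299850006528, -1130760110080, 129789870080]⟩,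
  ⟨1408, 128, [1631506937387417600, 155031534059520, -55944288665600, 15293878534144, -3889558585344, 764132409344]⟩,
  ⟨1664, 128, [1631675013743902720, 40743952138240, -12489226977280, 2885793906688, -601196331008, 100489379840]⟩,
  ⟨1920, 128, [1631722903893311488, 12968563916800, -3451077001216, 690721947648, -122214416384, 17760010240]⟩,
  ⟨2304, 256, [1631742924990971904, 6035266568192, -2635882561536, 884430012416, -292105748480, 69658312704]⟩,
  ⟨2816, 256, [1631748791229480960, 1211539750912, -437292367872, 119607328768, -30448812032, 5983666176]⟩,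
  ⟨3328, 256, [1631750104583634944, 318346772480, -97583104000, 22542188544, -4702076928, 790446080]⟩,
  ⟨3840, 256, [1631750568630943744, 259213443072, -53415510016, -122536034304, 4713873408, 39274037248]⟩
  ]

/-- `ρ̂` and its derivatives (`k ≤ 2`) -/
noncomputable def rh8 (k : ℕ) (y : ℝ) : ℝ := pw MR8 (tval MR8 256 [cr8]) rcells8 k y

theorem rmatch8 : Match MR8 2 (tval MR8 256 [cr8]) rcells8 :=
  match_of_matchB (by norm_num) rcells8 (by (clear * -; decide +kernel))

theorem rh8_hasDerivAt (k : ℕ) (hk : k < 2) (y : ℝ) (hy : 0 < y) :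
    HasDerivAt (rh8 k) (rh8 (k + 1) y) y :=
  pw_hasDerivAt (fun k _ hy => tval_hasDerivAt MR8 256 [cr8] k hy) rcells8 rmatch8 k hk y hy

theorem rh8_continuousAt (k : ℕ) (hk : k ≤ 2) (y : ℝ) (hy : 0 < y) : ContinuousAt (rh8 k) y :=
  pw_continuousAt (fun k _ hy => (tval_hasDerivAt MR8 256 [cr8] k hy).continuousAt) rcells8
    rmatch8 k hk y hy

/-- the cells are contiguous from `y = 0` to `y = 256` -/
theorem rchain8 : chainB rcells8.tail 8 = true := by (clear * -; decide +kernel)

theorem rrend8 : rend rcells8.tail 8 = 4096 := by (clear * -; decide +kernel)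

end P264.Prof
end
end

section

section

/-!
# P264 / Prof / Data8 : the approximate self-similar profile for `n = 8`, branch 1 (helper608)

`R(y) = Q(y)/y` on `[0,256]` by 121 polynomial cells of degree 9 (C⁴ gluing), and
`R(y) = ∑ b_k (256/y)^(2k)` for `y ≥ 256`.  Generated by a script from a 34-digit solution of
`Q² Σ'' = -(Q - yQ')/2`.
-/

namespace P264.Prof

/-- number of binary digits of the cell coefficients -/
def M8 : ℕ := 81

/-- number of binary digits of the tail coefficients -/
def B8 : ℕ := 56

/-- tail coefficients -/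
def b8 : List ℤ := [57731714068264312, -15715521233360, -23429056571, -13617466, 18713, 14]

/-- cells -/
def cells8 : List Cell := [
  ⟨0, 8, [2417851639229258349412352, -223107473403759829688320, -833305039792811554816, 126765609888499902464, 6761542562835814400, 385960409053534208, 22897934122037248, 1384251645908992, 79731482290176, 6785211086848]⟩,
  ⟨12, 4, [2081780774690937566547296, -112324752042311806093792, -39140909793813739824, 22231285298554278320, 664210717580849232, 21154034288935600, 694686674520176, 22993435108880, 759435781904, 24412986224]⟩,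
  ⟨20, 4, [1857163909160323132218556, -112191448676088001766756, 112063835564842487568, 28516657198672191824, 924826367047980008, 31816123616639720, 1120436019782416, 39433512902864, 1368380671292, 45293998172]⟩,
  ⟨28, 4, [1633473292875072710748832, -111368619415923594640072, 308202973231235572720, 37391973006723031536, 1322983008799404848, 49287131888708000, 1860516475650128, 69245185446672, 2485066292720, 81568017448]⟩,
  ⟨36, 4, [1412290875251500691106404, -109640434442728429166596, 568747270688956905168, 50288692250267228912, 1950005571827536312, 78721419085508808, 3169595393011856, 122801555616176, 4367393678468, 125724818076]⟩,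
  ⟨44, 4, [1195721243916743390543080, -106692614820137794870560, 924428907506783049120, 69622007381331422432, 2967185180217267248, 129285942820508064, 5463792093848608, 210801723002784, 6414133881128, 56072282880]⟩,
  ⟨50, 2, [1038013330147687367500452, -51702891678097693984844, 320649735326347112032, 11342872714153537760, 259277740406262408, 5926540335004584, 126290551875392, 2226214296384, 18193550644, -913487740]⟩,
  ⟨54, 2, [935985235179369861115452, -50275381991770535544444, 395435594387538005776, 13675636494932835600, 326759941910375400, 7634856847246776, 158647872382480, 2308216693584, -15995800388, -3236819868]⟩,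
  ⟨58, 2, [837131101582943747345052, -48518433399274447421580, 485982022610564078304, 16621738917079376224, 413241003018934392, 9717598396314984, 186400169769216, 1389170106944, -118891783924, -9000523900]⟩,
  ⟨62, 2, [742178071677636996472800, -46361007053917453334480, 596453060871844038272, 20346707631931546272, 521816441788456768, 11996760513271808, 185073737642368, -2273068551584, -384850833184, -22213350704]⟩,
  ⟨66, 2, [652013387877373917711208, -43713342382958517733280, 732058735467576037792, 25028631226939649984, 651722603295974512, 13803212086257984, 92190357082016, -12617436417600, -1001877590296, -49027900192]⟩,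
  ⟨70, 2, [567726040370700823279912, -40462793580029575913264, 898987739012801138592, 30800151545900284096, 790417669179125424, 13290724858971616, -234957839772384, -37415790932288, -2242043504792, -89785215536]⟩,
  ⟨73, 1, [509162621964275626999072, -18773468147940172487192, 262170760512211414688, 4477271155428757472, 54804145045964512, 278913290660208, -12435916732704, -563975520032, -14076899712, -208125976]⟩,
  ⟨75, 1, [472701071799436041270356, -17669284461571224356004, 290368610197377079152, 4924528937990816240, 56672613885699960, 75589443669448, -22044342041744, -817800798928, -17447553708, -148907076]⟩,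
  ⟨77, 1, [438564281209213848812832, -16446900719812745960480, 321276101590172011360, 5376916352529351072, 55856782242352352, -265711047238752, -35526494932320, -1111297864352, -18487759872, 67319168]⟩,
  ⟨79, 1, [406999482291895808380668, -15095514494769525721812, 354847599709705234112, 5806802978722217280, 50736639663306200, -793413217980104, -53056294324704, -1379819446496, -13385606580, 551829820]⟩,
  ⟨81, 1, [378275080946681471200864, -13604893178121564642928, 390828941846152702192, 6171677116426800016, 39220309549053936, -1550667102985872, -73401398696496, -1482065318864, 3507432176, 1379951936]⟩,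
  ⟨83, 1, [352678556792582713655740, -11966401038983544165100, 428657639204796673696, 6410852833476900480, 18904497328117176, -2551321026012664, -92686703857216, -1181855632352, 37695669292, 2423671364]⟩,
  ⟨85, 1, [330511886851463321079028, -10174457690985604598260, 467349398390598094192, 6444625219818072784, -12448441941254984, -3740784106038648, -103252566721424, -190446385584, 88658093172, 3103219276]⟩,
  ⟨87, 1, [312083600576394653101816, -8228442019532416500408, 505394388952326754848, 6178954807253984192, -55992976129428336, -4949864761424048, -93923691457632, 1664451237376, 140526317240, 2324431272]⟩,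
  ⟨89, 1, [297696665687378888548716, -6134921909047842834252, 540707136033825871696, 5519184154807756240, -110495187261219512, -5870178500861800, -53653722939184, 4136971511696, 157387924780, -854401708]⟩,
  ⟨91, 1, [287631845253441584913732, -3909876904648841922364, 570690922370317201600, 4394423266315506752, -171086946582024920, -6099099798459480, 20666564716384, 6325235110368, 99019315572, -5705469580]⟩,
  ⟨93, 1, [282127080112078699232960, -1580335956682598208352, 592472807870377250992, 2788757451329847088, -228980890846428688, -5288247960530896, 115861870967568, 6901485857680, -38753639536, -9018470288]⟩,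
  ⟨95, 1, [281354784855620736123976, 815295192700679268792, 603319084861552301296, 767664995137475184, -273059194932144192, -3353819031293408, 202060216653456, 4989146782096, -194391239560, -7336416216]⟩,
  ⟨97, 1, [285400330148106343543524, 3228818127471886467708, 601154814820688776272, -1516223547568961296, -293321937527620168, -610329410658872, 245956386540560, 1066728803248, -273463312636, -985234660]⟩,
  ⟨99, 1, [294245758999738824736044, 5605854995646344244444, 585028174193521845152, -3847754290734904896, -284676348310186344, 2308407772724120, 230609895194176, -3137135296224, -229099653540, 5506824364]⟩,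
  ⟨101, 1, [307762333002659596193200, 7890912320518817219176, 555346942795604636960, -5998067207323236512, -248866671007829312, 4721904086678832, 165291998918496, -5844734196512, -100815026416, 7944900648]⟩,
  ⟨103, 1, [325713739920231657834268, 10032766336725808899596, 513799090030838325408, -7777088898987451808, -193447763413002632, 6185102126794008, 77403070146496, -6356879400576, 30171865612, 6088069372]⟩,
  ⟨105, 1, [347769359152584328843276, 11988954167960736736348, 463003004726312865232, -9068356823240319088, -128675577548860856, 6604736244509736, -4604994527280, -5150645066864, 107994617868, 2514998364]⟩,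
  ⟨107, 1, [373524884270034479877248, 13728553589861008958648, 406028666702822478688, -9836987453720367296, -64217027891685792, 6169275994751600, -63394024508128, -3204085332352, 125125596320, -390049000]⟩,
  ⟨109, 1, [402526575725790904566016, 15233049524398538011592, 345941929634721099312, -10115668625631022224, -7087310884545296, 5194102775991424, -94762242334576, -1337402228080, 103305672528, -1796014664]⟩,
  ⟨111, 1, [434295563747984930208400, 16495599261796017269152, 285469885679679539184, -9980338662464552816, 38901738131019536, 3987117277410768, -103192191008560, 37278549808, 67850185120, -1997929264]⟩,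
  ⟨113, 1, [468349542537380084432248, 17519258834263166130008, 226815836168272393360, -9526018991869545488, 72659866308425344, 2778393414664224, -96373225839504, 848833084816, 35019299592, -1596313848]⟩,
  ⟨115, 1, [504220360814013166073192, 18314739247072464786832, 171603326850048866816, -8848494306497333664, 94932095115810448, 1705849291579520, -81563518417856, 1203433196192, 11240486344, -1046140688]⟩,
  ⟨117, 1, [541467033098128092438164, 18898129805866586208532, 120908448145464117280, -8033165089074220384, 107442328566131688, 831255739091048, -64087649072256, 1254954474752, -3142232604, -573078812]⟩,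
  ⟨119, 1, [579684402917102796393300, 19288858525237293102076, 75340028069337737632, -7149936039106473248, 112255346284880616, 165170230116536, -47202622992384, 1138384792064, -10273301468, -242677140]⟩,
  ⟨121, 1, [618508079084523988003516, 19508016225778679396860, 35137170659042131216, -6252221001422676464, 111381256639482664, -310657352900056, -32545864154736, 949182400912, -12681032836, -43369412]⟩,
  ⟨123, 1, [657616412645070229730128, 19577071767375532620512, 264946172506523600, -5378295942899939728, 106573380805053488, -627205969084304, -20688721629968, 745512328784, -12416081984, 60388336]⟩,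
  ⟨125, 1, [696730273468670553262468, 19516948521644100081916, -29501731088689278480, -4553711744407057808, 99255104312047896, -818270576769848, -11593454412048, 557986980912, -10875043708, 103432092]⟩,
  ⟨127, 1, [735611295117369707377048, 19347405771187030450600, -54509767166610103760, -3793963137691995984, 90521272212834272, -915179459946496, -4927819267760, 399546270032, -8900834552, 111983704]⟩,
  ⟨129, 1, [774059134674128644272164, 19086661835220975431052, -75175179433189040752, -3106980193466240432, 81176162155255736, -944514602420984, -256519028656, 273007149008, -6947512764, 103259980]⟩,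
  ⟨131, 1, [811908170396219147275944, 18751199497365465578704, -91944283951670984752, -2495251539798112976, 71784696097749216, -927568817489200, 2854816959024, 176067068304, -5225307528, 87522720]⟩,
  ⟨133, 1, [849023949319712207334504, 18355702869703381147928, -105266371480876508800, -1957530255483214048, 62724089006525264, -880690987889968, 4790925424448, 104307263648, -3804849272, 70359128]⟩,
  ⟨135, 1, [885299605053496426010120, 17913084699135182925728, -115575416738068679408, -1490146669429958288, 54229855944343200, -816005719767952, 5870055431536, 52839632976, -2684190504, 54489648]⟩,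
  ⟨137, 1, [920652393558758743626860, 17434572495180940963580, -123278620910433852288, -1087983774468461984, 46434004487050424, -742223466098760, 6343794661472, 17115257984, -1828593156, 40995436]⟩,
  ⟨139, 1, [955020439795950355588696, 16929829940409099866064, -128749954405414428608, -745179146677601600, 39395302052137712, -665400313263072, 6404515611648, -6748225984, -1192491400, 30093072]⟩,
  ⟨141, 1, [988359747866731527639540, 16407096616159170758436, -132327243512845190320, -455613778175215312, 33122462159252824, -589589304782824, 6195413486224, -21895065424, -730620204, 21586660]⟩,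
  ⟨143, 1, [1020641498700837701786156, 15873334207425796296956, -134311683260205764656, -213239844238084208, 27591429026726856, -517369441217240, 5820571520336, -30782640112, -402943764, 15119932]⟩,
  ⟨146, 2, [1067049052056475695644024, 30128970589801795634464, -539494746472520906048, 594762272400848384, 329371520406075504, -13404351962260800, 326584186866176, -4651122036992, -24292165288, 4322529056]⟩,
  ⟨150, 2, [1125158633655429418059216, 27987656896947612080440, -529018374262385978048, 2743187582064389216, 213609563544045216, -9879174711972016, 261203738779328, -4553979161504, 27273316240, 1692657336]⟩,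
  ⟨154, 2, [1179042937214315253055528, 25910594965564232500032, -508163268324900394768, 4096196780036807792, 129251596523025216, -7112119846946000, 201415449900816, -3942030924720, 44736191640, 404125904]⟩,
  ⟨158, 2, [1228866096481752252267812, 23930700287539756394092, -481007246407909974336, 4875825725921383008, 69162967482524840, -5005632185953256, 151406073222112, -3199143791360, 46140350356, -166983140]⟩,
  ⟨162, 2, [1274843430396478130491324, 22067021658590899921300, -450458561934300174752, 5251419293295434592, 27346125697743864, -3437241425542168, 111633170579712, -2497009034560, 40906719468, -374859676]⟩,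
  ⟨166, 2, [1317217985201739557309500, 20328824895008212006380, -418543532943082407904, 5349232881458934880, -983190140099272, -2289844298890920, 80994567083840, -1899374568064, 33676182316, -410692900]⟩,
  ⟨170, 2, [1356244170665918914381328, 18718641641761728893336, -386636698985525647696, 5261727216920005552, -19517713947629488, -1463191565305056, 57902314994960, -1418560853936, 26558129632, -373369016]⟩,
  ⟨174, 2, [1392176645396463157034260, 17234504458320222281628, -355638826976132400960, 5055573426636207296, -31044423808205944, -876360388941224, 40774224419680, -1044802035296, 20378606404, -311658580]⟩,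
  ⟨178, 2, [1425263021319172633473164, 15871559881877022319892, -326111442614257007024, 4778137276093801776, -37632523967084024, -466312466683720, 28229043382736, -760776279632, 15347670348, -248030380]⟩,
  ⟨182, 2, [1455739305081378150992608, 14623215307266811704608, -298376814427227882928, 4462541391242319184, -40798708846733680, -185075725205616, 19138741654384, -548340417680, 11404299472, -191633776]⟩,
  ⟨186, 2, [1483827271225081940870652, 13481941621734160081964, -272591296771507009152, 4131523245710766656, -41642655592905768, 3266221929976, 12617433519584, -391304451936, 8387766988, -145180932]⟩,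
  ⟨190, 2, [1509733176048961739449348, 12439824665416137276052, -248798540134850723712, 3800326575043023744, -40953686757550808, 125282743176904, 7986586900768, -276284179808, 6118116660, -108492668]⟩,
  ⟨194, 2, [1533647383059202875537960, 11488935344087361490000, -226967704958311652048, 3478841918241323248, -39292595719596672, 200445295559632, 4735224790224, -192685610928, 4430406232, -80272736]⟩,
  ⟨198, 2, [1555744591675092230833700, 10621570127027353903868, -207020625578262659936, 3173176213464662944, -37053332889836792, 242912369688312, 2483148308864, -132348297408, 3186342068, -58944724]⟩,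
  ⟨202, 2, [1576184449899177849824020, 9830399886213871204548, -188850902837200427696, 2886794633892511056, -34508939315205096, 262906766660600, 949972819600, -89098825200, 2275519732, -43021340]⟩,
  ⟨206, 2, [1595112396737269699451220, 9108554701665619283812, -172337145034398406512, 2621345342017569552, -31845440291962920, 267758717638520, -69652204976, -58325031600, 1612406772, -31236924]⟩,
  ⟨210, 2, [1612660627352907335034252, 8449664594317393777404, -157351996015044549280, 2377251087368022336, -29186679228207400, 262685828727960, -725270750464, -36611908576, 1132026684, -22572276]⟩,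
  ⟨214, 2, [1628949107934434433553040, 7847870509890277490336, -143768151667932173200, 2154130450765737584, -26612408672002992, 251370913954288, -1125242094128, -21447592880, 785673952, -16233296]⟩,
  ⟨218, 2, [1644086591561911979262620, 7297815756335898355284, -131462240234878821392, 1951095291275954448, -24171402700423032, 236387193100376, -1347709020240, -10993929776, 537180476, -11614604]⟩,
  ⟨222, 2, [1658171603610392458420884, 6794625101818937314852, -120317201104668517040, 1766958669036005744, -21890915212929768, 219509546231896, -1448746827376, -3911319952, 359868788, -8261212]⟩,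
  ⟨228, 4, [1677518611104171262911060, 12236304670741791925212, -422156753565893310016, 12185876414082024448, -300731915043177080, 6181112352054296, -93241886504864, 312891603040, 47955491332, -2512183380]⟩,
  ⟨236, 4, [1700395460611238819929384, 10684761522341731252144, -355786665089037794592, 10012595193306942368, -244383420746573200, 5105394035280256, -84955635373600, 786312213344, 15784324008, -1202010160]⟩,
  ⟨244, 4, [1720418185661912986144244, 9374338220613717641788, -301187702505638370464, 8248613182863537216, -198193463333056344, 4156872023284440, -72872841393216, 900557310368, 822933060, -533706484]⟩,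
  ⟨252, 4, [1738025057574424400946924, 8262547539233038192820, -256137001956750701984, 6818183789653359616, -160746009025900200, 3357461596999240, -60474165634944, 854298877088, -5448200996, -201244572]⟩,
  ⟨260, 4, [1753577681855515849605324, 7314931227181356478916, -218831156859628289040, 5657305959439630256, -130567466009207640, 2700746376797464, -49231651916112, 746566599344, -7466615828, -42622268]⟩,
  ⟨268, 4, [1767375472417346182201428, 6503523046302428726444, -187816208034744360960, 4713323527684566432, -106313357646766840, 2169274559158680, -39632016553056, 624769488960, -7514706172, 27413468]⟩,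
  ⟨276, 4, [1779667326210709266045876, 5805582273936507479860, -161923350657225213056, 3943583093270374944, -86831887684663608, 1742870611603304, -31703460678624, 509979506432, -6743931420, 53426244]⟩,
  ⟨284, 4, [1790661010516913096257032, 5202566812294439132256, -140213665713812059200, 3313844057388699392, -71169928354617456, 1402356769377088, -25281828141184, 410154882816, -5716911320, 58486368]⟩,
  ⟨292, 4, [1800530704820698001655760, 4679308352880941510536, -121932293098723392000, 2796753564552279680, -58554594927050976, 1130983951544784, -20140972560768, 326990521024, -4693337968, 54352232]⟩,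
  ⟨300, 4, [1809423064452207820520464, 4223353229682858627040, -106471225530921567680, 2370508601327184896, -48366696691121696, 914764399378496, -16053206508480, 259413656320, -3780088944, 46864608]⟩,
  ⟨308, 4, [1817462104488430115609916, 3824436907871109441580, -93339478495061706624, 2017735837191479872, -40113657430031080, 742315255218488, -12814429018528, 205323501856, -3009471796, 38795068]⟩,
  ⟨316, 4, [1824753143417866200105516, 3474065200741426671164, -82139348731433525408, 1724578672982737952, -33405097505920104, 604516943222264, -10251973196544, 162420146112, -2379515428, 31351788]⟩,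
  ⟨328, 8, [1834480082456915427327656, 6048831305970860686888, -273081879415557148016, 10984143163748467632, -409287154012559136, 14316256179299968, -471990883765520, 14649544576080, -426544169224, 11384577880]⟩,
  ⟨344, 8, [1845567171786533972478036, 5076277147615597394076, -215958758077222918640, 8214476187044536400, -290776149837199016, 9713285639481192, -307718426747952, 9249304796112, -263730753420, 7021357020]⟩,
  ⟨360, 8, [1854917246691667121557116, 4302432863209067980988, -172941543612952820016, 6232306928993057392, -209785024867234264, 6692659223293768, -203489477380272, 5905062065456, -163821602500, 4293698652]⟩,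
  ⟨376, 8, [1862877049996519487992596, 3679240081311705749436, -140092273427117684096, 4792210342364818720, -153581386745193912, 4681492620774136, -136551697439840, 3819255660480, -102707294076, 2630761580]⟩,
  ⟨392, 8, [1869711182978344349400528, 3171812820636243757888, -114680823328462700192, 3730939077914011008, -113995101521628608, 3322627832765888, -92981279984608, 2504525120768, -65147448720, 1623837824]⟩,
  ⟨408, 8, [1875624209595314522067140, 2754461969827255836828, -94786002972535435984, 2938300603995451216, -85713157246607464, 2391106497228840, -64222500773584, 1665543213648, -41857669820, 1012717980]⟩,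
  ⟨424, 8, [1880776197125549746616556, 2408014407550723728524, -79036391206083907616, 2338826968755076416, -65232074338247720, 1743501245510008, -44972947166720, 1123073059360, -27254762148, 639129244]⟩,
  ⟨440, 8, [1885293800329258706115232, 2117978661944380544472, -66439603840813434496, 1880098159990660032, -50209041550560896, 1287162201413616, -31910226318592, 767590082176, -17985594528, 408470520]⟩,
  ⟨456, 8, [1889278275919189541033252, 1873271907774329722748, -56268231924206086880, 1525206428045644672, -39055676294832696, 961433105656728, -22927051123328, 531515704160, -12026452364, 264432140]⟩,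
  ⟨472, 8, [1892811352931262436301060, 1665324414631676645628, -47982580610659032544, 1247827490176043104, -30680592347287608, 726069650999992, -16669702765056, 372680706432, -8145730796, 173391468]⟩,
  ⟨488, 8, [1895959585381600616422752, 1487441287118819026640, -41177628415485557408, 1028953394091611264, -24324180188489632, 554018648592480, -12257289850720, 264452726656, -5586162624, 115133648]⟩,
  ⟨504, 8, [1898777616859054529592584, 1334341921528433007240, -35546140411244594128, 854698216750064880, -19451195117228096, 426861788964864, -9109245084464, 189802957840, -3876847048, 77390968]⟩,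
  ⟨520, 8, [1901310655607005678337400, 1201823781446553039656, -30852696119203567760, 714805395140651760, -15680029218457312, 331905049121664, -6838133393776, 137707751568, -2721489048, 52640216]⟩,
  ⟨536, 8, [1903596370148393242838228, 1086514199284749126996, -26915185296939712864, 601619776895111456, -12735552372189272, 260296214537512, -5182256475008, 100943416320, -1931419548, 36214884]⟩,
  ⟨552, 8, [1905666355005411337951484, 985685229775017367644, -23591475400163297056, 509371302318682272, -10417283972557576, 205792384558968, -3962770145408, 74719637952, -1385067092, 25188812]⟩,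
  ⟨568, 8, [1907547274198197051728384, 897114165367384352776, -20769702232078700768, 433670175657964800, -8577658164046112, 163943338088720, -3056072506656, 55822868672, -1003175648, 17704232]⟩,
  ⟨584, 8, [1909261760896373829347104, 818977466208544814432, -18361127168960402672, 371147228229803088, -7107013373799088, 131544131441808, -2375815630928, 42073123952, -733483824, 12568912]⟩,
  ⟨600, 8, [1910829130848290914010792, 749769385343712523416, -16294831770099088880, 319195068502351888, -5923113053003680, 106264031471936, -1861052051344, 31975580400, -541147528, 9008936]⟩,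
  ⟨616, 8, [1912265952367937707486060, 688239017059622354140, -14513741043637064000, 275779940906365312, -4963753650406984, 86392251150552, -1468336701024, 24494585696, -402685316, 6517100]⟩,
  ⟨632, 8, [1913586504930965267973992, 633341212094659745168, -12971616738218696832, 239303697476549056, -4181498427104944, 70661904313120, -1166407622336, 18905476672, -302109048, 4755280]⟩,
  ⟨656, 16, [1915375922875051521302204, 1123096237154250178860, -44103728715880184768, 1559241526870974976, -52203924841297192, 1690488689740664, -53490606231392, 1662809359968, -51163417204, 1546637052]⟩,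
  ⟨688, 16, [1917457389976676299364788, 963847359957388570460, -35877739755206154800, 1201518642115649424, -38094313119044456, 1168224969965928, -35017591703152, 1031750630928, -30096937388, 863645084]⟩,
  ⟨720, 16, [1919250611644566241550148, 833622774599550755652, -29497194367964095536, 938418630006672112, -28254646021006920, 822805764976088, -23425101124336, 655783949168, -18178747868, 496235652]⟩,
  ⟨752, 16, [1920806948601112770431100, 726052475155848598820, -24484181317909977648, 741882907455357456, -21266939124552024, 589573767911160, -15980499394736, 426044770128, -11248024644, 292680324]⟩,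
  ⟨784, 16, [1922166729513797430472004, 636382080380071437140, -20499692369888924000, 592993411327382080, -16222215737065208, 429105257563720, -11098085033728, 282373641568, -7114813932, 176810692]⟩,
  ⟨816, 16, [1923361992352419593303764, 561012438139630883980, -17299222398773760096, 478750499738124640, -12525273591747480, 316792765752536, -7833976794368, 190603284992, -4592293340, 109191996]⟩,
  ⟨848, 16, [1924418459597995087110404, 497183666019545933260, -14703742352061143696, 390065661602073616, -9778739036944424, 236944346425800, -5613066071568, 130834043664, -3019712572, 68815180]⟩,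
  ⟨880, 16, [1925356983265085598919960, 442754498417985596656, -12580346888200213168, 320483646646727632, -7712562923673920, 179354932929712, -4077340884688, 91204232816, -2019943000, 44188704]⟩,
  ⟨912, 16, [1926194616832122638504592, 396045717047973625560, -10829118816846674640, 265352651034113616, -6140208634621488, 137266842160832, -2999487288432, 64490539824, -1372728608, 28870888]⟩,
  ⟨944, 16, [1926945420577311092292752, 355727419914174285552, -9374065439410640416, 221275543134426944, -4930877936052352, 106130079564192, -2232518634208, 46206354752, -946663184, 19169008]⟩,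
  ⟨976, 16, [1927621073724643042270424, 320736758117609570280, -8156769208332679504, 185740799138371312, -3991576521019808, 82833587174592, -1679771288880, 33513360656, -661783736, 12918616]⟩,
  ⟨1008, 16, [1928231344772509977601292, 290217158961847528044, -7131877314681625456, 156870416179945392, -3255334293087288, 65219623855912, -1276672178032, 24585130224, -468528628, 8828364]⟩,
  ⟨1088, 64, [1929521893469598246296115, 916873193295288914029, -83138152579702817251, 6741958521515546763, -515455896617092002, 38027275425615298, -2740038293062086, 194182870671926, -13588877204993, 942286343937, -66702129383, 4559428623]⟩,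
  ⟨1216, 64, [1931069838930000390154033, 651320549430485428389, -52562934075310086877, 3789609401650440407, -257354507030986086, 16851663671385218, -1077112059753546, 67685476668478, -4199508511163, 258122710889, -16098037993, 975634011]⟩,
  ⟨1408, 128, [1932635642414982216656001, 832014359493807038081, -115344589859224343513, 14268821982300665967, -1660931590886756454, 186252201173563450, -20372651454100226, 2189483101539566, -231842357437163, 24354425195573, -2711993637461, 280727332787]⟩,
  ⟨1664, 128, [1933930755817703938782048, 500489412696903774536, -58439006487454320672, 6082592693028259536, -595164049195887040, 56053185364217552, -5145479438873792, 463796437507040, -41207126825120, 3626890143016, -331520474144, 28742782992]⟩,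
  ⟨1920, 128, [1934738631516886286298014, 324348127476816398274, -32726560034276480314, 2941543445524197890, -248391728843239684, 20177114387040644, -1596638123496452, 124000049100308, -9492345110554, 719278586490, -55902818626, 4170742826]⟩,
  ⟨2304, 256, [1935480398329522805551196, 373857088614595164030, -62699417444803002680, 9361162190627731510, -1312249967295296824, 176852667144710780, -23207595311741984, 2987166435338332, -377525132542724, 47373761679750, -6481075990216, 799601133550]⟩,
  ⟨2816, 256, [1936035687044006344416328, 204129904732284724958, -27952651913901387344, 3405916206425862826, -389455741112386352, 42794658245537836, -4576419922571104, 479863243287124, -49495413860568, 5055422220502, -544370922128, 54648920866]⟩,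
  ⟨3328, 256, [1936354279713012336981870, 123446353124604684388, -14286618016014977518, 1470788100198331124, -142056612023147924, 13181363517002568, -1189983840880316, 105310478322504, -9172976083514, 790349789396, -70473391862, 5966527812]⟩,
  ⟨3840, 256, [1936553876466733205148176, 80268869692908170366, -8045015187552893060, 717128292662841198, -59962457853418480, 4815848129157276, -376244907646072, 28810127248876, -2171795605888, 161906511398, -12343032740, 895464294]⟩]

/-- bounds of `|y² eps|` on the cells `1, 2, …` in units `2^(-60)` (used for H1) -/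
def resBd8 : List ℤ := [19207224, 151075481, 591491196, 734929196, 10324871028, 1014293308, 2905947325, 7420225689, 16725959176, 30884500400, 33679439808, 156542018, 1469166069, 3847007857, 7225370144, 10402612739, 10140254088, 1871479483, 18334832015, 41587383196, 46299034802, 12659480442, 50458032897, 90961832277, 69134585298, 3496842618, 66450612639, 88722426510, 67808952537, 27450542087, 10307954440, 32800793471, 40677048684, 37996172310, 29904618744, 20303274020, 11480105398, 4474905369, 652282256, 3857972185, 5693166265, 6488297191, 6575188076, 6218077737, 5610609564, 4889532396, 4142902734, 199507486164, 125103037486, 71102224337, 34731350443, 11802586848, 1919767461, 9099635343, 12400399746, 13295864995, 12830716842, 11669651352, 10221020723, 8723125236, 7305830573, 6032154028, 4925029904, 3984696998, 3199332878, 2551777323, 2022263747, 91165091748, 55257790727, 32545356328, 18416101971, 9772566703, 4588842380, 1566086690, 151430118, 1028182717, 1438068311, 1568757500, 1543904085, 88555432051, 69092299227, 51350514589,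 37324195440, 26879611929, 19317088539, 13910523042, 10062627447, 7322983316, 5366130354, 3961415604, 2946790495, 2208937629, 1668587241, 1269930285, 973733016, 751861082, 584673650, 457524270, 360657812, 16510550364, 10613137411, 6971408490, 4671481716, 3188395410, 2213316770, 1560685759, 1116582567, 809657432, 594384495, 441519326, 331497286, 5427723069, 1605232766, 89951340115, 14992715642, 3307426656, 135961105564, 16820198552, 3012508867, 710507625]

end P264.Prof
end
end

section

section

/-!
# P264 / Prof / K8Data : the approximate left eigenfunctions `k_0, k_1` (`n = 8`, branch 1)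

Data of helper692 (`num692/k_n8b1.txt`, table scripts `p264_k8`), put into Lean by helper965.
`k_i = psi_i / R²`, piecewise degree 9 on the cells of the profile, integer coefficients over
`2^81`; zero on `[0,1/2]` and for `y ≥ 256`; `max |k_0| = .6457`, `max |k_1| = .6416`;
eigenvalues `λ_0 = 1`, `λ_1 = .49578`.
-/

namespace P264.Prof

/-- cells of `k_0` -/
def kcells0 : List Cell := [
  ⟨0, 8, []⟩,
  ⟨12, 4, [4350756614939392, 16618586543850240, 22441713456608256, 13187357563712512, 6783748560179712, 6462625739346432, 1477488449254400, -1733369443421184, -143410075753728, 375096601740032]⟩,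
  ⟨20, 4, [539005024811749120, 990167770333415680, 813311594940105728, 393210354529278976, 123950686042397184, 26673909453583872, 3995276129862656, 420108640295936, 31987030839040, 1831987923200]⟩,
  ⟨28, 4, [12073669784739042304, 16054721182443265024, 9588746712988594176, 3394302460892155904, 792180237934688256, 128602595913541632, 15018366659735552, 1305710789857280, 90698642052096, 5307025841152]⟩,
  ⟨36, 4, [127637006452053783296, 134353421894542422784, 63925459757434688512, 18203658350303302656, 3470726983082168832, 471883820289348096, 48020713063748608, 3854711690630144, 263510087635712, 15580867547904]⟩,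
  ⟨44, 4, [871949249567456808960, 768567183449198979584, 308859112315478155264, 75249879904298170368, 12515776742661144576, 1526905967757696000, 144630931233300480, 11182234797193216, 731561102569472, 37788464663040]⟩,
  ⟨50, 2, [3050516134567019968080, 1209142052774034807728, 220250627136307730112, 24598952836320825664, 1904126738435208672, 110006873800255008, 4991142280951488, 181514583707968, 4929490028112, 52345609136]⟩,
  ⟨54, 2, [6580924573330089702816, 2456109377039487785888, 423672832675612744064, 45141536001402679680, 3360162922563252672, 187419556229400000, 8098529297480064, 260500483305856, 3972126393760, -232532690016]⟩,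
  ⟨58, 2, [13609279518393968577952, 4816693017911913312352, 792284115830657798528, 80966864988109608576, 5796426397231954368, 307579966799125056, 11928540875547008, 254541136774784, -8913127225952, -1453112223648]⟩,
  ⟨62, 2, [27162915271021174305280, 9169915543876784007168, 1444816585829699872768, 141667803773173346304, 9642282758062709760, 464396140013617152, 13133909512374272, -226181899726848, -65217008074240, -5511083304960]⟩,
  ⟨66, 2, [52585284346584175008160, 16997240587309071760800, 2566246045572861642112, 239207256724079064448, 14912519949832623552, 560403118216998336, -2140618144801408, -2425796834128512, -245444240396896, -15708478746208]⟩,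
  ⟨70, 2, [99014422427990312500144, 30652958318663444102768, 4401562891191165659456, 378692745955028964928, 19364734467765165600, 185150600024098464, -76112681567594176, -9223143415957952, -643378744728656, -26176689230224]⟩,
  ⟨73, 1, [156273862333008749866548, 23337818157879028932338, 1591470290526522573232, 61497099542098454456, 1052654875242296760, -33543426418008276, -3444234463586640, -146748208623944, -3434305158220, 7922256754]⟩,
  ⟨75, 1, [209822885607035044199707, 30471935470808979768053, 1982101808627951237652, 67937278921194215596, 465712156819866402, -88687917903813570, -5860626042054892, -194759707795028, -1963670262117, 181371608693]⟩,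
  ⟨77, 1, [279242874979938547873201, 39222183745217479987041, 2392267495169602250812, 67066262791307912316, -828683660878936794, -175802333168298426, -8643476600134084, -186430135736196, 4286124684977, 547274902881]⟩,
  ⟨79, 1, [367773382277941755607564, 49553729436559871314490, 2758523079240956719184, 51928159010395488408, -3150302339387624760, -292014378318561060, -10336242104491696, -17002754387048, 18694476710284, 1056948560058]⟩,
  ⟨81, 1, [478269951079105032724805, 61084818275279076636863, 2968669978427082905836, 13421200707972005124, -6670000840567059042, -406846878953556870, -7713394401504020, 450873937181956, 40460495201093, 1233770666175]⟩,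
  ⟨83, 1, [612301473073860550435828, 72873330075436715214704, 2855099259153173533488, -57115400542373055680, -11024968025954718024, -441093581060826720, 3870693486598448, 1243589580772672, 54126724874484, -68326582672]⟩,
  ⟨85, 1, [768821513265841949685022, 83221611188809389669754, 2214380820757291320840, -161547650955198963560, -14796313898154541260, -266936498762424996, 26879601035336456, 1962780858985880, 22695983213214, -3780698499334]⟩,
  ⟨87, 1, [942586570077075295208054, 89651780060255069625310, 876420712767687185320, -285177210527743686904, -15295090779051362748, 221674647150969780, 53720614936448680, 1583847588148232, -83674151344906, -7571042704034]⟩,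
  ⟨89, 1, [1122880383044836590800340, 89274548177939639429440, -1170218482783682181712, -389379612999530992640, -9536093592879047688, 946516633634194560, 61426073856229296, -825679112843776, -206285925461804, -4302407935936]⟩,
  ⟨91, 1, [1293515050292308574020344, 79702888794324489332388, -3645840768517374569312, -418830628933476602896, 3139465578359627856, 1516348138551084120, 25402766783509920, -4244589213394704, -174564611345800, 8791198634020]⟩,
  ⟨93, 1, [1435086616817806488152788, 60318147310937786983096, -5959194241885464779472, -331633598634073676640, 18484317188179873656, 1408147596839281104, -45824118692133328, -5220226558409824, 83292262439508, 17305499079480]⟩,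
  ⟨95, 1, [1529570304693431681226360, 33194905126034547851692, -7406998000065946329056, -137447522076445924528, 28516012941913389264, 490595875238038536, -98687801597422560, -1678625339181232, 317491182795896, 5526966065068]⟩,
  ⟨97, 1, [1565698051018245974402494, 2849939046420735424218, -7532274695792394416760, 94164856988189811992, 27399889002878600436, -687396359237273700, -85795067018643832, 3298140028405272, 238549948109118, -12982528825766]⟩,
  ⟨99, 1, [1542433536300023396562254, -25342158251628191725642, -6382689068836495133624, 274341742177472780200, 16512629436152587092, -1361804701955093820, -22765801151690936, 4938330283181224, -37770425308210, -14272707718858]⟩,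
  ⟨101, 1, [1468632980016777175395092, -47163583280975984475056, -4451556228539324330576, 350953094899159052480, 2815828750571676792, -1262771441309129760, 34047027057222064, 2766648258139328, -189974202646252, -2045224709552]⟩,
  ⟨103, 1, [1359314341476707408499874, -60761708063166664071170, -2369596124724363107080, 329618849023190653832, -7210615791302699700, -707708822901039756, 51663446174749688, -105472366439800, -141034973602526, 5915508542590]⟩,
  ⟨105, 1, [1230814735018489285921996, -66562281276140347620436, -609451165082008006576, 251612482756418701264, -11350785920854408632, -147387125776502136, 38558379332884304, -1466868174228272, -31964826547892, 5199098006828]⟩,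
  ⟨107, 1, [1097081213120006690946546, -66349027239097464984774, 624248047854234086712, 160227920250504884760, -10938165755791031124, 187229379081061980, 17447531694946104, -1384495604551656, 29816411281650, 1694575619130]⟩,
  ⟨109, 1, [967993902774683363062215, -62261579087393984470821, 1341395520138405025380, 82289453892962334228, -8367657238198058454, 296239558930655394, 2156745485381988, -780189485070060, 38295240131655, -428460165285]⟩,
  ⟨111, 1, [849370287201246100426523, -56152486709370892179079, 1658067387449217539092, 27171895799401236892, -5453538503486529246, 272610596441619030, -4884285618098924, -263566163081060, 24731770062491, -885063022087]⟩,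
  ⟨113, 1, [743836084970478760850445, -49347891359742889923847, 1710713608953542968140, -6441461987296897124, -3070102832905945650, 201196394479621974, -6377718956512692, 12305341636252, 10670575313037, -630325737607]⟩,
  ⟨115, 1, [651888537444523716377891, -42665691553108207503331, 1612971997700583252980, -23952100196320162036, -1427798352210320046, 129311547059331630, -5384868550142732, 107560382557708, 2385924547747, -303775881059]⟩,
  ⟨117, 1, [572798388317986175803288, -36537557331569958639784, 1444120008732824907808, -31000626128415170272, -426103278641282544, 74259465388744848, -3781262984024800, 112578703457824, -1041733418728, -98678466344]⟩,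
  ⟨119, 1, [505247079424813784210413, -31141456208642916975811, 1252996389309486007884, -31983378313253489140, 119626344022537614, 37712205104458350, -2371167968652724, 86817422236684, -1856253143571, -5967181763]⟩,
  ⟨121, 1, [447723265230535064349717, -26506844452487401595093, 1066470046320808541484, -29851988536117612076, 376703405203447806, 15720474898083714, -1361597141264340, 58047062970068, -1638571499883, 23461720235]⟩,
  ⟨123, 1, [398743090792693658992516, -22586113027338109902844, 897366033067971362544, -26397698179632594704, 466728486308181528, 3572881795534104, -715640799766288, 35497751798512, -1172113313148, 25953480452]⟩,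
  ⟨125, 1, [356956687728727764864068, -19298322771945759404740, 750317277062965810928, -22617541420877815536, 468248238176379288, -2507129075843736, -333164033734928, 20265053760784, -752624929724, 20123920188]⟩,
  ⟨127, 1, [321187763794380068978740, -16553736401064921377612, 625581817116400249136, -19015041679384429264, 428096671649358648, -5101449060955080, -121172381139664, 10823044259120, -450786937292, 13560005812]⟩,
  ⟨129, 1, [290437177749442351230385, -14266317502406842125111, 521335216213924709692, -15808390206987900196, 372389597445475878, -5822732063714634, -11833088303812, 5314104837852, -255827959375, 8406042313]⟩,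
  ⟨131, 1, [263869188255611044465570, -12359226805648921389592, 434956717208036727032, -13061514970650443296, 314685900608827212, -5617199520581904, 39006402439160, 2260902327520, -137917873118, 4942380136]⟩,
  ⟨133, 1, [240790927370402296538071, -10766509171544063336435, 363701368915485903524, -10761430213967070516, 261351724257347850, -5011782260682930, 58183878508196, 658601062604, -69897745961, 2783700237]⟩,
  ⟨135, 1, [220630648103402103337512, -9432867144781817455868, 305018580354314266080, -8861520366512781456, 214841643436982640, -4284401079654504, 61238926574304, -122647056784, -32212524120, 1511360388]⟩,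
  ⟨137, 1, [202917400233892784070234, -8312587213908505766802, 256677469459928020376, -7304483673376778424, 175607265685043484, -3571483072376940, 56808086647704, -457562896056, -12198117542, 780434286]⟩,
  ⟨139, 1, [187263198817741301763117, -7368186734862364901467, 216792731227447242444, -6033669673301159700, 143162078458890894, -2932258220568738, 49493008821708, -560955002900, -2134602579, 375468069]⟩,
  ⟨141, 1, [173347926771925119821763, -6569063990171395104399, 183803521616310818932, -4998060538189788996, 116651022572992530, -2385738585314010, 41617117177716, -551980022340, 2501189699, 156279537]⟩,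
  ⟨143, 1, [160906821060029643973744, -5890276910416596168708, 156433546196651949376, -4153926992313058032, 95139493332782496, -1931298061317912, 34258132572992, -494668695792, 4282561904, 55030524]⟩,
  ⟨146, 2, [144538997130635269116912, -10108582541686785338576, 494813902094140365888, -25351297357080772800, 1125645129220420512, -44842556541350112, 1600877245838400, -49278875281600, 1156536002544, -8765143248]⟩,
  ⟨150, 2, [126114949076834843990304, -8400822807958491137024, 366487319285606261632, -17909276394000527360, 760726447237824192, -29276178932815872, 1032303254254464, -32697485111296, 887027142944, -17484792832]⟩,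
  ⟨154, 2, [110647275412609368719616, -7127599273667533281824, 275174290691547398144, -12846157958355856256, 521671141615090176, -19272517351710912, 662384367273984, -20931864843136, 595301121280, -14269793824]⟩,
  ⟨158, 2, [97397774640553352053392, -6165785953843310552144, 209221557121233177024, -9348437938281294528, 363439292256080736, -12842858824885728, 427079651815872, -13256047174336, 380140727952, -9726355536]⟩,
  ⟨162, 2, [85833731243747716669680, -5430401924209206874448, 160920272186966519872, -6893098097709199040, 257312000870508960, -8679547056966624, 278080734402624, -8405495715520, 238472539376, -6214196560]⟩,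
  ⟨166, 2, [75565319724968125238048, -4861848536429918781056, 125104298096862917504, -5141603113957811712, 185091017043485376, -5953530043143936, 183310299902848, -5369776612864, 149176298272, -3873496704]⟩,
  ⟨170, 2, [66303689043650769583760, -4417651017374639948816, 98261217292843403712, -3872446410224683968, 135202992769346400, -4145332212728928, 122476854989248, -3467457889216, 93769677456, -2395744272]⟩,
  ⟨174, 2, [57832490321520416706832, -4067058583210602994032, 77967005646845700032, -2938825651890988608, 100223209543672416, -2929381040338080, 82971850358720, -2266923875904, 59472340240, -1489030512]⟩,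
  ⟨178, 2, [49988245438134163122608, -3787468703684669940208, 62523548029726907712, -2242110356163826752, 75333864140254752, -2100299152078752, 56987492541760, -1501603056704, 38142600624, -927221232]⟩,
  ⟨182, 2, [42646606936576844943824, -3562026870284450585584, 50723606795340413120, -1715110781567731776, 57368823601277664, -1527247123169184, 39668964161728, -1007906093120, 24764223952, -586703856]⟩,
  ⟨186, 2, [35712598182050694145120, -3377992960968850454400, 41696499077698550400, -1311426143267982848, 44219756444464704, -1125896100743424, 27972731343488, -685433415168, 16283867232, -375769984]⟩,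
  ⟨190, 2, [29113580041203370554304, -3225614038345287997728, 34805425020222270720, -998584911456542592, 34464033272840832, -841212260338368, 19970754307328, -472114079616, 10845288384, -239785248]⟩,
  ⟨194, 2, [22794110711394440879088, -3097336171679957165232, 29578249440449423424, -753572017696349504, 27129181959511968, -636818576837664, 14427386648640, -329169108288, 7314408432, -156185776]⟩,
  ⟨198, 2, [16712137361383909360000, -2987246220069133114816, 25660225986452449792, -559874969065640192, 21542057298114816, -488361792297600, 10541044255232, -232206229760, 4994109824, -99653056]⟩,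
  ⟨202, 2, [10836136516910214046784, -2890671614125489333120, 22781298902854942464, -405508034332940800, 17231080550443392, -379333541682432, 7785306349312, -165592148480, 3450328128, -69139328]⟩,
  ⟨206, 2, [5142938456523408486176, -2803890043062706733472, 20733213011825617792, -281673994169592192, 13862092726854336, -298406528301504, 5810211339136, -119313303936, 2411087648, -49549728]⟩,
  ⟨210, 2, [-383949567859554775872, -2723916500034323734208, 19353305123133366528, -181846627219077376, 11195746545504384, -237717272894592, 4380313241856, -86827622656, 1703442624, -31795904]⟩,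
  ⟨214, 2, [-5755652325815451206896, -2648345388767887926512, 18512901729687311296, -101134234679749696, 9058863722193504, -191745602428320, 3335359370176, -63737441344, 1215773456, -24667376]⟩,
  ⟨218, 2, [-10978961558746060517392, -2575232235649349091376, 18108929128681098304, -35833128738009920, 7324954339163040, -156574429013280, 2565035123776, -47197985600, 876413936, -15846448]⟩,
  ⟨222, 2, [-16057164631335010149120, -2503004171891443563200, 18057788696503300096, 16888991441938176, 5900817017946624, -129396191712384, 1992580528128, -35205882112, 637647104, -12842688]⟩,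
  ⟨228, 4, [-23402753143516643229952, -4787227636305410766080, 73983000931931890688, 616298653402067968, 67182276739668480, -3178407684447744, 89038955668480, -2942823353344, 103356489472, -3460224256]⟩,
  ⟨236, 4, [-32675367469265183649024, -4481988613364549015296, 79058456419938341888, 1039386253589019648, 40019228043563520, -2317202868791808, 57370241848320, -1702289196032, 57379484416, -1826191104]⟩,
  ⟨244, 4, [-41314226155559827426560, -4152176606480903231744, 86082578755100177408, 1275171329720886272, 19870101617472000, -1749430015415808, 38875840508928, -1004863937536, 32677262080, -1005721856]⟩,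
  ⟨252, 4, [-49263783375709173482752, -3792041301478940372736, 94079243764989211648, 1369865731352812544, 4459772361245184, -1354551510366720, 27867616506880, -603923407872, 18966567680, -559189760]⟩,
  ⟨260, 4, [-56460560356249512247808, -3399246490870307773952, 102303422429708371968, 1355513551835592704, -7563690008497152, -1063424199373824, 21197134874624, -369726097408, 11131534848, -327835136]⟩,
  ⟨268, 4, [-62839149276495577427200, -2974089835676237663488, 110174758577073632256, 1255669809021187072, -17018413130092032, -835741825666560, 17069512471552, -232073759744, 6540251904, -193809664]⟩,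
  ⟨276, 4, [-68336882529096595226112, -2518931032590713848832, 117237427747513841664, 1088704705144655872, -24410060166607872, -647836305561600, 14435044079616, -151522078720, 3794502144, -121701376]⟩,
  ⟨284, 4, [-72897495632012962356224, -2037747106709172718080, 123135356478379544576, 869741706547054592, -30060952514512896, -485865826262016, 12667077791744, -105440704512, 2130396160, -68561408]⟩,
  ⟨292, 4, [-76473986211105167548416, -1535767213197941672448, 127596447337909452800, 611790593144596480, -34186993525604352, -341896475261952, 11386282377216, -80215726080, 1117511680, -45419008]⟩,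
  ⟨300, 4, [-79030797737270097722880, -1019159120966986925056, 130422031939117406208, 326397442893180928, -36944159050404864, -211580816406528, 10361955096576, -67714076672, 506454528, -27649024]⟩,
  ⟨308, 4, [-80545413894421764023552, -494751403833841156864, 131479272466293404672, 24001700369198080, -38456743498071552, -92747298943488, 9455008510976, -62808347648, 149863168, -10019584]⟩,
  ⟨316, 4, [-81009425277317001373184, 30217458211041841664, 130695128250827511808, -285884306337712128, -38834383840502784, 15478887902208, 8584118638592, -62120806400, -43836928, -11202048]⟩,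
  ⟨328, 8, [-79753371326913139912704, 1604987408651768762368, 504157613017973899264, -5968364402407456768, -600040140154085376, 5059860402364416, 464341056208896, -8296385167360, -37375848448, -538701824]⟩,
  ⟨344, 8, [-74583923053385405968384, 3531286389661050105856, 454457049962688659456, -10496711278857076736, -523946928237453312, 9918032512524288, 344013973209088, -8860525576192, -26165719040, 1472688128]⟩,
  ⟨360, 8, [-65795540661439753895936, 5207243252911940141056, 379772067827840581632, -14241523641645465600, -406629668289282048, 13293445714280448, 218154565369856, -9029023498240, 7215955968, 2087878656]⟩,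
  ⟨376, 8, [-53981965948773272408064, 6543522419673991573504, 285673601754295189504, -16932950503472939008, -263117540534181888, 15160318897397760, 93964860014592, -8612170743808, 44533329920, 1984589824]⟩,
  ⟨392, 8, [-39891410133074056724480, 7475828718011654905856, 178990756327120961536, -18421176175666233344, -108230138522664960, 15588319248039936, -20336003645440, -7630785314816, 76564054016, 1538760704]⟩,
  ⟨408, 8, [-24372394195011563003904, 7968514089115008270336, 67103377117495918592, -18670866266756415488, 44387987237584896, 14740533047328768, -117638488031232, -6209656651776, 98994577408, 942374912]⟩,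
  ⟨424, 8, [-8315145831473804566528, 8015451595596243779584, -42709490674019631104, -17748258388494450688, 183110721704411136, 12853328488071168, -192938481582080, -4516982751232, 110460182528, 342212608]⟩,
  ⟨440, 8, [7406261510182007451648, 7638483387662462210048, -143825258682426834944, -15802439608792662016, 298927774322466816, 10208633406873600, -243659442339840, -2726416891904, 111443750912, -210710528]⟩,
  ⟨456, 8, [21986601339795139076096, 6883887566623808659456, -230709050875779055616, -13042985999694528512, 385754908886286336, 7105060431249408, -269555852607488, -994317008896, 103537123328, -650862592]⟩,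
  ⟨472, 8, [34733578469339146727424, 5817395997360953225216, -299205623351463821312, -9716248158786535424, 440466948601552896, 3831839999631360, -272364588417024, 553889579008, 88915816448, -952373248]⟩,
  ⟨488, 8, [45100970737278450782208, 4518328058581523836928, -346690198735385935872, -6082353005907263488, 462694206528282624, 647835980537856, -255323587756032, 1829776408576, 69948985344, -1134546944]⟩,
  ⟨504, 8, [52709614984335433314304, 3073388935675058532352, -372087756884556496896, -2394593795291856896, 454439223558217728, -2233319591632896, -222645945352192, 2782222106624, 48910675968, -1190121472]⟩,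
  ⟨520, 8, [57356070757831037071360, 1570624717938544922624, -375778927061702000640, 1117603162813349888, 419576285169917952, -4651844243300352, -179013072830464, 3394656649216, 27796942848, -1149906944]⟩,
  ⟨536, 8, [59009698656519307800576, 93941717354600443904, -359416262160406134784, 4261442277045321728, 363294116324057088, -6504675816824832, -129129507176448, 3679270223872, 8210034688, -1021399040]⟩,
  ⟨552, 8, [57799605345277037346816, -1281504124791940603904, -325677432342619881472, 6889017126477463552, 291534924888342528, -7743506288099328, -77364603125760, 3670613000192, -8686174208, -851599360]⟩,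
  ⟨568, 8, [53993411785778403856384, -2492849231959226208256, -277982092180150632448, 8901213423225356288, 210472686027595776, -8369095199809536, -27491810492416, 3418128203776, -22163763200, -647647232]⟩,
  ⟨584, 8, [47970093084496950394880, -3491901212540189704192, -220197338493801660416, 10247703454023876608, 126061959441481728, -8423044192272384, 17474842722304, 2979746086912, -31895191552, -436699136]⟩,
  ⟨600, 8, [40189231878421853974528, -4246353329453243453440, -156353337043491274752, 10923682577013620736, 43676945026326528, -7978152935940096, 55355388674048, 2415797813248, -37886939136, -230313984]⟩,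
  ⟨616, 8, [31158948704336004698112, -4739911405498436751360, -90386407341200261120, 10964112664721440768, -32150126668554240, -7128346824105984, 84803320135680, 1784343379968, -40411869184, -52301824]⟩,
  ⟨632, 8, [21404556301605322866688, -4971469714551140384768, -25922122882442919936, 10436272909318356992, -97891181187268608, -5978982804357120, 105245876879360, 1137373872128, -39928872960, 97386496]⟩,
  ⟨656, 16, [6529324293936759767040, -9716116516664760401920, 244947024146887606272, 70263932356728717312, -2760247091429769216, -125715331810197504, 7641192146927616, 29526778445824, -8902404145152, 134538264576]⟩,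
  ⟨688, 16, [-11408705421484129058816, -7990074828143579037696, 592065874785565671424, 44377268594193203200, -3560057783840538624, -35235838412587008, 7157983947259904, -90526196170752, -5926663290880, 185439420416]⟩,
  ⟨720, 16, [-24723216799737296322560, -5204696685382354468864, 771716552074913644544, 15572336897203634176, -3514169676268830720, 40777631598379008, 5352721883856896, -158364570484736, -2575807938560, 179222478848]⟩,
  ⟨752, 16, [-31975765362123178246144, -2039199105387180589056, 785247146581270462464, -10145828903378747392, -2831748106245636096, 90905177702793216, 2962803051200512, -175331731832832, 305980243968, 136942452736]⟩,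
  ⟨784, 16, [-33036573297094209175552, 897186942933722333184, 664277049173340585984, -28786480953015926784, -1793149211436122112, 112127821707214848, 626744235655168, -153158191939584, 2265453035520, 79930195968]⟩,
  ⟨816, 16, [-28840464231689094823936, 3160501038480534667264, 457544718789844140032, -38627584766923767808, -674315389656367104, 107942416633036800, -1218064237985792, -107912301641728, 3197640245248, 25017057280]⟩,
  ⟨848, 16, [-21005729784680165277696, 4513927312344759271424, 217872015703507730432, -39953886831017197568, 305471441910104064, 85729808608395264, -2360511366168576, -55195222409216, 3243259592704, -17436639232]⟩,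
  ⟨880, 16, [-11418544611646273290240, 4922127536656202989568, -8259495999716458496, -34483808696331665408, 1009232824598396928, 54175694295662592, -2786080161792000, -7146790977536, 2672538091520, -43228463104]⟩,
  ⟨912, 16, [-1865495206568168849408, 4511377860882201378816, -187275580426793254912, -24688142683416559616, 1384636390239240192, 21248131359178752, -2617879549444096, 28788948467712, 1785550274560, -52946993152]⟩,
  ⟨944, 16, [6233323745136081043456, 3511538012835694313472, -301079302182342492160, -13160950667645026304, 1449891713871642624, -7055214070333440, -2050502308397056, 49737233596416, 843256102912, -50078089216]⟩,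
  ⟨976, 16, [11969642781863162544128, 2194750848449037860864, -346269436952371003392, -2143007743987417088, 1270982059830804480, -27203868845408256, -1292126163304448, 56429169344512, 31376670720, -39231029248]⟩,
  ⟨1008, 16, [14976312373124530896896, 822229259001725714432, -331072534712912969728, 6761404836297048064, 937098688432570368, -38030295334649856, -523039571443712, 51892447608832, -548310155264, -24945885184]⟩,
  ⟨1088, 64, [12118287809397418098688, -6544942761628976480256, -2214745079931130085376, 1004851169713501503488, -3677890136691965952, -32507430652684664832, 3015712072452276224, 290578960798187520, -58688689232412672, 1207397818630144]⟩,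
  ⟨1216, 64, [-2674975586050990145536, -5411565802789885771776, 1946503230085278990336, 224253366590773133312, -124682348621966868480, 5989397238767026176, 2090113753566674944, -264621974957064192, -5617462856908800, 2826135061331968]⟩,
  ⟨1408, 128, [-3021814845488492969984, 6055399226078314889216, 448977031426163605504, -2327095719558051266560, 496216022830801747968, 161093905048237768704, -67718600339451019264, 1859235967384158208, 2562617945393463296, -379378064261120000]⟩,
  ⟨1664, 128, [1727603019182572044288, -1729718969310628675584, -878849568161199554560, 854606304948577107968, -65851362595716464640, -74763690667423825920, 18110497437524164608, 922082633452093440, -794596890081492992, 72765523082739712]⟩,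
  ⟨1920, 128, [-744053277117887545344, 175293696433808474112, 589671847950943256576, -243910747581038198784, -30972970909547102208, 29738305562156728320, -3291778677680898048, -876662135369760768, 222654987833442304, -4598146054225920]⟩,
  ⟨2304, 256, [179540054746121371648, -324011977361194745856, -286281642486664265728, 543230606091341529088, -105783988151755210752, -143641986098419728384, 72131431668528447488, 2431429747412041728, -8317696811775033344, 1463616218152042496]⟩,
  ⟨2816, 256, [8021034401808777216, 59188583700073283584, -78368107464212086784, -9329397983237636096, 44035384089759449088, -14786216272176611328, -4351001216453443584, 3556731360773144576, -186724223908052992, -238962780183986176]⟩,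
  ⟨3328, 256, [-3729889857622769664, 4674315531190927360, 6913301499254669312, -11999620161686994944, 2079588061752066048, 4155270425299648512, -1582407348960362496, -513358107160084480, 209544472274403328, 32205526811672576]⟩,
  ⟨3840, 256, [6385916271656960, -81651897834274816, 255899847020773376, -280040030023974912, -21377608820195328, 262001246903992320, -153833632761380864, -13666678434430976, 32400498865733632, -6117661187899392]⟩]

/-- cells of `k_1` -/
def kcells1 : List Cell := [
  ⟨0, 8, []⟩,
  ⟨12, 4, [6070465795306240, 23170273221432064, 31236847618946048, 18273560559973376, 9366391753732608, 8977781740515840, 2044927555564544, -2428480209882112, -201151252139264, 524346159371008]⟩,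
  ⟨20, 4, [745655407723777536, 1366234129675823104, 1118475573281802240, 538371923066544128, 168687034889229312, 35987170287120384, 5319778660632576, 547603327213568, 40172317675008, 2177573595136]⟩,
  ⟨28, 4, [16531569943777917952, 21890625113192457728, 13003485697963511808, 4569821079868319744, 1055878037334534144, 168953710601217024, 19310456756523008, 1624707779602432, 107351645912064, 5905233389056]⟩,
  ⟨36, 4, [172660316759262568192, 180606361088729468160, 85227253848146879488, 24001299387937156096, 4505907001207183872, 599242362422423040, 59061920192979968, 4529022191447040, 290138238418688, 15801614150912]⟩,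
  ⟨44, 4, [1162504946580865053952, 1015363024318050052352, 403130953019764444160, 96615422631544781824, 15705413266231795200, 1854932007221761536, 167811157235649536, 12153417588063232, 715760922105088, 30080671713536]⟩,
  ⟨50, 2, [4014404349843530853840, 1572302869712268427504, 281863845599336545472, 30799696804553846848, 2312423159871092448, 127921942929123744, 5447053526836416, 178786355599424, 3800288442832, -29648646928]⟩,
  ⟨54, 2, [8574327769927513676688, 3154715646255486769872, 533827995946251270592, 55394169326425711808, 3972563827323972960, 209875243351699680, 8320157155297728, 223090477876416, 274305315728, -456204645680]⟩,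
  ⟨58, 2, [17533062301302387912464, 6100366296307283661488, 980469494932090484672, 97023522011128480064, 6631063196431498848, 327373217508035616, 11027239008493504, 114367034022208, -19169186235632, -1994308991312]⟩,
  ⟨62, 2, [34549148422331112075728, 11427054426607120786960, 1750625160230100383936, 164949109050509125568, 10567661043131181792, 455774646703727712, 8691660440811712, -629522774562880, -89622872067632, -6549024053744]⟩,
  ⟨66, 2, [65909467452378022794656, 20784850793792943547840, 3031876018148105030016, 268560636840029612288, 15340545764016251328, 451469961707283072, -15702545565267584, -3379192613279488, -288903048301152, -16434984065600]⟩,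
  ⟨70, 2, [122013533964480084982560, 36657234162086420475328, 5040894932176660107136, 404328442964723688704, 17572313722529705664, -186683795655082368, -107940274316277888, -10818231076053760, -657521713037536, -20249781153344]⟩,
  ⟨73, 1, [189792117534810624204524, 27367880816675094516894, 1770288689358761352528, 62007598663041763720, 687507779723136648, -56408032482498636, -4180790751277232, -154358394846840, -2799830718996, 53390407838]⟩,
  ⟨75, 1, [252114001766217191444509, 35209739767894040269843, 2153209970414647985804, 64491301324257764276, -173496741976319058, -120644235612091278, -6597209342462836, -184110135039052, -184796358371, 263997345811]⟩,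
  ⟨77, 1, [331655169335076067154559, 44579923130058509009295, 2524636226104108463236, 57120118199929101124, -1826328015177825414, -214728876122577702, -8971240827817596, -133913899229628, 7831568710655, 655049842703]⟩,
  ⟨79, 1, [431333839918614524182222, 55286515742033558310720, 2804120830255906048072, 32427693669486763648, -4537772818276655532, -328661134477821696, -9461585620144312, 106770402801024, 23858234403662, 1106592949184]⟩,
  ⟨81, 1, [553299069554574153615789, 66718887978442776221535, 2861336442599430382924, -18426185517658899068, -8330890517725329906, -420238882011165894, -4519433412666036, 655934224896900, 44547753946541, 1022538058847]⟩,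
  ⟨83, 1, [697887846537900260456174, 77642385942792741734754, 2516659295886448660552, -102153696553058812552, -12567178411966990956, -397656887615324340, 10189517092685896, 1463719318070136, 50175125093102, -774494824862]⟩,
  ⟨85, 1, [862209078053311235321867, 86051877971057564741947, 1573826955672982240212, -216062957948500144620, -15470878184594224062, -132525497205952926, 35294395677373396, 1997304627311636, 2277397992459, -4807638000069]⟩,
  ⟨87, 1, [1038630375851540055225059, 89256422369710935827997, -94660179513327134092, -338388912894704407412, -14137894875179335854, 448828358457243054, 59686706046871156, 1161359882483340, -117512157475613, -7770679656163]⟩,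
  ⟨89, 1, [1213849559312362582260457, 84412450309487253659945, -2413537761423236832804, -423590589259301712932, -5905596805523232522, 1194783813694465398, 57828221150731484, -1729108370125604, -224558376051351, -2246009053015]⟩,
  ⟨91, 1, [1369578748898125523274558, 69591910055760716285036, -4988925928443157654264, -415169318449064026544, 8772565335744753012, 1642160566561536648, 8789765023365384, -5055942647226800, -140277847082690, 12085855978604]⟩,
  ⟨93, 1, [1485678306750885955967506, 45065577278231983078056, -7139508132247751161800, -280908729277668001824, 24202752463377816300, 1288060512029419632, -67946122561337032, -5083243327922976, 157547682970002, 17776978479144]⟩,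
  ⟨95, 1, [1545427671050947942556441, 13999051610092026127775, -8160410303964783914084, -49107743533808806780, 31827674994283811478, 149355062637772986, -110924845421046884, -493834337867132, 358895115477785, 1713920350879]⟩,
  ⟨97, 1, [1540898223346067232835920, -18222597713105277275560, -7705552296115279672512, 194106731792467923488, 26926827125624292960, -1065647021048775792, -79604822304854976, 4536197995890976, 204537883080912, -16598556543272]⟩,
  ⟨99, 1, [1475575930823763408822198, -45952200660348002456114, -5995688143291928170200, 356973803587243685064, 12923912169723997764, -1583261506391028012, -4980443675487960, 5273980110572744, -102335025811530, -13909194325554]⟩,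
  ⟨101, 1, [1362701008750188462022938, -65363092572648717516138, -3668227831130279298664, 398938422928886474664, -1895728841536422756, -1269785301724419708, 50010082625148312, 2260196367870888, -222945972710630, 512216531094]⟩,
  ⟨103, 1, [1220425888154303495066984, -75400600634214479941384, -1408550756418963726624, 341856281266591092896, -11202993475337301264, -575370948678502320, 58527921960658912, -787839508325984, -133499870899992, 7527031794808]⟩,
  ⟨105, 1, [1066531288970654295826187, -77326288675368955397141, 340998206028745765332, 237942080494712483668, -13784771307454033854, 16117285730052738, 37555553821134292, -1871695405060780, -10343026175733, 5248060521707]⟩,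
  ⟨107, 1, [914928364463725320797654, -73540440897045830023840, 1446865713341199779496, 133277259009005385088, -11886639676724848380, 314187114788364096, 13098403434906280, -1475713865364608, 45245509165014, 1124116322912]⟩,
  ⟨109, 1, [774521692875964210765853, -66506985984613066321113, 1988622376408845954316, 52106923940626321892, -8318085943930083282, 369094449368106858, -2128615639930868, -706739923407132, 43861495194269, -888977283929]⟩,
  ⟨111, 1, [649757571521642748806408, -58164547091582829655356, 2130245954094581648224, -336788156049655696, -4907482365428875344, 301856931870438936, -7789248777631136, -155365449597072, 24446885029256, -1080541870268]⟩,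
  ⟨113, 1, [541877393864037601058807, -49782038182989920007381, 2032659285818257376932, -28817520974798736172, -2376601887881175990, 204213111039766146, -7902078551018588, 96642344179668, 8557832259959, -658415339093]⟩,
  ⟨115, 1, [450181432159246691042447, -42058392123671406511059, 1817233615702865651140, -40860051773334833332, -774418189359623334, 120143836902887694, -5971817997183548, 157673702737740, 429737782415, -271434976211]⟩,
  ⟨117, 1, [372997793832617382345708, -35296024271181442600016, 1561771080815053959504, -43117417341487357376, 112361752787600520, 61451893258167072, -3861712201206960, 136678024102976, -2318914741524, -60611329360]⟩,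
  ⟨119, 1, [308311424245435924795851, -29558519949797677310161, 1309840040762015588820, -40306215830351880636, 530655912309714882, 25465526457068058, -2232964290251820, 95544729900100, -2539925264181, 21027865647]⟩,
  ⟨121, 1, [254120468854676454582291, -24784204620101186174055, 1082299577951883639220, -35350541734364837988, 675339923313136242, 5609774833042326, -1161376109261388, 59182714049436, -1944411832813, 38913957273]⟩,
  ⟨123, 1, [208609371313444142020509, -20857351521364647136335, 886611003063979633420, -29879384603728811332, 676305091410510126, -4148371390269018, -524663513719284, 33574041517500, -1276134228451, 33568614961]⟩,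
  ⟨125, 1, [170212735749107255450116, -17648237155586827907210, 723128655943012999152, -24702133738184975064, 611444162808517656, -8131126094914620, -176405305602064, 17544171680552, -763663638012, 23315711094]⟩,
  ⟨127, 1, [137620672674406526444134, -15033259152634623105940, 588908212420144898664, -20155472547083997872, 523695602344778340, -9072242037699192, -1982535181720, 8268636736336, -426547788186, 14553896300]⟩,
  ⟨129, 1, [109756633086003603632481, -12903456573743686400433, 479822673935277898492, -16325173149716860348, 434747393425430214, -8565314580663462, 74810831199228, 3239963683140, -223321415455, 8458005199]⟩,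
  ⟨131, 1, [85745096267000461601671, -11166825658758699675369, 391640116870006860004, -13176378997200646492, 354272163558813738, -7479754101228150, 100224076429028, 695150285988, -108039912313, 4660547095]⟩,
  ⟨133, 1, [64878029865485850073674, -9747623956005996094292, 320510342628129582552, -10625136342157793712, 285579361521522876, -6258469174517496, 100620746644440, -474676488112, -45936753846, 2442888108]⟩,
  ⟨135, 1, [46584197600460612977030, -8584427294575583292784, 263136510280590037224, -8575076520742224704, 228856753680860196, -5107000765293984, 90262532734696, -921709507904, -14268257658, 1199606672]⟩,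
  ⟨137, 1, [30402792380074691811935, -7627850410080633779895, 216791076562382773636, -6934596124983857188, 182932926032718138, -4105490947794762, 76454156118916, -1011525723684, 722400095, 529339465]⟩,
  ⟨139, 1, [15961579412311214445010, -6838361615011453756886, 179263123654908883896, -5623682159539397032, 146184815741663724, -3271735649712132, 62674446428600, -940717872040, 6947231442, 195384106]⟩,
  ⟨141, 1, [2959157373771166786101, -6184365511456520624199, 148782150425217934124, -4575558537948328164, 116973001792604478, -2595219859512234, 50384554326828, -810279834852, 8788080181, 34732473]⟩,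
  ⟨143, 1, [-8849257871589979889234, -5640598773845720137792, 123940097312936236872, -3735959662987013888, 93826927788728340, -2054697124823424, 40032523121480, -669210488576, 8591831982, -43671616]⟩,
  ⟨146, 2, [-24749335762843502191024, -9976945689944304918672, 379494969751345852096, -22200999472395863488, 1085210731698109920, -46339792498502496, 1793571636756160, -61581522326976, 1779267810896, -35605944464]⟩,
  ⟨150, 2, [-43346867417752121078464, -8694039727455869209728, 269018945820384570112, -15117422451242249728, 714033663923007360, -29264208264702720, 1106973111544576, -38141882396160, 1171638660416, -29923519616]⟩,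
  ⟨154, 2, [-59769256136174228471536, -7778668490099420928432, 193352088660774066112, -10418022513332919616, 478326099277509216, -18716865155517984, 685524782108608, -23257283667264, 723972990224, -19983390128]⟩,
  ⟨158, 2, [-74629433592065327395520, -7116345422130857322528, 140976535169482941184, -7242235020968316800, 326510867283445632, -12157543637459136, 428782751781632, -14179975933824, 437440509248, -12331464736]⟩,
  ⟨162, 2, [-88351295310534635853680, -6629793963779579773072, 104480889737948874176, -5055065464228769216, 227134661723044704, -8030447557030752, 271764478072256, -8712329448896, 263250509968, -7401115792]⟩,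
  ⟨166, 2, [-101230006681194236010768, -6265856788559431528208, 79019100318152280128, -3520169272028350400, 160963115432603040, -5397039094304352, 174792134414400, -5415979175872, 159245589232, -4406274832]⟩,
  ⟨170, 2, [-113471391974631969616496, -5987272075161303633488, 61368012480460301760, -2423149583551875776, 116125271032036704, -3691387447216608, 114134859210176, -3413174276800, 97299427728, -2630879824]⟩,
  ⟨174, 2, [-125218102500440734184992, -5767436644095715555168, 49346071743483381888, -1625291988801469056, 85202702619650880, -2569816749311040, 75652745848960, -2182412561024, 60200098272, -1579786080]⟩,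
  ⟨178, 2, [-136567308251424433765536, -5587021354172537174816, 41450390183363490432, -1035481074499730304, 63493985556878400, -1821307134405312, 50879681245824, -1415994510208, 37762646880, -959796000]⟩,
  ⟨182, 2, [-147582872541458183951776, -5431750292341000605664, 36626977741768571520, -592971005324166272, 47975818811658816, -1314586889917248, 34698613555840, -931958787200, 24028448352, -593120224]⟩,
  ⟨186, 2, [-158303881329623810298592, -5290921706310698475360, 34123146189422054272, -256678074418471552, 36675549215657664, -966841843801152, 23979737729920, -621864575616, 15509433632, -371785568]⟩,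
  ⟨190, 2, [-168750728253347702821744, -5156408647665334235440, 33391306940633206208, 1567020513535168, 28287734868118368, -725074094802720, 16783412776384, -420362230592, 10152488080, -235966768]⟩,
  ⟨194, 2, [-178929537360553243970992, -5021974370114060849936, 34025371440263615168, 201332846134782016, 21936761249274336, -554880142345824, 11891028986560, -287595683776, 6737335888, -150728464]⟩,
  ⟨198, 2, [-188835439994373870305376, -4882797143459412716960, 35718132351504181632, 356384528655816320, 17027858464179648, -433613480948160, 8526340995456, -198912452992, 4530149280, -100912544]⟩,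
  ⟨202, 2, [-198455051584219522944480, -4735136244960953035232, 38232339368272008064, 476523279549885312, 13152299160115392, -346164234504000, 6188081073024, -138940058752, 3084277280, -65744352]⟩,
  ⟨206, 2, [-207768382791891672040032, -4576094298822865080992, 41380838090315838848, 568812576311776896, 10026240924020160, -282320073216960, 4548182216064, -97889800576, 2125058464, -39657120]⟩,
  ⟨210, 2, [-216750345871875969963248, -4403446109962476539888, 45012787128414435264, 638406182399146944, 7450739127080544, -235093637059488, 3389120495552, -69398989888, 1480279824, -33344496]⟩,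
  ⟨214, 2, [-225371967796615282775680, -4215513850035685588896, 49004003733174092288, 689114235283900032, 5285257236267264, -199648100111808, 2564822454784, -49514441088, 1041842560, -17418144]⟩,
  ⟨218, 2, [-233601388234426731255888, -4011074836607173420592, 53250147537485361472, 723794781057980608, 3429894024560160, -172599876363552, 1975991505216, -35447990080, 739956656, -8300080]⟩,
  ⟨222, 2, [-241404697482023635509408, -3789292396221298898976, 57661877385241835136, 744627512951956608, 1813311508570176, -151558371155136, 1554318040704, -25370006400, 529705824, -11287584]⟩,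
  ⟨228, 4, [-252233401700933435625728, -6846159174291904505088, 257689168558662018048, 6028168232517268480, -4343797018412544, -4085343292128768, 72653736387584, -1964740561920, 83503402752, -2995553536]⟩,
  ⟨236, 4, [-264846933842941295314688, -5743517162161501741312, 293443352233572244480, 5840662742586819584, -41305908093626880, -3346626136131072, 52735618128896, -984636062720, 43985484032, -1558257920]⟩,
  ⟨244, 4, [-275114234183435757994240, -4501235593821606357248, 327240323527272555520, 5384307528872625152, -71840380179850752, -2779686304421376, 42949677392896, -468642774016, 23000604416, -847907072]⟩,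
  ⟨252, 4, [-282765905318530425927168, -3130175818411488926720, 357609655090639984640, 4705043392161820672, -97168940960400384, -2294922795608064, 38458829887488, -203343056896, 11465345536, -469212160]⟩,
  ⟨260, 4, [-287559803690403622405888, -1646562373602371294464, 383333378946011995136, 3841952605754299392, -117856530630781440, -1846239903825408, 36612510751744, -77592488960, 4954306816, -276731136]⟩,
  ⟨268, 4, [-289290801750747250658304, -71037535428827578368, 403417581163555786752, 2831072781063856128, -134139394039474176, -1411693659217920, 35918366429184, -31399354368, 1229165568, -150282240]⟩,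
  ⟨276, 4, [-287798747024209323520512, 1572207149671756487168, 417080337729691002880, 1707220653012580352, -146109226188327936, -983045608670208, 35524173490176, -30487463936, -882889216, -91850240]⟩,
  ⟨284, 4, [-282974720544428449293568, 3256267815415582458624, 423746899902484173824, 504689774845129728, -153818090725645824, -559873115057664, 34947074642944, -54963244032, -2021500160, -37747968]⟩,
  ⟨292, 4, [-274765636572139554967296, 4952351406627247510272, 423046961086996904960, -742692953303141376, -157337806233278976, -146107172359680, 33926540688384, -92224146432, -2548813568, -21245184]⟩,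
  ⟨300, 4, [-263177207379661404826880, 6630586907087827906304, 414811083187261928448, -2001867749435227136, -156792027755269632, 252093063043584, 32341173761024, -134592183296, -2680564992, 4337408]⟩,
  ⟨308, 4, [-248275302728275183432448, 8260817795872273869568, 399064702118352866304, -3241025817504803840, -152371300745163264, 627687748157952, 30159380827136, -176734465024, -2551837440, 7596800]⟩,
  ⟨316, 4, [-230185752482471575966208, 9813364336764458075648, 376018965974974949376, -4430166697979262976, -144337156368583680, 973637230593024, 27408592381952, -215401822208, -2252173824, 19408384]⟩,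
  ⟨328, 8, [-197492538499665127432192, 23869416732588642525184, 1314593196794989412352, -48483396942917435392, -2019969843226558464, 45539034430980096, 1431506194038784, -33555051741184, -412598624256, 13428908032]⟩,
  ⟨344, 8, [-144913974468614529990656, 28485252269364210810880, 979176997150833836032, -62612010508551782400, -1488491652470833152, 59741293764968448, 924808697937920, -38148524277760, -158551883776, 14315274240]⟩,
  ⟨360, 8, [-84549507898913604771840, 31607924045782685573120, 572756537879764959232, -72003893238142566400, -846391984812244992, 67592094820024320, 382463121850368, -38668625739776, 88292974592, 12831416320]⟩,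
  ⟨376, 8, [-19630024569259109101568, 33013282531664272461824, 125893160992379682816, -76031579444606025728, -158200903080222720, 68998157455024128, -140744672493568, -35522992553984, 294920933376, 9978417152]⟩,
  ⟨392, 8, [46291523755037889581056, 32604891033441229893632, -328630361224613871616, -74579091561357819904, 513758698192625664, 64476541804584960, -598798167457792, -29515575640064, 443862863872, 6516600832]⟩,
  ⟨408, 8, [109600393048885347397632, 30416891168507788554240, -758779299930340638720, -68001467710779932672, 1114853760095625216, 55022582708084736, -958424083120128, -21632291684352, 529179389952, 2992271360]⟩,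
  ⟨424, 8, [166874580856186952835072, 26605640323002370506752, -1135873406745568378880, -57046233233469603840, 1602120411397570560, 41946479489482752, -1200468998651904, -12881565581312, 553443418112, -213958656]⟩,
  ⟨440, 8, [215112895885948224528384, 21431979773753252724736, -1436639976778735124480, -42749709993531211776, 1946568017040457728, 26705466498711552, -1319364495507456, -4180118142976, 525074554880, -2830811136]⟩,
  ⟨456, 8, [251920212668152291958784, 15236595300881810489344, -1644602696155973779456, -26321461529804734464, 2133866134906257408, 10750849781465088, -1321278457872384, 3721279766528, 455956996096, -4723605504]⟩,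
  ⟨472, 8, [275638822707195767513088, 8411219199764787118080, -1750772421286551191552, -9029027997971185664, 2163630895992422400, -4597584374956032, -1221484525486080, 10276468359168, 359409999872, -5883019264]⟩,
  ⟨488, 8, [285420333398598065192960, 1368419993819422580736, -1753672888227579625472, 7907045259975557120, 2047621927632568320, -18243216019537920, -1041403675344896, 15152840540160, 248571428864, -6324494336]⟩,
  ⟨504, 8, [281237851713458905366528, -5487515492645562556416, -1658786485588068073472, 23400564444338618368, 1807201207330111488, -29368631011491840, -805679983427584, 18218907893760, 135214088192, -6183264256]⟩,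
  ⟨520, 8, [263842805524451413090304, -11786520117745229905920, -1477540666589190717440, 36564931912305082368, 1470402111705268224, -37458142568153088, -539554923708416, 19515166162944, 28996493312, -5560025088]⟩,
  ⟨536, 8, [234674417822140600176640, -17213942219785292894208, -1225974428288191447040, 46754445217178206208, 1068922056620433408, -42291490258477056, -266709725102080, 19217260756992, -62915522560, -4612640768]⟩,
  ⟨552, 8, [195732406028304437772288, -21526007077640579547136, -923228176925891166208, 53582113057042923520, 635296798592335872, -43914918414385152, -7661145096192, 17594847526912, -135913177088, -3479339008]⟩,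
  ⟨568, 8, [149424897266430825652224, -24559111860120847130624, -589991843135430885376, 56916256251896758272, 200448755298484224, -42596433609080832, 221273551896576, 14971815821312, -187776376832, -2285445120]⟩,
  ⟨584, 8, [98403896346545542049792, -26233028517713964273664, -247028430214008586240, 56859428630966190080, -208266076266160128, -38771893623939072, 408479235653632, 11690468589568, -218340872192, -1124175872]⟩,
  ⟨600, 8, [45400055644086336823296, -26548511921670243811328, 86133499068280045568, 53713930729380249600, -568451549667999744, -32987908062314496, 547086041972736, 8082035965952, -229081407488, -85131264]⟩,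
  ⟨616, 8, [-6932837605668968173568, -25580131812310030069760, 392271534690707914752, 47938451100010659840, -863499032771715072, -25846516961452032, 634646394650624, 4443984084992, -222652305408, 772755456]⟩,
  ⟨632, 8, [-56155109426188052946944, -23465360333894045802496, 657265449385845424128, 40100235673110740992, -1082887042306424832, -17955435267145728, 672547292413952, 1024609386496, -202444726272, 1440210944]⟩,
  ⟨656, 16, [-119644680812666505265152, -37124605355045814665216, 3822648249822117101568, 206824165391181807616, -20184912319158681600, -190271728435593216, 41388661066432512, -421525368340480, -39494273335296, 1041501913088]⟩,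
  ⟨688, 16, [-177275167148287702532096, -20005541548737029603328, 4573517698411276795904, 44055038476724731904, -19762284577086898176, 255449057309491200, 31790008609538048, -896055082745856, -19558719488000, 1118144167936]⟩,
  ⟨720, 16, [-198945845898084170465280, -1789082687178295410688, 4390986553605823660032, -99269749317728206848, -15568736986179305472, 555115186208243712, 17787529660465152, -1054333286481920, -934280036352, 917512716288]⟩,
  ⟨752, 16, [-185984555484273702797312, 14132780163640834392064, 3469690561385836314624, -199356323295179309056, -9243024370589368320, 681339956367458304, 3494676860764160, -951242210148352, 12623693807616, 577021149184]⟩,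
  ⟨784, 16, [-145561063586209639301120, 25378255994035930988544, 2106451914589691445248, -245994889397040054272, -2469982224458711040, 650081092472537088, -8072572157034496, -682313605447680, 19730838716416, 217584828416]⟩,
  ⟨816, 16, [-88366018997883882831872, 30823257104415443058688, 620849842579399770112, -241388813535384174592, 3378264134872989696, 505077066505519104, -15314206402281472, -349338914258944, 20855498080256, -77782384640]⟩,
  ⟨848, 16, [-26098020763021953990656, 30555425656195616276480, -709871740193947516928, -196768658234750009344, 7435314249854877696, 301080379854028800, -17953081029296128, -36553637494784, 17575024001024, -268488212480]⟩,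
  ⟨880, 16, [30726644607045048139776, 25613285283617615511552, -1692252792418482257920, -128105889046108045312, 9377249207349018624, 89870390144532480, -16692832368328704, 201204666728448, 11861694545920, -349620273152]⟩,
  ⟨912, 16, [74311229002275126771712, 17611161506139076296704, -2232495944786451628032, -52031889976472371200, 9342587729275256832, -88938431363678208, -12784524972261376, 340164882202624, 5542979567616, -340104314880]⟩,
  ⟨944, 16, [100333175066453110751232, 8346345441697813561344, -2330411570944669908992, 17304368092534276096, 7786237169235787776, -211965281065107456, -7622207628115968, 382423873093632, -15341387776, -270424539136]⟩,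
  ⟨976, 16, [107960012504220344582144, -536738827375417491456, -2058246485799600914432, 70108813423015362560, 5315261949932863488, -271832690402525184, -2438667096031232, 347380268924928, -4021160181760, -172482363392]⟩,
  ⟨1008, 16, [99290652232264007548928, -7780394346818142142464, -1532133750788161273856, 101553855002550468608, 2542725545042903040, -274035560000126976, 1872679975518208, 262685477044224, -6216511651840, -72934424576]⟩,
  ⟨1088, 64, [35559660091048473657344, -60041661876386678177792, 991620796098844557312, 5963582566000314286080, -702484656736408436736, -129040575338253385728, 26518619781298388992, 122910485044527104, -341922840568922112, 21093869908131840]⟩,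
  ⟨1216, 64, [-46581118711310183301120, -12468129166883582115840, 15526557026430645960704, -997860701948795158528, -657815114549972434944, 93536458905964511232, 5968239463426424832, -1908157934318125056, 57922331053391872, 13884243726303232]⟩,
  ⟨1408, 128, [-954586630749843619840, 42446806535669639806976, -16795836421225693839360, -10234069188089573539840, 5460198160867739566080, 90832846607581446144, -439021211345682956288, 61896154357291810816, 10813984810181591040, -3200144936204238848]⟩,
  ⟨1664, 128, [6155554757998917189632, -18091825625830213353472, 1939240031895865524224, 5344692264133050761216, -1591371318179414409216, -235179988377249644544, 152059062023222198272, -11213650807374479360, -4346151771176960000, 829296883764232192]⟩,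
  ⟨1920, 128, [-4898118665152476741632, 5657568302140835495936, 1873051342233703284736, -2292705991943196246016, 257003497839390621696, 166452598593261404160, -44977397796494639104, -966606123636359168, 1658334275635773440, -169869236897054720]⟩,
  ⟨2304, 256, [753846111042903474176, -3827354787978263658496, 976404147317331984384, 3615918452755302187008, -2273546715462289588224, -350366541984341950464, 646497380306016796672, -122661320985965232128, -50284654884295802880, 18584921682809978880]⟩,
  ⟨2816, 256, [216438477794018590720, 148253490881276542976, -763148379898098221056, 317665100810064232448, 233270333306761641984, -184149474429463953408, 10719000077772259328, 23895766718531239936, -5339829557220343808, -762274066382323712]⟩,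
  ⟨3328, 256, [-27908878572684574720, 80606513651366428672, -13999174792096251904, -91414617201770233856, 60278662634277961728, 14003218121837641728, -19669030984604450816, 1031923623203176448, 2100199986810585088, -267471560193409024]⟩,
  ⟨3840, 256, [-15195977796288512, -283104839645790208, 1702656610943369216, -3351477683599966208, 2319011172468129792, 816159986178588672, -1887846225361764352, 566834169269714944, 262046872819990528, -129084085275983872]⟩]

end P264.Prof
end
end

section

section

/-!
# P264 / H3 / TabRP : tabulated cell bounds of the integrands of (H3r), (H3p) (helper288)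
-/

namespace P264.H3

/-- bounds for (H3r), `i = 0`, scaled `2^60` -/
def utab0 : List ℤ := [
  5065500000000, 2563400000, 11334000000, 39603000000, 58468000000, 3211600000, 16690000000,
  56575000000, 147900000000, 257810000000, 53649000000, 18192000000, 41588000000, 65754000000,
  59059000000, 34468000000, 231930000000, 380030000000, 128710000000, 588410000000, 890410000000,
  87637000000, 1140600000000, 728180000000, 563850000000, 884140000000, 240000000000,
  302930000000, 332750000000, 140860000000, 10426000000, 58537000000, 51810000000, 30378000000,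
  13009000000, 3198300000, 1097600000, 2333700000, 2268800000, 1731300000, 1209600000, 793040000,
  492610000, 296410000, 172530000, 122150000, 107130000, 1113900000, 21107000, 241720000,
  234510000, 174500000, 118500000, 77218000, 50333000, 32053000, 20867000, 15202000, 9018400,
  6550700, 10077000, 3030300, 5602700, 1938000, 5276400, 756640, 4213700, 16420000, 8721500,
  4968300, 3251800, 1631100, 1054800, 1473300, 955900, 747020, 669280, 1485100, 1342200, 4033000,
  1816500, 548740, 391900, 930840, 1188900, 1420500, 1192100, 1001300, 775720, 459370, 151720,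
  681070, 602360, 949210, 1016000, 1064000, 1122300, 966640, 1006200, 35909000, 9236900, 14984000,
  31514000, 38540000, 36511000, 27722000, 15414000, 2682000, 8045000, 15195000, 18290000,
  47605000000, 22737000000, 356200000000, 240570000000, 141730000000, 1186800000000, 729950000000,
  2302100000000, 1103700000000]

/-- bounds for (H3p), `i = 0`, scaled `2^60` -/
def wtab0 : List ℤ := [
  3438700000000, 1970900000000, 32885000000000, 290080000000000, 1718100000000000,
  3213000000000000, 6594800000000000, 12873000000000000, 24001000000000000, 42782000000000000,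
  72629000000000000, 84061000000000000, 105170000000000000, 128870000000000000,
  153960000000000000, 178250000000000000, 198470000000000000, 210460000000000000,
  210120000000000000, 202160000000000000, 184330000000000000, 152830000000000000,
  113050000000000000, 71659000000000000, 33831000000000000, 17298000000000000, 29590000000000000,
  34238000000000000, 33955000000000000, 31023000000000000, 27014000000000000, 22996000000000000,
  19467000000000000, 16246000000000000, 13454000000000000, 11111000000000000, 9182700000000000,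
  7611700000000000, 6336700000000000, 5302900000000000, 4463200000000000, 3779100000000000,
  3219300000000000, 2759200000000000, 2379000000000000, 2063100000000000, 1799200000000000,
  1599300000000000, 1248800000000000, 994220000000000, 805810000000000, 663790000000000,
  554970000000000, 470320000000000, 403530000000000, 350170000000000, 307020000000000,
  271730000000000, 242550000000000, 218190000000000, 197620000000000, 180090000000000,
  164990000000000, 151850000000000, 140280000000000, 129980000000000, 120700000000000,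
  114210000000000, 98771000000000, 84917000000000, 71836000000000, 58957000000000, 45884000000000,
  32344000000000, 18171000000000, 12258000000000, 28376000000000, 44999000000000, 61994000000000,
  97378000000000, 130660000000000, 160630000000000, 184990000000000, 201560000000000,
  209790000000000, 215390000000000, 211150000000000, 194910000000000, 166820000000000,
  127820000000000, 79623000000000, 33491000000000, 91759000000000, 147750000000000,
  198390000000000, 240880000000000, 272880000000000, 292660000000000, 301340000000000,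
  313870000000000, 284330000000000, 204690000000000, 90917000000000, 145500000000000,
  229140000000000, 272710000000000, 284350000000000, 281610000000000, 238630000000000,
  164080000000000, 72273000000000, 197580000000000, 212530000000000, 124130000000000,
  58223000000000, 43918000000000, 28593000000000, 4173800000000, 1447100000000, 197270000000]

/-- bounds for (H3r), `i = 1`, scaled `2^60` -/
def utab1 : List ℤ := [
  7083700000000, 2860200000, 11771000000, 35439000000, 11599000000, 6769900000, 24567000000,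
  71116000000, 164150000000, 234370000000, 252030000000, 48354000000, 77716000000, 104360000000,
  93075000000, 141160000000, 361060000000, 468030000000, 132810000000, 813220000000, 931390000000,
  457970000000, 1426500000000, 678760000000, 920790000000, 989180000000, 194300000000,
  484270000000, 411110000000, 160460000000, 83420000000, 108360000000, 81598000000, 48813000000,
  25767000000, 13726000000, 13044000000, 11279000000, 8867300000, 6618800000, 4765300000,
  3322000000, 2257200000, 1504700000, 825340000, 297600000, 471700000, 1152500000, 1947600000,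
  2262800000, 2389900000, 2486300000, 2566000000, 2640300000, 2705400000, 2772500000, 2836600000,
  2895800000, 2951900000, 3005800000, 3057500000, 3107600000, 3156700000, 3204900000, 3252200000,
  3298700000, 3344000000, 3556400000, 3615400000, 3663700000, 3696200000, 3707500000, 3692800000,
  3650800000, 3610200000, 3542600000, 3436300000, 3289000000, 3100000000, 2904000000, 2313700000,
  1578500000, 729790000, 1120100000, 2020600000, 2839200000, 3529300000, 4052000000, 4378200000,
  4497000000, 4547000000, 4439500000, 4119300000, 3606400000, 2931000000, 2131200000, 1250300000,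
  565190000, 1408300000, 2826800000, 3608100000, 3953200000, 3958300000, 3374800000, 2403600000,
  1183300000, 1150600000, 1924800000, 2365500000, 2495000000, 2430300000, 178840000000,
  204470000000, 1985700000000, 406500000000, 566800000000, 3850700000000, 9182900000000,
  19733000000000, 12579000000000]

/-- bounds for (H3p), `i = 1`, scaled `2^60` -/
def wtab1 : List ℤ := [
  4809600000000, 3122800000000, 51674000000000, 451370000000000, 2641600000000000,
  4905200000000000, 9987500000000000, 19315000000000000, 35616000000000000, 62644000000000000,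
  104590000000000000, 119840000000000000, 148190000000000000, 179120000000000000,
  210520000000000000, 238910000000000000, 259400000000000000, 266200000000000000,
  259900000000000000, 244490000000000000, 208820000000000000, 155860000000000000,
  94490000000000000, 34602000000000000, 57742000000000000, 80521000000000000, 88379000000000000,
  85845000000000000, 77482000000000000, 66802000000000000, 56786000000000000, 47545000000000000,
  39193000000000000, 32056000000000000, 26150000000000000, 21354000000000000, 17498000000000000,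
  14410000000000000, 11938000000000000, 9954300000000000, 8356500000000000, 7063100000000000,
  6010200000000000, 5148100000000000, 4437800000000000, 3849100000000000, 3358200000000000,
  2986900000000000, 2335800000000000, 1862900000000000, 1512300000000000, 1247400000000000,
  1043600000000000, 884350000000000, 758010000000000, 656370000000000, 573500000000000,
  505060000000000, 447820000000000, 399350000000000, 357760000000000, 321620000000000,
  289780000000000, 261330000000000, 235560000000000, 211870000000000, 189770000000000,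
  171830000000000, 131510000000000, 92516000000000, 53266000000000, 30414000000000,
  75632000000000, 122980000000000, 172440000000000, 223750000000000, 276460000000000,
  329900000000000, 383290000000000, 491230000000000, 580790000000000, 648450000000000,
  685500000000000, 707970000000000, 706470000000000, 659480000000000, 564640000000000,
  423130000000000, 239730000000000, 210500000000000, 452100000000000, 688530000000000,
  905190000000000, 1088300000000000, 1225400000000000, 1307100000000000, 1343800000000000,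
  1360200000000000, 1312700000000000, 1228500000000000, 815250000000000, 391700000000000,
  946940000000000, 1342200000000000, 1511800000000000, 1568400000000000, 1484900000000000,
  1170800000000000, 690310000000000, 401700000000000, 838110000000000, 1320700000000000,
  1050200000000000, 927760000000000, 484670000000000, 220620000000000, 178770000000000,
  42180000000000, 12010000000000, 2462300000000]

end P264.H3
end
end

section

section

/-!
# P264 / Tool / DiffInt : one-sided differentiation under the integral sign (helper602)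
-/

open MeasureTheory Set Filter
open scoped Topology

namespace P264.B

theorem hasDerivWithinAt_integral_Ici {α : Type*} [MeasurableSpace α] {μ : Measure α}
    {F : ℝ → α → ℝ} {F' bound : α → ℝ} {s δ : ℝ} (hδ : 0 < δ)
    (hF : ∀ s' ∈ Ico s (s + δ), Integrable (F s') μ)
    (hb : ∀ᵐ z ∂μ, ∀ s' ∈ Ico s (s + δ), |F s' z - F s z| ≤ bound z * (s' - s))
    (hbi : Integrable bound μ)
    (hd : ∀ᵐ z ∂μ, HasDerivWithinAt (fun s' => F s' z) (F' z) (Ici s) s) :
    HasDerivWithinAt (fun s' => ∫ z, F s' z ∂μ) (∫ z, F' z ∂μ) (Ici s) s := by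
  rw [← hasDerivWithinAt_Ioi_iff_Ici, hasDerivWithinAt_iff_tendsto_slope' (by simp)]
  have hmem : ∀ᶠ s' in 𝓝[Ioi s] s, s' ∈ Ioo s (s + δ) := by
    have h1 : ∀ᶠ s' in 𝓝 s, s' < s + δ := Iio_mem_nhds (by linarith)
    filter_upwards [h1.filter_mono nhdsWithin_le_nhds, self_mem_nhdsWithin] with s' h h'
    exact ⟨h', h⟩
  have hs0 : s ∈ Ico s (s + δ) := ⟨le_rfl, by linarith only [hδ]⟩
  have key : Tendsto (fun s' => ∫ z, (s' - s)⁻¹ * (F s' z - F s z) ∂μ) (𝓝[Ioi s] s)
      (𝓝 (∫ z, F' z ∂μ)) := by
    refine tendsto_integral_filter_of_dominated_convergence bound ?_ ?_ hbi ?_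
    · filter_upwards [hmem] with s' hs'
      exact (((hF s' ⟨hs'.1.le, hs'.2⟩).sub (hF s hs0)).const_mul _).aestronglyMeasurable
    · filter_upwards [hmem] with s' hs'
      filter_upwards [hb] with z hz
      have h1 := hz s' ⟨hs'.1.le, hs'.2⟩
      have h2 : 0 < s' - s := sub_pos.mpr hs'.1
      rw [Real.norm_eq_abs, abs_mul, abs_of_pos (inv_pos.mpr h2), inv_mul_le_iff₀ h2, mul_comm]
      exact h1
    · filter_upwards [hd] with z hz
      rw [← hasDerivWithinAt_Ioi_iff_Ici, hasDerivWithinAt_iff_tendsto_slope' (by simp)] at hz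
      refine hz.congr fun s' => ?_
      simp only [slope_def_field, div_eq_inv_mul]
  refine key.congr' ?_
  filter_upwards [hmem] with s' hs'
  rw [integral_const_mul, integral_sub (hF s' ⟨hs'.1.le, hs'.2⟩) (hF s hs0), slope_def_field,
    div_eq_inv_mul]

/-- mean value inequality with right derivatives -/
theorem abs_sub_le_of_hasDerivWithinAt_Ici {f f' : ℝ → ℝ} {a b C : ℝ}
    (hf : ∀ x ∈ Ico a b, HasDerivWithinAt f (f' x) (Ici x) x) (hc : ContinuousOn f (Icc a b))
    (hC : ∀ x ∈ Ico a b, |f' x| ≤ C) {x : ℝ} (hx : x ∈ Icc a b) : |f x - f a| ≤ C * (x - a) := by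
  have := norm_image_sub_le_of_norm_deriv_right_le_segment (f := f) (f' := f') (C := C) hc hf
    (fun x hx => by rw [Real.norm_eq_abs]; exact hC x hx) x hx
  rwa [Real.norm_eq_abs] at this

end P264.B
end
end

section

section

/-!
# P264 / LC / YData1 : storage matrix of the linear certificate (data, helper919)
-/

namespace P264.LC

def ydata1 : List YC := [
  ⟨9, 1, 1, 2, -3, 10, 46, 0x80000000000200000000000800000000009fffffffffd18000000013c1fffffff21c780261a41719e10134857edda42b9e195723b26099216ac80000000000200000000000800000000002000000000008000000000020000000000080000000000200000000000800000000002000000000008000000000020000000000080000000000200000000000800000000002000000000008000000000020000000000080000000000200000000000800000000002000000000008000000000020000000000080000000000200000000000800000000002000000000008000000000020000000000080000000000200000000000800000000002000000000008000000000060000000000280000000000a000000000018000000000060000000000180000000000200000000000800000000001ffffffffffe7fffffffffb9fffffffffcc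7ffffffffeddfffffffffc87fffffffffa5ffffffffffc80000000000200000000000800000000009fffffffffd18000000013c1fffffff21c780261a41719e10134857edda42b9e195723b26099216ac80000000000200000000000800000000002000000000008000000000020000000000080000000000200000000000800000000002000000000008000000000020000000000080000000000200000000000800000000002000000000008000000000020000000000080000000000200000000000800000000002000000000008000000000020000000000080000000000600000000001800000000006000000000018000000000060000000000180000000000200000000000800000000001fffffffffff7fffffffffcdfffffffffdb7fffffffff31fffffffffd87fffffffffbdffffffffffc7ffffffffe25fffffffff128000000030d1fffffffeafa7ffffffdddde0000002cfed8000000136f9fffffe4310c800001b99e5e00007c495327ffffffffb06000000005d8800000000891fffffff959580000005b5fa00000031cc17fffff8aa195fffffe3b3da800000264b920000ce5f5f6800000000006000000000007fffffffffd60000000001b800000000171ffffffffda0800000001dd2000000005597ffffffb0b4dffffffdab5780000000000200000000000800000000009ffffffffff97fffffffffce0000000007c800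00000012200000003164800000079ae60000005384780000000092a0000000079a7ffffffef7d2000000056958000000a8dcdfffffed3a087fffffce6b7e000019759c98000202c9f2e00046d5cdf5800000000005ffffffffffa800000000016000000000667ffffffff9f9ffffffffdea800000002899fffffffb5a380000008dcc200000085d97800000000002000000000017ffffffffff9fffffffffed800000000156000000000357ffffffff88a0000000039b7ffffffc6c59ffffffd07fb80000000000200000000000800000000001fffffffffff7fffffffffee0000000004f800000001b29fffffffbfaf7fffffe1be75fffffdb7b338000000000020000000000080000000000200000000000800000000001ffffffffffa7ffffffffece0000000177280000007176a000000813b380000000000200000000000800000000002000000000007ffffffffffe0000000001580000000069dfffffffd9bb7ffffff25731ffffff00cde⟩,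
  ⟨11, 1, 1, 2, -1, 10, 47, 0x200000000000400000000000800000000002ffffffffff9a000000001a73fffffff4a2f80130d142e1304e96f50e0de6c10423252f718cdf2a50ac8000000000010000000000020000000000040000000000080000000000100000000000200000000000400000000000800000000001000000000002000000000004000000000008000000000010000000000020000000000040000000000080000000000100000000000200000000000c0000000000180000000000100000000000200000000000400000000000800000000000fffffffffff9ffffffffffd3ffffffffff57fffffffffeafffffffffff2000000000004000000000008000000000010000000000020000000000240000000001b8000000000c700000000032e0000000006f400000000067800000000001000000000001fffffffffffbffffffffffe7fffffffffc6fffffffffb8dffffffffd533ffffffff2807fffffffdd16ffffffffdb3a00000000000400000000000800000000002ffffffffff9a000000001a73fffffff4a2f80130d142e1304e96f50e0de6c10423252f718cdf2a50ac800000000001000000000002000000000004000000000008000000000010000000000020000000000040000000000080000000000100000000000200000000000400000000000800000000001000000000002000000000003fffffff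fffe7ffffffffff6ffffffffffe1ffffffffffcbffffffffffe8000000000010000000000020000000000040000000000080000000000700000000004e00000000023c0000000009280000000013f00000000012a00000000000400000000000800000000000fffffffffff9ffffffffff5bfffffffff347ffffffff854ffffffffd951ffffffff9bfbffffffff96a800000000005000000000059fffffffff754000000009bf7fffffffdd0afffffffc34fa0000001db4dbfffffffb93d8000006262ab0000213ef74600000000015bfffffffffa6800000000034fffffffff60dfffffffc663c000000362028000000fd8e8fffffe98e131fffff674eda40000be68b67800000000001000000000002000000000013ffffffffff57fffffffffdf0000000001020000000016b4000000018df7ffffffe0d86ffffffeda5ea0000000000040000000000080000000000100000000000a0000000000240000000000480000000033b00000000e4b600000015cbfc0000009d3037fffffffffc6fffffffff79a00000000346c0000000083b80000001f416fffffffd1e71fffffdad6a94000004c19e78000188d576f0001703760c2000000000004000000000007ffffffffff6fffffffffff6000000000763fffffffffc27fffffffe18cfffffffe6bfa000000088c84000000bb9de80000000000100000000000200000000000c000000000007fffffffff96ffffffffff9200000000119c000000006ab7ffffffe4c0affffffed1ae600000000000400000000000800000000001000000000001ffffffffffb40000000000180000000104cffffffffb6e9ffffffbe3d63fffffcb939f80000000000100000000000200000000000400000000000800000000000ffffffffffedfffffffffc440000000151e800000043ea30000002fe9b200000000000400000000000800000000001000000000001fffffffffff400000000006800000000436ffffffff94edffffffe0965bfffffe8adc3⟩,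
  ⟨13, 1, 1, 2, 1, 10, 48, 0x8000000000008000000000008000000000017ffffffffff080000000025e7fffffff662780098684de9b81738300a99092ddc5fa7c4cd1c6934d854d80000000000080000000000080000000000080000000000080000000000080000000000080000000000080000000000080000000000080000000000080000000000080000000000080000000000080000000000080000000000080000000000180000000000380000000000880000000000b8000000000078000000000008000000000008000000000008000000000007fffffffffff7ffffffffff77fffffffffd27fffffffff727fffffffff137fffffffff5980000000000080000000000080000000000080000000000180000000000a80000000005880000000020280000000070c800000000d5f800000000a988000000000008000000000007fffffffffff7ffffffffff27fffffffff857ffffffffc647fffffffea357fffffffaaaf7fffffff48d27fffffff5cc88000000000008000000000008000000000017ffffffffff080000000025e7fffffff662780098684de9b81738300a99092ddc5fa7c4cd1c6934d854d800000000000800000000000800000000000800000000000800000000000800000000000800000000002800000000006800000000009800000000005800000000000800000000000800000000000800000000000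7fffffffffff7ffffffffffa7fffffffffdf7fffffffff9b7fffffffff567fffffffff8780000000000080000000000080000000000080000000000180000000000780000000003f80000000017180000000050e8000000009968000000007988000000000008000000000007fffffffffff7ffffffffff67fffffffffa77ffffffffd677ffffffff0557fffffffc2c17fffffff7c9e7fffffff8aff80000000000380000000000b7fffffffff467fffffffff008000000021227fffffffc25b7ffffffda3ce80000000a3598000003e972d800008bf5a297ffffffffff37fffffffffc180000000019a800000000cec7fffffffa4467ffffffeb1a48000000fdce180000000ded47ffffe0d05138000088324b48000000000008000000000008000000000008000000000087ffffffffffc7fffffffff017fffffffff628000000025327fffffff8a067ffffff9f1418000000000008000000000008000000000007ffffffffffe80000000000080000000004b8000000003028000000045c780000003b48b8000001038d380000000001280000000017d7ffffffffcff7fffffffc7aa800000006b04800000098b0d7fffffdbe90e7ffffed4e7fc80000a3b2dbe8000738fdc098000000000008000000000018000000000047fffffffffe37fffffffffa68000000003cc8000000008317fffffff74be7ffffffefe638000000be5a88000000000008000000000007fffffffffff80000000000780000000001a7fffffffff137ffffffffbce8000000004327fffffff49777ffffff9b75e8000000000008000000000008000000000008000000000017ffffffffff97fffffffffaa8000000006bc800000001bbf7ffffff7dd7a7fffffbb19e78000000000008000000000008000000000008000000000008000000000007ffffffffffe7fffffffff6e8000000011f3800000026da78000001089828000000000008000000000008000000000008000000000007ffffffffffe7ffffffffff38000000001fd7ffffffff1cd7ffffffbc1187fffffe0793b⟩,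
  ⟨15, 1, 1, 2, 3, 10, 48, 0x8000000000008000000000008000000000007ffffffffff68000000001c77fffffff7aab8009868065cc81acaa1024e2991e2025093dfd9c5f62c38780000000000080000000000080000000000080000000000080000000000080000000000080000000000080000000000080000000000080000000000080000000000080000000000080000000000080000000000080000000000080000000000280000000000a80000000002a80000000006280000000005e8000000000008000000000008000000000008000000000007ffffffffffd7fffffffffe67fffffffff537ffffffffd287ffffffff93f7ffffffff92780000000000080000000000080000000000080000000000280000000001f800000000117800000000732800000001fb48000000050b58000000058a18000000000008000000000007ffffffffffe7fffffffffe87ffffffffead7ffffffff3ba7fffffffb0477ffffffe9c8d7ffffffc48e87ffffffb9e038000000000008000000000008000000000017ffffffffff68000000001c77fffffff7aab8009868065cc81acaa1024e2991e2025093cfd9c5f62c38780000000000080000000000080000000000080000000000080000000000080000000000180000000000780000000001e800000000046800000000044800000000000800000000000800000000000800000000000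7ffffffffffe7fffffffffed7fffffffff847ffffffffdf57ffffffffb287ffffffffb188000000000008000000000008000000000008000000000028000000000168000000000c980000000052e8000000016c88000000039ef800000003f948000000000008000000000007fffffffffff7fffffffffef7fffffffff0a7ffffffff7227fffffffc6877fffffff00367ffffffd54887ffffffcda877ffffffffffe8000000000028000000000637ffffffffdcb7ffffffffc1a800000005dd97fffffff348f7ffffff4b80a80000025bb3b8000092bf2e380000000000680000000001a7ffffffffe628000000002e880000000363d7ffffffe71278000000053a38000003207af7ffffe9392e180000502e8f18000000000008000000000008000000000007ffffffffffd80000000001e8000000000097ffffffffaa5800000000eb67ffffffffbad7ffffff986948000000000008000000000008000000000008000000000017ffffffffff9800000000003800000000468800000005d3e80000004f7b780000018d5467ffffffffff87fffffffff438000000004be800000000c6b7ffffffef53a800000033ece800000195f397ffffed0a98c800005072bdd800082d128188000000000008000000000008000000000008000000000137fffffffffae7ffffffffe5e80000000103b7fffffffd5727ffffffd82ff8000000823598000000000008000000000008000000000007ffffffffffb8000000000128000000000717ffffffffa2c7fffffffe03c7fffffff15737ffffff82f118000000000008000000000008000000000008000000000018000000000017fffffffff8f80000000036a800000003a9b7ffffff890e67fffffab73a68000000000008000000000008000000000008000000000008000000000008000000000027fffffffff6f800000000e7d80000002ae8380000015a7fb8000000000008000000000008000000000008000000000008000000000007fffffffffea8000000001687ffffffffc207ffffffb9e1e7fffffd7d18a⟩,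
  ⟨17, 1, 2, 2, -3, 10, 49, 0x20000000000010000000000008000000000003ffffffffffe60000000002c4ffffffff8a5a8004c33e3e3f40797441a346e40862cb47d91b6d77be87914800000000000400000000000200000000000100000000000080000000000040000000000020000000000010000000000008000000000004000000000002000000000001000000000000800000000000400000000000200000000000100000000000480000000000fc00000000027200000000038d00000000023b80000000000040000000000020000000000010000000000007ffffffffffcbfffffffffee1fffffffffbcafffffffff5887ffffffff0b8bffffffff634e0000000000010000000000008000000000004000000000016000000000097000000000308800000000b45c00000001c4fe00000002a8b900000001c85a8000000000004000000000001fffffffffffaffffffffffc57ffffffffe5f3ffffffff78a5fffffffe0998fffffffb11007ffffff87adfbffffffacb9920000000000010000000000008000000000003ffffffffffe60000000002c4ffffffff8a5a8004c33e3e3f40797441a346e40862cb47d91b6d77be879148000000000004000000000002000000000001000000000000800000000000400000000000e00000000002d0000000000708000000000a3400000000066600000000000100000000000080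00000000004000000000001fffffffffff6ffffffffffcc7fffffffff3e3ffffffffe1e5ffffffffd416ffffffffe3e1800000000000400000000000200000000000100000000000480000000001b40000000008c600000000208900000000518e800000007a624000000051f560000000000010000000000007fffffffffff3ffffffffff55fffffffffb42ffffffffe7797fffffffa5353fffffff1c3a5ffffffea5666fffffff106eb800000000000bfffffffffff20000000000050000000000c07ffffffffcc7c0000000031a600000001cba2fffffff664bc7ffffffc4840c00002523c36dfffffffffffd000000000008800000000023bfffffffff03a0000000026e3000000001fff7ffffffdd3aac0000007c35cdfffffe7d450b000002e2b3fa8000000000004000000000002000000000000ffffffffffff7ffffffffffdc0000000001c1fffffffffafcfffffffff59a7fffffffff1b3ffffffe6459a0000000000010000000000008000000000004000000000002000000000004ffffffffffee8000000001f7c00000001da560000000d40d3000000245c77800000000003c000000000025fffffffffc49000000000da27ffffffff773bfffffff7433a0000002d4184ffffff763b54800000cea9b4400022411a2560000000000010000000000007fffffffffffc000000000006000000000058fffffffffe6780000000000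14000000001571fffffffab4bd00000002e0eb80000000000040000000000020000000000010000000000007ffffffffffa4000000000175fffffffffc5affffffffc9c17fffffff308dbffffffd6d222000000000001000000000000800000000000400000000000200000000000affffffffffaf80000000002540000000114c5fffffff32d8affffff9d94568000000000004000000000002000000000001000000000000800000000000400000000000dffffffffff05000000000b4b8000000170f6c0000006cea360000000000010000000000008000000000004000000000002000000000002ffffffffffed8000000000604000000000a31fffffff7398effffffcf0829⟩,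
  ⟨19, 1, 2, 2, -1, 10, 49, 0x20000000000010000000000008000000000003ffffffffffee000000000238ffffffff96bd8004c33c81584087bdf9b64ae50995077fc67ff412093df46800000000000400000000000200000000000100000000000080000000000040000000000020000000000010000000000008000000000004000000000002000000000001000000000000800000000000400000000000200000000000300000000000a80000000002a400000000077e000000000ca100000000097c8000000000004000000000002000000000000ffffffffffff7ffffffffff8bfffffffffd39fffffffff46affffffffdf797fffffffc95e3fffffffd6dfa000000000001000000000000800000000000400000000002e00000000014d000000000787800000001f34c0000000579260000000949450000000725ae8000000000004000000000001fffffffffff4ffffffffff897ffffffffc5b3fffffffeaef5fffffffa8e28fffffff0bc767fffffe600bbbfffffebbb85e0000000000010000000000008000000000003ffffffffffee000000000236ffffffff96bd8004c33c81584087bdf9b64ae50995077fc69ff412093df468000000000004000000000002000000000001000000000000800000000000c00000000001e00000000007b0000000001598000000002454000000001b4200000000000100000000000080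00000000003fffffffffffdffffffffffeaffffffffff7f7ffffffffde8bffffffffa241ffffffff62c4ffffffff89c2800000000000400000000000200000000000100000000000880000000003cc0000000015da000000005a4b00000000fcd480000001ac3c400000014926a0000000000010000000000007ffffffffffe3fffffffffea5fffffffff55cffffffffc2bc7fffffff0364bffffffd3d869ffffffb4f162ffffffc594038000000000004000000000005ffffffffffef00000000003b7fffffffffed3ffffffffc51e000000016456fffffffb945c7fffffee7d8240000246be706000000000000fffffffffffc800000000010bfffffffffe4dfffffffff7ed00000000489a7ffffffef11a40000002c94a5ffffff1cab75000001bd01c580000000000040000000000020000000000010000000000007ffffffffffd40000000000adffffffffffd8ffffffffeef97fffffffe13f3ffffffe5597a00000000000100000000000080000000000040000000000020000000000050000000000018000000001d6c00000002346200000011508d0000003396307fffffffffff4000000000041ffffffffff6cfffffffffeea8000000011263fffffffae2960000000f2162ffffffccbc2d80000020ec62c00022aa9ed220000000000010000000000008000000000003fffffffffffa00000000002affffffffffc87ffffffffcb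1bffffffffafc5fffffffa93e0fffffffd96eb80000000000040000000000020000000000010000000000017ffffffffffdc000000000009fffffffffef8ffffffffc42e7ffffffebd36bffffffc64e560000000000010000000000008000000000004000000000002000000000008ffffffffffdb7fffffffff3cc00000001031dfffffff54ca6ffffff91d4788000000000004000000000002000000000001000000000000800000000000400000000000dffffffffff3500000000089e8000000184c6c000000849f420000000000010000000000008000000000004000000000002000000000002fffffffffff4800000000022c0000000015fdfffffff75ba6ffffffc650d0⟩,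
  ⟨21, 1, 2, 2, 1, 9, 50, 0x20000000000008000000000001fffffffffffc80000000003a1ffffffffa0c38002619d7881602581eb35f3a8c4eb55dabf3358a28468e3e8800000000000200000000000080000000000020000000000008000000000002000000000000800000000000200000000000080000000000020000000000008000000000002000000000000800000000000a000000000016800000000033a0000000005178000000004d2a0000000020f780000000000020000000000007fffffffffff9ffffffffffe17fffffffff9bdfffffffff1947fffffffe9925fffffffeaf5a7fffffff70cfe0000000000008000000000006000000000014800000000055e00000000111f80000000271aa00000003c8ad800000038e186000000186b7d8000000000001fffffffffff67fffffffffc81fffffffff0e47fffffffcff61fffffff9293d7ffffff56e6e5ffffff6114d47fffffbb735220000000000008000000000001fffffffffffc80000000003a1ffffffffa0c38002619d7881602581eb35f3a8c4eb55dabf3358a28468e3e88000000000002000000000000800000000000200000000000180000000000420000000000958000000000eb2000000000de48000000005eda0000000000008000000000001ffffffffffff7ffffffffffa5fffffffffedd7ffffffffd641ffffffffbf387fffffffc3555fffffffe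63b28000000000002000000000001800000000003e0000000000fb80000000031d200000000717080000000af33e0000000a447e8000000466a6a0000000000007ffffffffffe5ffffffffff5b7ffffffffd3b5ffffffff73ce7ffffffec1c35ffffffe158e57fffffe341bcdffffff39fd7e8000000000001ffffffffffff7fffffffffff60000000000ba7ffffffffda22000000004c1e7fffffff9e155ffffffd1e28380000231fb481ffffffffffff800000000000200000000003a7fffffffff202000000001cdb7fffffffdc8a600000003d5e27fffffea4ba86000000f94d7080000000000020000000000008000000000001fffffffffffe800000000001200000000008e7ffffffffc3fdffffffff81357ffffffe262920000000000008000000000002000000000000800000000000600000000000c8000000000fa600000000a3ad80000002c255a0000004738c580000000000060000000000157fffffffffa2a000000000e3c7fffffffeb38600000001b2b17ffffff92d375ffffffb03dd8800022a34646e0000000000008000000000001ffffffffffff800000000000e0000000000327ffffffffe709ffffffffc3c17fffffff2a199fffffff7a44380000000000020000000000008000000000001ffffffffffff7ffffffffff99ffffffffff017ffffffff0039fffffffc83e77ffffffae527600000000000080000000000020000000000008000000000009fffffffffffa7fffffffff76a0000000035487ffffffee4eadffffff88162f80000000000020000000000008000000000002000000000000800000000000dffffffffffb18000000001a0200000003279980000009d697e00000000000080000000000020000000000008000000000001fffffffffffa800000000000600000000063a7ffffffef1731ffffffbdc3f5⟩,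
  ⟨23, 1, 2, 2, 3, 9, 50, 0x20000000000008000000000001fffffffffffd8000000000309ffffffffa90b8002619cc28fa0291456e02ea8ec3676fc8cefc4c4ddccf8e38000000000002000000000000800000000000200000000000080000000000020000000000007fffffffffffdfffffffffffc7fffffffffff60000000000008000000000002000000000000800000000000e00000000002d8000000000746000000000c98800000000d2a20000000063f580000000000020000000000007fffffffffff5ffffffffffc47fffffffff2d9ffffffffdee67fffffffc7a4dfffffffc5e227ffffffe4a92a00000000000080000000000060000000000238000000000a6a00000000243c800000005a5d2000000098e4d80000009d3e660000004a247c8000000000001fffffffffff07fffffffff9b9ffffffffe2927fffffff9a039fffffff027d77fffffe541a6dfffffe48725b7fffff30812060000000000008000000000001fffffffffffd8000000000305ffffffffa90b8002619cc28fe0291456e02eb8ec3676fc8cfbc4c4ddccf8e5800000000000200000000000080000000000020000000000028000000000086000000000151800000000246a0000000025fc80000000120020000000000008000000000001fffffffffffe7ffffffffff51fffffffffd9b7ffffffff9ff1ffffffff5cdd7fffffff581b5fffffffb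125b8000000000002000000000001800000000006a0000000001e880000000069c60000000106de80000001bb8820000001c71f58000000d6339e0000000000007ffffffffffd1fffffffffed77ffffffffa95dfffffffed54b7ffffffd1c6a9ffffffb238f77fffffb04e5a9fffffda754b880000000000020000000000007ffffffffffe60000000000677fffffffff12a0000000019ab7fffffffe4a49ffffffce5c4680000219dcb5e0000000000007fffffffffffa0000000000227fffffffffb1600000000063f7ffffffffbd260000000253c97fffffed2376a00000057ff6c800000000000200000000000080000000000020000000000007ffffffffffea00000000007a7ffffffffd101ffffffff4bdd7ffffffdd8e1600000000000080000000000020000000000008000000000002000000000010800000000116e00000000bc69800000037227a0000005ffa3e7fffffffffffe00000000000c7fffffffffe020000000003017ffffffffe55e0000000095b17ffffffa98ff5ffffff508c0580002262900ba00000000000080000000000020000000000007fffffffffffe0000000000357ffffffffedfdffffffffa37c7ffffffedcd65ffffffefd586800000000000200000000000080000000000020000000000007ffffffffff8dfffffffffe227fffffffede01fffffffb74c67ffffff8e4bf6000000000000800000000000200000000000080000000000060000000000087fffffffff7aa00000000285d7fffffff13b45ffffff80014f800000000000200000000000080000000000020000000000008000000000009ffffffffffc48000000001382000000033e338000000b7050600000000000080000000000020000000000008000000000001fffffffffffe7ffffffffff960000000005dd7ffffffef78c5ffffffb56831⟩,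
  ⟨26, 2, 3, 1, -1, 10, 51, 0x200000000000040000000000008000000000006ffffffffffe06000000000972bfffffffb311a8009866f3563b02e6ff67c727a4b766c51bd0fe8e0a55efbdfb800000000000100000000000020000000000003fffffffffffe7fffffffffff0fffffffffffa5ffffffffffe43ffffffffffa17ffffffffff32fffffffffff26000000000000400000000000080000000000030000000000056000000000075400000000077880000000056d3000000002a97a00000000ca2e400000001b5fb8000000000000ffffffffffff9fffffffffff13fffffffffe4d7ffffffffdb8effffffffdc03dfffffffe68abbfffffff3c89e7ffffffc70488fffffff8632a2000000000000c00000000001380000000002c30000000004d92000000006673c00000006415c8000000462da7000000216da720000009b13d640000014a94297ffffffffffeeffffffffffc7dfffffffff801bffffffff21a97ffffffedc8dcffffffee4dd9dffffff3a4a55bfffffa21e9827ffffe4d74872fffffc62ae79e0000000000004000000000000800000000000affffffffffe0a000000000974bfffffffb312a8009866f3568502e6ff67c73724b766c51bd3168e0a55efbe2080000000000010000000000002000000000000c00000000000f800000000015900000000015ce000000000fc94000000007b88800000002490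b000000004f1120000000000003ffffffffffff7ffffffffffd2ffffffffffaf9fffffffff94ebffffffff96c37fffffffb5d48fffffffdc83f5fffffff5ae26bffffffe9fc088000000000003000000000003e000000000084c000000000e678000000012e390000000125a4a0000000cd09d40000006157d48000001c25fad0000003bdf2a1fffffffffffcbffffffffff537ffffffffe7d8ffffffffd67a1fffffffca0383ffffffcbdfb77fffffdbc5ca8fffffeedcadc9fffffb0e9b9fbfffff5802cb48000000000000ffffffffffffa00000000000abffffffffff718000000000546fffffffffdd7e00000000138dc0000000001597ffffff35b915000001f4218e9ffffffffffffc00000000000b7ffffffffff630000000000579ffffffffff22bfffffffff1227ffffffffe27b000000023c741ffffffc20ac23ffffff89f5d7800000000000100000000000020000000000004000000000000800000000000cffffffffffe5e00000000008e3ffffffffdc0a7fffffffc3cc2fffffffd39fe2000000000000400000000000080000000000010000000000002000000000002c00000000012c80000000052d500000000e738200000012afcec000000906eb0800000000000cfffffffffff3e0000000000743fffffffffe9c7ffffffffe3950000000008d4e00000002abf83ffffffbf263c7fffffb7a2c2d000021b236a220000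00000000400000000000080000000000010000000000009ffffffffffe1c0000000001807ffffffffd526ffffffff8436dfffffff8e237bffffffde8476800000000000100000000000020000000000003ffffffffffff8000000000008ffffffffff975fffffffff364bfffffffe83497ffffffe60e10fffffff4ca5e200000000000040000000000008000000000000ffffffffffffdffffffffffff40000000000c47ffffffffe7110000000017d55fffffffd0d003ffffff7623de8000000000001000000000000200000000000040000000000007fffffffffffd0000000000041ffffffffff584000000000c7880000000d576f0000000de87de000000000000400000000000080000000000010000000000006000000000005400000000001e7fffffffffe470000000004c4dfffffffbfe16bffffffa9344a⟩,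
  ⟨30, 2, 3, 1, 1, 10, 51, 0x20000000000003fffffffffffe7fffffffffff4ffffffffffe1a0000000006bfbfffffffbd2c28009866abbbf103594c82cc61264779c1fd14e7ecb59935cd9b8000000000000ffffffffffffdfffffffffffd3ffffffffffe17fffffffffef2ffffffffff885fffffffffd763fffffffff6177ffffffffe736fffffffffe2320000000000004000000000000800000000000700000000000c600000000013e400000000176080000000138d100000000b0c4a00000003c8afc000000097e398000000000000ffffffffffff5ffffffffffdf3fffffffffbc47ffffffff9846ffffffff8ab09fffffffa0d23bffffffcb8ca57fffffee68560ffffffd49ea52000000000000c000000000027800000000063b000000000c5aa0000000128d1400000014b094800000109be2d00000091321da00000305c7cdc00000769c5367ffffffffffdcffffffffff8bdffffffffedaabfffffffdc2657ffffffcab81affffffc503fb1fffffd0e8b553ffffe660b6c37ffff77e3f3a6ffffeb2f725ba0000000000003ffffffffffff7fffffffffffcffffffffffe660000000006eb3fffffffbd3f98009866abc28d03594c82cdffa64779c1fd55e7ecb59935d28180000000000010000000000002000000000001400000000002580000000003ad00000000044ae00000000392bc00000002030d80000000afe69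00000001b84620000000000003fffffffffffe7ffffffffff9cffffffffff35dffffffffecccbfffffffea6af7ffffffee9268fffffff66e71dffffffcccd913ffffff82106e8000000000003000000000007a00000000012f4000000002519800000003733700000003d25a600000030d48ec000001a91e858000008d20abd0000015930029fffffffffff93fffffffffe947ffffffffc7beffffffff9390dfffffff60821bffffff50cc2e7fffff74f4356fffffb4b2af55ffffe717be8abffffc33e78fa80000000000010000000000002000000000001bfffffffffff6800000000000affffffffffece0000000009c840000000093f07ffffff384fe7000001c1cb2c200000000000040000000000017fffffffffffcfffffffffff660000000000c83fffffffffe157ffffffff3aad00000001d7cc1ffffffd2b292bfffffeb485d2800000000000100000000000020000000000004000000000000800000000000afffffffffff55ffffffffff69bffffffffdad97fffffffb216cfffffffc25ff2000000000000400000000000080000000000010000000000002000000000003c0000000001678000000006751000000012ccb60000001af5a14000000eb00258000000000002ffffffffffffdfffffffffff440000000001257fffffffff9e6ffffffffee6f60000000238d5bffffffde36c37fffff9f387070000205ab0e9a00000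0000000400000000000080000000000010000000000009fffffffffff33ffffffffffd27ffffffffdddaffffffff69031fffffff492f4bffffffb9b6748000000000001000000000000200000000000040000000000007fffffffffff8ffffffffff969ffffffffecee3fffffffdc5457ffffffd763d4ffffffec98456000000000000400000000000080000000000010000000000001fffffffffffcc0000000000857fffffffff193000000000953dfffffffd8c5d3ffffff6b7d24800000000000100000000000020000000000003ffffffffffff7ffffffffffeefffffffffff8dffffffffff51c00000000051e80000000d9dd900000011485aa00000000000040000000000008000000000005000000000004200000000002ac000000000170800000000070f00000000058ddfffffffc2356bffffff9975aa⟩,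
  ⟨36, 4, 4, 0, 0, 10, 52, 0x7fffffffff8437ffffffffdc9f7ffffffff8ab17fffffffe81107fffffffd6ba87ffffffc08085802619935d0ae8404bfce52b13a42af99bf87f3ec81b6d209d687fffffffffa407ffffffffe5d57ffffffffa9137fffffffeeeef7fffffffd335a7fffffffa2eb27fffffff6b7a27fffffff54e317fffffff816f57fffffffd2e3b8000000000003800000000003c800000000036d80000000024698000000011aff8000000063f72800000019147f800000043f08380000006f8e62800000053f5d87ffffffffff897fffffffff87b7ffffffffa30c7fffffffc88be7ffffffe6f9dc7ffffff79dd707fffffdfa9af37fffffab1c1f67fffff7823d197fffff9beaa7280000000006f080000000065cc8000000049be180000002a315a800000127f7aa80000061223928000017108f6f800003bd9d370800005ee9350b800004566040f7ffffffffa57d7fffffffb067c7ffffffc81e187fffffe0b34f67fffff27bb2e07ffffb9ca99e97fffef765be237fffd558c104c7fffbcadb08477fffcef4befb67fffffffffbbd7ffffffffec997ffffffffc0717ffffffff2b727ffffffff2e117ffffffc42eea80261993bb9aa8404bfcec03c6a42af99c49ec5ec81b6d226fd98000000000002800000000003080000000002a68000000001b9a800000000d3e1800000004a3318000000127f788000000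31ddd3800000051914b80000003d33567ffffffffff9e7fffffffffa0c7ffffffffb8437fffffffd5e6e7ffffffed38bf7ffffff9c31847fffffe817b1c7fffffc18d46b7fffff9c743a37fffffb6e7c6c80000000005bc8000000005145800000003961f800000020438f8000000df7cf680000048aa06b800001121beff800002c3571608000045cb6ec08000032d957957ffffffffb39f7fffffffbf6d07ffffffd3f6377fffffe7d22c77fffff5b53ba07ffffcb1cb87a7ffff3a4c8dd87fffe055687d67fffce45e19d17fffdbec483e080000000000017ffffffffffff7fffffffffff0800000000004680000000000567fffffffff4278000000006562800000004a7e97ffffff4303278000005e2c84f80000000000027ffffffffffe580000000000997fffffffffe9e7fffffffff9cf8000000004bbb7fffffffe46ed800000011d8ef7ffffff90130a7fffffddd182e8000000000000800000000000080000000000017fffffffffffa800000000001d7ffffffffffb17ffffffffef737ffffffff2bbd7fffffff90bb97ffffffe7d21a800000000000080000000000007fffffffffffe8000000000007800000000014c8000000001eb28000000023af380000001b60728000000b069308000001bcf9ec7ffffffffffe680000000000a07fffffffffe657fffffffff9ae800000000660e7fffffffd709780000000c18cd7ffff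ffdf27517fffff9127b678000077894dab800000000000080000000000007fffffffffff680000000000017ffffffffff1e7fffffffff0ed7ffffffff38e97fffffff3b6dd7ffffffb1fe9f7ffffff5dfde180000000000018000000000009800000000002a80000000000a180000000001007ffffffffe3ea7fffffffe26af7fffffff043177ffffffb326557ffffff5cd6fa80000000000018000000000008800000000002480000000000978000000000128800000000068b7ffffffffebbd7ffffffffeaf57fffffff6c9297ffffff5d78887ffffffffffef7ffffffffff9d7fffffffffe537fffffffff97a7ffffffffeb147ffffffffcae67ffffffff927d7ffffffff6b6e80000000d3e818000000597ed980000000000cc800000000048280000000013708000000004b02800000000ece78000000024e718000000045991800000006002e7fffffff5eeda7ffffff848357⟩,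
  ⟨44, 4, 5, 0, 0, 10, 53, 0x1ffffffffdce70ffffffffa3f0f7fffffff474ec3ffffffea9ee95ffffffdf23f9affffffd48d7f180130c96f8395413a562417b0c26c0e560876c3fc61b758c71d3d7ffffffff960dbfffffffeeb5a5fffffffdd7b92fffffffc0531f7ffffff9e19b2bffffff87be74dffffff8e14002ffffffb1defe57fffffdd82719bffffff8a5198e000000000000b0000000000081800000000048f4000000001dcce000000008e32d00000001ecc7480000004bb5fac0000007d722e60000007ddf99100000039de2577ffffffffff67bfffffffffa9b5ffffffffd9a56ffffffff29bc37ffffffc6ab013ffffff482bd31fffffe5565568fffffd5baab957ffffd709d085bffffedb1d30e200000000029b50000000014b1a8000000085d8d40000002bd30ae000000b35b0df0000022cd5cbc800004ee0c544400007ad9d394a0000756d28a7d000033e9427027ffffffff71d43fffffffbbf791ffffffe57bdbaffffff791736e7ffffde4018aebffff98f1f1b55ffff19516e7fefffe9c189e5a07ffeae488be0abfff6b8e8b61adffffffffec03cffffffffcc0b37fffffff98cd93fffffff423441ffffffedee614ffffffe6e699880130ca8813dcc13a56303687f66c0e565ead97bc61b759ef253a8000000000002c00000000001be0000000000eb90000000005d1d800000001b36cc00000005d0ace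0000000e28947000000174adea800000173e5134000000aa39929ffffffffffde4fffffffffee087ffffffff8522bfffffffd62db5fffffff501550ffffffdd30de57fffffaffa8093fffff820c730dfffff86a41ddefffffca0358f78000000000938c00000000458f600000001b154100000008a3d3080000022b3806c000006a40093600000ee4df46b00001702a7d09800015dabc20ec000099c9bf5c5ffffffffdf746ffffffff156347ffffffa871773fffffe4fb4a45fffff963081aeffffec214cabf7fffd40f99eabbfffbcd7cc9175fffc0be84f86afffe45c4a2bf98000000000000400000000000020000000000002fffffffffffee80000000000483fffffffffef4e0000000004a3f00000000626437ffffffac8fedc0000011f7c3ee0000000000000fffffffffffff7fffffffffffb400000000001f1ffffffffff8df0000000000cf67ffffffffc704400000003171b5fffffff93f8b2ffffffd3aaca48000000000000400000000000020000000000007000000000000f800000000001e400000000002b1fffffffffe068ffffffffec75b7fffffffa7854bfffffff584749ffffffffffffeffffffffffffa7ffffffffffee3ffffffffffd71ffffffffffeaf00000000027ca800000001afd8c0000000b01e2a000000279d77300000039f3a7680000000000003fffffffffffe600000000000feffffffffffc6580000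00000a79bffffffffea7a20000000056fb7000000002dece7fffffc7431cb400001a5b610f5ffffffffffffcffffffffffff37ffffffffffdd3ffffffffffa89ffffffffff3a8fffffffffd9d27ffffffff41bc3fffffffb4fcd9ffffffeea933effffffe898b4e800000000000bc000000000026e000000000067f0000000000f6a8000000001d8040000000023601ffffffffd342cfffffffe4417c7ffffffade3f8bffffff9d038c20000000000031000000000009f80000000001a040000000003bf2000000000704f000000000a69b800000000b13fc000000006d2f5fffffffef240cfffffff4ae5eb7ffffffffff6e3fffffffffe211fffffffffb262fffffffff4e477fffffffeb1ecbfffffffe0cf8dfffffffdc47a8fffffffe27ef27fffffff73dd5400000019529720000000001bcf0000000005a32800000000e728c000000020c9ce00000003d241300000005a91c880000006696c9c0000005366cae0000002968a57000000010926f⟩,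
  ⟨50, 2, 6, 0, 0, 10, 54, 0x7fffffffffe831fffffffffbd5f7ffffffff631f5fffffffec0e517ffffffde57575ffffffd20b4668001309b208922016530928a50488b88b22f80a2722b3d09862dd57fffffffffedc9fffffffffcd517ffffffff894edffffffff0fad57ffffffe6bffbdffffffddc59df7fffffdc149f19fffffe4a45cc77fffff28e08559fffffccd2270c8000000000000200000000000018000000000008a00000000003f4800000000157c20000000054d2e80000000ed6cda0000001bfa9bc8000001fee14c20000010b00e477ffffffffffffdfffffffffffd47fffffffffeaa1fffffffff7cc57fffffffd91ee9fffffff75082c7fffffe96b4289fffffd7c0976b7ffffd40b6fcb1ffffe9d29d1038000000000005600000000002eb800000000145c20000000072f99800000020147b60000006dcab4f8000011479d82a00001e12248a48000203eb5473a00010099626517ffffffffffb95fffffffffd9037fffffffef63e1fffffffa4e1707fffffe738cb79fffffacf00fdc7ffff322ed4cd5fffe9e4612d4b7ffe885dee19ddfff4698c7c6f57ffffffffff215fffffffffd9747ffffffffa634dffffffff4b03e7ffffffed11115ffffffe643ae4800130b097161e0165319ac3d2e88b88ba601629322b3d28f3f5e680000000000002000000000000180000000000076000000000032f800000000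10cf200000000411e680000000b3e752000000150001480000017cb3f36000000c5da9467ffffffffffffdfffffffffffda7fffffffffee39fffffffff96b47fffffffe18c51fffffff94ffa17fffffeed460a9fffffe1af27fe7ffffdf224249dffffef83a31b98000000000005200000000002958000000001120a000000005d63f80000001968bce000000555e66e800000d4052202000016d1451ee80001843f42c0e0000bfd4385807ffffffffffb79fffffffffdc1c7ffffffff1a025fffffffb45a5d7fffffec080411fffffbe808a267ffff6054054f5fffef0f9b815d7ffee2f84390a9fff7465af3c2480000000000002000000000000080000000000002000000000000080000000000005fffffffffffe380000000000a5a000000001a8cd7ffffffed8c05a000000391e2878000000000000200000000000008000000000000200000000000007fffffffffffe1fffffffffffe27fffffffffd30a000000002ac6d7fffffffd8f109ffffffd0421f58000000000000200000000000008000000000000200000000000028000000000003e000000000006d80000000000059fffffffffa6197fffffffe1de1dfffffffc28c288000000000000200000000000007ffffffffffff9fffffffffffeb7ffffffffffd61ffffffffffef48000000001f64600000000f39d880000003b347e20000005e9c9e4800000000000020000000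000000800000000000060000000000000800000000000e5fffffffffffff8000000000f37600000000322ad7ffffff200c3e6000005ed885988000000000000200000000000007ffffffffffff1fffffffffffd57ffffffffffa19ffffffffff4297ffffffffe34a9ffffffff8c4ae7ffffffe600495ffffffd893db3800000000000020000000000004800000000000ca00000000002028000000000445a000000000716c80000000076b6dffffffffd341e7ffffffe212909ffffffd401c63800000000000020000000000004800000000000ce000000000020b80000000004426000000000712b8000000008ef36000000007e7b68000000030f339fffffff4cafc97ffffffffffff1fffffffffffcb7ffffffffff635fffffffffe7547ffffffffcceb9ffffffffab8017fffffff94b655fffffff9dde867ffffffc828565fffffff85a1df800000000000be000000000028d80000000007772000000001299f8000000026262600000003e918f80000004eca472000000476f1cd800000295977be000000adeac1d⟩,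
  ⟨54, 2, 7, 0, 0, 10, 54, 0x7fffffffff91e1ffffffffebd967fffffffce26adfffffff9556c67ffffff421b065fffffeeea306780012f9a25005e0181b67689c4f8a2c00910205236e32fb097162f7fffffffffaac5fffffffff08467fffffffd9f085fffffffaeff937ffffff7078595ffffff325ed587fffff1b650039fffff4727ce767ffff9f61e9839ffffe78377a3c800000000000020000000000001800000000000ca000000000063b8000000002489e000000009bee280000001d7ecd60000003c1f8588000004a28a4fe0000029e138f57ffffffffffffdfffffffffffc07fffffffffdd2dfffffffff1be77fffffffb82b61ffffffeee6abe7fffffd07d22bdfffffa54655847ffff95a73549dffffc655403718000000000006a00000000004a7800000000235e600000000d273380000003dc4ed2000000df63d43800002555afe7600004544b135b80004f6d469d860002a563a43df7ffffffffffb99fffffffffc3897fffffffe2f8d5fffffff569d0b7fffffcf7a6ecdfffff545b8bbc7fffe3d509c921fffcc7e3e1a6b7ffc59cfe2c5c5ffe128ee118c27fffffffffbe19fffffffff41b27fffffffe2f1b5fffffffc27d8f7ffffff93871e1ffffff6519b028001301fa5fa6e0181bd4aa53268a2c042c97512b6e3309cea5d59800000000000020000000000001800000000000b20000000000527800000000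1d1a6000000007947f800000016932d20000002d7d8f680000037a17a7e000001f3578b57ffffffffffffdfffffffffffc47fffffffffe211fffffffff44c97fffffffc6c9f9fffffff2a9b987fffffdb7f96adfffffbb1525ca7ffffafea94cb5ffffd4df14dc28000000000007600000000004588000000001ec3600000000af208800000031d6d9e000000b040aba800001cf8629a600003512ccbdf80003c430458f20001fdf467bf97ffffffffffa29fffffffffc3e77fffffffe5c58dfffffff6f14db7fffffd7fffd79fffff763baec17fffe9d5b239d9fffd812bec58c7ffd3435453c6dffe895e2cdf3f80000000000002000000000000080000000000002000000000000080000000000001fffffffffffe980000000000722000000001b5d17ffffffef3bbae000000304f8dd8000000000000200000000000008000000000000200000000000007fffffffffffe5fffffffffffa07fffffffffcb1600000000264038000000001847dffffffcfaef7a800000000000020000000000000800000000000060000000000006800000000000e200000000001ac80000000001dc5fffffffffb7d57fffffffdc945dfffffffb21d968000000000000200000000000007fffffffffffe9fffffffffffb67ffffffffff561ffffffffff06b8000000001203e000000011c33d80000004bcc802000000804157d800000000000020000000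00000080000000000006000000000000b800000000001ea000000000031880000000011e4e000000004a3e87ffffff23ea57a0000057e760b580000000000001fffffffffffff7fffffffffffc9fffffffffff647fffffffffe99dfffffffffd5197ffffffffb33c9ffffffff44bd87ffffffdce602dffffffc97c23280000000000006000000000000e800000000002be000000000077e80000000010d82000000001e24880000000278d1a00000001ad5597ffffffea33589ffffffc5e2fe380000000000006000000000000f800000000002e600000000007c88000000001134a000000001e68280000000292ace000000027d21a80000001705d59fffffffa07bb27fffffffffffd1fffffffffff487fffffffffdc19fffffffffa0997ffffffff2f195fffffffe9196b7ffffffe11b8b5ffffffe1f0b287fffffed568ce9ffffffaf21ffc8000000000027600000000009038000000001bce6000000004907d800000009e3f0e000000112f1cd80000016fb1a1a00000162d6fac800000db92ca960000040b7080f⟩,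
  ⟨58, 2, 8, 0, 0, 10, 54, 0x7ffffffffe21f9ffffffffa4c6e7fffffff141409ffffffdf02e157fffffc27584e1fffffa2ffe9b2800129f7096d5a019dfb77bf08e8bbbe45140c3fbc5bfb3851b9257ffffffffe8969ffffffffb91a27fffffff4a0211ffffffe6b65d07fffffd1167ffdfffffb976dc8c7ffffad82ccec1ffffb9afe307c7fffd92e3f4c01ffff5972331498000000000000200000000000018000000000011a00000000009848000000003be22000000011266f800000037c8d960000007a3d03d800000a21188d600000625d226f8000000000000dfffffffffffc37fffffffffcc15ffffffffe84267fffffff801f89ffffffdfab5dc7fffffa0838a2dfffff3dd0ecd67ffff0d28bde91ffff7350badd07fffffffffffa6000000000057380000000038bb600000001727588000000730cd1a000001b62c6c9800004d4d134da000097e89e6cc8000b90dd4e332000690a9b8a5a80000000000a11fffffffffc4b07fffffffd29a11ffffffed486b87fffffa46e6989ffffeaa52fa3e7fffc4ddb50da1fff8da85f64ff7ff768815fe441ffb2cad3271417ffffffffeda8dffffffffc8ea57fffffff73a365ffffffec9e4447fffffdc3e23f9fffffca7df34c80012ce61b9f3a019e240f06fab8bbbfb039f3c8bc5c0160242f9c800000000000020000000000001800000000001060000000000820800000000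30bae00000000d8b6a80000002b30a0e0000005d542b18000007a79eb1e0000049c1357480000000000005fffffffffffbb7fffffffffd119ffffffffebf2f7fffffff981959ffffffe666e157fffffb5c633cdfffff6b1608dd7ffff47af9be2dffff96146f8c98000000000000200000000005db80000000033d5a000000013dbcc80000005ee30020000015f9ae00800003ccb568de000075ac9f18680008dafcfa45e0004fb0b2dd9f80000000000301fffffffffb4f47fffffffd40a71ffffffef585d67fffffb268bed5ffffee7fb84907fffd0b271b97dfffa62e10fd9f7ff9581ec5af61ffc4d6b28c97980000000000002000000000000080000000000002000000000000080000000000001fffffffffffec80000000000462000000001be637fffffff0f62d6000000285bac880000000000002000000000000080000000000001fffffffffffff7fffffffffffc1fffffffffff3d7fffffffffb9ca000000002092680000000251005ffffffd04d0fb8000000000000200000000000008000000000000a0000000000013800000000002fe000000000060280000000008ade00000000025597fffffffdaa90dfffffff9fa62b80000000000001fffffffffffff7fffffffffffb1fffffffffff0d7fffffffffda89fffffffffbac17ffffffffc81fa000000010ce7180000005da4caa000000aaa6234800000000000020000000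0000008000000000000e0000000000028800000000006520000000000c438000000001f732000000006d0397ffffff298a01e00000511bc3f280000000000001ffffffffffffd7fffffffffff49ffffffffffde97fffffffffafadfffffffff632c7ffffffff03155fffffffe693e47ffffffcbacd9dffffffb42f85f8000000000000e000000000002a8000000000090e0000000001a198000000003dd02000000007517280000000a87ea20000000a1b1a1800000038cc799ffffffc9311868000000000000e000000000002f800000000009d20000000001bb68000000004086e000000007866380000000acbec20000000b25bfd800000074241ba000000173aa257fffffffffff69ffffffffffda97fffffffff849dffffffffea7437fffffffce5c25fffffffa43dbe7ffffff7d4e065ffffff797e4717fffffa729b331fffffe448ff0a800000000007960000000001db480000000060f12000000010bd9a80000002626ada00000045cea9c80000062808f7600000648063948000041e7fabb2000014cb38176⟩,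
  ⟨62, 2, 9, 0, 0, 10, 55, 0x1fffffffff10553fffffffe7e35e7ffffffdf5204effffffd9d9bee9fffffdadd755ebffffe2af376618000866011ec0d006e39a0918d521acf1ad02f02462a3b7c878ce037ffffffffd04f2ffffffffb407d5fffffff99f76ebffffff89c81aa7fffff8dae2ebefffffa647086b9ffffc9218aea33fffe77eeef49c7fff8e6080cc84fffeffa662c691fffffffffffffbffffffffffffb80000000000077000000000035b2000000000bccc400000001d0c468000000328aaa90000003b3b0c8a000002a004ac2c00000da211fe480000000000043000000000002b9ffffffffff9cdbffffffffdc31d7fffffff936552fffffff14c0c69fffffe8f65322bffffe729227527fffef832c1950ffffaec78c527dfffffffffff163ffffffffff909800000000204390000000094e03200000019a27afc0000033d725b1800004d17ca0c700004fdc0a1afa00033659c4aab4000f72b4358b480000000003a6100000000026dfdffffffffa85c73ffffffe2a381f7fffffae2a2a5afffff5c822dd3dffff1108168dabfff0c8d67398b7ff659115765baffd2230ab26735fffffffff6842bffffffff10bee7ffffffec18496ffffffe91baeddfffffea01c2bfbffffeed6772a380008df443ec29006e70b7e681ca1ad01e27da2b662a3dcd89b2dfb7ffffffffffffefffffffffffff60000000000021c000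0000000c058000000002770b000000005d70ae00000009e9e9cc000000b6c1e998000008003129f00000292b21ebe000000000000c4000000000005d7fffffffffe5a4fffffffff81989fffffffe960da3ffffffd09a2af7fffffb7643d3afffffb2fb96d19ffffcd809644c3ffff09979bcdf7ffffffffffd66fffffffffff7a600000000086e7c00000002167a0800000056ecbb7000000a9c0025600000f64fc4e4c0000fa8c4c2fa80009f06e88b050002f4867858020000000000a754000000000400a7fffffffe565f2fffffff90a17d1fffffee07dc253ffffdda5c18717fffcf4818f72efffcf7437823ddffe1b7558c0a5bff71f624b2963800000000000010000000000000200000000000004000000000000080000000000002ffffffffffffd20000000000047c000000001c3377fffffff95b9fb0000000851b51a00000000000004000000000000080000000000000fffffffffffff1fffffffffffe9bffffffffffe2b7fffffffffc9b100000000061cbe0000000083bc93ffffffd1ee2a78000000000000100000000000002000000000000240000000000039800000000004c3000000000050aa000000000405dc000000001d8397ffffffff3db3afffffffe3c8dd600000000000003ffffffffffffd7fffffffffff90fffffffffff479ffffffffff0d2bfffffffff073d7ffffffff5636700000000040fc60000000d16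f894000000dcdfe91800000000000010000000000000600000000000054000000000007d80000000000a3b0000000000a9e2000000000a0c8400000000b980e7ffffff992f4790000012a2117bdfffffffffffffbffffffffffff77ffffffffffee8ffffffffffe519fffffffffde08bffffffffdd89c7fffffffe46786fffffffedd6945fffffff3ee296bffffff90e21188000000000000d000000000001e20000000000378400000000055088000000006a2fb0000000069eb86000000050fbca40000002bb1c3b8000000d6665dd0000000b34412600000000000044000000000008b80000000000f8d000000000172c6000000001c5ad400000001bccfe800000014feb870000000b72ab1e0000003fdceecc0000009d8bedd7fffffffffff3affffffffffe455fffffffffceb3bffffffffb71447fffffffa79c54fffffffaa2b209ffffffbfbfa8ebfffffdd34c0007fffff3e187308fffffdf8d698220000000000272400000000058068000000009c57500000000e56776000000113632b400000108c0b5b800000c445d6010000069521a6f60000246175a6e40000610eb00f1⟩,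
  ⟨66, 2, 10, 0, 0, 10, 55, 0x1ffffffffcd550bfffffffa454f07ffffff7a16f5effffff5b3e036dfffff583c08923ffff75cfeb61c80003fc9734015007347af5fa1b21e574002aed8869c7a802b8e6e77ffffffff5ad94fffffffeda22b9ffffffe57ef70bfffffdfb21d8c7ffffdf5dc5dc8ffffe54dfe7b05fffeefc707af0bfff812df79d537ffd99b5579e28fffa55fbb97c01ffffffffffffcbfffffffffffc77ffffffffffdb3000000000029d20000000010d61c00000002f09048000000580c1b90000006e138aae000005328c281400001cc036ae7800000000001cd00000000001fde00000000012abbffffffffdf4737fffffff5af19effffffe6978ef9fffffd547d97f3ffffcf2bc25437fffddb53ed76effff4d323c51f9ffffffffff94d3fffffffff8d847ffffffffcb2ab000000009fb966000000292cb6ec000005d6f91e2800009417339b10000a1b4b8d63a0006d947560d240022b9171699380000000017ac1000000001b02b6000000010112abffffffe5419da7fffff7faf2528ffffed8f4e6f11fffe30b1f1fb8bffe0d6c62b7a67feb30a45f6582ff97da6b555d31ffffffffde66cbfffffffc529ff7ffffffac1a798ffffff9aaf2aa1fffff9a734ffdbffffad7e99311800064209e31ad00745c35a371de1e5c93dc4fff969c874730d81bd7ffffffffffff6ffffffffffff55fffffffffffa2400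00000000b628000000003a99f000000009abbfa000000118adaac00000157a9dc4800000ffd0d00900000577a940ca000000000005a400000000005f680000000002c40fffffffff7945dfffffffdc3f6b3ffffffac3ed547fffff77337a06fffff66b9b9305ffff95ed35b533fffddd157a9977fffffffffeb26fffffffffeb019fffffffffa125c0000000291006800000091a2e3d00000139bd3a3a00001e1e20ff54000202a3bd23a8001570042e7890006b4dd7a1a5a0000000004a6fc000000004f76c800000001faca2fffffff80c18b1fffffe21c63023ffffbfedef03d7fff9f539882e0fff9ac96b66969ffbdc45d171793feb9a4dac5b3f8000000000000100000000000002000000000000040000000000000800000000000090000000000003e0000000000043c000000001c6127fffffffa3df4d00000006c4e03a0000000000000400000000000007ffffffffffffeffffffffffffd5fffffffffffbf3ffffffffffb0b7fffffffff97b70000000002963600000000a8114bffffffd44f12e80000000000001000000000000060000000000005c00000000000a180000000000e3b0000000000fe8a000000000d86dc000000007c24b80000000159d7afffffffe4013fe00000000000003ffffffffffff97ffffffffffee4ffffffffffdfadfffffffffd24d3ffffffffcd9fa7fffffffd78e52fffffffef3ea4e00000009e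090240000010d929d48000000000000100000000000006000000000000cc000000000016580000000001f29000000000223d6000000001e550400000001949cb7ffffffa1c8e23000001115c5c79fffffffffffffbfffffffffffeb7ffffffffffd08ffffffffffafd5fffffffff9442bffffffff8d2e57fffffffa15018fffffffc4e7099ffffffe2aa5003ffffff44bbfdf8000000000000f0000000000040e00000000009594000000000fe0780000000153f0f0000000166ae1e0000001215c924000000a719aea8000003bbc37ad000000896b066600000000000064000000000014d80000000002c2300000000047c52000000005d5a64000000060639280000004c72ba10000002bcb938600000101c485ec000002ccc39c47fffffffffff02ffffffffffc009fffffffff74fe3ffffffff1d4597ffffffeda65aaffffffed31be89ffffff135ba9d3fffff7984a1447ffffced1b9080fffff752226cf600000000002a1c000000000c504800000001b65e900000002cc852a00000039b56604000003aae6453800002dbe2119f000019c2d723da0000956d88ae5c0001a2e44e5b6⟩,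
  ⟨70, 2, 11, 0, 0, 10, 55, 0x1ffffffffb96783fffffff021ab87fffffe2c133b8fffffd7e11569dffffd43aa0cccbfffda03d6f22b7fff00c92ae4310070923aee623a21f04a5a2d0e571d0fdeac342f77ffffffff0045afffffffcb6bc25ffffffa18548e3fffff8030ccb47ffff760041b00ffff89411a1481fffb0ef962daa3ffd99def4830a7ff3e572bc88d2ffe238e43efdc5fffffffffffee3ffffffffffe837fffffffffe84effffffffff170a000000000c50fc000000043c4cc800000091d45e1000000c4742c42000009dfbe2184000039ff2b165800000000009cd0000000000cf12000000000ce4d40000000073e887fffffff7259d2ffffffd9408c01fffffb5199cb5bffffa3e9f80e37fffbb7c40c834fffe86c38cb5a5fffffffffdadebffffffffcf9fc7fffffffd1592cfffffffe9999be00000028db49bc00000956b65ae800010d5e36fab00013ab2661cfe000e0e46260ffc004af2210e62e80000000078b1d00000000a4fd720000000a905bbc000000610f37b7fffff9488c1e6ffffe336a683e5fffcb55c5d1ab3ffc2e42fce3017fd4dd2c82a838ff1cee214d7145ffffffffc6f233fffffff52271c7fffffecf06c7efffffe6905f659ffffe4d07b2b63fffe8cd64ae2a7fffa308ae51d500759e98643716220a52851dcf071d51255573b6e7fffffffffffc6fffffffffffb4dffffffffffb773ff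fffffffd8748000000003349d00000000e6d50e0000001d9f125c0000026dccd93800001eb23cd9700000b1f60feaa00000000001f9400000000028d98000000002731f0000000012b725fffffffdc6a9f3ffffff7bb6ab87fffff0b5120d2ffffedac030e3dffff29aa707e3bfffb737e91e127fffffffff8848fffffffff67aa9ffffffff74424bfffffffcd9afc8000000a6542f900000209e8f3860000380fcf602c0003fa8bea9da8002c958115741000ea2030ead060000000018a15c000000020c2f980000001faeb9d0000000dd5e3bdfffffe059152bbffff964bc94a97fff4abfb9654afff35349fea511ff7467ea318923fd2ed4dfc57488000000000000100000000000002000000000000040000000000001800000000000170000000000015600000000000f64000000001cc557fffffffb223770000000570d59e0000000000000400000000000007ffffffffffffeffffffffffff9dfffffffffff55bffffffffff26e7fffffffff0e6efffffffffb02f200000000a2ae9bffffffd6f87df8000000000000100000000000002000000000000a40000000000184800000000026ed0000000002ee66000000002a615400000001ad0a58000000091bd06ffffffff5cfb0e0000000000001400000000000057ffffffffffe3affffffffffb449fffffffff83e83ffffffff6a5d87fffffff7ba8aefffffffb4915a9fffffff5a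6ce2c000001163503080000000000001000000000000020000000000016400000000003618000000000563f000000000669d6000000005d11540000000435a337ffffffb70511b000000fc082a6e0000000000002bfffffffffffff7ffffffffffa7cffffffffff3529ffffffffec99a3fffffffe9b1ce7ffffffeca5d62fffffff3c2b65dffffffa985334bfffffe7366cc17fffffffffff60fffffffffffe92000000000101c400000000275d1800000003d0a6d00000004624f420000003c418d940000024e29dd6800000e4600aa100000284af0d4dfffffffffffdb4000000000006b800000000057b1000000000bd73a00000001172574000000136c2a8800000104e28250000009d20abca000003cb2529fc00000b3f57048800000000008a5000000000001fdffffffffefcd13fffffffdb3b247ffffffc9396e0ffffffc30b0119fffffcd15b12c3ffffe18b993ed7ffff45118f004ffffdd656378c9fffffffffe081bfffffffffb20c800000002fccd70000000724cb8a000000ac11947400000bf54270a800009ef12db4100005e5d6f985200023e822425dc0006982325729⟩,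
  ⟨73, 1, 12, 0, 0, 10, 55, 0x20000000000d1ebfffffffff885d7fffffff95b038ffffffe8331cf9fffffc5993b833ffff939a3a3e47fff7acbc7eebb0016f2d8895bbe1231b29b2d7dbf86abd5ed7f85b800000000026e4fffffffffe0031fffffffe9d35dbffffffb2e4a227fffff45a13f76ffffea9c058419fffe2361939533ffe2067a84ef27fec7c27760d2aff9d04f463d36e00000000000003ffffffffffffb7fffffffffff48ffffffffffeb89fffffffffef254000000003f826800000018b51ed000000494adef6000007c6f238ac00005f9284e018000000000000d000000000002860000000000633c000000000af158000000007b31afffffffd9307c5ffffff2d4b1653ffffdc4f7729b7fffc7fefca306fffd7cbadd962dfffffffffffd43ffffffffff6727ffffffffe8d62ffffffffd8a665fffffffea3e0ac0000009fbc0f78000030c194b8500007cedc2b0aa000bbba71db9640082251d50b14800000000008250000000001e9aa000000004e341400000008d30e7800000068ba968fffffe3b1182edffff699bc18c93ffe7bb985a6297fdbcd84b556eefe730173981aa20000000000728bfffffffff7fe67fffffffb62e78fffffff0663c89fffffdad79b7c3ffffbc79b0b9e7fffb5ce6b3c23001ac59744d0e6125a8b68410dcf877f9a826c63a80000000000000fffffffffffff1fffffffffffdc3ff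ffffffffc177fffffffffd54d000000000e8e02000000051f1214000000ead12f0800001864f8eb9000012754355d60000000000002c0000000000082800000000013990000000002127e0000000011aa43fffffff71d7877fffffd40d2b54fffff8cddb3df5ffff4f1cad1a3bfff82f01021cf7fffffffffff6cffffffffffe10dfffffffffb70ebffffffff8ad657fffffffdbfc39000000259e10e600000a6780f60c00019a947728980025a48b8ff510019a475f6fc7a00000000001bc40000000006453800000000f7f7700000001a34cbe0000000bf5885bfffff8adef7137fffde81f07e8cfffadd4e7f1ac1ff8925293dfedbfb04ab062e750800000000000010000000000000200000000000004000000000000080000000000003000000000000320000000000051c00000000076ca7fffffffde89690000000497911a0000000000000400000000000008000000000000100000000000001ffffffffffff6bffffffffffe497fffffffffc416fffffffffbb4c600000000322b83ffffffd8952928000000000000100000000000002000000000000040000000000008800000000002430000000000623a000000000bdaa400000000fe6de80000000c92ea3000000025c7c3a00000000000004000000000000080000000000004fffffffffffe95ffffffffff8fdbffffffffec8a67fffffffda9790fffffffd0368a9ffffffe34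a5e34000000bb4c4aa8000000000000100000000000002000000000000040000000000012800000000005010000000000d87a000000001a0b5400000002508b87ffffffeeb4d79000000f17a919200000000000004000000000000180000000000004fffffffffffba5fffffffffed6dbffffffffcfa587fffffffa6661cfffffff8a852c5ffffff99e52bebfffffcd8ca4757ffffffffffffeffffffffffffcdfffffffffffe840000000000c7b800000000393a70000000097580e0000001184bf54000001699bd1480000125f9286d000006fdbe732dfffffffffffffbffffffffffff37ffffffffffff3000000000044be0000000011365c00000002b3b8f80000004d9909700000061f0c06a000004eabf93a400001e545825f8000000000001d000000000002d600000000000e53fffffffff38e47fffffffcaf570fffffff78e80c5ffffff0d3406dbffffeceb77dc57ffff0c326e6a2ffffa268d4abcdfffffffffffa03ffffffffff5fe7fffffffffaf110000000023e0e20000000a3901e4000001a655d6e800002f7bbe60b00003b7395ab960002f2b403cb240011f9464c270⟩,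
  ⟨75, 1, 13, 0, 0, 10, 55, 0x20000000003ef1400000000441567fffffffbe21e0ffffffdd75c111fffff9957681a3ffff30a8a383c7ffee18bf91563000d7f7fc2064612c83e94af3137d0b8b7635b7b28000000000c559000000000c93bdffffffff0661ebffffff8dc35527ffffeb4d8a556ffffd6c39cf1c5fffc3d7a02bb8bffc187f4632e57fd65133f75144ff27ff8ffbe8d200000000000003ffffffffffff97ffffffffffe86ffffffffffcda9fffffffffbcb54000000000f8f380000001b80d6f0000005d0e210a00000a5ee81514000083a96d42880000000000005000000000003ea0000000000cc64000000001b1cc8000000022cc42ffffffff13d655ffffff0fb73babffffd1a5f8b3f7fffb38b69a944fffc75975bb101fffffffffffea3ffffffffff0b87ffffffffcf7f0ffffffff9bb3c1fffffff8711584000000500539f8000038e30e65d0000a4d95338b600103ea274f77c00b9af13368c1800000000001a30000000002d6c2000000009cb56400000015619538000001c1ed64cffffff767c5899ffff54eea079ebffe01f83be3907fcdcedb0176e8fdc77f8498e7260000000002698c0000000024daa7fffffffc65258ffffffe86d0399fffffbd45c9123ffff7cd126e0b7fff55894cfa8f0015490c951d5a131dc330d99dbfd27eb764fa6f680000000000000ffffffffffffe9fffffffffffb43ff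ffffffff61f7fffffffff38950000000006063200000005d3d81c0000012d0832b8000020be9e8dd0000198ea8b11e0000000000001400000000000d08000000000292b00000000054cf200000000656843fffffffb43efc7fffffccb3e784fffff68e54dc01ffff0cc9133cb3fff4eccd618ed7fffffffffffa6ffffffffffcd05fffffffff63d93fffffffec88097ffffffeacbc4300000018d7fed200000c7a66b9a4000224a641fc88003490ad9a6550024d4139e6c7a000000000009d40000000009a6f800000001fd7a300000004294bb20000004df541cbfffffbccb4dd67fffd8527619c2fff9233e29d569ff595984f64923f8ce44d390ab28000000000000100000000000002000000000000040000000000000800000000000030000000000004e000000000008f40000000007bf37fffffffe2526f00000004193b120000000000000400000000000008000000000000100000000000001ffffffffffff4bffffffffffd717fffffffffa220fffffffff8279a0000000002ac3bffffffd90849d8000000000000100000000000001fffffffffffffc0000000000002800000000002d3000000000095e600000000138bcc00000001b796e8000000172d8d900000006b5cab20000000000000400000000000018000000000001d00000000000009ffffffffff79f3ffffffffe2b457fffffffc25d18fffffffabb05b1ffffffc30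5ad140000000dfd7708000000000000100000000000001fffffffffffff400000000000048000000000063500000000014a92000000002b025c00000003e7b538000000070e57f000000efef58660000000000000400000000000038000000000003efffffffffffe8dfffffffffe84cbffffffffb4caa7fffffff692b14fffffff320aaa1ffffff4af21563fffffab1297c67ffffffffffffcffffffffffff5dfffffffffff20c00000000001048000000004608d00000000e89c660000001d6e28540000027e338a380000219fa8d6d00000d4fb82f01ffffffffffffebfffffffffffd37ffffffffffcad00000000001ece00000000169474000000044746f800000084de2e7000000af48cd5e0000091412102c00003984935b9800000000000470000000000098e0000000000c323fffffffffd1227fffffffbd0044fffffff2c746d9fffffe6163527bffffddcfbf4a47fffe3c7b5fc90ffff4e009d6a7dfffffffffff1fbfffffffffe0167ffffffffd458affffffffff96a20000000c677e4c0000028e13f2d8000050e21fb7b00006aadf6f37600057a8d3b5d6c00225654314d5⟩,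
  ⟨77, 1, 14, 0, 0, 10, 56, 0x80000000016208800000001470fd800000008d11d07ffffff92819457ffffecc8a7d567fffe8f70fa5517ffee3819154277ffe851033c692825deb2459f079c1c5b595b7329f80000000011daa80000000100ce680000000670ffd7ffffff9e5b5727fffff03d336227fffed7f9e41947fff16bc1321727ff8148c9509db7fd463abbfee2f7f8c35167aab15800000000000017ffffffffffffe7ffffffffffee37fffffffffe61c7ffffffffe980c7ffffffff7d5f080000000c519468000001c4b091b800001b325ab8680000b363a615d7fffffffffffe180000000000040800000000026ba80000000037f9f800000002fcda580000000f8d8f67fffffe4246df07ffffc67f087707fffccc64a726d7ffec4696c4ff8800000000001c27ffffffffffa6a7ffffffffda3b17fffffffcb2ea77ffffffd471a197ffffff3c1171a800001b5e6fdde800033f170d4b98002c24188f1ac80105dd69ab3007fffffffffe5f280000000000e5f800000001c6af080000002b11d9780000025b81661800000d2e18ac27fffecc2cea1507ffd845009f5697fddeff2c8705d7f370b879e9ca58000000000e62b800000000c9451800000004a75f67ffffffa9dbf027fffff31650e6b7ffff1252405327fff507c660f8680025ea86bc9688273ce068d940ec20166123f9099800000000000017ffffffffffff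e7fffffffffff147fffffffffeb407ffffffffee94a7ffffffffa8a9780000000af4e66800000172963c580000159fd41e7800008c0b2d14c7fffffffffffe88000000000004d800000000020228000000002cc798000000024c2f9800000009ca4287fffffe6fdcc287ffffd0806be917fffd6ef525f9e7fff07bd78df36800000000001537ffffffffff9ec7ffffffffe0ac87fffffffd5e0e77ffffffdef8a447ffffff976d29a8000019749d40480002bf06ec136800240e764072c800d13fc5d08d47fffffffffec3b800000000023a78000000017f85580000002293c658000001c7ddeb580000070b64dd37fffec62e721847ffdcfad4cb9a57fe35be896f9397f5bbc86299d04800000000000008000000000000080000000000000800000000000008000000000000080000000000019800000000001d0800000000084a47ffffffff3290180000000ea9b34800000000000008000000000000080000000000000800000000000027ffffffffffff17ffffffffffc9e7fffffffffb9167ffffffffcabb07ffffffff5f0bc7ffffffd87b3e780000000000000800000000000007ffffffffffffd7fffffffffffe780000000000100800000000032968000000003d444800000002e15598000000149c36680000003a441b380000000000000800000000000038000000000002d8000000000017e7ffffffffff68b7ffffffffd998d7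fffffffd0136f7ffffffdc4d9df7ffffff16a349e7fffffeb46617680000000000000800000000000007ffffffffffff87fffffffffffc48000000000021380000000006ef380000000086d1a80000000677058800000017e2df48000003d973840800000000000008000000000000780000000000070800000000003387fffffffffdd537ffffffff98f1b7fffffff87b5a67ffffffa841e5c7fffffd850b3147fffff6e434d737ffffffffffffd7fffffffffffa27ffffffffffa1b7fffffffffcf6b80000000014cc1800000004d805e80000005d202918000004413a69d800001e0a0578a8000062ecb51887ffffffffffffc7fffffffffff907ffffffffff9987fffffffffd41e80000000023b5e800000005fb40980000006bb2b998000004c09faae8000020d10c8a6800006b270902a80000000000031800000000005918000000000567980000000029c8d7fffffffe9b19c7ffffffb7f52627fffffacaad9bf7ffffc4c618dc27fffe675b46c707ffface420c1f17ffffffffffdd67fffffffffb9517ffffffffb7aca7fffffffd99acb80000000d1fb238000003634e757800004080d57e180002e225e79b180013de9961522800405ade9fc76⟩,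
  ⟨79, 1, 15, 0, 0, 10, 56, 0x8000000001a3bc80000000335a2280000002c24f098000000dfea4307ffffed8a80c117fffdc6564041e7ffdf8cb96823a7ff54cdfa6c64d82476478ea29a7c67123d5eb408c800000000168d680000000299821800000022aa22480000009f582bd7fffff0262e8047fffe301f23d277ffe58ec9efc3a7ff08df9671b877fa724401cffce7f0cbbb484a7c080000000000004800000000000287fffffffffffc47fffffffffd9b97ffffffffd0b9f7fffffffe28a078000000038faaa8000001f9a0abf8000022c03e6fe80000f132400a67fffffffffff747ffffffffffab3800000000009888000000005364c80000000658c1080000003d1ab757ffffff5e6516c7ffffbeabc094a7fffbd48b02e4c7ffe4ecd6133e08000000000083780000000004c507fffffffff2f747fffffffaf27a57ffffffa113bca7fffffc99e8226800000c0e6181080003bfd751b838003a400b86f478016bea53860287fffffffff937c7ffffffffbad328000000002d33c80000003dbd17f8000004e5529858000030ada79597ffffb2949d9797ffd333e79ae487fd342b01e428d7ee875633ac7a7800000000134538000000021a37480000001b2b44c80000006f549667fffff2740e8687fffe8682827af7ffeb70f3f07c37ffc989e5f73528272ef44861348c6ebf7fe3924dd800000000000038000000000001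f7fffffffffffb67fffffffffe0747ffffffffda7507fffffffe9ce2e80000000491e7f8000001a554070800001bdc3899280000bd64d837b7fffffffffff907ffffffffffbf180000000000b2480000000044a6e80000000505a3780000002d6ab517ffffff3a718c47ffffc8f19e9c17fffca04b615857ffea9034cd5418000000000068a80000000003a177fffffffff21a37fffffffbd8eef7ffffffb5652de7fffffd8d04ca7800000f1cac9f28000340d79ea69800302273b7ed48012519107acc17fffffffffa9507ffffffffcb279800000000596428000000336e08c8000003dad71d0800002288a6e787ffff5e9784e2d7ffd6fbc14fe2f7fd9c807665b827f192155283def800000000000008000000000000080000000000000800000000000007fffffffffffff80000000000018800000000002a0800000000091f77ffffffff5549380000000d30fe580000000000000800000000000008000000000000080000000000007800000000000217ffffffffffcc57fffffffff9d6a7ffffffffaaebd7fffffffe4dd6b7ffffffd63d56780000000000000800000000000007ffffffffffff97fffffffffff9c7ffffffffffe4e80000000003208800000000578648000000049fb3a8000000236954b8000000712014880000000000000800000000000038000000000005f8000000000055080000000001c8c7ffffffffdd2da7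fffffffbccb807ffffffc6aaffc7fffffe5f03b5d7fffffc387b0c7800000000000007fffffffffffff7fffffffffffef7fffffffffff1a7ffffffffffbce80000000006afd800000000bfdf480000000a4bc12800000038f54c5800000427bdcb680000000000000800000000000098000000000010080000000000d25800000000037757ffffffff994117fffffff51f4447ffffff71157497fffffbbe80b4d7fffff04c88424800000000000067fffffffffff9f7ffffffffff3437fffffffff4db87ffffffffc5da38000000046e35d8000000843f25c8000006e6bee3580000340aec4c280000b33dcd1a5800000000000047fffffffffff747ffffffffff0e27fffffffff40337ffffffffd314c8000000062949180000009e540068000007ddb22f08000039a79ca0e80000c38c770de7fffffffffffb2800000000006258000000000c0a6800000000a2af5800000003070bd7ffffffbb69bbb7fffff87b2e5657ffff9e8d9e3fe7fffd32ad351c27fff681c6a4a11800000000004f27fffffffffbd257ffffffff679e17fffffff77766e7ffffffd003a2a8000002f24ac53800005b6894aeb80004b7753036580022db6092b2980075dbc61de26⟩,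
  ⟨81, 1, 16, 0, 0, 10, 56, 0x7ffffffffa8bf080000000241af98000000633b3a98000004d6beb0b800000cb21f1297fffd81cfc19b07ffcbe1d8ffa797fe584b957696b81ff82117a2a1ecac28d258b803a7ffffffffbded48000000020827a800000050917c48000003cb425ed80000080c81f6c7fffde95ef6eac7ffd558f06564a7fe3acb2c63c027f51a42f359b797e0e17a9c6bf04800000000000068000000000008d8000000000053b7ffffffffff50d7ffffffffb98647fffffffbcbc517ffffffec023cc8000001d1d65d3800002a8605e45800013e91c64547fffffffffff397fffffffffed117fffffffff4ee88000000001a9048000000098e68e80000008eb5f198000002776b3fc7ffffc2e524fe07fffad183cb5287ffdb903fc872780000000000c5480000000011d5b8000000009fe517fffffffdfa73d7ffffff6d443d57fffff7c54e6157ffffdef110f9680003943e085f88004941df99dfd801ef86b7d37fa7fffffffff72837ffffffff17f727fffffff70aa3780000000ca653c8000007229fb92800006ea72ddc88000220513523a7ffd7b346eef447fc85243ef4b137e83dc73251e1b7ffffffffce32b800000001cdf2b8000000414ecaa8000002f7f2d028000004b8388d37fffe410a73dac7ffde1849dbbc37ff274fc3502e98252b87fa979adcbb85f9ff5da20800000000000058000000000007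1800000000004087ffffffffff46b7ffffffffc68a67fffffffcb62f57fffffff267f0c800000191e573580000226ec788380000fbbbc77027fffffffffff587ffffffffff0cc7fffffffff77cf8000000001b606800000007c575e80000006ee426e800000198af9ae7ffffca63f1ca07fffbc241bb6b57ffe2f1ee2bcee80000000000a618000000000e49f8000000007a3e17fffffffe023ce7ffffff892bb4e7fffff9b1dae887ffffed48c421e8000345840871d8003d725754fcd80192a8ac82e117fffffffff87747ffffffff45a807fffffff924fa480000001001efa8000005d3789b280000543df0186800012c08d85d17ffd7d3c94ab1b7fcf68a367d3ad7ec24aaae32cd9800000000000008000000000000080000000000000800000000000007ffffffffffffb7fffffffffffff800000000003168000000000a37b7ffffffff7be8280000000c0173f8000000000000080000000000000800000000000008000000000000e800000000000a08000000000003b7fffffffff8e1c7ffffffff823b67fffffffcaa2417ffffffd1508e480000000000000800000000000017ffffffffffff97fffffffffff277ffffffffff6e4800000000000b4800000000674bc800000006e842380000003a587928000000cd5a9487fffffffffffff7ffffffffffff78000000000004c80000000000ad380000000007e1980000000009f5c7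fffffffb409357ffffffab229fb7fffffd43c78757fffff7edb88a580000000000000800000000000017ffffffffffff07ffffffffffe157fffffffffeae37ffffffffff6e8800000000df65380000000f460c480000006bd70968000004c934d4e7ffffffffffffd7fffffffffffed800000000000fb80000000001cf0800000000133798000000000090f7fffffff31d9af7ffffff2836fcc7fffff8f546e0c7ffffe53119b26800000000000298000000000011d7ffffffffff5707ffffffffe8f887fffffffef78877fffffffe9b54f800000095c6281800000a4bb76b480000564aa3f43800013b4d04bd48000000000002e800000000001027ffffffffff0427ffffffffe4c727fffffffee915880000000071dc08000000bed67f8800000c0b91a0b800006136b07ae800015b9e9007b7ffffffffffd977ffffffffff0588000000000ac698000000015aed980000000f0125f80000000e2ff767fffff751b63487ffff6caf2bfa27fffb4b99ad3477ffef21777f7c580000000001fee8000000000eb417ffffffff8ed7d7ffffffeede23c7ffffff3457f027fffffe60b56948000064c45ea2f8000709fa929ad8003a49e849626800d17253faf86⟩,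
  ⟨83, 1, 17, 0, 0, 10, 56, 0x7fffffffe995bb7fffffff24a92f800000024dc80f8000009baba5af800006733490bb7ffff920bb81c07ffbdd1f6229a17fced4fdfa7a45816a06b5de3b36ce3b46daef672b7fffffffedd9767fffffff56055a800000023f18cf8000007e78808580000506b84c737ffff78c3010f97ffc8fc3b3ed937fd0fb01e3823b7ebc8b5811aa297c28ca8c22d7417fffffffffffef8000000000005f80000000000ef48000000000846f7ffffffffde3237fffffff9688e87ffffffbfeb1cb8000000df732de800003041221e88000199f9320ed800000000002477ffffffffff2bf7ffffffffdfe127fffffffee8557800000004d36b58000000e29ad2480000085a965f87ffffe201fd6967fffa0f800bb4a7ffd05cb44c6887fffffffffdf4f8000000000dd47800000001e620880000000fc5e867ffffffad31cb57fffff29787d367ffff86d3645c580001dad10169480054d0d5157d28028ebcd6f90b88000000001d9df7ffffffff758807ffffffe7900b57ffffff1e2ad9280000030663ff980000aacced37180006a054a30497fff0fd24bf2a37fc0d7ac9f18b97e0bfabd351cd77ffffffff153007fffffff7c982b800000021df8d680000066916206800003e7ff6b587ffff6d42a1f567ffd34e66a0e337fe36f027ba4f481ffe36bd79a47d015092fe756277ffffffffffff38000000000005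580000000000c128000000000662c7ffffffffe12df7fffffffab59bd7ffffffcf6f7368000000dfa6e44800002798128ba80001463859a9c800000000001be7ffffffffff4327ffffffffe61907ffffffff28ba18000000045ba308000000b505b3e80000063dc0f1c7ffffe0c7258bd7fffb0f45721c67ffd9b4af65c487fffffffffe7148000000000c2b380000000186f4480000000c107b27ffffffb6563e47fffff562e4d447ffffa883528c980002189482ebe80048b87fe99178021999c1c9d5380000000016b937ffffffff821707ffffffec52fcb7ffffff539a08a8000002e491c398000087364a18c80004ac699f0ae7ffe88b57729a57fc704075a262d7e5806ca004e83800000000000008000000000000080000000000000800000000000007ffffffffffff67fffffffffffb78000000000020f8000000000b4097ffffffffa6f8980000000b23a1a80000000000000800000000000007fffffffffffff8000000000000b8000000000015080000000000a077fffffffffb26c7ffffffff5be097fffffffa61f087ffffffc8768888000000000000080000000000003800000000000137fffffffffff4d7fffffffffec347fffffffff6f0f80000000047cea8000000091a07080000005a9a2ca800000160d1d9e7fffffffffffff7fffffffffffdc7ffffffffffeea8000000000077c8000000000ff4980000000082f387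fffffffd3cc897ffffff92b561d7fffffbbb9592f7fffff0fd9f41180000000000000800000000000068000000000002c7ffffffffffe7d7fffffffffd30d7ffffffffea95880000000091a91800000013ecc088000000b2d3fa68000005e4bae597ffffffffffffc7fffffffffffa07ffffffffffd878000000000186a8000000002a38580000000135d2e7fffffff759d4f7fffffee2c6de67fffff50309c067ffffd3585a4498000000000002b800000000004db800000000024907ffffffffefb337fffffffde280c7ffffffeea3b668000000522fd1c800000d43a2d398000085ed832b780002158202c4d8000000000003e8000000000059b800000000023067ffffffffe79347fffffffd8737f7ffffffee92e168000000845aef080000101cab12e8000099f8500a880002540df5f707ffffffffffd4c7fffffffffb6ec7ffffffffdf55080000000108a0380000001fb30c88000000fa5b2ae7fffffb01725e17ffff3ff60c36e7fff89db2f55af7ffe32913330e580000000001d358000000003b11e800000001db92b7fffffff552cdf7fffffe6d5ee167fffff24fca2b2800002cdf9cbdf80008ef55c078d8005aaa276d17a801651c59ee399⟩,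
  ⟨85, 1, 18, 0, 0, 10, 56, 0x800000000d5b517ffffffe38cc747fffffe9a84fa680000023f54b2080000c5321c73480005b81c97aca7ffd06a255d7617fb7f3338a9bd2807554ce7531bdd02a18b5425283800000000938257ffffffe894b8f7fffffee8216878000002563084a800009f91a3cf3800045e0bfced57ffd62ffabdb847fbd975c146eaa7dd817a7443e4178ca84ea84dad47fffffffffffd37ffffffffffdcf80000000000391800000000138018000000008e3e87fffffffb103087ffffff8d2c44c7fffffec07bd33800002fe85a33480001fb8d77ffb8000000000061080000000004a8e7fffffffff79387fffffffd61be47ffffffed587458000000ad912a3800000f3963c43800002984e5df67fffa1890b3f777ffc454feac5e47fffffffffa27a7ffffffffbb8a08000000009ff1f800000027adb8480000010a7bcf97fffff53235bc67ffff1ccc6046f7fffdbc1351b5b80054d65b5a5618033b246cc590f80000000047c08800000003ae9e37fffffffbd13b27fffffe037e2ff7fffff0c33e86a80000796f2f1a68000bac631c3f5800289f2df71317fc3669d7f2fab7d8de614558897800000000630d17ffffffecc30197ffffff254956d80000024bd30fb8000080e0f016180003514f408787ffdc7b22a8a247fd369def6f9e0816c7b5589dfe8d38c37999542897fffffffffffdb7ffffffffffe4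8800000000003b48000000000fc6e8000000006cfcc7fffffffbd97ab7ffffffa5feed37ffffff3bb3728800002823221b280001970c12249800000000004fd80000000003a627fffffffff777c7fffffffde28897fffffff1bd378800000090ecda5800000bd2cf65080000177e42f427fffaf473d98387ffcf93dd75d1d7fffffffffb33e7ffffffffca7eb8000000009a2a480000001ff01368000000ca3d13d7fffff714f82417ffff53242f5d17ffff056d3d2468004ba22a14476802b001f78c3948000000003b21c800000002e2dea7fffffffb4cfe57fffffe67446da7fffff48069bfa8000065effa5bd80008c1f3c2af280011538d66e4d7fc5bac390532a7de3118f24bd69800000000000008000000000000080000000000000800000000000017ffffffffffff97fffffffffff567ffffffffffe338000000000b65d7ffffffffd4c1480000000a9f3f480000000000000800000000000007ffffffffffffc7fffffffffffe38000000000010c8000000000176d800000000039cc7ffffffff54bd47fffffff7b236a7ffffffba8fe8080000000000000800000000000018000000000003e800000000001a57fffffffffef557ffffffffea1177ffffffffcac1d80000000986660800000080d586080000023bf235b800000000000067ffffffffffffb7ffffffffffce07fffffffffe7ff8000000000bab480000000120fe68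00000003e68697ffffff93971ee7fffff9fad12a27ffffe6b3c6d7f7fffffffffffff800000000000028000000000008e800000000003df7fffffffffdb8e7ffffffffcdbf97ffffffff6fedb80000001467980800000105c146380000079cee5ab8000000000000e7fffffffffffe07ffffffffff79f7fffffffffc88e80000000024128800000002efa71800000008113bb7fffffed9f84dc7fffff05b0d31c7ffffb8bd439b57fffffffffff3a800000000000d080000000006b3080000000032caf7fffffffe6f61c7ffffffd99633f7ffffff6fc6b30800000cdfde40180000bbfa9b5e98000357a101e747fffffffffff2e8000000000024c80000000007eab800000000317ee7fffffffdc8ada7ffffffd4395947ffffff8e4b53d8000010c059eab80000dd9ee555d80003cb298c8b280000000000b617fffffffffee9f7ffffffff9a7717fffffffd2444c800000018c457580000023c070d8800000803b55187ffff43df36f597fff58b499f8fc7ffd15025eba237fffffffff641f80000000003bca80000000509c3780000002943de97fffffef5130287ffffe32d8d09d7ffff7f8ddc6c88000832ceae44b8007e4a5806e918023e8625c04e0⟩,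
  ⟨87, 1, 19, 0, 0, 10, 56, 0x8000000051504280000002413c077fffffe5cc436c7ffffe80ff9f7e8000047d0b30798000c0917e56408001aabb3025027fb2653d04cdfd7f40a8dac412d4cfe402e1bff8378000000042256b80000001b75a0c7fffffea1f68dd7ffffed38a5e428000041e7d1a8980009a07e44ff5800109341325cc7fb7803ae8e1667cbaeb13f35da17361c612b15425800000000000497ffffffffffdf37fffffffffd50a800000000026768000000013c867800000004b07927ffffff876abb47fffffbd7378eb800002525363858000252911ccdf7ffffffffff656800000000047ca8000000005b8617ffffffffa02267ffffffd5a35307ffffff6623fdd80000102e1710c800008ceae2fa97fffb83432bb127ffb9addc875c580000000008c017ffffffffb88247fffffffab36c3800000007d370880000027eac85880000081c4334a7ffff07de75f397fff7dd6f73add80040376130065803d4263252a1d7ffffffff83b5880000000328e4b80000004770b137ffffffdc699c67ffffdfa71dab27ffff790b9914d8000bee4d961f0800737f930bdd07fd6df27e022b57d250471f852a88000000035b8d9800000014d03467fffffedc94c627fffff14a9022a800003b55d5a9b80007aea490d078000a4372ce1467fcd8d5338ce9780a8a55aa13a3ed5a5679ada71ec800000000000387ffffffffffe4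07fffffffffde0980000000002d3a800000000ff42f800000003776f97ffffff9f444bc7fffffcec9e9e4800002082dc94580001e140423cc7ffffffffff88a80000000003d0e800000000485877ffffffff9542e7ffffffdde5ff97ffffff8e4149b800000cda1e78780000659d2c79f7fffbec63932437ffc64013c25c680000000006bd27ffffffffc38407fffffffbd10d7800000007eb7eb8000001ffb6dca8000005f45f4fe7ffff3edac84a77fffa7f2f58b9f8003ed7661fa988033d87c3a1b8c7ffffffff9fac2800000002b2c6580000003883eee7ffffffcf0c22c7ffffe6405d7b27ffff9db1066bf800093443360878004a625f4dcb77fd120ab3db2e07d77859100d510800000000000008000000000000080000000000000800000000000028000000000000c7fffffffffff5f7ffffffffff88480000000009a647ffffffffff92880000000a74bdb8000000000000080000000000001800000000000017fffffffffffbc7ffffffffffe82800000000016cf800000000103fd7ffffffff906547fffffff562c637ffffffa77d1e5800000000000007ffffffffffff77ffffffffffffb80000000000406800000000015037ffffffffe9d607ffffffff0a5e5800000006080318000000a179936800000360953138000000000000380000000000079800000000000af7fffffffffccca7ffffffffec1c68000000010a35a8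0000000d6a3337ffffffc7d55407fffff89e4c0067ffffd92a069c67fffffffffffff7fffffffffffeb7ffffffffffff08000000000091c800000000032197ffffffffce8207fffffffdbc2cb80000000bebc00800000149de4db8000009f235ae58000000000000c80000000000137800000000000767fffffffff75ba7ffffffffd3b1e800000002fdccd800000021e92f47ffffff57817eb7ffffec8974ac27ffff954e24ec97fffffffffff867fffffffffefde7fffffffffea828000000006e0cb800000002a5b587ffffffdc820037fffffe2b7b7cd8000005a8034b180000e39e86cb880004fc0b3595a7fffffffffff427fffffffffede28000000000003b80000000083072800000002720db7ffffffd1f9eea7fffffe077202680000098d597db800011554c0db380005c2e822390800000000007f28000000000f1558000000000e7647fffffff9774fe7ffffffda0c16e800000221889bd800001b2493b1b7ffffada191c017fff3475d592b97ffb9dc43686217fffffffffb0927ffffffff38caa7fffffffe8336080000005276b33800000237ab5597ffffe74f68af07fffe934a68a35800025c407b98d8009549f559d2e8035600bf91da6⟩,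
  ⟨89, 1, 20, 0, 0, 10, 56, 0x7fffffffb381e98000000353030b800000239b52947ffffea9bebeb97fffefec3c966c8000853eca214480074ff3774c3d7fce439b16cb667e3676794ae6f2cd486e21fbe3a07fffffffc5513d80000002c14a398000001b7808dd7ffffee2e013567ffff38c44b42e80006ff78b2f128005a38c03d14f7fcc2efc3e7a657bb8e668824c0a6bc7b73e428ea780000000000036800000000004bf7fffffffffec567ffffffffde4068000000006bd3680000000e75eab7ffffffd98f3ba7fffff9d1d99d5800000fd0d33ef8000288e580ede7ffffffffff8a27fffffffff5e618000000002b66a8000000047d1487fffffff0fb3ea7fffffe142b60b80000055d7c01180000d2ff2f9fe7fffe590379e5c7ffb35aaec20f1800000000076d5800000000951e17fffffffd398607ffffffbd923a88000000fb92bbc800001c8ad40197ffffa4bed69807fff38f10d899080015d27db4a3c8042d1a5a2f1a57ffffffffaeb9f7fffffff814e6e80000001d3c232800000380ff1be7fffff630fd2f77fffe7ffd032c7800033906ca630800a4f90efda4a7ffb08c37db9dd7cf4d3f5ee03307fffffffd3218e800000024710ec8000001520b34b7fffff130b79d57ffff65ef3e87080005d8f21f72e8004621e6b82957fdd157d7480bb7ff649d6e9c95ad639ec6ad0d4e28000000000002e800000000003b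d7fffffffffeebf7ffffffffe55c980000000061acb80000000b9167c7ffffffdf95e217fffffb47c8c3380000106958b5f800021349887977ffffffffff9a77fffffffff80cd80000000025fa18000000038b9ff7fffffff28e6ec7fffffe76f1314800000462abb0e800009dd2bcd7d7fffe046ad210e7ffc00acda8c03800000000065c48000000007538e7fffffffd97f0c7ffffffcb84fd98000000db904488000016b65b4347ffffb94253aed7fff7227995c5d8002122cb01be98039fc916181fc7ffffffffb95687fffffff9bf143800000019b8e678000002c6a8b007fffff777745c67fffed31e119348000282719c06a80070ca3d546df7fe95f6c74d84c7d3064f0fb51d5800000000000008000000000000080000000000000800000000000008000000000001a800000000000327ffffffffff665800000000063c48000000001f9df80000000a963c0800000000000008000000000000080000000000008800000000000057ffffffffffc977ffffffffffb5e80000000015a19800000000090c07fffffff48a8db7ffffff9119118800000000000017fffffffffffff7fffffffffff857fffffffffffe38000000000335f800000000031fc7fffffffeb0f787fffffffed2b368000000abe73428000004b2d21457ffffffffffff17ffffffffffffb80000000000645800000000007227ffffffffd65977ffffffffb0cf18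00000010ee83d80000002863ac97fffff877773b67ffffc9feace3d800000000000037fffffffffffff7ffffffffffee97fffffffffff798000000000750080000000008f297fffffffcfccc97fffffffb27de38000001599032e800000ca0f19197fffffffffffda8000000000001880000000001064800000000001c37ffffffff919917ffffffff9dec880000002e25243800000055753457ffffebca2e2e77ffff6cf69fed9800000000001f18000000000007f7fffffffff29157fffffffff21f98000000059c03880000000acbe567fffffdb3fb4807fffff8893087880000e0f8639ad80006c97acd8c1800000000002347ffffffffffdc07fffffffff0a07800000000040fb80000000682bb7800000003df27f7fffffd428159e7fffffa9f7992b800011f43d453080008019008f357fffffffffe2dc8000000000037c800000000ca4828000000008971b7ffffffab12d077ffffff7216af88000022bb48d0a80000723a2f79f7fff3776188de87ffa01677ee2f380000000017e8b80000000012d177fffffff5b15527ffffffef0dbd0800000445312e7800000bc45f3ae7fffe513477b397fff874a6457ff8008b75d0622c18047d6efd20ad8⟩,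
  ⟨91, 1, 21, 0, 0, 10, 56, 0x7fffffffcecb687ffffffcb013738000002089294b8000010f18493a7fffee75a0ecdb7fffc417f2d71680087ec493acff8000c8cdaf2fc67dd22ded2c707dc92ef97b8acba77fffffffd5fd447ffffffd6d1e948000001af37219800000cd58c98d7ffff1babfa4b57fffd64ece71978006c8afe6c0657ff3eaab46e7057b36caa2b6a2d5629c961700f7dd7fffffffffff8f8000000000013180000000002e077ffffffffee7457fffffffefb66080000000ace4038000000488ac127fffffa47531167fffff7212fae6800028f8724eed80000000000f127fffffffffd55b7ffffffff9e0c880000000262e5280000002263c917fffffe8b543ad7fffff686f80e480000c4bda0ed680001a6b44523d7ffb3642a96b627fffffffff1ed78000000002d269800000005a5b347ffffffda3af307fffffe0de050280000168996b928000085402cb647fff4260caaf9b7ffe373858dd0c80425f851eaa3b800000000b9f347fffffffe52ffa7ffffffb3475eb8000001b07d787800001b773abbc7fffeeb7ec634c7fff7e62206d708009498c31bada8023abdd2c30d17d143b09fd6ab77fffffffdc51b37ffffffe013a238000001644836d8000009aad826f7ffff464c43b587fffe35f305eda80057314ef988b7ffc8ae56b00a07fa763619f26c0d5c25d0a20947b7fffffffffffa68000000000011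6800000000024397fffffffff12657ffffffff3757a8000000091150780000003a28f937fffffb9f6c60d7fffffd7f5aa418000220f665ba280000000000c017fffffffffd9527ffffffffb2f2a8000000020589b80000001a99abb7fffffec8eb4767fffff84e1a53980000928fdee48800007dc9263fa7ffbe94b1cce1e7fffffffff4ce08000000002868d80000000470cc37ffffffe0182aa7fffffe7c008a78000012912bcc5800006ebcd95c97fff7abbfb08417fffd4da53411d803bddba9de0d58000000009491b7fffffffe7027d7ffffffc33921380000016dc267b8000015b04155e7ffff232d530ce7fff98b566e1e480063a7a3b93db800511d3e4b0b87d1f651c0dc5fd8000000000000080000000000000800000000000007ffffffffffffe80000000000008800000000000f07ffffffffffb69800000000036258000000003237580000000ae9fe7800000000000007fffffffffffff800000000000008000000000004d7ffffffffffefc7fffffffffe24e8000000000c031800000000746417fffffff59916d7ffffff7af448d800000000000008000000000000a7ffffffffffffa7ffffffffffb82800000000010f38000000001b5307ffffffff39af27fffffff82f88d800000098d42b28000005fc07940800000000000047fffffffffff7a7fffffffffffd380000000003bbc7fffffffff56fa7fffffffe899368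000000090094e80000007ae9afd7fffff9ce457047ffffbc0cc2c8e7fffffffffffff800000000000187ffffffffffff87ffffffffff5b58000000000243d8000000003f2ec7fffffffe4053a7ffffffec012378000001254ceb0800000f2a066ae800000000000087ffffffffffe9d800000000000fe8000000000997f7ffffffffda30e7fffffffc562a280000001bfddf98000001414d9c77ffffef1ccf37a7ffff473e932bc7fffffffffff74800000000011fd800000000003c47ffffffff7fd198000000017bbc2800000032e6df57fffffec75f39c7ffffed570d6cb80000aa8676c3e800085c86866707fffffffffff9b800000000014df7fffffffffe8c47ffffffff70e9f800000002709fc8000000369c0d97fffffe48ae33b7ffffec7135ec480000eb4d5b5118000a15b1633e6800000000007507ffffffffef02b8000000000340f80000000782c277ffffffe6f6b877fffffd03bd8708000012f374743800011d3acda8e7fff6b683fd4b67ff89d105da3077fffffffff848d800000000dbd56800000000aba5c7ffffff9bf00c68000000e36f9d98000028ef00a007ffff3b6d934417fff0a323a532d8005bc76cd853780569f2a5c7b1b⟩,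
  ⟨93, 1, 22, 0, 0, 10, 56, 0x800000003ebb937ffffffe653af47fffffed526c768000014940da817fffff75133c7d7fff67bb34b9618004b8c6acffda8029e253ba33d97e2f3fc6679d8fc514cf4dd22d7a8000000031a9ab7ffffffea600927ffffff1cd86518000010a69b8427fffff23f9e3e37fff88828e1c008003e75b0405878015339f8707767b4eef7a429ab6590bf5c41d87b8800000000000097ffffffffffcf4800000000011af8000000000f7877ffffffff0a2587ffffffff9560e800000071915247fffffca39eda57ffffe4a5435a98000269b489e197ffffffffffee7800000000068037ffffffffd96cd7fffffffdf5006800000020e2814800000009677ff7fffff0e8df6bb8000074efcb2b5800042544741427ffb9662a0d42680000000000b4d7ffffffff9f3a0800000002649ff80000001d52f237fffffe0d6de5480000005d34e0580000e098b96ef7fff8b27acadc57ffbc6e0a36c83803c2c559987037ffffffffec7748000000050a75d7ffffffe4f6c6d7fffffe57562f98000018ad373028000012b98d6a27fff3f5b75f1e680053736c96edd80412ad3acdd2b7d7bd2cb251599800000002741ea7ffffffeddb3b07ffffff541284d800000d716fb617ffffef35da8c47fffa1e797c51f80033f3d6df3dd8017a96ba0e1737fd45152652223d52bda284a53a2800000000000057ffffffffffd9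580000000000f058000000000bd567ffffffff39abd80000000032e0880000005f0de7c7fffffd8f6a2687ffffef9354537800020cb985f7d7fffffffffff688000000000527f7ffffffffdf4077fffffffe7142b80000001ab69217fffffff872a487fffff356860ec8000050a1a7383800024e19861e17ffc18d3039cca800000000004af7ffffffffb35bd80000000207c77800000016551707fffffe67f2ba68000000d45a34a80000bca4b9bcb7fffb769e6a20c7ffe2f67a0ac768039b8ebd610cc7fffffffff400080000000404e577ffffffe8b1c8b7fffffeb41937180000143b867a68000010e60d1be7fff66875f5ba98002fb55c448908017e1752fca3e7d3e8aaf9924c88000000000000080000000000000800000000000007fffffffffffff7ffffffffffff4800000000000c9800000000002d78000000000318d8000000003e3c680000000b5aa1c80000000000000800000000000007ffffffffffffb8000000000001a800000000001b37fffffffffe7d87fffffffffd64c8000000008f1d47fffffff7bdcd87ffffff683990e7fffffffffffff7fffffffffffff8000000000004d7ffffffffffe5c7fffffffffe78f8000000001715080000000014f127fffffff62df17800000073d17d380000070a0111880000000000007800000000000147ffffffffffc068000000000120c80000000015f367fffffffede3337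fffffffdc275580000008dc999a7fffffbf6818397ffffb1c525efe7fffffffffffff7ffffffffffffd800000000000b07ffffffffffc6c7fffffffffc6d9800000000342da800000000358847ffffffe79267f8000000c8798ba80000111abacc0800000000000138000000000001f7ffffffffff5c480000000003996800000000335517fffffffcd9c567fffffffe5df3880000018e1e0757fffff4f7dbb487ffff2b2058bf07fffffffffff0e7ffffffffffd6a8000000000882d7ffffffffd7c077fffffffd1435a8000000280ff26800000051338477ffffeacf207058000057b311efa800096069a7b547ffffffffffed87ffffffffffeb58000000000985f7ffffffffc62857fffffffd1e784800000030d74ab80000000ac6d9b7ffffe78596b21800008fa81a93a8000b93eaf563280000000000e7b800000000020067ffffffff809698000000029317980000002ab62347fffffd90adb657fffffb77cb9cb80001461da5efb7fffbace668b867ff7c1981c68c07fffffffff4bbd7ffffffffd9515800000006a16327ffffffe4033887fffffd8f4e570800001e308189d800006e8c3d7ad7ffefce7d56b5e8001a3b5145179805e07cf56ac8b⟩,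
  ⟨95, 1, 23, 0, 0, 10, 56, 0x8000000007b59c80000001196c1f7fffffef5aeec18000001e51734a800007b4dbbfd97fff97a26baa6f80007f8527863c8038c1cbb9c8127efd105e8d7097c237508e833b37800000000717f980000000d9915a7ffffff280e10a8000001e5daba48000060179813f7fffabcb71a15980008af4c9f93c8021f5a99bc98a7bc40d10f79dd750168540008192800000000000237fffffffffff747ffffffffff2838000000000e1107ffffffffd6ff47fffffffa0fddf800000052aba327ffffff0658d347ffffdc39357eb8000228f8ede447ffffffffffb41800000000013668000000001c8bb7fffffffe1ca8680000000593dbf8000000c7481f47fffff4e6a47fa80000236919a4a800054daf0a0d37ffc30fdc29d06800000000047947ffffffffec0ac7fffffffe63b5d80000001c8c03f7ffffffa18de967fffff4dcea23a80000aaaec2b227fffd823d421ce7ffa947af895e8803253fc8eba407ffffffffc648e800000000cbbd880000001715cbe7fffffe93e6a96800000369e04a6800009c1843ba07fff742786e84b80012f937454df804d8b22bebeaf7e0d3d0f9f91618000000006689b80000000a7cd6e7ffffff5135a988000001d0325dd800004a41b74df7fffbb6738743780008e996daf5b8022a6d19733e1804e623792f20ed54748ddcc10588000000000001c7fffffffffff8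47ffffffffff59e8000000000b5857ffffffffdb4bc7fffffffba5d4e80000004a1d0607ffffff9d153507ffffea17f514680001e503f1ec77ffffffffffc2f8000000000111380000000015e557fffffffe7a92b80000000534c41800000096fe2887fffff627ba634800000aa35267180002fec564afa7ffc7090d09558800000000039727ffffffffee8727fffffffec629d8000000171fe3d7ffffffa70af3a7fffff72178df98000093ee8af847ffff8f1e804387ffd956d6b9b18803551be2fef617ffffffffd16d2800000000bac8d800000011dcdae7fffffed2a4ac480000031b131268000083d6faaf57fff930a885a677fffcb68b9a3f8801d12f50e4bea7d75a2dd1580af800000000000008000000000000080000000000000800000000000017ffffffffffff58000000000004480000000000702800000000051378000000004e0fb80000000be597880000000000000800000000000007fffffffffffff7fffffffffffeb800000000001987ffffffffffa2f7fffffffff5f6b8000000006481c7fffffff9b3e057ffffff59c8477800000000000007ffffffffffffc800000000000148000000000012d7fffffffffe8178000000000630e800000000898747fffffff84e59c80000004fe127a8000007cc3f7e07ffffffffffffe800000000000307fffffffffff247fffffffffeea38000000001349c7ffffffffc2b5a7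fffffff85bda780000006c809317fffffdf5d9ac87ffffabc82f18b800000000000007ffffffffffff88000000000002b800000000002c67fffffffffc9bd8000000000d57e80000000139c1a7ffffffec7ed5980000006e946f780000124e6b2ac7ffffffffffffb8000000000007f7ffffffffffd497fffffffffd8ac800000000332827ffffffff178e27ffffffee2e02780000014a997f67fffffac9a4aed7ffff1b10178ef8000000000004d7ffffffffff99380000000001e4b800000000244637fffffffd5f26b8000000094c6838000001142a4727ffffef7cb3ced800000ac5e221080009bfb35b2e5800000000000487ffffffffff89a80000000002bbe800000000227657fffffffcf7e8980000000f9fa0780000010d1852a7ffffeb55038aa800003358953488000c544f15d197ffffffffffbc2800000000060a37ffffffffe0c367fffffffdfbfe8800000028730d47ffffff5edcc6b7ffffef4cbb62e80000ff0d39a86800004f87d61cf7ff78464de7d5580000000003e817ffffffffb0f958000000015848c80000001e1ac3e7fffffdeac0650800000549bfea780000f9a7d0e347fff46c8a100cd7ffe19c5aa16f2805d932f779ce4⟩,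
  ⟨97, 1, 24, 0, 0, 10, 56, 0x7ffffffff3b98a8000000099d57c7ffffffeeb92a47fffffad6c299b8000059c76b53e7fffde8a2e08057ffe675b2bd86e80345761e154057fdb6ccbe1a28cc112e5cc55096f7ffffffff659d9800000007d87377ffffffee095d67fffffc03cf4c880000487b22e427fffe414ff59a07ffed53bc42f20801f323843681d7c49c3cec10c3648264c5119565380000000000001800000000000987ffffffffff68d80000000002bea80000000037b597fffffffacd23f800000023a0ca0800000065eb9097ffffdb70d27c580001dfb90ad147fffffffffffe47fffffffffebdb8000000001457e7ffffffff9f8517fffffff884fc18000000ae500227fffffb134e92e7fffff3c74c1b4800056f9421b937ffcdecd0d759a800000000002af800000000126987fffffffecb6338000000061d99980000006aa0f5c7fffff5ff834328000050edda6cd800006fcf2148f7ffa5e15c9da708027275dce224d800000000000667fffffffefef7080000000f3ad9d7ffffffc1dc4b47fffff9ea9db308000082b0e8b237fffbfc3d022717ffed24aead71e804cf6180f1d807ea950d9aa67f97ffffffff86d3e8000000066495a7ffffffee6b4067fffffced1f2648000039e08283c7fffe7b2f7f9567fff22934436a7802106c5f67d0c80d8924b7282dad66f6ad1f3d617800000000000018000000000007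67ffffffffff859800000000026278000000002aca67fffffffc1ff9a800000027266498000000eeaccd57ffffeb7637f9880001b9b15e85f7fffffffffffda7ffffffffff05d8000000001067f7ffffffffabc677fffffffa789358000000892bcb67fffffaef6a5297ffffde29e50fd80002c6b423bf77ffccec239a6b98000000000030a8000000000e2af7ffffffff077a98000000057f0dd80000004e388937fffff7a086a17800004aa29db51800022843a7b2a7ffdd59ece01998030a1198225897ffffffffff1287ffffffff3982580000000c9c1f27ffffffc464ebd7fffffafb8f2c180000709ec1ba57fffd382d671597ffe045baa2b0e80183037045f9f7dac14ab64cc22800000000000008000000000000080000000000000800000000000017ffffffffffffc7ffffffffffff9800000000007c080000000007ea680000000067f5080000000c99b528000000000000080000000000000800000000000017fffffffffffed8000000000008b800000000004c37fffffffff625f800000000263477fffffffac8bff7ffffff4e6eca7800000000000007fffffffffffff7ffffffffffff38000000000011f7ffffffffff7a67fffffffffc2d58000000008c5e87fffffffbb8090800000037eaec1800000851bfc8b7ffffffffffffe80000000000005800000000000b57ffffffffff15480000000005e778000000003e8527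fffffff8bbd4980000003dda3ad7ffffff49aa9727ffffa9270e9a3800000000000007fffffffffffff7fffffffffffe18000000000028d7fffffffffedb07fffffffff6e008000000013b5427fffffff437c5f80000003004ad88000012e7d25fa7ffffffffffffc80000000000013800000000001b67fffffffffd9f0800000000124a680000000070f047ffffffed302428000000d7503c17ffffff0f196197ffff153668fb7800000000000367fffffffffff437fffffffffe7c88000000001f7227ffffffff24d547fffffff81fbd980000010dcbd9d7fffff62711c827ffffd61f0767b800099c1d9267a800000000000417ffffffffffec87fffffffffe7f5800000000236bc7fffffffed63227fffffffaac36580000012984b6e7fffff24c9e0e97ffffee6827ce78000c715f96ca57ffffffffffccd80000000000cd0800000000156387fffffffe242b680000000e57b6180000006e63c2f7ffffef3397d108000096524f7af800037a3164b197ff7c5669768c5800000000028427fffffffff7adb7fffffffeca0a68000000192570c7ffffff59b53907fffff7dd8756680000e4875b5aa7fffa3c93b244e7ffbf1cc4923828057604f1bd0b7⟩,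
  ⟨99, 1, 25, 0, 0, 10, 56, 0x7ffffffffbf34e8000000003671980000002f2ed347fffffc58aef9c800002184b90848000040aa92e697ffe096640eb5a8029147e7673f68096f6edbd90afc18cdf4958d4f17ffffffffca8988000000004ed6c8000000245eeeb7fffffd1287257800001c26a4906800002cc935d957ffe83766e015c8016c20c37faf37cb6485ce296d4412c08de29adc47ffffffffffffb8000000000004e7ffffffffffe4d7fffffffffe3ed80000000036c8b7fffffffd21cef8000000036bf208000000d19c0257ffffde20439928000199039ad60800000000000b37ffffffffff57380000000003c568000000003ba647fffffff892f1c80000005dc8dfa7ffffff4219d797ffffe40e63cf28000516e2c4b267ffd87d9728f817ffffffffff59d8000000000a13c7ffffffffc2c6e7fffffffcb238f80000006dc93a97fffffa96544a88000013428dc608000189bb6584e7ffaa4fc62c8d9801c1ed8d6ade680000000008d1b7ffffffff830858000000025c8be8000000337ea1b7fffffa61b4b178000043d26bdc47ffff123ae926a7ffdf4f04c4730804621eb5f67e97f3cfa4bdac3317ffffffffd3f468000000005b2f080000001c0e5707fffffda84e9928000016f96050180000073c950547ffed1ebc3038f801a81adb1779d81503e93cc30a0d89ca18a9684ab7ffffffffffffc8000000000004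07ffffffffffe837fffffffffeab08000000002ba377fffffffdf4b0d80000000f7ab9c80000018b203ec7fffff099277a3800019559708588000000000008d7ffffffffff775800000000034108000000002bed57fffffffa417c380000004be074c7fffffe440fe8d7ffffcabd6adc98000211d9751597ffd1d182c02c57ffffffffff7e8800000000081837ffffffffca3937fffffffdbdfcc800000056d7b087fffffb264ee17800001592f861f800033a907cf2c7ffe889c327087802cf4056cad1d80000000006ca77ffffffff98b06800000002623b6800000026b31cc7fffffb0fb3994800003b0e550507ffffe597fd4cc7ffd8784d1f5ca800ef25501de8c7dd3889f19eae780000000000000800000000000008000000000000080000000000000800000000000017fffffffffffed8000000000073b8000000000abc28000000008d53580000000d8d1c08000000000000080000000000000800000000000017ffffffffffff97ffffffffffff4800000000006bf7fffffffff944f7fffffffff3fc67fffffffaf6cad7ffffff444fdfb80000000000000800000000000007ffffffffffff680000000000068800000000000a47fffffffffa38a800000000623b37fffffffe8b4b380000002cc75838000008b48ee7b800000000000007ffffffffffff9800000000000837ffffffffffb317fffffffffece68000000004fc087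fffffffb23ef880000001939ac07fffffff2ef6e17ffffa87c1be3080000000000000800000000000017fffffffffffe8800000000000e8800000000001fa7fffffffff2d17800000000d9b097fffffffa8636780000000e47489800001321e809d800000000000007ffffffffffff0800000000001647ffffffffff2187ffffffffff263800000000b8bd37fffffff255f28800000074cfb4b80000019cdae877ffff16242c38280000000000001800000000000df7fffffffffee308000000000abdb8000000001b49f7fffffff533d2c8000000bcb8c217fffffb91a555b7ffffba35276548000928d3f04a880000000000004800000000000e77fffffffffeb7a8000000000d8ca7fffffffff7eea7fffffff5923c58000000e2f8f7f7fffff885cab757ffffc49d11f5d8000c203c1ca7d7fffffffffffe97ffffffffff3ad80000000010a8a7ffffffff50a9d7ffffffff6640f8000000a71aea27fffff3ecbb051800003eda1337b800051af04f1237ff8525f7bb2478000000000002d8000000000a82c7ffffffff1f87b800000008c0a6a80000001f8ac997fffff5e3178c080000966aebd3a7fffeb4cdd4c977ffb19dcb74ca0804e3c3bbd6924⟩]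

end P264.LC
end
end

section

section

/-!
# P264 / LC / YData3 : storage matrix of the linear certificate (data, helper919)
-/

namespace P264.LC

def ydata3 : List YC := [
  ⟨186, 2, 58, 0, 0, 10, 56, 0x7fffffffffff8f8000000000233f7ffffffffb4e4f800000002936f480000011e1178b7ffffb96fa2ade80007978f5e9677fffc68d050d7d7cc8673e047149f4376091128859800000000000807fffffffffd9f88000000004b0037fffffffe68a187fffffeb0a6974800004ace0e6227fff8a776e65d37ffe086e9741a6839ee1f73396960d905bc86db52880000000000000800000000000017ffffffffffff87ffffffffffe9b8000000000721f7ffffffff181b9800000008f68977ffffffb5900977fffcc32cb8cc47ffafcd85110cc800000000000007ffffffffffffe7fffffffffff9e80000000001f477ffffffffc02928000000018f3ed8000000f3d636d7ffffd5d3937ab80012e93bbd300803028ab56deec800000000000007fffffffffffe0800000000006507fffffffff52567ffffffffed3ce800000040c4cd47fffff4432824880001597278e9080012a65cd29b27f3264004165ac7fffffffffffff800000000001577ffffffffffa018000000001087280000000586f6f7fffffe892aba2800002affe7fe47fffd917bb90477ff07e7f9674d083b8c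e47ac4cfd7fffffffffff66800000000028cd7ffffffffb5aff80000000082e048000001816d7b57ffffb173716fb80006f561a811d8004660cf54ad97bf3ff6fa64787f083eae3d79fcb800000000000007fffffffffffff80000000000007800000000001b97fffffffff84aa800000000e68447fffffff77b1667fffffe9deb35b8000323f64ef01800542fe12fdd780000000000000800000000000028000000000007b7fffffffffde10800000000405147ffffffff3fdb67fffffef93e9a38000035af8f3187ffef24f545e937fcef22aa46db980000000000000800000000000257ffffffffff93f8000000000aacf8000000003f6257ffffffb814a6a800000c0fac31d7fffeac147dccb7ffdf341db1c3b80caecca068227800000000000027ffffffffffe9b800000000005c57fffffffff2ffb7fffffff9a2f8a8000001886bfa07ffffd68108a4480001ca1ece23980135309f3d90d7c57b64a29e217800000000000008000000000000080000000000000800000000000008000000000000b800000000008a7800000000372d080000000bf731480000014e3a6cb800000ea2766ff8000000000000080000000000000800000000000008000000000000180000000000017800000000013c08000000007e5ae80000001340e7d8000001391ebaa800000437a78f98000000000000080000000000000800000000000007ffffff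fffffff7fffffffffff9b8000000000110e80000000000c44800000018f03c28000007df55528800009cd4d19d880000000000000800000000000007ffffffffffffc7ffffffffffffb800000000002987fffffffffbb9e7ffffffff6e9f77ffffff8bbab487ffffdac8bef5f7fffcd67fe062b8000000000000080000000000000800000000000007ffffffffffffd800000000000068000000000f3948000000060185d80000016323c38800002a00e34eb80001f925d073f8000000000000080000000000000800000000000007fffffffffffe78000000000063b7fffffffff8fcc8000000002021b7ffffffd2b40657ffffd438a04c97fffb7dabec94580000000000000800000000000007ffffffffffffd800000000000ad7fffffffffe5318000000000190d7ffffffff4dbb67ffffff592988680000854f2e022800139153629fc80000000000000800000000000007ffffffffffffa8000000000012d7fffffffffe4857ffffffffeaaa9800000008abe097fffffe3d065be8000046daf81bd800152e57e1747800000000000007ffffffffffffd800000000000007ffffffffffb8f800000000021028000000011b5cd7ffffffd3c309c800000749a56fe7ffff9763d0e8f7ff9b1ea13cafa8000000000000080000000000012800000000000ad80000000000ab5800000000129d87fffffff91754a80000009bb977f7ffffed68ba4807fffd495fd5814801dac8f463e07⟩,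
  ⟨190, 2, 59, 0, 0, 10, 56, 0x7fffffffffff8d80000000001ac87ffffffffd41b37ffffffff5c16d800000127f8ebc7ffffc4eded0e78000590c5de5df80023b3bd396227cccabaa77791eedcad0bcbbc6bb800000000000927fffffffffe3e880000000029cfa8000000018ef757fffffeb245365800003d9d408407fffac916e99a47ffbb0d6f3444c8392104ea37bc714c2dd57d63dd380000000000000800000000000007fffffffffffff7ffffffffffe52800000000060907ffffffff5a1f8800000002c6a7c7ffffffd7bf6b07fffcc253b49947ffa952eed76cf80000000000000800000000000007fffffffffff8b80000000001a1a7ffffffffd391c7ffffffff9a9ad8000000f7fd58e7ffffdb9eb3293800124c1830f8180327bc2b989c2800000000000007fffffffffffe0800000000004a67fffffffff9f1e7ffffffff8931680000003de4f327fffff6406832e800011908cfc01800178757da2347f35098a84ec4b7ffffffffffffe8000000000010e8000000000016e7ffffffffff716800000005df89e7fffffec2ef6a380000202e0f04a7fffe721df7de87ff0004d15f78a839943ba2f66017fffffffffff6480000000001d397ffffffffd8c9a7fffffffd756b4800000173538be7ffffc059a314f80004bcf68c08a800693c26dcbe57c0a3a195ee40ae880b11dfa4b5d80000000000000800000000000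0080000000000000800000000001f07fffffffff99b28000000009fdf07fffffffd8c0117fffffe7e1b29e800031e223d4c58005a720ecbc508000000000000080000000000000800000000000887fffffffffe4428000000002b8258000000012fea27fffffefb86f5b800002f864fb567ffefef5c3a9f07fcce3b1847e1c80000000000000800000000000237ffffffffffb29800000000059b78000000009f7587ffffffbca18d88000009e006b617fffeedd13a5c17ffda6c496bf9d80c684136d2818800000000000027ffffffffffeed7ffffffffffdb18000000000447b7fffffff976a7b80000014724dc67ffffe1c06546280000f3e8c9c3b8013a962f466127c7ebba1ce4061800000000000008000000000000080000000000000800000000000008000000000000a800000000009108000000003b9b680000000d4f704800000180bed2b8000011708a337800000000000008000000000000080000000000000800000000000008000000000001b80000000001448800000000885c280000001654f3180000018c366db8000006faef5e5800000000000008000000000000080000000000000800000000000007fffffffffff9780000000000d03800000000084a78000000190c6b98000008433f94d80000acf75397d80000000000000800000000000007ffffffffffffd7ffffffffffff9800000000002507fffffffffd3ed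7ffffffff529f27ffffff87f85da7ffffd8f05d0f67fffc8a3b7ec6b8000000000000080000000000000800000000000007ffffffffffffe7fffffffffffcf8000000000f2518000000067b1aa80000018899fcb800002fd76b9978000252e525d4c8000000000000080000000000000800000000000007fffffffffffe68000000000053c7fffffffffc4867fffffffff5a177ffffffd2e87577ffffd3842e1657fffb256899b7180000000000000800000000000007ffffffffffffd800000000000957fffffffffebaf7fffffffff49447ffffffff2397a7ffffff54af79e8000082ab3577b800149950bb86c80000000000000800000000000007ffffffffffffb800000000000dc7ffffffffff0b47ffffffffdd7f1800000007c77407fffffe6e94dea800004033f971980015b545c2571800000000000007ffffffffffffe7ffffffffffffa7ffffffffffd477ffffffffff64b800000001215f27ffffffdcc7b9280000065b2ea127ffffb29b689607ff9a693f7316c800000000000008000000000000e800000000000c1800000000003d680000000017f8d7fffffff9f2554800000067bcc4d7fffff06facc8e7fffd0578ab170801d515c8b84f5⟩,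
  ⟨194, 2, 60, 0, 0, 10, 56, 0x7fffffffffff91800000000012337ffffffffea9307fffffffd9c9e780000011492ad37ffffd02e0eb0d80003e5b8c4e5f8003fea2ab6b947cd954c5cdfda4e76fa49df225ce8000000000007a7fffffffffed768000000001297b8000000032b0027fffffecfe5f218000031181517e7fffc832509f797ffa1244484af2837d5f485626191bd360e59978d88000000000000080000000000000800000000000037ffffffffffe5280000000004dad7ffffffff909367fffffffe792397ffffffdaa4fd17fffcc1c1156497ffa2d701d014180000000000000800000000000017fffffffffff8e800000000014cb7ffffffffe28717fffffffe592c88000000ef6d0ed7ffffe159bbff080011c61a560e28034bca8b7901c800000000000007fffffffffffe6800000000003227fffffffffd5537ffffffff5624c8000000381fc677fffff819cdaec80000e42ea12b68001b7e1369e2f7f383c14c98dcd7ffffffffffffe800000000000c7800000000006477fffffffff5bad800000005994f37fffffefcc2b9780000172eb5fb67ffff174ca2aba7fefb29a48531c8378efc18a4fd37fffffffffff7e800000000012bc7fffffffff0a7b7fffffffc0372980000014adad627ffffce1ee751a80002f7e84211b8008023a2c12997c279ead8d3294e0b1960ab75f4080000000000000800000000000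007ffffffffffffc800000000001de7fffffffffaf3080000000066af58000000019d7677fffffe7c7c46f80003180f4cbe980060a8414be90800000000000007fffffffffffff800000000000807fffffffffea488000000001bd10800000002623a87ffffff0a3357d800002992f41cf7fff0a171419c97fcaecfddeeb66800000000000008000000000001c7ffffffffffcd4800000000021f7800000000cc6c17ffffffc3dfc508000007e0e22a67ffff22f6e04947ffd691d86126980c191bee133b7800000000000027fffffffffff3a7ffffffffff8a08000000000da557fffffff9e7d7380000010788e3d7ffffeaf81ed65800005b111a7e08013d21b4d02087ca63d7c41e64280000000000000800000000000008000000000000080000000000000800000000000088000000000096c800000000403af80000000ec2dc58000001b8da2c68000014a92b982800000000000008000000000000080000000000000800000000000008000000000001d800000000014ca80000000092a03800000019a5d3c8000001ec17731800000a7107561800000000000008000000000000080000000000000800000000000017fffffffffff9c800000000008ff8000000000dc968000000194fa828000008a7ecbef80000bde252f6380000000000000800000000000007ffffffffffffd7ffffffffffff8800000000001fa7fffffffffe919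7ffffffff420227ffffff83b0f847ffffd707d0e817fffc3a3687b658000000000000080000000000000800000000000007fffffffffffff7fffffffffff9d8000000000eec8800000006f37b18000001b0e6acc8000036497c1fb80002b8eb2fa2c8000000000000080000000000000800000000000007fffffffffffe88000000000044d7fffffffffee797ffffffffe2bff7ffffffd26791c7ffffd2cef3c137fffacbbc12cce80000000000000800000000000007ffffffffffffc8000000000007c7ffffffffff0ca7ffffffffeb9537fffffffea237a7ffffff4e2236b800007ff1dc6c9800159bf22745380000000000000800000000000007ffffffffffffc800000000000977ffffffffff9567ffffffffd6cd9800000006950e87fffffe99c509c800003a47137d2800162fa400f30800000000000007ffffffffffffe7ffffffffffff67ffffffffffe857fffffffffdd56800000001128de7ffffffe5a1c748000005a2a719d7ffffca855bce97ff99e6db34797800000000000008000000000000b800000000000c47fffffffffffa9800000000193857fffffffaec75480000003b2fea97fffff254879587fffccb5a30a9b801cee558dd5f3⟩,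
  ⟨198, 2, 61, 0, 0, 10, 56, 0x7fffffffffffa880000000000b297fffffffff92717fffffffcde85e8000000f2a9ae67ffffda599a2118000290ba890af8005324d093c2c7cebe13f4e4137e1340dddaaa541800000000000627ffffffffff50480000000003f91800000003c09617fffffefa37c82800002604e24fc7fffdde7db5d997ff90757e28e518363671cadb7a922b4d8defc216d8000000000000080000000000000800000000000057ffffffffffe7880000000003c2b7ffffffffbb9027fffffffbb0c737ffffffc876dd47fffcc10cdb0017ff9c59dbf622280000000000000800000000000017fffffffffff9a8000000000104a7ffffffffed11d7fffffffda2be88000000df1aa037ffffe6c7ea23c80011567e627988036ee38511551800000000000007fffffffffffec800000000001ef7ffffffffff86f7ffffffff445178000000310e2c97fffff9befaf0a80000b9d552f488001eb6d0c8e1d7f3be12688ca6d7fffffffffffff8000000000008c800000000008d97fffffffff1389800000004ffa787ffffff31ff45a800000fedc5bb37ffff8bccf7b267fef87e57fc2ef835825686aeeff7fffffffffffa080000000000ab07ffffffffff31f7fffffffb9b5e3800000117c892e7ffffda10179208000199f9c5f488008da980ebf737c49840745a60fd92228e6e4c40080000000000000800000000000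007ffffffffffffa800000000001a97fffffffffc28a8000000003a58d80000000419bf37fffffe8e5327b80003121ff629a80066d264929ae800000000000007ffffffffffffe800000000000707fffffffffef3a80000000011008800000003048567ffffff2011c4880000240f7f5267fff13c8a4fdd97fc90b186c45df80000000000000800000000000157ffffffffffe1d7ffffffffffef0800000000d7aca7ffffffcc2a19b800000620c01a67ffff4cda8c4e47ffd374fb9b9cf80bc306d961e2a800000000000027fffffffffff787ffffffffff613800000000119527fffffffaa6b208000000ce16ef87fffff2499e14a7fffff3bc40a758013db0ae898d17ccdeeeec0a4898000000000000080000000000000800000000000008000000000000080000000000007800000000009b88000000004504a8000000105287e8000001f6fb610800001857f6b5b800000000000008000000000000080000000000000800000000000008000000000001e8000000000151c8000000009d1aa80000001d34fea800000259b8221800000eb47779b800000000000008000000000000080000000000000800000000000017fffffffffffa58000000000054180000000011564800000019adf6880000090de0e3c80000cf97e19a180000000000000800000000000007ffffffffffffd7ffffffffffff8800000000001a87ffffffffffaf9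7ffffffff3b2667ffffff7f23fbd7ffffd50d887b47fffbe64eea5a5800000000000008000000000000080000000000000800000000000007fffffffffff698000000000e8de8000000076981f8000001dbff309800003d625bbf2800032c7a4c49b8000000000000080000000000000800000000000007fffffffffffea8000000000038980000000000e3c7ffffffffe23ab7ffffffd1af1707ffffd21721fbb7fffa70a2a480380000000000000800000000000007ffffffffffffc800000000000667ffffffffff46f7ffffffffe5e817fffffffde6bbb7ffffff43d0bb6800007d1739ea88001699021c0c780000000000000800000000000007ffffffffffffd800000000000617fffffffffff177ffffffffd49168000000054025a7fffffebd4d7bf8000034f7e34ef800169ecb4646f800000000000007fffffffffffff7ffffffffffff47fffffffffff5b7fffffffffd0c9800000000f84b47ffffffedd25c380000051d6d0a97ffffdff520dcb7ff9991ae746d28000000000000080000000000009800000000000bc7ffffffffffd6a8000000001817e7fffffffbe5c3b800000016808f87fffff345b217b7fffc96d7ff8fc801c846eacbce5⟩,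
  ⟨202, 2, 62, 0, 0, 10, 56, 0x7fffffffffffc68000000000061680000000001abc7fffffffcbfc818000000cbe88187ffffe3139ddf3800018772648ae8005f4a6e63f237d025049b69a0cdb21be1febdb918000000000003b7ffffffffffa547fffffffffbc70800000003b91bf7ffffff27846c8800001cade52e47fffee81a3c96a7ff86eea1ac08683463274a9b2c2295ed7bf2684f88000000000000080000000000000800000000000057ffffffffffead80000000002d247ffffffffdc53d7fffffffa165877ffffffa94952f7fffcbff38ddc47ff95daf13976f80000000000000800000000000017fffffffffffa880000000000cd17fffffffff40cc7fffffffd4d4f88000000caa88627ffffebc639ef980010fbc3a9252803913272c7077800000000000007ffffffffffff28000000000011180000000000d1c7ffffffff471fc800000029ba7e47fffffb2a09ea58000098adba8ba800215900cdfcd7f3fe38509ecd97fffffffffffff8000000000005f800000000009bd7fffffffff00998000000044558e7ffffff6073ba8800000a3c70d057ffffd991b96f77fef75476145b783371f595072f57fffffffffffc98000000000052880000000006f807fffffffbcc8348000000e3cb5357ffffe3f8041af8000093755d525800940a303a2f07c6ddb45482388d1d94480a7a99a80000000000000800000000000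007ffffffffffffa800000000001697fffffffffd2cc800000000192f7800000005615d77fffffeab48f7e800030c90a1c188006cf101ca547800000000000007ffffffffffffe8000000000005f7ffffffffff2f48000000000a05a8000000034495f7ffffff39683a5800001f1b3ed247fff1c2ad04f017fc73b40bae716800000000000008000000000000f7fffffffffff047fffffffffeb2e800000000ceb5c7ffffffd4765608000004a37ea417ffff6d060dc1a7ffd0ebb73a28c80b67521e50280800000000000017fffffffffffa67ffffffffff5538000000001227c7fffffffb7ef8e80000009cbd7d17fffff7ef48cf67ffffb32c667908013cf336c63dc7cf59bdc1986418000000000000080000000000000800000000000008000000000000080000000000005800000000009f480000000049f08800000011ff58680000023b95494800001c8969819800000000000008000000000000080000000000000800000000000008000000000001d80000000001531800000000a7b22800000021037368000002d613d358000013e1b9c97800000000000008000000000000080000000000000800000000000017fffffffffffaf800000000001e4800000000131bd80000001a1c23f800000975718ef80000e21aea7c780000000000000800000000000007ffffffffffffe7ffffffffffff98000000000015f800000000009d0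7ffffffff3c73c7ffffff7a871747ffffd300dbfc27fffb8e6062930800000000000008000000000000080000000000000800000000000007fffffffffff2f8000000000e05a800000007dbf4f800000209d1d0b80000452d18c8e80003aeeb341a38000000000000080000000000000800000000000007fffffffffffed800000000002f3800000000025c57ffffffffef86f7ffffffd11f1e07ffffd15ca3a0a7fffa1416cac6280000000000000800000000000007ffffffffffffc800000000000557ffffffffff6e57ffffffffe2a567fffffffd0796c7ffffff34a50a7800007a09e49be80017902d568eb80000000000000800000000000007ffffffffffffe8000000000003a800000000002ad7ffffffffd5371800000003e5c9f7fffffed8bca06800003026acd738001703d78cb0e800000000000007fffffffffffff7ffffffffffff27fffffffffffe07fffffffffcc4c800000000d8ed37fffffff5191498000004c6ad25d7fffff3aec712a7ff99658c20d768000000000000080000000000007800000000000ab7ffffffffffc7180000000015c927fffffffccce627fffffff95ac947fffff371a69f07fffc6480f6423801c14226ef566⟩,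
  ⟨206, 2, 63, 0, 0, 10, 56, 0x7fffffffffffe1800000000002c1800000000060207fffffffcf90b08000000a600e127ffffea4ae9aa880000bde98612f80065fda6c64537d1b1277238b2cd53ed9a6a54894800000000000267ffffffffffdb77fffffffff7e3b8000000035f3d77ffffff524cb83800001512843017ffffadfe62c017ff82cf563764e8327517e454e992fcc8769aebdb58000000000000080000000000000800000000000057ffffffffffee4800000000020e17fffffffff49047fffffff95eb6b7ffffff8347b3a7fffcbe4e1d49f7ff8f594c47eca80000000000000800000000000017fffffffffffb580000000000a537fffffffff85cf7fffffffd377bb8000000b49c97f7fffff0440247a80010b4044ba30803b2df3c3af0c800000000000007ffffffffffff68000000000007c800000000017bc7ffffffff556c2800000022c29ad7fffffc5b9e53a800007f5a981d08002386ae70fe37f44328de3c530800000000000008000000000003f800000000009897fffffffff0c3c800000003895827ffffff8782d4a8000005e133ad080000094e6ad2c7fef722eadfbf6831604d37ae7727fffffffffffd4800000000001c08000000000a54d7fffffffc492ce8000000b41eb537ffffebeab0fab7ffffd43e43c87800952184570d57c93189ac92c01cada2d00fe5cae80000000000000800000000000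007ffffffffffffa8000000000012a7fffffffffdfd6800000000012c3800000005c5ad07fffffecd1dfb1800030780a90b48007304fc7a590800000000000007fffffffffffff800000000000517ffffffffff59480000000005d9f8000000034604b7ffffff53b06b9800001ac2e39d17fff23634a7b7e7fc57afd2dd462800000000000008000000000000a7fffffffffff9b7fffffffffe1cb800000000bb1597ffffffdc2d26a800000366901877ffff85055a09e7ffced247b21da80b070021d25dc800000000000017fffffffffffc67ffffffffff5b580000000010df57fffffffc51e29800000073d161a7fffffc2c02f347ffff9021f58878013b715c3e7557d1d2399b16b84800000000000008000000000000080000000000000800000000000008000000000000380000000000a1c8000000004ef59800000013ca0088000002871df0780000214aeaf73800000000000008000000000000080000000000000800000000000008000000000001b800000000014fa800000000b241d800000025117738000003622884e800001a174218b800000000000008000000000000080000000000000800000000000017fffffffffffb97ffffffffffeed800000000134c680000001a901a48000009dec9ab980000f56ed84ec80000000000000800000000000007ffffffffffffe7ffffffffffff9800000000001228000000000160f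7ffffffff448137ffffff7606e8e7ffffd0e1e7d967fffb324626efb800000000000008000000000000080000000000000800000000000017ffffffffffeef8000000000d4e0800000008496e580000023a45011800004db46b6348000441ac6b12a8000000000000080000000000000800000000000007fffffffffffef80000000000285800000000036fc80000000006f077ffffffd0feff87ffffd0a0b0e407fff9b6143524980000000000000800000000000007ffffffffffffd8000000000004a7ffffffffff8787ffffffffe11487fffffffc158a67ffffff1ffe2cd8000076b50fd458001880fa0f84980000000000000800000000000007ffffffffffffe8000000000001f800000000004b97ffffffffd797c800000002982b77fffffeec2cf02800002bb31b8c2800175fa460d0f800000000000007fffffffffffff7ffffffffffff28000000000002c7fffffffffcca7800000000b86d77fffffffb5e52e800000498958d5800000660c20f97ff995fba5301f8000000000000080000000000005800000000000977ffffffffffc3e800000000130dc7fffffffd9a2bb7ffffffe3096b27fffff3039da367fffc31981a21a801b9d889c892f⟩,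
  ⟨210, 2, 64, 0, 0, 10, 56, 0x7fffffffffffee800000000000bf80000000007b497fffffffd5b065800000083e19807fffff0187eb5180000285ac251d8006899405f4657d34f8002fb377cf8ec87e6311df800000000000137fffffffffffb37fffffffff6a81800000002e32787ffffff77ec4eb800000f0a7d8ff800003d778041e7ff82a9d4163638307eebab1668c35fbc8ff5058ac8000000000000080000000000000800000000000057fffffffffff158000000000174f8000000000602b7fffffff94ca9a7ffffff5b0423e7fffcbc0ad7a6b7ff88d3c01ddb780000000000000800000000000017fffffffffffbf800000000008b67fffffffffaa077fffffffd4b4a780000009e9e1457fffff43cfad3a800107d32484bc803d40dccf03f7800000000000007ffffffffffffa8000000000002080000000001bd97ffffffff690ff80000001c7877c7fffffd5807465800006c8eb381e800255c886af337f48c1899aae048000000000000080000000000029800000000008b87fffffffff2709800000002dc6857ffffffa7796d58000002a1a7ac98000022572b5d37fef780b355a0982f4ee0366d4697fffffffffffed7fffffffffffcb8000000000b0b87fffffffce09f280000008b0f8007fffff220aa5cf7ffff4d7d79221800926de467a7a7cb81b59220069c4257dfb2f7be180000000000000800000000000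007ffffffffffffb800000000000f37fffffffffe9dc7fffffffff053d80000000587d6f7fffffeef49ccf8000302f9f5c64800790f604852d800000000000007fffffffffffff800000000000467ffffffffff73d80000000003cbf8000000031fdca7ffffff6d4f961800001706e66457fff29994f8d7d7fc3c8219aacd080000000000000800000000000067ffffffffffff77fffffffffdef3800000000a311c7ffffffe305af2800000263fbf087ffff96499a9ab7ffcd0aea836ff80aa2d1d4d9292800000000000007fffffffffffdc7ffffffffff6b58000000000ebc27fffffffd0f9ab800000052c36bb7ffffff41635f57ffff82ee53d928013991540b9727d4474506d9224800000000000008000000000000080000000000000800000000000008000000000000180000000000a2f80000000054099800000015b2f958000002da0dbba8000026aad0a8a800000000000008000000000000080000000000000800000000000008000000000001880000000001458800000000bc99f8000000295e5328000003fef366780000217580112800000000000008000000000000080000000000000800000000000017fffffffffffc27ffffffffffc558000000001219c80000001b00f29800000a49ee2bb80001099744d5080000000000000800000000000007ffffffffffffe7ffffffffffffa800000000000f180000000002036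7ffffffff522277ffffff71c84c27ffffceb16afb17fffad1dc4e82f800000000000008000000000000080000000000000800000000000017ffffffffffea58000000000c5e3800000008b04d880000026d362c380000570293e8c80004e64173b868000000000000080000000000000800000000000007ffffffffffff08000000000023c8000000000431f8000000002590e7ffffffd1825fa7ffffcfe5765267fff9569a0505f80000000000000800000000000007ffffffffffffd800000000000427ffffffffff9567ffffffffe0d177fffffffb1cd4d7ffffff0591325800007302203a2800196ac2de4cc80000000000000800000000000007fffffffffffff8000000000000d800000000005be7ffffffffdae7f80000000161be67fffffef80d64080000277dfd39780017b2cd9064a800000000000007fffffffffffff7ffffffffffff3800000000000527fffffffffcfa18000000009914a800000000a318d80000048d175088000018a192c167ff997ec44094a8000000000000080000000000004800000000000827ffffffffffc75800000000105617fffffffe4bc577ffffffd2b368e7fffff2220d7d57fffbfc0415157801b206bcb69c5⟩,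
  ⟨214, 2, 65, 0, 0, 10, 56, 0x7ffffffffffff97fffffffffffa180000000007de27fffffffdc8f3b800000066b72d77fffff4a92dda77ffffbc23e7a3a80068347d11d5e7d4f1f39dcab09ca12e412279c1880000000000006800000000000c27fffffffff6e788000000026140f7ffffff9783519800000a5cbff0680000a241e181e7ff855bb32129982e8e2d78fd53d3bec7dab10cbe48000000000000080000000000000800000000000047fffffffffff3d80000000001025800000000123e17fffffff9b04fc7ffffff33ca3b67fffcb927ac11c7ff82490cceafb80000000000000800000000000017fffffffffffc5800000000007d97fffffffffb54b7fffffffd798e5800000089af33f7fffff7b4baeff80010553f9685e803f4ddef23f45800000000000007ffffffffffffc7fffffffffffeb80000000001c0b7ffffffff7e301800000016fc9967fffffe254e793800005f1ca451080026f244c4abc7f4d8705aa28b6800000000000008000000000001a8000000000079e7fffffffff475480000000245ffb7ffffffc119e0d800000047e0de9800002aad4fa507fef81f6e4752582d3e7ad6ef72e7ffffffffffff87ffffffffffed88000000000a5a37fffffffd77199800000069277e67fffff6dfdb81a7fffef2618e5978008d1a896ec637cdc17c4b3f378bdb9ea0fedc2b880000000000000800000000000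007ffffffffffffb800000000000c77ffffffffff1437ffffffffe4e86800000004da0cb7ffffff0e9d0b380002fef7201ba8007f113c75f99800000000000007fffffffffffff8000000000003f7ffffffffff81980000000003522800000002e1bb37ffffff855627e8000013e0404097fff2ef3334ee37fc220cfb69aec8000000000000080000000000004800000000000297fffffffffdfe78000000008a7b47ffffffe8e8d5e8000001945a27c7ffffa21b10c4c7ffcb7d52dc0e280a3b523462ee8800000000000007fffffffffffea7ffffffffff7f78000000000c5a57fffffffdb1d7680000003899bfc80000016a9d4c77ffff855aed3b8801379d95cb53d7d6b8724503c04800000000000008000000000000080000000000000800000000000007ffffffffffffe80000000000a288000000005920c800000017ba79d800000334de731800002cb86281880000000000000800000000000008000000000000080000000000000800000000000148000000000132b800000000c680780000002de81358000004ad6c61d800002a1ed9492800000000000008000000000000080000000000000800000000000017fffffffffffca7ffffffffffa118000000000fb0d80000001b66e34800000ab6c2aa2800011e97b1a1b80000000000000800000000000007ffffffffffffe7ffffffffffffa800000000000cd800000000028b9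7ffffffff6468b7ffffff6de9cea7ffffcc70aaa027fffa6d00f8ba3800000000000008000000000000080000000000000800000000000017ffffffffffe4e8000000000b2b58000000090eac58000002a2782c380000612133bf1800059e41b95c18000000000000080000000000000800000000000007ffffffffffff18000000000021480000000004b21800000000493427ffffffd2cda727ffffcf2dcf0737fff8f5ac6da1d80000000000000800000000000007ffffffffffffd8000000000003f7ffffffffff9a27ffffffffe19e17fffffffa2654a7fffffee551e44800006ed9d3be28001a4cb4531f380000000000000800000000000007fffffffffffff800000000000038000000000061b7ffffffffdea2580000000047c147fffffefcfaf3f80000236a41f2c80017fdb288843800000000000007fffffffffffff7ffffffffffff4800000000000607fffffffffd3c98000000007c097800000004f5d2680000049e564e2800002aefc93f27ff99c24a0dc2180000000000000800000000000038000000000006e7ffffffffffcde8000000000ddb77fffffffee32107ffffffc77f9e17fffff0ee491097fffbc23b231be801a9c5c96d1fc⟩,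
  ⟨218, 2, 66, 0, 0, 10, 56, 0x7ffffffffffffc7fffffffffff18800000000073c27fffffffe32ecb80000004ea73e57fffff82fe23017ffff70288642880065ab4ada2327d68e4ae441a65c4cb032517af0880000000000005800000000001327fffffffff7df2800000001e88807ffffffb1308848000006ccfa4d280000e63daf11f7ff8a036d23ae582cac64065a22e419ff4fced33a58000000000000080000000000000800000000000047fffffffffff5d80000000000ac98000000001a94d7fffffffa657157ffffff0fea3777fffcb5adaa0457ff7bb7fa13e1680000000000000800000000000017fffffffffffc9800000000007667fffffffffb4657fffffffdb0a628000000765c0407fffffab380908800103a36b5e73804156b66757c0800000000000007ffffffffffffe7fffffffffffd080000000001a177ffffffff9291b800000012519a07fffffec9ff4898000055fd389a6800285b2f534f77f527c3e12fdae8000000000000080000000000010800000000006717fffffffff6796800000001c7f8c7ffffffd5528417fffffea4db5ee800002722aef097fef8c652fee3282b2f62ff66ccd800000000000007ffffffffffe788000000000905a7fffffffdfec4f80000004dfd36e7fffffa6e46b4e7fffeb84f18611800860c65f33af7cfe83e068c8d3b794d114d0f71e80000000000000800000000000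007ffffffffffffc800000000000a57ffffffffff6b77ffffffffdd7b4800000003e1bba7ffffff28ee03d80002fb68278f3800850b8a2e626800000000000007fffffffffffff8000000000003b7ffffffffff887800000000039448000000029d5ef7ffffff9b4ca4b800001143bac297fff3394f3cd897fc08373b4f0378000000000000080000000000002800000000000417fffffffffe2d4800000000736fd7ffffffeddc9958000000f0099fb7ffffa9946e83b7ffca15fa3e2bd809d0e0888d308800000000000007ffffffffffff37ffffffffff9438000000000a1017fffffffe37e218000000243a4408000002da6f1377ffff927b80fef80135ca646a2897d925d173fc6b9800000000000008000000000000080000000000000800000000000007ffffffffffffb80000000000a058000000005e2d9800000019e06d98000003980a279800003383dc78780000000000000800000000000008000000000000080000000000000800000000000108000000000117d800000000cfb11800000032ab42e80000056e80a7d8000034379971d800000000000008000000000000080000000000000800000000000017fffffffffffd07ffffffffff8138000000000c37f80000001bbb1d0800000b250d9d080001347349b1580000000000000800000000000007ffffffffffffe7ffffffffffffb800000000000b080000000002ffd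7ffffffff7a9cd7ffffff6a850fb7ffffca215bf297fffa039542b49800000000000008000000000000080000000000000800000000000027ffffffffffdf080000000009afa8000000096257d8000002d9d1893800006c191fb1c800066b5725b388000000000000080000000000000800000000000007ffffffffffff2800000000001fe800000000050cb800000000703917ffffffd4f9aa47ffffce7d0f9227fff89355d98ba80000000000000800000000000007ffffffffffffd8000000000003f7ffffffffff9af7ffffffffe2f1c7fffffff9387647fffffebf62574800006a25183a78001b25cc8b50a8000000000000080000000000000800000000000007ffffffffffffd800000000006147ffffffffe274a7ffffffff4c2067fffffefba74c6800001f5d7db3d80018407b2ca4e80000000000000800000000000007ffffffffffff68000000000005f7fffffffffd83e80000000061bbc8000000086b08f8000004c6e21dd800003db35069e7ff9a2ad21183780000000000000800000000000028000000000005b7ffffffffffd568000000000bb507ffffffff633007ffffffc0a74767ffffef84bd85c7fffb832edb2f0801a10c24b7617⟩,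
  ⟨222, 2, 67, 0, 0, 10, 55, 0x200000000000003ffffffffffee98000000000c864ffffffffa4501e0000001da6e47bfffffaddfcb477fffe79c1ddd4d001869ec7069c1ec0eab9c8c7ddffb5e82ececec97fffffffffffff0000000000054dfffffffffc8db4000000017f9ee7ffffff8b2098d00000108b5ae2e000088ba9b1cdbff8ff52b1b60d855bffdfc232b21c61eeba5ab5b200000000000004000000000000080000000000008fffffffffffdd6000000000037fc000000002016e7fffffff6a29a0ffffffbc3e1db9fffe58d6cb9d43ff751f69f93888000000000000100000000000005fffffffffffe5c000000000075a7fffffffff5030ffffffff7b813200000032715093fffffd43c25de80020549057f13010d738c0325ae00000000000003fffffffffffff7fffffffffff8b00000000005c91ffffffffd287a40000000e6995c7fffffe98e16e90000141409cc820014d362b0b04bf579c99c85c0b800000000000010000000000002a00000000002a9bfffffffff84f3800000002c2368fffffff944c7c1fffffec8900f8c00001b85ab4367fdf29b942e4eb0a485fb8b8d8920000000000001bffffffffffe748000000000f068ffffffff9c8c820000001c5bff5bfffffd0b4f7667fffd2d864519d001f7bcb06ddbde8f83c04f6817f1b2b3192e54448000000000000100000000000001ffffffffffffe40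00000000008b7ffffffffff50afffffffff63ac2000000015d1343ffffff3cd3de680005f06bf5da50022bfc6c2a2da00000000000003fffffffffffff80000000000072ffffffffffe232000000000242ec000000025519e7ffffff5e11a21000003c918504dfff9bcfbfff6a3fbeeebec8b266800000000000010000000000000600000000000243fffffffffe692800000000bde3cfffffffc7d8b2200000037eeada3ffffada3bf05b7ff918ad5763b30258ee4eb5638600000000000003ffffffffffff97ffffffffff4f5000000000201c9ffffffff51f7bc00000014941e1800000775afc68ffffe99e7827e2009a1d47be1a43db8fc90b4d5a980000000000001000000000000020000000000000400000000000007fffffffffffef000000000027060000000031906c0000001c2469b80000080813ddd00000ec79b79220000000000000400000000000008000000000000100000000000002000000000000540000000000f1b800000001afbaf0000000de8af5a0000032186256c00003fe5d6a0380000000000001000000000000020000000000000400000000000017fffffffffffaaffffffffffd93a0000000003e78c0000001bf7a32800001728f7df1000052cb2ab5560000000000000400000000000007ffffffffffffeffffffffffffee000000000004e400000000036557ffffffff2868effffffd9ebfbb5ffffe3e2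c95fe3fff9957e1508180000000000001000000000000020000000000000400000000000027ffffffffffb0b0000000001f74a00000004d4688400000312fac5e80000efe4567470001d3cf15055a00000000000004000000000000080000000000000ffffffffffffca00000000000fe4000000000541780000000132d86fffffff605c005ffffe6eb6f3dc3fff82fa7b3f398000000000000100000000000001ffffffffffffec00000000000407ffffffffff2eafffffffff93aa9fffffffc2c069bfffffe9404ed080000c99b4f61d0006fd370d98a600000000000004000000000000080000000000000ffffffffffffea00000000002ebbffffffffe62ff7fffffffcdd986ffffffbd3248da00000da00c98cc00187b1d59a368000000000000100000000000001ffffffffffffbc00000000000587fffffffffb90900000000128c0a000000058c775c00000501cc35080000a27ea3f70ffe6ae6758281200000000000004000000000000280000000000096fffffffffff7220000000004f2fbffffffffcf5d27ffffff7afb2e8fffffb7f5eddadfffd9f1ccdd63c0197ce923e9ba⟩,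
  ⟨228, 4, 68, 0, 0, 10, 55, 0x200000000002363ffffffffef817800000004b37e2fffffff03c9a6a0000025bb8556bffffdabb600747fff115e1e2d970059eea4079c6dda50dce4a82dcf870f6e38447e07ffffffffff4750000000004b375fffffffebc585c00000040bc4bc7fffff6fb97637000005a3f1cf520004c5b54c150bfe68ea6e297fc8a177fe8a5d56c3b9552577e380a00000000000003ffffffffffff58000000000032affffffffff8d7600000000033c4c000000024f2387ffffffcf152c6fffffecdf9710dfffcaae31caa23ff6b2a779214c7ffffffffffff50000000000040dffffffffff2c54000000001e4e87fffffffe3f786fffffff905fd6a00000139eb646c00000196caeeb800408ea708ac901198f9a8f9dda00000000000043fffffffffffad7fffffffffc4ed00000000124a1dfffffffbc57f1c0000009caefbf7fffffdc4ea6bb00004cb10bde32002b7b42ce1d4bf5f9820b021c88000000000008b0000000000122e000000000f8323fffffffea485680000003accf7cffffffd8aa1a79fffff2edb82c3400000512826227fbe69f9203257098385be16a8ae000000000039f3ffffffffead8180000000564dd0ffffffef8b14020000021bbe61f3fffffa5e91a457ffe844273fa510070d16b0bed3dd4bd0bdd2b84c695432b0ddf5db8000000000000100000000000035fffffffffff29c0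000000001c377fffffffff8e98ffffffff55d4ee000000033a8e3bfffffd3366c158000bcf6e9e2c50024f8475b331a00000000000043ffffffffffee080000000003868fffffffff8494600000000636cec0000001f534147fffffc846eb8d00000cc2e9d131fff3cd3bebc97bfbc9da4a4a4597ffffffffffff1000000000000ae00000000010efbffffffffb12ed80000001167032ffffffdb011badffffff967fb71bfffebbe59996c7ff1b76bba7e19022ecafb6e97e9fffffffffffdf3ffffffffffd807ffffffffc06cf00000000591ef1fffffff1e0118c0000003ec01d280000446be6fa2ffffcb169df1ea01328cd1bd953bdf29bd0534920800000000000010000000000000200000000000003ffffffffffffb7ffffffffffc570000000002446200000001a8dbd40000007f035938000012de670d90000120c9e2c0600000000000004000000000000080000000000000ffffffffffffe5ffffffffffffbc000000000a25d80000000e14fb30000003f67d9fe000007a8011efc000054bac1a5c8000000000000100000000000001fffffffffffff400000000000407ffffffffff6d6fffffffffcfd51fffffffffe9b14000000706a15d8000030f35c71900005bb99cabe9fffffffffffffbfffffffffffec7ffffffffffef8fffffffffffb8e00000000008dc4000000003ec5a7fffffffc01996ffffff64a6a1a5ffffc429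d0fae3fff8e769b9f648000000000000100000000000001ffffffffffffe400000000000cc7fffffffff34b500000000119c7200000027cccffc00000dad699c9800022daf6802b000234f13071e600000000000003fffffffffffff80000000000046fffffffffff0f60000000002072c00000000570a880000000d8c338ffffffde9cac95ffffccf9db1fcbfff797d6ff24e7ffffffffffffaffffffffffff7dfffffffffff5c400000000011747ffffffffe4362ffffffffa1c7adffffffdcb3518bfffff9266d78f800016daf4db25000745688a5a4a00000000000004000000000000480000000000002fffffffffff83e00000000055463fffffffeb6e177ffffffd58fb6afffffee19cf34a000014c82d320c0018c34693a9f7ffffffffffffeffffffffffff45ffffffffffe56400000000012427ffffffff890cb00000000ae46460000003758beb4000015cc4f5bf80001c2468c57effe6f6eb24883a0000000000003c00000000001148000000000364afffffffffe51e2000000007ac5740000000537bc07fffffbe6f3102ffffeba67fcb61fffacb213245cc0188e01e51896⟩,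
  ⟨236, 4, 69, 0, 0, 10, 55, 0x2000000000029dbfffffffff3ceb800000002f82e2fffffff6d6a16a000001369e0d33fffffd6bb4b387ffeff582af8d1004e306df2fa99dcf1e65321819ef5b4579035b787ffffffffff3ff00000000035611ffffffff38852c00000024a614c7fffffba152846fffffd8befc4320004d77e676083fea31a4518bb2895a78f5eb3c76626f8d2a5eba9a00000000000003ffffffffffff6800000000002ccffffffffffa0120000000000bda4000000027599f7fffffff5428dafffffeb77469adfffca0e5be275bff5dc2456914c7ffffffffffff30000000000041dffffffffff26ac0000000020a637fffffffda91bafffffffa8c39aa000000d8850de400000dd93a9d980040cf7017bf30129b9540562460000000000000c00000000000217fffffffffd133000000000c883dfffffffd3430140000005754f6980000053ee6d3500004e17a698be002de2ac699543f6ac3a08504c480000000000071000000000004de0000000009b643ffffffff2dc5e8000000215255300000011428d25fffff267a00003ffff618cb1d047fbe43dfb73e0b087cfccebb96c200000000003653fffffffff185b8000000033e9bafffffff6f32f76000000f11bd404000017b82df867ffe8f3d134fd9005f29497ce049d7fc9bc3a26ab5eee59f78b55ad8000000000000100000000000031fffffffffff4440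0000000017608000000000272affffffff5339ddfffffff881b9bbfffffd19f83238000bb8f9dcb7f0027e958a664be00000000000043ffffffffffede800000000039aefffffffff7adda000000008ad9ec000000188450e7fffffe3a913d900000ad63c9d7dfff42ac614848bfb99cf693129080000000000000ffffffffffff1a0000000000ce63ffffffffcb16c80000000b4a4aeffffffecaf7a95fffffdde2f589bfffeab879bef47ff112222bf04d01f460daf4a765fffffffffffe5400000000000017ffffffffd8c770000000034ba7dfffffff85914fbffffff693ebf58000040ff24488fffffdf34926f60131b2c107957be3f1b417e95bb800000000000010000000000000200000000000003ffffffffffffb7ffffffffff9ed0000000001e3c600000001ca6cec00000093bd11d8000017285baa70000174a02065600000000000004000000000000080000000000000ffffffffffffd1ffffffffffee340000000000a0380000000e6fc7b0000004a25cda6000009ce09841c0000778a2ae068000000000000100000000000001fffffffffffff400000000000407ffffffffff84efffffffffc5485ffffffffc9277c0000006f232e88000034733d13d00006866a5feadfffffffffffffbffffffffffff27fffffffffff46fffffffffffb3e000000000079ac0000000048615800000000395c0ffffff63333a95ffffbf47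1ccc53fff7ee4f790168000000000000100000000000001ffffffffffffdc00000000001237ffffffffef258fffffffff95682000000282ff4a400000f8ef60b080002a29db57790002ceaa83fa6200000000000003fffffffffffff8000000000004affffffffffef96000000000227640000000057725800000012f828cffffffeada6f35ffffcc1d0174e3fff6c9e40b7117ffffffffffffcffffffffffffadfffffffffff67400000000013457ffffffffe18a4ffffffffb9b175ffffffd7961b83fffff75d8344c800012fe806f0d00079967b4ef0e00000000000004000000000000280000000000012fffffffffff96e0000000004a79bffffffff1a8c37ffffffc42d2defffffebae026e600000b42d10ff4001903c4121ae7ffffffffffffeffffffffffff99ffffffffffee6c0000000000cfa7ffffffff9f911000000002794860000003de1af240000189418081800027b941f8c0ffe77e2f90d4b20000000000002400000000000978000000000221cfffffffffed726000000005a80e40000000d953a67fffffc80c3538ffffe8c507934dfffa1c820f5e8c0172b717dea90⟩,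
  ⟨244, 4, 70, 0, 0, 10, 55, 0x200000000002103fffffffff7ff6800000001c746cfffffffae41dea0000008f78985400000e8768cb57fff0666f1227d004241ed12ec41df33758e6b83466e1ee9b2503597ffffffffff6ff000000000221d5ffffffff8b2c1400000013cccd87fffffe34e9ef4fffff9dbb43eb200048e761da1ebfedbb87e3f05288ba5297fc7a0c868fb2a0c35ee600000000000003ffffffffffff680000000000292ffffffffffaa4dffffffffffb574000000027a9ba80000001ca3b9afffffebe25c8e5fffc96a87b2243ff503150053527ffffffffffff100000000000429ffffffffff221400000000229097fffffffd2ed3cfffffffba2a2220000008c1619840000160e9489480041616fefd3b0139fe1340ac51fffffffffffff4000000000003b7fffffffffdef300000000084151fffffffe2a683400000029b0a3b80000092d7defd000053adced8a6003067cd822a8bf768bffe294c38000000000004effffffffffffb20000000005d873ffffffff8387280000001213bfd00000030c4548dfffff4914486d3fffec96c3890a7fbdcd8693948307753906bf280e00000000002743fffffffff6fad800000001db36afffffffb4a3c1200000050c599ac0000239e79c067ffeadf20b128b004e8ca053128ddab27c1b352f4d547021e2a1e8c800000000000010000000000002dfffffffffff54c0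0000000014be800000000063d0ffffffff587c01ffffffede7c72bfffffc801d3b28000b9fb6eea43002ad4886721920000000000004bffffffffffedd80000000003a8cfffffffff7370600000000a953b400000013b1f0f7ffffff939f0ef00000a0d7c52a9fff47da9341b73fb6b22591bf3d80000000000004fffffffffffed600000000008e23ffffffffddbea80000000743308fffffff8199ef9fffffd0b29f413fffe8c49a53177ff0607f53b73901b74b5901dbd1fffffffffffed400000000000c57ffffffffe8bb3000000001e7dfdfffffffc221a6bfffffef8aae5d8000033a974d5100002a227d8e1e013259cd1717abe8b9572565819800000000000010000000000000200000000000003ffffffffffffb7ffffffffff71100000000014e6200000001e45d14000000a9df1e9800001c1dfc4b100001daf1c5e2a00000000000004000000000000080000000000000ffffffffffffb5ffffffffffd81bfffffffff359580000000e14a7300000054e80db200000c4a6da54c0000a39e5f3e38000000000000100000000000001fffffffffffff400000000000427ffffffffff986fffffffffbc5edffffffff8a01cc0000006b1f0f98000037de3f1e7000075f180937600000000000003ffffffffffff77fffffffffff84fffffffffffae200000000006acc0000000050dea80000000501210ffffff6520bad1ffffba66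0914f3fff6e1a4a54468000000000000100000000000001ffffffffffffdc00000000001877ffffffffeaaeeffffffffd98cba00000026d3b1340000116b2e4e78000326910ebeb00038780eb45ce00000000000003fffffffffffff80000000000050ffffffffffee2e000000000242bc0000000055fb4800000018596e6fffffffb2849a5ffffcbb25c1a93fff5f957424777ffffffffffffeffffffffffffd1fffffffffff71c00000000014f47ffffffffe00e4ffffffffd5e63dffffffd41b2343fffff560a24c980000e2fc793230007dc1931bef600000000000004000000000000180000000000012fffffffffffb5a00000000042273ffffffff722797ffffffb8a0a6efffffe8955c9a2000000596db27c00191b80d9f1580000000000000ffffffffffffc9fffffffffff514000000000094a7ffffffffaf95cffffffffb90c4e0000003ccbcb9c00001b7b10a17800034bd99caf6ffe836a139607a00000000000014000000000004f80000000001480ffffffffff1efe0000000043347c00000013c5a327fffffd8e0f7d0ffffe684666569fff95920e19bc40159a862ba59b⟩,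
  ⟨252, 4, 71, 0, 0, 10, 54, 0x80000000000b5dfffffffffb0c78000000020ecd5fffffff51676980000019fefe86000015cb7f7dc7ffe325005f61a00dbe05644599708be34f36100feed3801c5cf257ffffffffff3ea000000000529c7fffffffdefb7a0000000a1f1f27ffffff22336a9ffffe23de8e6080020fc76d8975ff0fe11310351906ae152ebb664a19a1c1fed1fb80000000000001ffffffffffff7800000000004c5fffffffffec7c7fffffffffa5ee00000002720dd800000087b39d5fffffb89745137ffe468b78dea9ff42786e472427fffffffffffe200000000001057fffffffff922600000000232527fffffff9d108dfffffff121a2080000026b8a79600001b086e5e0800844f7b784560529b9977e32f7ffffffffffffa00000000000387fffffffffd3fe00000000155827fffffff6581160000000bba6098000015904fe1a00016d1f3114f8019916c2213f5f82fc0f47e3b580000000000065fffffffffff758000000001b15dffffffffb697c80000001227c2a000001057b7ca7ffffc18b09b79fffe54f3cdb437f7a269a0bb5a219ac38808789e80000000000cd1fffffffffaa808000000020ba61fffffff6e52ed7fffffffe5a1fa000026638b1b97ffda6f223edb200fe49c4cce126e74e5a9a7ee6ac3d0a2a8d52fe80000000000002000000000000a7ffffffffffb1200000000012c98000000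000f725fffffffd834be7ffffff1deefadfffffb697b3e580016ff5d0efa200b6e28e2a76080000000000025ffffffffffee680000000007319ffffffffdc737800000005cc7d600000010bd9d680000015e12d8e000028ba0cc817ffa67062dea15fb3db96732b7680000000000009fffffffffffc080000000002e69ffffffffea33c8000000095b3ddfffffffdc524f7ffffe65e627c9fffe66de5283d7fdf3ad125625605dd35a5090627fffffffffffa200000000000ea7ffffffffe570e00000000462067fffffff282841fffffec2a798d800004293b5556000128cd975d4809a1a2d22b8f5ed861dd52edda80000000000002000000000000080000000000001ffffffffffffa7fffffffffe7b20000000001f0280000000f98dfe000000c0f9165800004391cce46000095a07a72380000000000002000000000000080000000000001fffffffffffe57fffffffffdeb9ffffffffe22468000000198b5de0000017c3c3bd8000078d7864fe0000da4dfda328000000000000200000000000007ffffffffffffa00000000000437ffffffffff591ffffffffed3ef7fffffffa15a9600000063f2bfa800007639814ce000211484968e80000000000001ffffffffffffa7fffffffffff69ffffffffffea880000000002dbe00000000585d980000001491869fffffdab53ddd7fffdad19e311dfff5c1a7fe3a68000000000000200000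000000007fffffffffffea00000000001f37ffffffffcc6b9fffffffec7edc800000119e55fa0000132a39fb18000772069c45e00118ca37745980000000000001fffffffffffff800000000000a5ffffffffffb498000000001240a00000000539b280000003b362420000003dd319b7fffe5ed183c81fff5283a2f3a87ffffffffffffdffffffffffffb7ffffffffffbea00000000016117ffffffffc1605ffffffffd6bf97fffffe9407095fffff344f5757800010b3f461aa0020261b1aff780000000000002000000000000080000000000019fffffffffff388000000001e391ffffffffc10c67ffffff6487859fffff944726027ffff9e3325c320019045696ab680000000000001ffffffffffffa7ffffffffffcd6000000000074a7ffffffff771e1fffffffd6fdf68000001aafeace00001e2de7580800086571f9399ffa49800dc94e80000000000006000000000002580000000001749fffffffffcf32800000001819d2000000184e4f17fffffde15e54dffff94bd938d27ffc439f45a3be013d6cb1582d5⟩,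
  ⟨260, 4, 72, 0, 0, 10, 54, 0x80000000000755fffffffffd0a5800000001288a1fffffffa82c0880000002287d62000017c8d37967ffe608242437200b2ba673774c7152d40a7d6da37669cd2a0280a7ffffffffff85e00000000030657fffffffede88e00000004be95680000007a49e5dffffe1f6ce9768001d36dd24e85ff3e8883f920e8f928f0a66d4692170c32c1d4ff80000000000001ffffffffffff780000000000455fffffffffee9d7fffffffff856600000002631d58000000d4a93e1fffffc8ef35a27ffe428e10fef5ff349c26126887fffffffffffe600000000000f47fffffffff98060000000021eb87fffffff9c6aadfffffff21a7f68000000adbbace00001d43ad3228008615503203a056c5151666c67ffffffffffffa000000000002c7fffffffffe3b6000000000dbd07fffffff9943f5fffffff7eceb28000015b544d4600018de25a8e8801b0ee8d2b39df9022c665c1168000000000003dfffffffffff558000000000eef9ffffffffd3f7980000000778c1600000124aa2b27ffffe474b1d65fffe10f7a78e17f785530c82ba61576550f12b0f800000000007e9fffffffffcef480000000116135fffffffc27ce37fffffed4a2c5e000024b72c4de7ffdf287d3e5b200c98257716926f58345b66275a3b28396eea2df80000000000002000000000000a7ffffffffffb8e00000000010a28000000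0011681fffffffdaa9607fffffed126499fffff9dc3087680016aa23d09e600c24df7534d680000000000021ffffffffffefb80000000006c19ffffffffdde97800000005c7a620000000f6763e8000003523c93200002c56a38967ffa91507c3ccdfb11985595b5580000000000009fffffffffffcf80000000001d55fffffffff22be8000000061329e00000010c06027ffffe75c88561fffe40ded47ed7fdd8e8f68cf1204d07486541a27fffffffffffc600000000000d97fffffffff195a0000000028fb57fffffffc990c5fffffeae64a2680000196128fa200016e158284b809b6ac6b0bc25f25c0369e5de280000000000002000000000000080000000000001ffffffffffffa7fffffffffe0d5fffffffffd9b880000000f95302000000d86cf3480000505d030e60000ba8c898c880000000000002000000000000080000000000001fffffffffffdd7fffffffffcf75ffffffffcd46e8000000148b01a0000019f31e468000091bcf381e00011cdbbf9d78000000000000200000000000007ffffffffffffa00000000000427ffffffffff89dffffffffebd4d7fffffff7a6d060000005945c9c800007c282332e00024de7cfbfa80000000000001ffffffffffffd7fffffffffffb1ffffffffffea6800000000023de000000005ea0680000001ffe201fffffdd2a68857fffd88f2df2d5fff48f10fb0928000000000000200000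000000007fffffffffffea000000000025e7ffffffffc4519fffffffe0cec38000000e78dbfa000014ae75dd080008b1309e83e0015946e0607280000000000001fffffffffffff800000000000a5ffffffffffb35800000000114f20000000050f00800000045692ae0000009e8e0027fffe65a032a51fff45916155868000000000000200000000000007ffffffffffc5600000000016497ffffffffc8492000000005fef67fffffe97be341fffff1224d30c800002e71c07ca002075f44f50c8000000000000200000000000008000000000000dfffffffffff718000000001c456000000000a08e7ffffff6145ce1fffff857a88687ffff2b1a7b3a20018b74801b9380000000000001ffffffffffffe7ffffffffffe62000000000069e7ffffffff8b665fffffffc3298c8000001449e432000020669234d8000a5ae2bd111ffa9469a4465a80000000000006000000000000e80000000000c21fffffffffd07b800000000f42760000001b6739b8000001206d4f5ffff93f2865217ffbd78f58ceae011dd9f4d71c1⟩,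
  ⟨268, 4, 73, 0, 0, 10, 54, 0x80000000000481fffffffffe46a800000000a2405fffffffd83d1e7ffffff6a39eae0000171b095147ffe8fb255afde008dffad34dc271f2d29629cbf30398e3c76cf937ffffffffffb660000000001b9f7ffffffff6700200000001da9c080000011172b45ffffe40213567800199284fbb3dff679749b2c028ee613951d27419b37ef971ca4b80000000000001ffffffffffff8800000000003c9ffffffffff1697fffffffff5a8e000000024e2f280000011f75a11fffffe065b1be7ffe3fcf610c8dff26a4a18aee17fffffffffffea00000000000d87fffffffffa30a000000001eb077fffffffa4cf39fffffff1a60617fffffef5c233600001ceed425380087ea4b9f79205afd1738cd987ffffffffffffe00000000000217fffffffffee460000000008ed87fffffffbab325ffffffeaabadb8000013d0eb68e0001ad3bdde2c801cacb4d2dc9df9e105ef903ef80000000000025fffffffffff59800000000079cdffffffffe45dc800000000f02660000012eb10c58000009d603e89fffe038804d847f765ac35c6e2e11311dd9fdd48800000000004b1fffffffffe4a18000000008cc59fffffffee20127fffffe64ceb0200002124032597ffe38910374c2009b95e3ab5af700a345448eed5b8d077e3fcdf28000000000000200000000000087ffffffffffc2e0000000000dd88000000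0014189fffffffdd7d8b7fffffe8990f2dfffff7df880c98001638909c51600cd87f7a0fc38000000000001dfffffffffff1b80000000005fddffffffffe163f800000005331460000000f67436800000533b2f92000032cb80b007ffac0a5e447cdfae6dbde7507680000000000005fffffffffffdd80000000001211fffffffff720c800000003fbf720000001d225cc7ffffea4897f7dfffe1de94bc267fdbbd959e355e03b5bc6f5e8f47fffffffffffde00000000000b87fffffffff8c9600000000192398000000029d095fffffeade0d827ffffeefd58f960001745e062e0809ce14df08a21f73d2f8be38a580000000000002000000000000080000000000001ffffffffffffb7fffffffffda15fffffffff834e80000000ef5bde000000ef6ac27800005e9cfe2420000e63bb317880000000000002000000000000080000000000005fffffffffffd77fffffffffbf0dffffffffb5a9c80000000cbfe4a000001b89a4a780000ac8aea08200016c5cb72ae8000000000000200000000000007ffffffffffffa000000000003f7ffffffffffc71ffffffffeaf427fffffff512d1e0000004ad48f380000814e1e14e00028d4f0069680000000000001ffffffffffffe7fffffffffffe9ffffffffffeb78000000000164a000000006326280000002c199f5fffffe0ba61e37fffd67cd0e735fff34b1af92b48000000000000200000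000000007fffffffffffea00000000002bd7ffffffffbe28dfffffffd3c57080000009c6200e000015d4ea4a18000a05e1dd9fa001a416dddc0080000000000001fffffffffffff80000000000099ffffffffffb5f8000000000eeb6000000004e6aa80000004f4bca60000010e532f57fffe72f387bbdfff38ef07694e8000000000000200000000000037ffffffffffcd2000000000155b7ffffffffd5e1600000000ec8417fffffeacd4371ffffef124cc2d7ffff2fec128fa00204eec4405980000000000002000000000000080000000000001fffffffffff818000000001abb2000000004ec127ffffff66dca6dfffff76caf8337fffea93209c0e00182cf7ed9f68000000000000200000000000007fffffffffff6200000000006d87ffffffff9f43dfffffffb275388000000b9b81de000021e9806778000c6e7953901ffaef7eec5d6780000000000002000000000000280000000000569fffffffffceea800000000649ee0000001d1aa498000004ac4d415ffff98454235d7ffb6d39a8f0ba00faea37f400a⟩,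
  ⟨276, 4, 74, 0, 0, 10, 53, 0x20000000000150ffffffffff060800000000aad93fffffffc82cc1ffffff8ed5e3300001534f6cad7ffd7843d024ec01b65514661a19382211ccb56d953ad9ee388d17ffffffffffab40000000003d2dffffffffd9aeb000000005d4158000002855e633ffff9be7d27de000b208138b50ff8b6a0405d3d9cbffce8a038f440e15e0b16c7e0000000000000ffffffffffff980000000000623fffffffffd43dfffffffff8b91000000023049f8000002ce6b843ffffffaf3e655fff1f5fbfe4d6ff189d995c2f17fffffffffffdc00000000002c5fffffffffd973000000001974d7fffffff6d16ebffffffbff2a05fffffe8c5dea3000019f30dcdf801134a1743ba417d0dd1f71979fffffffffffff00000000000177fffffffffea540000000017cf1fffffffe85498ffffffe1ac3b480000211a9535c00072299b33be00f3407534faefacd46b1a42f380000000000023ffffffffffdae0000000001a7affffffffed41b7fffffff9618d4000004adcc31a000017ca51428fffe2ea5383637ee8de42e291d43370a2b52c00a0000000000154ffffffffff13b80000000083a2400000000dc89dffffff298beab00001cfcbdfd07ffced71a89cfc01cf780555e3d848b8fa3130403b5989647bad580000000000004000000000001dffffffffffe790000000000a438000000003063bfffffff837f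e5ffffff240946efffff57bed96f8002b47de6326c036202bdb3526000000000000cfffffffffff4580000000009d93ffffffff9b55600000002078bb0000001071474800000e52421d40000f065cea95ffd7bed1d1a1cfabdb7a974cd68000000000000bfffffffffffa2000000000056efffffffffa24a80000000540f9c0000009520bb5fffff73c22d44fffe00597265d7fb398619bda9c0a2fdd0a7a629ffffffffffff700000000000957fffffffff9e24000000004350a0000000339a42fffffeb977a1d7ffff8ab283f5c0004edc1934ce04f1f352695fcfc29d466d58488000000000000400000000000020000000000000ffffffffffffc7fffffffffa863ffffffffc73ae00000006cc86500000104ef79e80000dc851039400046594e307e000000000000100000000000008000000000000bfffffffffff49fffffffffd768ffffffff9d060800000003d6d4400000710352f600006442e9da70001c99934c7f800000000000040000000000001ffffffffffffd000000000003980000000000263ffffffffaaff1fffffff93671d0000003875340800010adb70dcc000b3c28d5f6a000000000000100000000000008000000000001bffffffffffb7a00000000001f300000000653b9800000071446d3fffff95ca9b75fffea5654098cfff1f78e860ac800000000000040000000000001ffffffffffff500000000003007ff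ffffff76753fffffff18d46a0000001b379c900001676a667280016d2149a97c007e72f26015e0000000000000fffffffffffff80000000000113fffffffffef4a00000000056c7000000004c5388000000b1d31fc00000632b2125ffff43dc2f8b2fff2cd472cd01800000000000040000000000011ffffffffffeb1000000000131b7ffffffffd570c00000005cd509ffffff6990c46ffffed2f296677fffc23555b63c007e8251f914e000000000000100000000000007ffffffffffff3ffffffffffdbe000000000c959000000008facc7fffffee99bcdbffffda41aed39ffff0c7f7e6d700175e1729c6d800000000000040000000000005ffffffffffffd00000000007977ffffffff6988bffffffe93ebda000000084c4db000022849bfd38001d26795e9cbfed6dfd1aef820000000000000ffffffffffffd80000000000353fffffffff336dffffffffe74c90000001d5d8438000010af7757bfffe881ceea15ffd84f530756f00d4c046ee638⟩,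
  ⟨284, 4, 75, 0, 0, 10, 54, 0x80000000000171ffffffffff7868000000002a2c1fffffffff4a617ffffff09ed0ae000012de472d87ffee43d31e5ea0051231b954e872cf501a2ce72e2a4c206b1f5117ffffffffffe9600000000008137ffffffffdd409ffffffffa5823800000140c277dffffea2557da6800135306dc261ffaa8c57ce8cd8dfb5761416fce8190eefdac07280000000000001ffffffffffffb80000000000235ffffffffff9827ffffffffeb742000000020520e8000001aa8cfd600000239ca69b7ffe3fc9e21c71ff0a96357bd747ffffffffffff200000000000837fffffffffc6ca00000000126c97fffffffd133adffffffed64dc87fffffaf3c5fd2000013fee3c8b8008b18dbeaa3206396ab9c5b8c8000000000000200000000000107ffffffffff992000000000425f7fffffffdf964dffffffdb83017800000c5a0ab0e0001de6c837ab80203c1eae67a5fbc7c8dfa2b3280000000000009fffffffffff8380000000000de9fffffffff1f247fffffff9aaa660000011f3b16b800005453b5e95fffe91c47d6f27f72cabde843420878ce0f4d3e080000000000165ffffffffff87680000000019f1a00000000ccc157fffffe6d8938a000018e7c6c847ffeac9229c36a005195ddaf3bb70f3c035ba3b28c1852aa12d0738000000000000200000000000057ffffffffffdda00000000005f38000000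001dbd5fffffffe50c2e7fffffe0dfe4e1fffff2bb72d3080014e61e5a15600e3250899a2480000000000011fffffffffff77800000000039cdffffffffedfe780000000267126000000122f68880000094efc33600004873ebbd57ffb39dcb5aab5fa9676489de6580000000000005ffffffffffff080000000000655fffffffffbf05800000001b62920000002aa2c0d7fffff37d0a37dfffde9bc122a87fd7c09ad0beb601523987870c27ffffffffffffa00000000000747ffffffffff3ee000000000c9f880000000929ba5fffffecd219ca7ffff9db0b8cc60000c569199f1809f43cc91a4c201202bfc5b35480000000000002000000000000080000000000001ffffffffffffd7fffffffffd015ffffffffea9d380000000b61eee00000117c8895800007f2cb58aa000154b4739d980000000000002000000000000080000000000005fffffffffffd17fffffffffa0adffffffff85fb37fffffff414616000001bcf488a80000e4a99b65e000234e9bd8d88000000000000200000000000007ffffffffffffe000000000002e800000000006d9ffffffffeb5d07ffffffefccd0a000000221e12d800008847937e6000312866d8a580000000000002000000000000080000000000025fffffffffff1c7fffffffffec1200000000640be8000000453d699fffffeb5969657fffd3317508fdfff096c80726f8000000000000200000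000000007fffffffffffee00000000003167ffffffffbcdadfffffffb959337ffffffb5cf64e0000166b385338000cd11ab1e7a0025ab4d014f580000000000001fffffffffffff8000000000006dffffffffffc9380000000005006000000004ab03800000062530020000021939cbb7fffea4d4d75d5fff2180cc1db18000000000000200000000000047ffffffffffe0a0000000000f7580000000006a1600000001e95ed7ffffff093af1dffffeb91f46ab7fffcd746c3416001e5be4ad1008000000000000200000000000007ffffffffffff5fffffffffff468000000001740a00000000cc4d87ffffff8a9a4b5fffff5cf074277fffd7bcef6b32001643cbb4a598000000000000200000000000018000000000004e000000000088c7ffffffffccf09fffffff9b12997ffffff5004bca0000220f8c98b80010b95f5c5f1ffbd8b692448880000000000001ffffffffffffb7fffffffffffddfffffffffcbea7ffffffff3370e0000001c210cb800000bf3b1de9ffffb144bf03e7ffab31cc582fe00abaa39dd311⟩,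
  ⟨292, 4, 76, 0, 0, 10, 54, 0x800000000000a9ffffffffffbc18000000001242a00000000596577ffffff127e37e0000107de6e737fff0795b4e38a00383a83045dd7313b839ef722dc1e8db86e204c7fffffffffff5e00000000003e47fffffffff3a75ffffffff580568000001275b51dffffed2a7af6780010c8aede795ffc595092b8dd8db3b95875106af03b2db5bdf6880000000000001ffffffffffffc80000000000141ffffffffffe8b7ffffffffe3ea600000001c87368000001e790f06000004e84fbf97ffe43534da9bdfefca0e06d57b7ffffffffffff600000000000517fffffffffdd6e000000000a00d7ffffffff37001ffffffea3c7697fffff86e5d07a00000a93af2848008c1272c160a067f3bd3700f180000000000002000000000000a7ffffffffffc5a000000000313f7fffffffea4985ffffffd7531fd800000782fa21e0001ed62fe20d802222a16db7e5fcd139e4320aa80000000000001fffffffffff9a7ffffffffff909fffffffff465c7fffffff748b260000010c4fed980000771c4df2dffff2aa441b397f71a498ceed42040a25758c58c800000000000a1ffffffffffc91800000000057ce00000000fef3e7fffffe99b3a7e0000152ee5ac27ffeda96599fe60033faa8e4bc371362c780cfdc44a409829a7bb28000000000000200000000000047ffffffffffed600000000001248000000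00244fdfffffffea34fe7fffffddd1a899ffffefaa7eb4780013f9afbc33a00ed5f0797bed8000000000000dfffffffffffac80000000002251fffffffff66dc800000000542e60000001439e8d800000bb5bc6fe000058309d5e37ffb89e29c9101fa717ac900ab180000000000001ffffffffffff680000000000389fffffffffcfbc8000000010e8d60000002e0e44b7fffff90c752d5fffddb158bf017fd5a2519696b20007ceff4f3ac7ffffffffffffe000000000005880000000000706000000000a86b80000000b4ff29fffffee6d14767ffff78e18dfda000015effe3b0809fb6135ed7e2061c88853b04d80000000000002000000000000080000000000001fffffffffffff7fffffffffced5ffffffffe2fce8000000083c31e000001269db6680000912632be2000198bf4626980000000000002000000000000080000000000001fffffffffffd57fffffffff96f1ffffffff73fbf7ffffffe3a33120000019f091f780000ffaa7e2ee0002ae12ac1de8000000000000200000000000007ffffffffffffe000000000001f80000000000d41ffffffffeceda7ffffffed4ee9200000007eca8a80000899ce62e600035711030e98000000000000200000000000018000000000002dfffffffffff707fffffffffcec2000000005eb6080000005175059ffffff26b16767fffd21e11cbf1ffef2bbab88268000000000000200000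000000007ffffffffffff200000000002f07ffffffffc42e5fffffffaecdb47ffffff1d775520000158c5d7f08000e320873f56002c6caa0045280000000000001fffffffffffff80000000000049ffffffffffda07fffffffffd802000000004919580000006b92912000002b3b14a47fffecb29cacd1fff173a56e7448000000000000200000000000047ffffffffffec20000000000a76800000000286ca00000002433c47ffffff4c4c075ffffea508f9927fffb85d3f7772001c7401d476f8000000000000200000000000007ffffffffffff1fffffffffff0f80000000014c32000000010374c7ffffffa7a706dfffff533db8717fffcd3abece5a0014d811fd7838000000000000200000000000018000000000007200000000009767ffffffffe7ffdfffffff952cc97fffffe7f8f7f20000206cb5ab480012cee2a144dffc66e90ab3b280000000000001ffffffffffffb7fffffffffff4dfffffffffcd1e7fffffffe9851a000000195eb78800000f4fba5e5ffffc5c25a3da7ffa6e34b72522008021d544d61⟩,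
  ⟨300, 4, 77, 0, 0, 10, 55, 0x20000000000005bffffffffffe3780000000002b1d000000002082f5ffffffe4f81edc00000e451dc687fff9327e80ce900089a8a6ae211e6819a3f4746835b497aa3d130c7fffffffffffe900000000000609ffffffffffe573ffffffff41c9680000008294938fffffbf8c004920001d34d696bc3ffdd147a0381086c2a9ee629be95743ee6cc22bfa00000000000003ffffffffffffe8000000000002300000000000f35fffffffffb6dc400000001771bc80000010dede3f000001fb08d0adfffc936df72dd3feeed306dae4a7fffffffffffff0000000000007dffffffffffea540000000000cc6800000000d7404fffffff9bf1c05fffffeafb5ca03fffffd175a4a9800462ad2a5ddb01b157b5133c760000000000000400000000000067fffffffffff0700000000009d51ffffffffe502abffffffd49938180000011f2a58b00007d2fb6f6ea004828b60a7f8bfdea10eca17ed7ffffffffffffefffffffffffec1ffffffffffde3bfffffffff5c1d7fffffffa9f1c30000003cf90a02000012e5a5b3cbfffff5bd1b6d67fb898638529bcffe53ce080925600000000000063ffffffffffed47fffffffffdcf300000000400199ffffffd9443f04000011eba52057fff80ce560837000696868d22f5e2ba11aa19b9a9d49e81550b1e38000000000000100000000000009ffffffffffffb3f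fffffffffc3080000000015970ffffffffc1d475ffffffb6eff793ffffec58654ff800096d09180c3003dc58bc0bbd60000000000000bfffffffffffe180000000000506ffffffffffe105ffffffffbfbf4c0000001615f5980000072fb3dc100001aecf9dd5dfff7d7001664e3fa4f43534ec0f80000000000000ffffffffffffea000000000003b3fffffffffd93280000000046a810000000c02c945ffffffde2cf6dbfffdd50c02df37fe9bcd2d518d2ffab10b8ef0eb2000000000000040000000000041800000000007cf0000000002594e00000001a59063ffffff057e5f37ffffabcd0e330ffffcc747f7246013ebc3b3531040b19716d7f54180000000000001000000000000020000000000000400000000000017fffffffffe8bcfffffffff6dd4600000000843c5400000130027de8000051f1b4ccb0000797ed980b600000000000004000000000000080000000000000ffffffffffff7dffffffffff2833ffffffff6b0367ffffffe8bc13500000059be1a86000022ffdf80240003342267d928000000000000100000000000001fffffffffffffc000000000000e80000000000a06fffffffffbe231fffffffd6264a3ffffffea2bd29800004499116e50000e6f627257600000000000004000000000000180000000000018ffffffffffff55ffffffffff59ac00000000546a380000002e5ba1affffffea5edc81ffffa309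7f0b03ffedb9eec704f8000000000000100000000000001fffffffffffff4000000000027d7ffffffffe8f20fffffffea1b481ffffffce7b52e4000013bad016080007becadaa01000cf671ee02c600000000000004000000000000080000000000010fffffffffffbadfffffffffe96d400000000469d780000003a4e5a1000000d6f3057dffffdf7277342bfff0e4e4bf8bc800000000000010000000000000dffffffffffff0c000000000045580000000026e03000000009db9f5fffffff304f6e3ffffe97b8e8ce7fffd11ce298eb000677bafbd4aa0000000000000400000000000007ffffffffffff6fffffffffffb4600000000023284000000013387e7ffffffe596054fffffd324e5a45ffff8469b03c3400131617899238000000000000100000000000006000000000000e40000000000a2480000000002c0efffffffe4ed609ffffffb4f59b7400001d8a810df8000a602635924fff415122135b600000000000004000000000000180000000000006ffffffffff4691ffffffffc0a514000000152024580000091dbfb14fffff7bef0961dfff4806c6868fc0052caadbe383⟩,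
  ⟨308, 4, 78, 0, 0, 10, 55, 0x1ffffffffffffd3fffffffffff9b7ffffffffff6310000000022d535ffffffe82c422400000c48244107fffa0692e7db90003d1ee005af9e6b2e21f53b482f5bf33f29f8b080000000000005000000000000ce0000000000959bffffffff46c58800000070d3162fffffc90d6376a000197b7bf5ba3fff18d17b558a86b6701aae9ec97232b96062550e0000000000000400000000000007fffffffffffa900000000002345fffffffffa5dc4000000010fefb8000001225eb23000002cd8c0e35fffca6860bdfc3fee144bd4cc5a80000000000000ffffffffffffc20000000000181bfffffffff795580000000221ab4fffffff90f044dfffffe450a6373ffffeaeb8026c80045ce310804301c2d9dbf11d320000000000000400000000000037fffffffffff89000000000086ddfffffffff299dbffffffd308f817fffffe5ad1f2900007cff05171e004c12d34b1673ff1288805216f7ffffffffffffeffffffffffff09ffffffffffd75bfffffffff6af47fffffff9b442f00000035a8a9ee0000167c3aec3c0000ee7d70a2c7fb8cfa6b6671afec7e37bad21b9ffffffffffffd400000000000097fffffffffbb7f000000003ab8c9ffffffdf0cb90c00000f1f9b89b7fff914a5092ff000105e655c2c9e2d7ff8d41e2d15fd17946920bf80000000000001000000000000020000000000019bf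fffffffff78880000000018adcffffffffdf0ef5ffffffb3eb99cbffffe8d7b92a280008c1e1c9eb700400bfe9e6e4a0000000000000400000000000127ffffffffff97900000000021f1dffffffff73505c0000001735bf680000089e88607000020d659e9adfff8c55674f443fa306c3f40ae280000000000000fffffffffffff6000000000001bbfffffffffde6a80000000010c5f0000000c3895da000000a0619db3fffdd800004ae7fe8a7b4b29952ff4fd94a1b71420000000000000c000000000002e8000000000090d000000000225aa00000001db9123ffffff28998857ffff9d382ca66ffff87b357d53a013c1425932ff4100fc99a3467580000000000001000000000000020000000000000400000000000047fffffffffec70fffffffff52cf9ffffffffe4102c000001328f6ab800005b80fea4500008f2cc2347200000000000004000000000000080000000000000ffffffffffffb1ffffffffff3493ffffffff6efa97ffffffdf79cbd00000044c83f860000257e9e520c0003c5574e9a7800000000000010000000000000200000000000003ffffffffffffa80000000000d5cfffffffffccd15fffffffd276d8bffffffc9581a5800004368f999d0000f7fbe1a1c60000000000000400000000000018000000000001900000000000115ffffffffff105400000000449028000000332d93b0000000f02164dffffa2ec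98c97bffec45793b09d80000000000001000000000000020000000000000400000000001b97fffffffff2efafffffffea0356dffffffb8655dfc000010e3c862d8000851f6526df000ef90342e80a0000000000000400000000000007ffffffffffffd00000000000181fffffffffd69840000000041a6680000003e9e2f30000010445eab1ffffe6dd355f8bfff0710b4043a800000000000010000000000000600000000000093ffffffffffd7880000000039853000000009f9501fffffffcf3cef3ffffe91c624457fffc5bde088b10005a58053d9ce0000000000000400000000000007ffffffffffff8fffffffffffa560000000001b57c000000015abce7fffffffa15322fffffd26075291ffff6dc0c60b940010fa8d487a58000000000000100000000000006000000000000b40000000000a68800000000123cefffffffe5bf189ffffff9a3202a4000019649d1e28000b3cb8f4626fff6c95f08c33600000000000013fffffffffffe97fffffffffff6effffffffff690dffffffffb0f1640000000f8966c800000a44ae85affffff0971f285fff45afa514a9c00246e06dca6e⟩,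
  ⟨316, 4, 79, 0, 0, 10, 55, 0x1ffffffffffff9400000000000557fffffffffdd7300000000214bd1ffffffeb64427400000a8bfabc07fffabcddea694ffff9cf46f7c09e6c0428c2b5dea90b0b44b9991d8000000000001afffffffffffe320000000000dc73ffffffff57dbf8000000602f32afffffd134f9ce2000164f4afca8c000370fb37d2486b3c8fe2aee6b8d0430870fbdfe0000000000000400000000000017fffffffffff3f00000000003455fffffffff971ac00000000946a880000012fc2fa7000003acd3d501fffcc068d1ae0bfed410475c73280000000000002ffffffffffff2200000000004063ffffffffef36780000000359982fffffff8a90e3dfffffdd12bd57bffffd389e6bc780044cba4c9c5d01d430fb44708a0000000000000400000000000017fffffffffffd100000000007a49fffffffffe9773ffffffd2770967fffffb859291b00007ab3bc4752004ff309102e8c004a9a56d2a097ffffffffffffeffffffffffff45ffffffffffd7fbfffffffff78cc7fffffff8de6630000002d3fdf1a00001994e3ae6c00020f6ac02ff7fb98d944a9644fdac6dc5a54671ffffffffffff8c00000000000987fffffffffb1cb000000003363f5ffffffe4391c9400000cc1719ff7fff9f3236ee5afffc2b2f747125e2cc54b3055f00eb27126bb029280000000000000fffffffffffffa0000000000033bf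fffffffff3a38000000001ae12ffffffffffb669ffffffb2d50743ffffe53e337c180007fa42493e90042241cc86bf9fffffffffffffc000000000003a7fffffffffef77000000000420b9ffffffff2d1cec000000170744e800000a16acd9b000027d6537ab9fff9e74d345ddbfa15b2deae3e980000000000000fffffffffffffe000000000000b3fffffffffe1477ffffffffe0c730000000c2f11a600000163eec38bfffde41a7c6b87fe796598336f2fef0536217e5ca0000000000000c0000000000020800000000008970000000001f082000000020cc673ffffff4fbd66b7ffff90f5c3b60ffff38dd6b79f201371c8a581e8414f6fd4962d2f80000000000001000000000000020000000000000400000000000087ffffffffff2b4fffffffff3e029ffffffff2ba4940000012d029178000065050b5830000a73e6f8fb20000000000000400000000000007ffffffffffffefffffffffffff1ffffffffff5553ffffffff82e9a7ffffffd6f3a3b0000002912faca0000273a52f99c00045f13261ff800000000000010000000000000200000000000003fffffffffffe780000000001052fffffffffdf7b9fffffffcfd210bffffffa620cbc800004128305c700010893e60c7a00000000000004000000000000180000000000015000000000002d1fffffffffec774000000002ef26800000036d508b00000036d8a03dffffa402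2eacc3ffead2ec8264580000000000001000000000000020000000000002400000000000ac7ffffffffff816fffffffebc8ffdffffffa31ef06400000d066cdf580008ca49d036900111d30423c760000000000000400000000000007fffffffffffe900000000000779fffffffffc450c00000000381d1800000042801df00000134aa7241ffffefbf070b53fff01dc2b2ef38000000000000100000000000002000000000001fbffffffffff66d80000000049e8d00000000964f9600000006a3625bffffe9343d83c7fffba4d2ae2810004a5925949920000000000000400000000000007ffffffffffff8fffffffffff982000000000123040000000177521800000010b4ed4fffffd29f682a9ffff56f56bfc14000e83ef3df778000000000000100000000000002000000000000740000000000a4280000000021cd0fffffffe7c855dffffff80dbc49400001404e66b08000bf329de028fff9b040bd8ec5ffffffffffffec0000000000002800000000000f6ffffffffff8521ffffffffa3a02c00000008d22c2800000b08f116f0000070d45e8fdfff472f2eb82fbfff5f47e36254⟩,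
  ⟨328, 8, 80, 0, 0, 10, 55, 0x1fffffffffef5cc000000000a5547fffffffeacd690000000703780dfffffdf7fe92440000864c166697ffdcf906e6b9cffe8d62d6ee5c5cd3466750fcc21f8e07c46e50fe80000000003d2cfffffffffd3442000000006fa9e3ffffffde21ed280000095735aaaffffdb2dcb2b3a0009347a4bfd3c006908cea663f8d7e649f6b07edb55495a9d7fac60000000000004400000000002e17fffffffff68530000000010fcedffffffff1ad693fffffffb5a8f48000009a1589e50000141bdd964dfff9e9347b4d3bfec127317789180000000000960fffffffffe822e0000000035118bfffffff99392b80000009583e4affffff92fb4ad5ffffe8ceabb6e3fffe986cd2c018008364a2f03ff01ed7995e90b1e00000000000353ffffffffffffb7ffffffffff787000000001c19d600000001deef13fffffd34682a87ffffba34fcde70001cd130e25c200ab17477a8d04023b42f9438547ffffffffffae8ffffffffff7cfdfffffffff01e8bfffffffe4ac0d7fffffef9a7ce5000001ed01b9260000e94d8b2f1c000ff898975e77f779d44967a3cfc0bc8bc1b9d61ffffffffff1c74000000000c63c7fffffffdc948500000009ff13e1fffffd550a104c00009e4846ae37ffd80b4725fbaffd7ecb73ef619c4f016569f6c783b194a5870b8c80000000000002fffffffffff30200000000026d43f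fffffffc0d7b800000003545b1000000035daa6dfffffda963f6abffff7f7aece2e8000d318de600f0044e1b2dd4a7dffffffffffd8bc00000000061b17ffffffff2ab55000000018d2839ffffffdcab186c00000126181238000061c033e930000d15fa5dd01fff81c02bdbed3f9f747e6c33fb7fffffffffff4d000000000000c2000000000025a3ffffffff8e2567fffffff3d42c1000000bb5958da0000141cf37e83fff81d3e41c117fcc1abad545befe593151b10eba00000000000d640000000001382800000000329590000000061815a0000004957a603fffff911e1ea47fffc1b8ac3c86fffacf10d9f86202556f18f80a9c1c1f98d5cb70a8000000000000100000000000005fffffffffffe94000000000035280000000001312ffffffff3226b9ffffffefdbd2240000044dfb24980000e53b12b0b0000cfb67a9e720000000000000c00000000000077ffffffffffe6f00000000001249fffffffff5704bfffffffc13a497fffffe70ec016ffffffd4884dfe00004ff37d901c00054de83a32e7ffffffffffffeffffffffffffea000000000004abffffffffff34c800000000265370000000001e0b1ffffffe7262933fffffdbb1371680000774ea06950001200f9657ce000000000000a400000000001348000000000066100000000013ab5ffffffffcd8b14000000003a2f28000001cae59f5000001d9547ae5ffff501c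b674fbffe8b5a0c33b77fffffffffffe10000000000004e00000000002df3fffffffffb2c48000000029446efffffff255fd89fffffc4ae8f51c0000160f54cc08001276b9113850014811222bb75ffffffffffffcc00000000000977fffffffffe7a90000000003d2a1ffffffff5e9094000000019e5408000002385783700000607d8d6f60000000393e90bffefeb35da8ff80000000000026fffffffffff9060000000001d4bbffffffffb47e980000000b06e03000000079b1436000000959a0e03ffffa896c05237fff5301f4c53f0002d0a08f9ec9fffffffffffffc000000000000e7ffffffffffe0cfffffffffe283a0000000004f2c400000018afcce8000001a85d06cfffff54419c3f1fffe6b5cd5bdcc000a28f09845080000000000013000000000000c5fffffffffff32c0000000023f93800000006f53b8ffffffed0f1f71fffffb01581864000027890142d8001951c4bb886fffe5150eb638a000000000000a3ffffffffffde5800000000083b8fffffffff6c8adfffffff311a783ffffffd3808a6800005aa03cd0300004eeeec4369ffea26a7c046bbffb23b1c6eada⟩,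
  ⟨344, 8, 81, 0, 0, 10, 56, 0x7fffffffffe85480000000008e297ffffffff6cde3800000014a6d527fffffd1549d018000063aca68017fff21cc07f43a7ff45aec7af94a798339e7a79f7f52bbb46885c5618000000000154e7fffffffff6de9800000000b1faa7ffffffe801a8b800000350e10237ffff944626c008000e75f1d9f48800cb079200cb286e632825451fdbaf6764504959e7ffffffffffff9800000000003a47fffffffffad1a800000000429937fffffffe5f4777ffffffe94c50e80000046844b97800006c63b31797fff54cdd796817feaa33cb366b48000000000052e7fffffffff951b80000000078dca7fffffff8c9864800000052246137fffffef38eefd7ffffc599dfca17fffd5e661a43780039b8881f61c8083222661e5298000000000004b7fffffffffff9e7ffffffffff90b80000000066e11800000008c7eda7fffffd7373bb37ffffc7985e8a8800062168467958017105099cf2d805032df627c8c7ffffffffffe567fffffffffeb0a7ffffffffee1967ffffffff052a07ffffff6c3a1a58000002365cf7280001fab3123c38001b768144ee57fc1377fc6c6187e7f7d8dcd48f77fffffffffec9d800000000099ae7ffffffff2bf7d80000001b6c3547fffffc3c7120c800007143a36087fff0395aaa82b7fef523886d7e9786817639cce9134bc1df881165d800000000000107ffffffffffc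0b800000000052047ffffffffc2e8080000000149fec80000001d294027fffffbfaa41237ffff65233f13d8000460b52803e8011e91dff38977ffffffffffaa980000000006be57ffffffff88f13800000006d872c7ffffffb55a871800000059b42208000037bc487268000480072dfd97ffffb4dea26a77f9e663183adfe7fffffffffffc280000000000087800000000008ed7ffffffff97fd27fffffff4ceeec80000029693330800003e6bcdb627fff9528b037e47fe4388f7cde057f60855b3b1679800000000000ff80000000000a5f8000000000b6b8800000000bdfb18000000a0b43b87ffffff1dc2f167fffdee26b4a247ffdf17d06eb118043fc5bc2830282512584b636aa80000000000000800000000000027fffffffffffb58000000000043f800000000170767fffffffd3d4cc7ffffffc71205380000034086b588000081ec2842f8000434177d05280000000000000800000000000117fffffffffff18800000000008268000000000fad2800000003ebf3a7ffffff3721b4c7fffffa77d65a080000937e3268d80006848f6c3907fffffffffffff7ffffffffffff7800000000000c87fffffffffeed880000000012f10800000000cc2677ffffffd1860987fffffc9771b08800003045f1c2e80004ecee714798000000000000c800000000001098000000000018c8000000000672c7ffffffff90a8e7fffffffbfceac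8000000d7382d8800000cac65b207fffec878e2a147ffe61acc11c937fffffffffffed7fffffffffffde80000000000a6b7fffffffff2c3a800000002ce060800000002089547fffff7b497bd67ffffe5dfd26a680009350405de68006494ee766827ffffffffffff8800000000000bd7ffffffffff0318000000001525c7fffffffe9ce8b7fffffffd326a880000011a99ac6800001eca8c78c800006ddc7eb1c7fff054a6dbb9f8000000000000d7ffffffffffd1080000000004a757ffffffff987f8800000005136ba800000011ef1548000001e65355c7ffffb24d77c847fff94c661b0ee7ffff206a082bc7fffffffffffff800000000000138000000000007f7fffffffff87a17ffffffffaf3a68000000174eb8480000019686a7b7ffffdc5609e367fffc3800ea6e38000332d15ad9680000000000007800000000000157ffffffffff41c80000000016449800000004e09c67ffffffde9b8f87fffff444b5a867ffffe5b541fbd8000cc6de982d380012e0fdd1a777ffffffffffff07ffffffffffda780000000005aa9800000000543fb7ffffffe7318147fffffed1110298000027db58dae800023f4bcc6387ffdb4e4ada9e87ff6129217ace2⟩,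
  ⟨360, 8, 82, 0, 0, 10, 56, 0x7ffffffffff61b80000000004a847ffffffff9674f80000000e84d167fffffde78c6c0800004ad85134a7fff4d15a303687fefadc398b329794af4d7ab5d81458d006fcb301e800000000008c97fffffffffb1978000000007c6d87ffffffef9a7858000002602af967ffffb070f79c08000b8f12204c980118a62e29b3c872304ee385199c8fc72b40b34a57ffffffffffff0800000000003127fffffffffc2d88000000002b1fe7ffffffff059ff7ffffffdbb160680000037ba72d6800008447ad4c67fff7300d5611c7fe96a0c105ef1800000000003cf7fffffffffaf988000000005cfe27fffffffa828d180000003dd9fd98000000293161f7ffffc175670797fffbf097b7ed28002c5f7dd1ebb808992ea3307088000000000001d7ffffffffffff37fffffffffefb980000000059f8b80000000d52a777fffffde2814517ffffb4d1eadc78000494ea7eb9880186974829d27807fbd2d71835c7fffffffffff407ffffffffff0b57fffffffffa46a7fffffffff67037ffffff65c2b177fffffc44234e280001f4c7e3df5800275cc3d87567fc992a4c061de7e09c8920d6b087ffffffffff80e800000000054567ffffffff6f56d80000001243e9d7fffffd4c005cf80000514818c2b7fff33c7997fdf7fea004ab397e0781a5c3363088c25421c73547ae9800000000000157ffffffffffc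c4800000000039dc7ffffffffd87f480000000083d8b800000026aae207fffffd0c0e3737ffff500fc958280001c8f7d515480124c99f57fab7ffffffffffc22800000000050387ffffffffa65138000000051ec647ffffffca469e17ffffff295160380000363599af680005cd1afda488001451a1da7d97f9f98b27b84007fffffffffffe98000000000003a800000000013177ffffffffa68847fffffff03f70280000020f43704800005121923f77fffb0350dc0bc7fe2c0f37da5707f276cd17325d38000000000004d8000000000070e8000000000001d7ffffffffbc4b18000000a3de836800000580f59417fffe008cc0d0b7ffd2ca54edca1803a3654301ec682cfdba5bf164680000000000000800000000000037fffffffffffaf80000000000312800000000290467fffffffe84a537ffffffb582c8e8000001b119ce2800008bf2c7995800054301675327fffffffffffff800000000000117fffffffffff8b8000000000076e8000000002d69e80000000b9ca2d7ffffff769d6857fffff65a5f3098000074a1bdc3d800078f731f099800000000000007ffffffffffff7800000000000ab7ffffffffff0298000000000d94a800000001736847ffffffda9a2217fffffb992c892800002094fe990800053e73403c480000000000006800000000000ce8000000000012380000000005e2f7ffffffffa5fd07fffffff7f701f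8000000a6e5cd3800001137103a87ffff04a075c817ffe3e4dc1af2f7ffffffffffff87fffffffffff80800000000009c87fffffffff09de8000000037147b80000003f67c977fffff8bde89a17ffffb61cb2b20800086ae302eb68007654d402c857ffffffffffffa8000000000009d7ffffffffff27080000000013c4b7fffffffef09607fffffff6d9dd78000000ec697be8000024f203b3680000f5afb386f7fff1b4167f784800000000000047ffffffffffd3b800000000040db7ffffffff9eda2800000002abfd180000000a2f86380000024f7b66d7ffffbf45bec907fff82ec8dd0c17fff092e6095307fffffffffffff80000000000010800000000002017fffffffff99f67ffffffff5a7e480000001273b7e80000023fc6f3c7ffffe7ec6805e7fffbbf326acae7fffb22488347280000000000004800000000000307fffffffffed8780000000002c708000000057bcd0800000013376cd7fffff407f36b27ffff9dc82c52a8000bce5498ca38002ba640937e57ffffffffffffc7ffffffffffc7080000000004c73800000000c4bb87ffffffeddd4767fffffdf5b1d17800001ac9bb979800030aac2cbed7ffe5fc6fee3d57ff21ebd0ffc2f⟩,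
  ⟨376, 8, 83, 0, 0, 10, 56, 0x7fffffffffff6c800000000017cc7ffffffffb9ecd800000009e5a5d7fffffe78b6ae38000038e7c636e7fff6dc9387dbb7febe2d9fc14ca7901d4c3d84b9d37dc50b912fb51800000000000bd7fffffffffe2098000000005248a7fffffff515ec78000001be1c79d7ffffc4d1a08e18000968534a933801573b07b8cb2877145d1d8c1d9d78e229868f9e37fffffffffffee800000000001d67fffffffffe5308000000000b7777ffffffffeeb347ffffffd673ae580000023eb6f2b80000958d2e5b67fff966331fe657fe872b7aa5380800000000001d07fffffffffd9188000000002ccc17fffffffd9056180000001860b5d80000018bf84db7ffffc85bbc9fe7fffa88b7b43a38001944cb36bea808dfc38e4dfff7ffffffffffffe800000000000447fffffffffe5ec80000000046d6d8000000111ff0e7fffffe7b7e5df7ffffa6308abee80002a38d51fd0801952584b108780b18db891b60b7fffffffffffd27ffffffffff39e80000000002876800000001059b87ffffff6b748a47fffff64dade8680001bee8e2d44800328fb957afc7fd4d6f13d57f07da7ba80293cd47fffffffffff12800000000024e57ffffffffa14ee80000000be34017fffffdfe972fe8000039fcb7b527fff564e8b479c7fe5a45cc9770e77b960922929201518c066a65a10800000000000147ffffffffffe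2a800000000016847fffffffff4aa37ffffffff9fed78000000274706e7fffffe495bcda7ffff420c852d07fffeeab3a07f78012586a2ec27d7ffffffffffe31800000000026617ffffffffd65df8000000023866c7ffffffed29d137fffffdfd0db45800002aa13004b80006f425d7b358002deaf6c35887fa3b02725f27b800000000000037fffffffffffed80000000001d527ffffffffbc4307ffffffec8767780000015e4ba35800005ef0a11217fffd164c032ce7fe1c26c98d1907eebda0bd51f177fffffffffffe7800000000006237fffffffff8e567fffffffe9f10b80000009a2665d800000bc3c059b7fffe45e0b10f57ffc784887e1f4802d7783bd60cb833801f10fb3f580000000000000800000000000027fffffffffffcd7ffffffffffff78000000002d58b800000000410887ffffffb075f647ffffffdbfb97b800008f171b064800065f44fb0b87fffffffffffff80000000000006800000000000308000000000073c800000000376f280000000f0662f7ffffffe4b099e7fffff45cddfcb8000049305dc9e800084e9b04e59800000000000007ffffffffffff8800000000000597ffffffffff5af80000000004f3c800000001d145c7ffffffe7e49637fffffadf2af77800000d6b02664800056cef75e828000000000000280000000000090800000000001b980000000003c1e7ffffffffd73e67fffffff560aa4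80000005b0ce91800001447756117ffff5035ae6187ffe237a5e2927800000000000047fffffffffff85800000000002207fffffffff3eec8000000030a27e800000066ccc5e7fffffb6a5300d7ffff91eecae5980006f58ef2e3280085cd7b2fde57ffffffffffffd800000000000557ffffffffff88d8000000000c9857ffffffff971257fffffff08b89e800000088f78dd80000296a80d7a80001932e278f37fff439f61a4fd7ffffffffffffc7ffffffffffe3f8000000000268b7ffffffffc19007ffffffff4ab8c80000000abfca58000002a0012ca7ffffce1ba5ac67fff748fb03fe07ffe000c4ca2f180000000000000800000000000098000000000032d7fffffffffbee87ffffffff1ac2080000000aa6cb68000002b5db3b67fffff6ec94d547fffb7bf79140e7fff2536e34e3880000000000002800000000000667fffffffffec7a7ffffffffed8858000000051dc2880000004913b157fffff57b94fbc7ffff597aa663780009b9f1fecf5800415c2d0994a8000000000000a7ffffffffffb7c80000000001bef8000000010d5947fffffff8fc9b37fffffd74eef7c800000829c75e580003758c1cabd7fff3223e41e4b7fefac2fa1da21⟩,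
  ⟨392, 8, 84, 0, 0, 10, 56, 0x800000000002de800000000001957ffffffffd2b8a8000000068e3527fffffeda1141b800002ba7e95a57fff86c4aabfe57fe8c3d1e2ea4c78aaf034e05e68298b29f120b41e7ffffffffffded7ffffffffff7868000000003525a7fffffff8e976f800000153b64f37ffffd403e3e0f80007ce6cd20bc8018aa29e44d2487cdb4b1bb8262e6caf94c5a66667ffffffffffff1800000000000a2800000000002807fffffffff2bcd800000000bd1c37ffffffda392108000000fa2c957800009f294333f7fffbd22c36ee67fe7c5d73c85fd8000000000003c7ffffffffffbfe8000000000190b8000000005eed67fffffff3b60738000002957e1b27ffffd97cebfd97fff96904c16028000106127888a808facef7876617ffffffffffff4800000000000627fffffffffde3a8000000002d482800000013e0e8d7ffffff357fc667ffff9ce21ed408000069dc7f3db8019b52fc8769280e4ad038e56408000000000000a7ffffffffff556800000000068c080000000213ad57ffffff7dff6f97fffff0d10a4ff800015ae7cd22b8003bf326fcd407fe2b3d0859f0f7d5ee0ee6e085f8000000000017780000000000f3c7ffffffffc35ce80000000791e757fffffe7171acf8000028587a2987fff6eb421be237fe1f7cbaffd907748682aff7379041cfb991552e78000000000000d7fffffffffff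797ffffffffff9d88000000000a4897fffffffef72c480000001fbede57ffffff6b4666d7ffff3b4852ef27fffbe316f957a8012058ec6507f7fffffffffffc9800000000003d6800000000002577ffffffffa286280000000d855027fffffd49ecd1b8000017211324e80007bd0c6dc138004b745fd6cd37fab3db54e4d958000000000000a7fffffffffffc88000000000250f7ffffffffd8ed77ffffffe9fe8bc80000008dcc6008000066b1efcc47ffff6a76965d47fe1518c55becb7eaed526b255a57fffffffffffcb800000000006187fffffffff62f87fffffffd8952380000008311ac0800001161bc8627fffebb10e145f7ffbe70dc22526801e27866ece49838401fd1ed0748000000000000080000000000000800000000000047ffffffffffce180000000022140800000001d8e287ffffffb93d1977fffffe12a2940800008ae2a0b17800077a707a97d800000000000007ffffffffffffb800000000000638000000000099880000000030aec80000000c68528800000055e83be7fffff51cd0c4e800001b3df737480008b2870606a800000000000007ffffffffffffb800000000000047ffffffffffc2c7fffffffffc652800000001d5cdd7fffffff6c107b7fffffa7b0879a7fffff80195dbd80005729ed2b4880000000000000800000000000598000000000027b80000000001377800000000121807fffffff4faf78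800000002b789d8000015626d1697ffffa43ad9ad77ffe12b598939280000000000000800000000000167ffffffffffa5e7fffffffff718b800000001ede4880000006b0c6657fffffec8ab2fd7ffff808fa13e28000513bd3a00480091e25a399ad800000000000008000000000000e7fffffffffff0880000000003b84800000000467eb7ffffffecf018d7fffffffbadd15800002b0acbf7a800023d337f0db7fff8093f9c8b87ffffffffffff67fffffffffff6280000000000a4a7ffffffffedd637fffffffc6f5cf80000000efacd280000030a5b20b7ffffdee91f9d67fff6a238db72c7ffcde0cce1c31800000000000007fffffffffffff800000000003c27ffffffffff0177fffffffefbd3e800000000f8e978000002e528f4a8000007e4719977fffb793aafcf27ffe93d4b5f33c800000000000018000000000009b7ffffffffff10e7ffffffffdb2ef800000003cd5e18000000766871d7fffff8824ffe87ffff22be6c9ae80006ac532913380051e707f6c8c800000000000177ffffffffffb697fffffffffd8838000000011915b80000000624d257fffffd70048eb7fffff3657e37180003684e01a1180001079e5e7e27feeef5a81e098⟩,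
  ⟨408, 8, 85, 0, 0, 10, 57, 0x200000000000570fffffffffffde47fffffffff17ad4000000010f8b39ffffffe336e0f9000002182dc60e7fffccfa78351f3ff98a21b048439f0914520553c249a80793c965cd67fffffffffff0d3fffffffffff21200000000043962ffffffffb7a8e5800000087a9d8fbfffff7f63275960000d3f4b5d81b001b5bd975730e841af342febc125db332479a37495ffffffffffffeeffffffffffffd7800000000008da3fffffffffa029a000000002576e8fffffffe44f4cf7fffffff75d61240000286ed226edffffcac1d6de9affe7683fd76db57fffffffffffb9c00000000003a79fffffffffd2a5d000000001f1aed7ffffffeeb6011c000000bb2e7a1dfffffe095487f0ffff8c36c52ec07fff298892ecd9402385d3d265a89ffffffffffffed000000000000657fffffffffece040000000003a5fa00000002a9c18d0000000049ae5a7ffffcce07fdde3ffff82a21ed69e00330841918efb0117ffa9349bc380000000000008bffffffffffd9660000000000d901000000003010327ffffffce4b7153fffffb12f0cc06000019d1d4bd4d0004281a745ef37ff949fd48319abf4cf8a8b59ff760000000000028f000000000008a07ffffffffed01b400000001302965ffffffd73ef0a1000001a4e202d87fffbf9fd7c827bff7b14a12cfa51ed93820fbe081272314616acfe3080000000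000003400000000000131ffffffffffd89b00000000013b817ffffffff5de21400000004ebf046000000078fcfe6fffff3a7048f8b7fffc6672131d8c0045425c429ae200000000000120fffffffffff1b88000000000b4f23ffffffff8f29f200000004012a56ffffffd489930a80000005f580794000201744a7c5a000d64e4497194ffb6a46226e44580000000000003bfffffffffffed20000000000522affffffffffaa507fffffff47776dbffffffeac8095a00000cf39766fd00001d8ee54a097ff0bcedb619e9bf9c61a5ceb8985ffffffffffffa30000000000066b7fffffffffba523ffffffff276a4e0000000bf992130000015d9f92647ffffac75a7674bffee26ba0552320019ea7b85845703af5d270bde06800000000000003fffffffffffffa00000000000064fffffffffffbd580000000006ef3c00000000b30159fffffff98f5a16ffffffc9ff83f58000040108986340002219af35e1200000000000002fffffffffffff980000000000006c000000000027c200000000049d17000000005a74db80000004fc9d52bfffffe08a3a6d9fffffea5068fc700008c0e40669b800000000000003fffffffffffff9ffffffffffffa5000000000000ff7fffffffffb542400000000644eaa0000000091a1f6ffffffa6e07f5e7fffff0dc053b84000153183e3cc20000000000000100000000000030800000000001633fffff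fffffd04600000000082414ffffffff6b45c87ffffffd7f1130c0000051cd16afdffffff11928f36fffe0c8c1549b67ffffffffffffac00000000000251fffffffffff428ffffffffff784080000000049927c00000014addff200000039d551dcfffff82e3d0941800018a47c68264002682413ef2f600000000000002ffffffffffffe180000000000198bffffffffff3e0a0000000017b59efffffffeda36377ffffffb121ebd400000a49d4b5ca00005cd97edd1cffffd2e80d51317ffffffffffffac00000000000091ffffffffffee8f000000000114ee7fffffffd8feae400000003a88d0a000000710dc828ffffff26f20fa07fffb21f613ee23ffeeae7d9c5d8200000000000000fffffffffffff5800000000001cfc000000000091a1ffffffffe072e4ffffffff6d53a880000016216d364000006424799e5ffff776afb6664fffe0666ab44ed7fffffffffffffc000000000002e9fffffffffff3c8fffffffffcfcae800000000e377ac00000024b0e5b1ffffff96918ea8fffff01f1385e58000176a4464adc0016e5a44016ea00000000000044fffffffffffc727fffffffffcb7740000000038bdfa00000002496e5effffffdec4455a7fffff042a3bd5c0000b886e9d6920001b84a570046ffefe1952b2089⟩,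
  ⟨424, 8, 86, 0, 0, 10, 57, 0x2000000000002df000000000000777fffffffff6cb6400000000af07e9ffffffe857d437000001960dacb37fffd44e6d8beebff8fc90f66edb9efb975b8a9db308aa74fe5c56f5b7fffffffffff833fffffffffff0560000000002a01affffffffd1c52c800000071e1696bfffffa61e10ede0000b8c8ff563d001dac8b2d4e1f84540939e1b86c61ea4dd25ee48edfffffffffffff8ffffffffffff80800000000009e1bfffffffffa523e0000000025ef7cffffffff07faff7ffffff9fd1f8fc000027c53c585e00001b21cfe642ffe75b4e58ede47fffffffffffa5c00000000004b0dfffffffffc7f35000000002398677ffffffec2acb8c000000a4be4d9a000000dbce3512ffff8a8fcd87227ffe3ee2d61130c0223a502543dc1fffffffffffff90000000000006e7fffffffffec8d3fffffffffb53b200000002a6f3ff0000000da82c837ffffce9f045233fffeeb0b3aefce0031750fa1db99014a579cc374b3800000000000063ffffffffffdbc200000000008065000000003b0a577ffffffe27ef993fffffa4b09acde0000046c0e47970004563f8c78268001d30d8ca2babf4a7f7698963fa00000000000147000000000007197fffffffff4794400000000c04679ffffffdcf14197000000e87606077fffc4b114a2cf3ff6f87fa8a3551ec7df630a4ef6e5f3bee98fc429380000000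000000c00000000000271ffffffffffd80f0000000001328f7ffffffff725abc00000001dc048e000000152d8c52fffff3d53a04e37fffaddc8e5c8640040e3fcdb7ef600000000000168ffffffffffeddb8000000000d5b3bffffffff819242000000046a50a8ffffffddc1827b7fffff66f90e7b40001f34fcc2f2e00115ea9acf79cffc6088723187680000000000001bfffffffffffe660000000000517d0000000001e4297fffffff4c1bd33ffffffb17e279e00000c2ba82df7000043772053e67ff11e57bfaf02bf8d48f540baf91ffffffffffffb7000000000006c57fffffffffda663fffffffefe96f20000000661b9790000018bf121fc800000a3d2a82b3ffedb5dfd3b6edfff59822a86ac103b7315deeed67800000000000003fffffffffffff600000000000082fffffffffffd187fffffffffd47ec00000000bc9b45fffffffc82de90ffffffbb11ad7f800003849de38ec00025deffb872a00000000000002ffffffffffffff7fffffffffffd24000000000010c600000000036accffffffffe899cc800000057b97ddbffffff0d906f1dfffffbb76606b100008910a1ce9180000000000000400000000000001ffffffffffff93000000000003597fffffffffa4a0c00000000497ca200000001efe0ccffffffaabdd8697ffffe5eaf424a400013e715e244200000000000001000000000000188000000000013fbfffff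fffff8f36000000000b053affffffff9cdb687ffffffb882adf4000004725da802000008b0853890fffe1089a4ab1f7ffffffffffff9400000000000219ffffffffffffb4ffffffffff81a07ffffffffae13940000000ba1e0160000007af8dcdafffff9493796a3800009fb6bb554400279447399b9600000000000004ffffffffffffd28000000000022f3fffffffffe75d2000000001cc38cffffffff23e1557ffffff6f9a5f8c000008f76b57a20000703bb510a7000039ab29f42d7ffffffffffffb4000000000001a1ffffffffffe04500000000023c527fffffffdb74cc40000000152925e0000007bdaed6300000089c3cf0a7fffb1ca7891a5bffe9ca1ae9e45600000000000000ffffffffffffec80000000000167c00000000014805ffffffffe615cafffffffedbe02c80000012aa68b6c00000a1e8098c5ffff87e78ad59efffd856aec5fc07ffffffffffffec000000000002da00000000000944fffffffffcdd367ffffffffb76614000000263989020000002e5c43e8ffffefc4ee92e87ffff7022ee03d4001759f90ef2d600000000000050fffffffffffe667fffffffffb5684000000001de2fa000000035293ccffffffed0d170a7ffffe9a112f07c00007e7717a7ea0002f29be839e6fff240bd41053c⟩,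
  ⟨440, 8, 87, 0, 0, 10, 57, 0x200000000000113000000000002be7fffffffffa4a1400000000744bb1ffffffebb05cc500000128b9676a7fffd9c66f88533ff8821d77fa9b1eed134e85ab49279edeb8560dff47fffffffffffd8bffffffffffee32000000000193f2ffffffffe164da800000063c2ea4bfffffc7581273e0000a68f2f257d001fb97c51f4298491785bf2f0e0665cb731759ea6e00000000000000ffffffffffff7b80000000000752bfffffffffc0f6e000000001d72baffffffffb368717ffffff77821d7c0000265d5d1892000069588e231affe79dc7e03c197fffffffffffb9c00000000003c25fffffffffd37f7000000001b9fb47ffffffef83c6440000007385cdb200000314802f4affff909d8af14e7ffd58f17c38bb40200536db0d0f200000000000001000000000000857fffffffffee3cbfffffffff3341600000002724cad0000001a7b9a627ffffd3a8fa6573fffe5da9c1258e002ebb3f165551017a875b38c680800000000000063ffffffffffddf9ffffffffffe72d0000000040c46a7fffffff9dfab93fffff9f0f419e1ffffecbd013f97000440576a6045800a757ff21f023f50a761055aa420000000000005b000000000006387fffffffff95a1c000000007ee895ffffffe09b1a0700000042f9855c7fffc701dfed7f3ff64ab17317795eb5216c5ba1e064b25c4373bdb667fffffff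ffffff400000000000251ffffffffffe4d50000000000defc7ffffffffa21203ffffffff85ae1200000017b9e776fffff41af261b87fff95cb7991e0c003b0081e9bb6a00000000000114fffffffffff1938000000000a3cfbffffffff9f9fd2000000039a43e4ffffffeb4800067ffffef7eefebb40001cb7aa5a802001520f25ae486ffd94efeb7fca1800000000000003fffffffffffdda0000000000480d0000000003fedf7fffffff5de0a3bffffff7bb9625200000a843ce081000065b4cd8a677ff1c85792aa33bf7eb6962c12df9ffffffffffffbd000000000006c5800000000008c8bfffffffeed37ce0000000018e80d0000019c53c5b7800006feda9d9ebffee6c1954da95ffd18732c4016b039aa2b27e310b800000000000003fffffffffffff600000000000064ffffffffffff587fffffffff75b8c000000009e81a5ffffffff459bb8ffffffb4dd3f4d800002f32a203ac000291beb6b6ee00000000000001000000000000047fffffffffffc5bffffffffffebaa00000000026daaffffffff9f16ad800000047adfb7c00000002ec4139fffffad02dc5170000842b4e26e380000000000000400000000000005ffffffffffffb3000000000003cb7fffffffffaa894000000002d58de00000002dd648cffffffb20e16d37ffffdbb047121400011f2b6bea6e000000000000010000000000000c800000000000f43fffff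fffff804a000000000af6c0ffffffffd50a5b7ffffffa6ab8b4c0000037d987ce2000010a96966e2fffe1d5f85e3ff7ffffffffffffc4000000000000ae000000000009bcffffffffffb9297ffffffff484a44000000033be126000000984b4260fffffaf044553f7ffffe2676260d40027d0e87e1e4a00000000000002ffffffffffffd8800000000001c03fffffffffe693a000000001a0e5cffffffff8de89b7ffffff456a921400000700e2d1b2000080493991550000b2419571887ffffffffffffcc00000000000151ffffffffffe223000000000272297fffffffe605113fffffffd4d469a0000007963d5c7000001fbeeb88d7fffb4512d9122bffe4f71bfca30200000000000000ffffffffffffe8800000000000bfc0000000001c20dffffffffef583efffffffe70415f8000000d3330f0c00000d2204c151ffff9f53e2bad6fffd1887d38cc67ffffffffffffe40000000000023600000000001d1efffffffffd58df7fffffffe9d052c00000021f986ce000000c09a9550fffff12fa4b4a37fffd7ad73b57b40015cbaca162920000000000004f000000000000c57fffffffffb0873fffffffffc566200000003a29aeefffffffec5ec9a7ffffe71315192400003668b8ee420003a8c38e526cfff59a78e1e9c3⟩,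
  ⟨456, 8, 88, 0, 0, 10, 57, 0x2000000000000050000000000034b7fffffffffc8e0c0000000052cc4dffffffedfb6deb000000c93b6c567fffdda68b09bdbff815a05cf1d91edda91cae06e126844eff9bad3b4800000000000013ffffffffffefd60000000000e848ffffffffea367d80000005a1b68abfffffe4ecb60de00009c27cecd2b00219bb5cb2af184d2d2c026c9cd6b0e8c705c568ea00000000000004ffffffffffff9b800000000003fcbfffffffffde7e60000000011ec170000000029ee0c7ffffff7430d034000024b76c0eae0000b46ee6cdfeffe82cf22e1f027fffffffffffd64000000000024edfffffffffe560f00000000103d4b7fffffff508dde40000003c8c85220000047411161effff9c1ddc3ebf7ffc84fc085012401cf241316c06600000000000003000000000000a07ffffffffff1b63ffffffffec2826000000020fae4500000025d231e17ffffdbbcfd6d13fffde40d12e70e002af8eae15beb01a775bb0b11cd800000000000093ffffffffffe185ffffffffff305b000000004083028000000124b632bfffffa0f563bd1ffffd494d0191f0003e233c25cf78012a4234c1024bf5f43e443c7919ffffffffffffed000000000004ee7fffffffffc83cc000000005b899dffffffe31e794effffffaca1c8f07fffc6dcea8e8e3ff5a015e8f10b9ea10c469cf337635d8f872fa30f27fffffff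fffffec000000000001a5fffffffffff3530000000000851c7ffffffffd5514bfffffffe31eb5a00000012da1dc4fffff45c26ef857fff7e450a9a32c0033a057717c02000000000000a2fffffffffff73180000000005d86bffffffffc82f56000000026360d8fffffff843306b7ffffebfb274584000193e9d0634e0018821a510cecfff029ce81a8ae7fffffffffffffbfffffffffffd560000000000374d0000000005bf697fffffff7b53db3ffffff4d6364420000081363eda9000081c6a2cafa7ff2b10bbe2c403f70ee98a4e1aa5ffffffffffffb50000000000062780000000003be4bfffffffef58405fffffff9b463f90000018cc3110a80000d5bb4836d3fff0559008f41dffb015e43bc039035b1fa1e51ee2800000000000003fffffffffffffa00000000000031000000000001237fffffffff5ae3c000000006da4ba000000016193f8ffffffb60989818000025d0289e5c0002bc3ce09a4200000000000001000000000000047fffffffffffdc3ffffffffffcff200000000015782ffffffff89682780000002bd61414000000b21fdf31fffffb9364695300007f3fd26fd780000000000000400000000000005ffffffffffffe10000000000034c7fffffffffbb72400000000151f5a0000000360aeb8ffffffbb8384907ffffd2854916b40000f62cedd8de0000000000000100000000000008800000000000a63fffff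fffff8cbe0000000008fee700000000078eb97ffffffa26cde4c0000026810203a000016912cd664fffe312b2d9d8e7fffffffffffff3ffffffffffffb200000000000b3f00000000000b7b7ffffffff2794cbfffffffd40e6da000000987be328fffffcc00766a07ffff5d6e55193c00276bfb0dac2a00000000000002ffffffffffffe7800000000000fabfffffffffeb85600000000137e9cfffffffff6ded57ffffff364f306c000004b40f1a3600008c05be86db000138cb6b65b07ffffffffffffe400000000000089ffffffffffe9d100000000021a897ffffffff2ddc93fffffff91e5fd200000065f0717d0000034e8db0be7fffb9a543b7b33ffe06346aa8c0600000000000000ffffffffffffe77ffffffffffffe40000000001ebbdfffffffffa8bc8fffffffe38931880000006722086400000efd0096fdffffbba90e9588fffcc5b70479d17ffffffffffffdc0000000000012200000000002a9afffffffffe508c7fffffffdc9b4a400000018d3b42200000137964c4efffff42d1b9c6a7fffbcce92cbe940012678eb1730e0000000000003d000000000002ed7fffffffffbe303ffffffffdc5a7a0000000329dd11000000101534187ffffe8fb1b7713ffffed680c3bae0003cb9f0c40acfff960de3e4100⟩,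
  ⟨472, 8, 89, 0, 0, 10, 57, 0x1ffffffffffffa9000000000002bc7fffffffffdf5a400000000408605ffffffefaff7fd0000007394ce647fffe01d5611d0bff7b29bcc522edecd701dba35692559ec1ab819f1c8000000000000c3fffffffffff38600000000007ca0ffffffffeee9b2800000052e9ca53fffffffe9e9b6e000098ce97625f00236977b6274c8517d999122bae700395b5b4cdb0600000000000004ffffffffffffc2800000000001603ffffffffff3c3a0000000007a06f0000000068711c7ffffff87a0b22c0000232d3888520000fc49b59a42ffe90590515db77fffffffffffec4000000000011a1ffffffffff46150000000006da777fffffffa206f5c0000000e647d8a00000504d27a7effffaa82fa6e5e7ffbcb5472eec4c0191801a1c9cfa00000000000003000000000000b37ffffffffff6793ffffffffe6e8520000000187db3b0000002eda30457ffffe660b51ec3fffd86a8f4b29600265e4da221ff01d030eccf95f68000000000000d3ffffffffffe701fffffffffe7dcf000000003a54098000000297f705bfffffaa5bba971ffffbdd837439100033d40b7d5388019cef9f316efbf7598f5c029999ffffffffffffe7000000000003db7fffffffffe9f2c000000004b1795ffffffe50aed0effffff2131fda57fffc4755fe8183ff4f19cc0546a5e8b9f2d5d40aba1f40250b8b30307fffffff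ffffff4000000000000f1fffffffffffdcf0000000000438c7fffffffffdeb6bfffffffdc8d8360000000a899ca0fffff488a56f3c7fff672e06559d4002acb791a0b060000000000004afffffffffffbcc80000000002514bffffffffe88402000000014df93900000001ecb5d07ffffeb5806c5a400015648b5cade001b6c9d314c57000a2b75175058800000000000003fffffffffffd12000000000021d70000000006f96d7fffffffa1c8d43ffffff29beb9ae000004fda516c500009583ded27c7ff3c9e185fb69bf6428c3e1a9d41ffffffffffffad000000000004dc80000000006ae33ffffffff163b6dfffffff3cc3eff0000015e3466258000133b7fc4383fff366a6ddf729ff93a30cfedf4302fc79287dda36800000000000003fffffffffffffe00000000000007000000000001e07fffffffff6f224000000003c69ce00000002b33792ffffffbc5a52a1800001cebdd6a640002dd89f199be00000000000001000000000000027ffffffffffff73ffffffffffca2e00000000002a5effffffff99513480000000fae64240000010a29de61fffffd5de6631d00007ba9d6be448000000000000040000000000000200000000000003000000000002947fffffffffce2740000000002acc2000000038e4764ffffffc5fc6b317ffffca9bde89640000c4a18abca200000000000001000000000000068000000000006abfffff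fffffa1c600000000064183000000002dd7637ffffffa96581dc0000015765507a00001a4d1e4326fffe49c7d97eb280000000000000bffffffffffff920000000000070500000000004a987ffffffff4119fbfffffff9f27066000000861893d0fffffe70fdcb7c7ffff11147ba06400269eb847597600000000000002fffffffffffff5800000000000553ffffffffff178e000000000c49bd0000000048aef87ffffff3ee42d040000025eafaa52000093142784330001c8bc1ab1aa7fffffffffffffbffffffffffffe1fffffffffff0c700000000018f587ffffffffe0e513fffffff628ff2e00000043e012c500000450701e187fffc155447c3c3ffdc386982228e00000000000000ffffffffffffec7fffffffffff4c40000000001c2aa0000000005bdfcfffffffe39b2c87fffffff43f63a400000f85ff72c5ffffda659deabafffc90a7863e867ffffffffffffdbffffffffffffde00000000002edeffffffffff8aab7fffffffd61c95c0000000c8f4b8e0000018309db28fffff8515a1b167fffa9273d5cc9c000d8c2b4efffe0000000000001d000000000004507fffffffffda8dbffffffffc58b2a000000020970f90000001d4ea00a7ffffeec5c1a313ffffb03509cea200036653c97310fffd0411ea788f⟩]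

end P264.LC
end
end

section

section

/-!
# P264 / LC / YData : the storage matrix (helper919)
-/

namespace P264.LC

open P264.Prof

def ydata : List YC := ydata1 ++ (ydata2 ++ (ydata3 ++ ydata4))

/-- cells of the entry `(i,j)` of the storage matrix -/
def ycells (i j : Fin 6) : List Cell := ydata.map fun d => d.cell (pos i j)

end P264.LC
end
end

section

section

/-!
# P264 / LC / Pack : Kronecker packing of integer polynomials (helper919)

An integer polynomial `p` with small coefficients is represented by the single integer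
`p(B)`, `B = 2^w` large, together with a bound of the sum of the absolute values of the
coefficients.  Sums and products become one operation on big integers, and the coefficients are
recovered by digit extraction.
-/

namespace P264.LC

open P264.Prof

theorem evI_padd (l m : List ℤ) (B : ℤ) : evI (padd l m) B = evI l B + evI m B := by
  have h := ev_padd l m (B : ℝ)
  rw [ev_intCast, ev_intCast, ev_intCast] at h
  exact_mod_cast h

theorem evI_psmul (s : ℤ) (l : List ℤ) (B : ℤ) : evI (psmul s l) B = s * evI l B := by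
  have h := ev_psmul s l (B : ℝ)
  rw [ev_intCast, ev_intCast] at h
  exact_mod_cast h

theorem evI_pmul (l m : List ℤ) (B : ℤ) : evI (pmul l m) B = evI l B * evI m B := by
  have h := ev_pmul l m (B : ℝ)
  rw [ev_intCast, ev_intCast, ev_intCast] at h
  exact_mod_cast h

theorem sabs_padd (l m : List ℤ) : sabs (padd l m) ≤ sabs l + sabs m := by
  induction l generalizing m with
  | nil => simp [padd, sabs]
  | cons a l ih =>
    cases m with
    | nil => simp only [padd, sabs, add_zero, Std.le_refl]
    | cons b m =>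
      simp only [padd, sabs]
      have := ih m
      have h2 := Int.natAbs_add_le a b
      (clear * - this h2; omega)

theorem sabs_psmul (s : ℤ) (l : List ℤ) : sabs (psmul s l) = s.natAbs * sabs l := by
  induction l with
  | nil => simp [psmul, sabs]
  | cons a l ih => simp only [psmul, sabs, ih, Int.natAbs_mul]; ring

theorem sabs_pmul (l m : List ℤ) : sabs (pmul l m) ≤ sabs l * sabs m := by
  induction l with
  | nil => simp only [pmul, sabs, zero_mul, Std.le_refl]
  | cons a l ih =>
    simp only [pmul, sabs]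
    refine (sabs_padd _ _).trans ?_
    rw [sabs_psmul]
    simp only [sabs, Int.natAbs_zero, zero_add]
    linarith

theorem ev_eq_zero_of_evI {B : ℤ} (l : List ℤ) (h : evI l B = 0) (hb : (sabs l : ℤ) < B) (v : ℝ) :
    ev l v = 0 := by
  induction l with
  | nil => rfl
  | cons a l ih =>
    simp only [evI, sabs] at h hb
    push_cast at hb
    have hB : 0 < B := by
      have : (0 : ℤ) ≤ |a| + (sabs l : ℤ) := by (clear * -; positivity)
      omega
    have hdvd : B ∣ a := by
      refine ⟨-evI l B, ?_⟩
      linarith only [h]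
    have ha : a = 0 := by
      apply Int.eq_zero_of_abs_lt_dvd hdvd
      have : (0 : ℤ) ≤ (sabs l : ℤ) := by positivity
      linarith only [hb]
    subst ha
    have h2 : evI l B = 0 := by
      have : B * evI l B = 0 := by linarith only [h]
      rcases mul_eq_zero.1 this with h3 | h3
      · exact absurd h3 hB.ne'
      · exact h3
    have h3 := ih h2 (by simp at hb; exact hb)
    simp [ev_cons, h3]

/-- two small polynomials with the same packed value are equal as functions -/
theorem ev_eq_of_evI {B : ℤ} (l m : List ℤ) (h : evI l B = evI m B)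
    (hb : (sabs l : ℤ) + sabs m < B) (v : ℝ) : ev l v = ev m v := by
  have h1 := ev_eq_zero_of_evI (B := B) (padd l (psmul (-1) m))
    (by rw [evI_padd, evI_psmul, h]; ring)
    (by
      have := sabs_padd l (psmul (-1) m)
      rw [sabs_psmul] at this
      simp only [Int.natAbs_neg, Int.natAbs_one, one_mul] at this
      have h2 : (sabs (padd l (psmul (-1) m)) : ℤ) ≤ (sabs l : ℤ) + sabs m := by exact_mod_cast this
      linarith only [hb, this]) v
  rw [ev_padd, ev_psmul] at h1
  push_cast at h1
  linarith

/-- packed polynomial: value at `B`, bound of the coefficient sum -/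
structure PK where
  N : ℤ
  b : ℕ

/-- `x` represents the function `f` -/
def Rp (B : ℤ) (f : ℝ → ℝ) (x : PK) : Prop :=
  ∃ l : List ℤ, evI l B = x.N ∧ sabs l ≤ x.b ∧ ∀ v, ev l v = f v

def PK.add (x y : PK) : PK := ⟨Int.add x.N y.N, Nat.add x.b y.b⟩
def PK.sub (x y : PK) : PK := ⟨Int.sub x.N y.N, Nat.add x.b y.b⟩
def PK.mul (x y : PK) : PK := ⟨Int.mul x.N y.N, Nat.mul x.b y.b⟩
def PK.smul (s : ℕ) (x : PK) : PK := ⟨Int.mul (Int.ofNat s) x.N, Nat.mul s x.b⟩

theorem Rp.add {B : ℤ} {f g : ℝ → ℝ} {x y : PK} (hx : Rp B f x) (hy : Rp B g y) :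
    Rp B (fun v => f v + g v) (PK.add x y) := by
  obtain ⟨l, h1, h2, h3⟩ := hx
  obtain ⟨m, k1, k2, k3⟩ := hy
  refine ⟨padd l m, ?_, ?_, fun v => ?_⟩
  · rw [evI_padd, h1, k1]; rfl
  · exact (sabs_padd l m).trans (Nat.add_le_add h2 k2)
  · rw [ev_padd, h3, k3]

theorem Rp.sub {B : ℤ} {f g : ℝ → ℝ} {x y : PK} (hx : Rp B f x) (hy : Rp B g y) :
    Rp B (fun v => f v - g v) (PK.sub x y) := by
  obtain ⟨l, h1, h2, h3⟩ := hx
  obtain ⟨m, k1, k2, k3⟩ := hy
  refine ⟨padd l (psmul (-1) m), ?_, ?_, fun v => ?_⟩
  · rw [evI_padd, evI_psmul, h1, k1]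
    show x.N + -1 * y.N = x.N - y.N
    ring
  · have := sabs_padd l (psmul (-1) m)
    rw [sabs_psmul] at this
    simp only [Int.natAbs_neg, Int.natAbs_one, one_mul] at this
    exact this.trans (Nat.add_le_add h2 k2)
  · rw [ev_padd, ev_psmul, h3, k3]; push_cast; ring

theorem Rp.mul {B : ℤ} {f g : ℝ → ℝ} {x y : PK} (hx : Rp B f x) (hy : Rp B g y) :
    Rp B (fun v => f v * g v) (PK.mul x y) := by
  obtain ⟨l, h1, h2, h3⟩ := hx
  obtain ⟨m, k1, k2, k3⟩ := hy
  refine ⟨pmul l m, ?_, ?_, fun v => ?_⟩
  · rw [evI_pmul, h1, k1]; rfl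
  · exact (sabs_pmul l m).trans (Nat.mul_le_mul h2 k2)
  · rw [ev_pmul, h3, k3]

theorem Rp.smul {B : ℤ} {f : ℝ → ℝ} {x : PK} (s : ℕ) (hx : Rp B f x) :
    Rp B (fun v => (s : ℝ) * f v) (PK.smul s x) := by
  obtain ⟨l, h1, h2, h3⟩ := hx
  refine ⟨psmul (s : ℤ) l, ?_, ?_, fun v => ?_⟩
  · rw [evI_psmul, h1]; rfl
  · rw [sabs_psmul]
    simp only [Int.natAbs_natCast]
    exact Nat.mul_le_mul le_rfl h2
  · rw [ev_psmul, h3]; push_cast; ring

theorem Rp.congr {B : ℤ} {f g : ℝ → ℝ} {x : PK} (hx : Rp B f x) (h : ∀ v, f v = g v) :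
    Rp B g x := by
  obtain ⟨l, h1, h2, h3⟩ := hx
  exact ⟨l, h1, h2, fun v => (h3 v).trans (h v)⟩

/-! ## digits -/

/-- digits base `2^w`, shifted by `half` -/
def dig (B half : ℕ) : ℕ → ℕ → List ℤ
  | 0, _ => []
  | n + 1, M => (((M % B : ℕ) : ℤ) - half) :: dig B half n (M / B)

/-- the packed offset `half * (1 + B + … + B^(n-1))` -/
def offs (B half : ℕ) : ℕ → ℕ
  | 0 => 0
  | n + 1 => Nat.add half (Nat.mul B (offs B half n))

theorem evI_dig (B half : ℕ) (n M : ℕ) (hM : M < B ^ n) :
    evI (dig B half n M) (B : ℤ) = (M : ℤ) - offs B half n := by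
  induction n generalizing M with
  | zero =>
    simp only [pow_zero, Nat.lt_one_iff] at hM
    subst hM
    simp only [dig, evI, CharP.cast_eq_zero, offs, sub_self]
  | succ n ih =>
    have hlt : M / B < B ^ n := by
      apply Nat.div_lt_of_lt_mul
      rw [← pow_succ']
      exact hM
    have h1 := ih (M / B) hlt
    simp only [dig, evI, h1]
    have h2 : ((M % B : ℕ) : ℤ) + (B : ℤ) * ((M / B : ℕ) : ℤ) = (M : ℤ) := by
      have := Nat.mod_add_div M B
      exact_mod_cast this
    have h3 : (offs B half (n + 1) : ℤ) = (half : ℤ) + (B : ℤ) * (offs B half n : ℤ) := by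
      show ((half + B * offs B half n : ℕ) : ℤ) = _
      push_cast; ring
    rw [h3]
    linear_combination h2

/-- sum of the absolute values of the shifted digits (fast) -/
def dsum (B half : ℕ) : ℕ → ℕ → ℕ → ℕ
  | 0, _, acc => acc
  | n + 1, M, acc => dsum B half n (Nat.div M B)
      (Nat.add acc (Nat.add (Nat.sub (Nat.mod M B) half) (Nat.sub half (Nat.mod M B))))

/-- parameters of the packing: width and number of digits -/
structure Par where
  B : ℕ
  half : ℕ
  n : ℕ
  off : ℕ
  top : ℕ

/-- constant coefficient and sum of the absolute values of the other coefficients; the last entry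
tells whether everything is in range -/
def ext (p : Par) (x : PK) : ℤ × ℕ × Bool :=
  let M := Int.toNat (Int.add x.N (Int.ofNat p.off))
  let s := dsum p.B p.half (Nat.pred p.n) (Nat.div M p.B) 0
  let c := Int.sub (Int.ofNat (Nat.mod M p.B)) (Int.ofNat p.half)
  (c, s, and (Nat.blt M p.top)
    (and (Nat.blt 0 M) (Nat.blt (Nat.add x.b (Nat.add c.natAbs s)) p.B)))

end P264.LC
end
end

section

section

/-!
# P264 / Prof / Integ : exact integrals of cellwise list polynomials (helper965)
-/

open MeasureTheory Set Filter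
open scoped Topology Interval

namespace P264.Prof

/-! ## composition -/

/-! ## the integral of a list polynomial over `[-1,1]` -/

/-- `∫_{-1}^{1} v^k l(v) dv` -/
noncomputable def rint : ℕ → List ℤ → ℝ
  | _, [] => 0
  | k, a :: l => (a : ℝ) * ((1 - (-1) ^ (k + 1)) / (k + 1)) + rint (k + 1) l

theorem integral_pow_ev (k : ℕ) (l : List ℤ) :
    ∫ v in (-1 : ℝ)..1, v ^ k * ev l v = rint k l := by
  induction l generalizing k with
  | nil => simp only [ev_nil, mul_zero, intervalIntegral.integral_zero, rint]
  | cons a l ih =>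
    have h1 : ∀ v : ℝ, v ^ k * ev (a :: l) v = (a : ℝ) * v ^ k + v ^ (k + 1) * ev l v := by
      intro v; rw [ev_cons]; ring
    simp_rw [h1]
    rw [intervalIntegral.integral_add, ih (k + 1), rint]
    · congr 1
      rw [intervalIntegral.integral_const_mul, integral_pow]
      simp only [one_pow]
    · exact (by fun_prop : Continuous fun v : ℝ => (a : ℝ) * v ^ k).intervalIntegrable _ _
    · exact ((continuous_pow (k + 1)).mul (continuous_ev l)).intervalIntegrable _ _

theorem integral_ev (l : List ℤ) : ∫ v in (-1 : ℝ)..1, ev l v = rint 0 l := by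
  have := integral_pow_ev 0 l
  simpa only [pow_zero, one_mul] using this

/-! ## cells -/

theorem integral_cell (s : Cell) (hH : 0 < s.H) (P : List ℤ) :
    ∫ y in (((s.C - s.H : ℤ) : ℝ) / 16)..(((s.C + s.H : ℤ) : ℝ) / 16),
      ev P ((16 * y - s.C) / s.H) = (s.H : ℝ) / 16 * rint 0 P := by
  have hH' : (s.H : ℝ) ≠ 0 := by exact_mod_cast hH.ne'
  have h1 : ∀ y : ℝ, ev P ((16 * y - s.C) / s.H) = ev P (16 / (s.H : ℝ) * y - s.C / s.H) := by
    intro y; congr 1; field_simp
  simp_rw [h1]
  rw [intervalIntegral.integral_comp_mul_sub (fun y => ev P y) (by positivity), ← integral_ev P]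
  have e1 : 16 / (s.H : ℝ) * (((s.C - s.H : ℤ) : ℝ) / 16) - s.C / s.H = -1 := by
    push_cast; field_simp; ring
  have e2 : 16 / (s.H : ℝ) * (((s.C + s.H : ℤ) : ℝ) / 16) - s.C / s.H = 1 := by
    push_cast; field_simp; ring
  rw [e1, e2, smul_eq_mul, inv_div]

/-- the integral over a list of cells of the cellwise polynomials `P s` -/
noncomputable def cint (P : Cell → List ℤ) : List Cell → ℝ
  | [] => 0
  | s :: l => (s.H : ℝ) / 16 * rint 0 (P s) + cint P l

theorem integral_chain {f : ℝ → ℝ} {P : Cell → List ℤ} (l : List Cell) (r : ℤ) (hch : Chain l r)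
    (hf : ∀ s ∈ l, ∀ y : ℝ, ((s.C - s.H : ℤ) : ℝ) ≤ 16 * y → 16 * y < ((s.C + s.H : ℤ) : ℝ) →
      f y = ev (P s) ((16 * y - s.C) / s.H)) :
    IntervalIntegrable f volume ((r : ℝ) / 16) (((rend l r : ℤ) : ℝ) / 16) ∧
      ∫ y in ((r : ℝ) / 16)..(((rend l r : ℤ) : ℝ) / 16), f y = cint P l := by
  induction l generalizing r with
  | nil => simp [rend, cint]
  | cons s l ih =>
    obtain ⟨h1, h2, h3⟩ := hch
    obtain ⟨i2, e2⟩ := ih (s.C + s.H) h3 (fun s' hs' => hf s' (by simp [hs']))
    have hH' : (0 : ℝ) < s.H := by exact_mod_cast h2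
    have hle : ((s.C - s.H : ℤ) : ℝ) / 16 ≤ ((s.C + s.H : ℤ) : ℝ) / 16 := by
      push_cast; (clear * - hH'; linarith)
    have hg : Continuous fun y : ℝ => ev (P s) ((16 * y - s.C) / s.H) :=
      (continuous_ev (P s)).comp (by fun_prop)
    have hae : ∀ᵐ y : ℝ ∂volume,
        y ∈ Ι (((s.C - s.H : ℤ) : ℝ) / 16) (((s.C + s.H : ℤ) : ℝ) / 16) →
          ev (P s) ((16 * y - s.C) / s.H) = f y := by
      have hne : ∀ᵐ y : ℝ ∂volume, y ≠ ((s.C + s.H : ℤ) : ℝ) / 16 := by
        simp [ae_iff, measure_singleton]
      filter_upwards [hne] with y hy hmem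
      rw [uIoc_of_le hle] at hmem
      have hlt : y < ((s.C + s.H : ℤ) : ℝ) / 16 := lt_of_le_of_ne hmem.2 hy
      exact (hf s (by simp) y (by linarith only [hmem.1]) (by linarith only [hlt])).symm
    have i1 : IntervalIntegrable f volume (((s.C - s.H : ℤ) : ℝ) / 16)
        (((s.C + s.H : ℤ) : ℝ) / 16) := by
      refine (hg.intervalIntegrable _ _).congr_ae ?_
      rw [Filter.EventuallyEq, ae_restrict_iff' measurableSet_uIoc]
      exact hae
    have e1 : ∫ y in (((s.C - s.H : ℤ) : ℝ) / 16)..(((s.C + s.H : ℤ) : ℝ) / 16), f y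
        = (s.H : ℝ) / 16 * rint 0 (P s) := by
      rw [← integral_cell s h2 (P s)]
      exact (intervalIntegral.integral_congr_ae hae).symm
    rw [← h1, rend, cint]
    refine ⟨i1.trans i2, ?_⟩
    rw [← intervalIntegral.integral_add_adjacent_intervals i1 i2, e1, e2]

/-! ## integrals over `z = log y` -/

theorem integral_exp_comp (F : ℝ → ℝ) : ∫ z, Real.exp z * F (Real.exp z) = ∫ y in Ioi 0, F y := by
  have h := integral_image_eq_integral_abs_deriv_smul (s := univ) (f := Real.exp)
    (f' := Real.exp) MeasurableSet.univ (fun x _ => (Real.hasDerivAt_exp x).hasDerivWithinAt)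
    Real.exp_injective.injOn F
  rw [image_univ, Real.range_exp, setIntegral_univ] at h
  rw [h]
  refine integral_congr_ae (Eventually.of_forall fun z => ?_)
  simp [abs_of_pos (Real.exp_pos z)]

/-- `∫ F(e^z) dz = ∫_a^b F(y)/y dy` for `F` supported in `[a,b]`. -/
theorem integral_exp_supp {F : ℝ → ℝ} {a b : ℝ} (ha : 0 ≤ a) (hab : a ≤ b)
    (hF : ∀ y, y < a ∨ b < y → F y = 0) :
    ∫ z, F (Real.exp z) = ∫ y in a..b, F y / y := by
  have h := integral_exp_comp (fun y => F y / y)
  have e : ∀ z : ℝ, Real.exp z * (F (Real.exp z) / Real.exp z) = F (Real.exp z) := by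
    intro z; have := (Real.exp_pos z).ne'; field_simp
  simp_rw [e] at h
  rw [h, intervalIntegral.integral_of_le hab]
  refine setIntegral_eq_of_subset_of_ae_sdiff_eq_zero measurableSet_Ioi.nullMeasurableSet
    (fun y hy => lt_of_le_of_lt ha hy.1) ?_
  have hne : ∀ᵐ y : ℝ ∂volume, y ≠ a := by simp [ae_iff, measure_singleton]
  filter_upwards [hne] with y hy hmem
  have : y < a ∨ b < y := by
    by_contra hcon
    push Not at hcon
    exact hmem.2 ⟨lt_of_le_of_ne hcon.1 (Ne.symm hy), hcon.2⟩
  rw [hF y this, zero_div]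

end P264.Prof
end
end

section

theorem P264.eqforce_P264_LC_unp : True := by first | exact (fun _ => trivial) @P264.LC.unp.eq_1 | exact (fun _ => trivial) @P264.LC.unp.eq_1.{0} | exact (fun _ => trivial) @P264.LC.unp.eq_1.{0,0} | exact (fun _ => trivial) @P264.LC.unp.eq_1.{0,0,0}
end

section

attribute [-instance] ProperSMul.toContinuousSMul IsTopologicalTorsor.toContinuousSMul IdemSemiring.toCanonicallyOrderedAdd IdemSemiring.toMulLeftMono IdemSemiring.toMulRightMono AddQuantale.instAddLeftMono AddQuantale.instAddRightMono Quantale.instMulLeftMono Quantale.instMulRightMono FiniteDimensional.rclike_to_real IsScalarTower.complexToReal FiniteDimensional.complexToReal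

section

/-! # P264 / Geo / Change : scalar curvature in the variables `r` and `x` -/

open Set
open scoped ContDiff Topology

noncomputable section

namespace P264.Geo

theorem Change_hasDerivAt {f : ℝ → ℝ} {s : Set ℝ} (hs : IsOpen s) (hf : ContDiffOn ℝ ∞ f s)
    {y : ℝ} (hy : y ∈ s) : HasDerivAt f (deriv f y) y :=
  ((hf.contDiffAt (hs.mem_nhds hy)).differentiableAt (by simp)).hasDerivAt

theorem Change_deriv {f : ℝ → ℝ} {s : Set ℝ} (hs : IsOpen s) (hf : ContDiffOn ℝ ∞ f s) :
    ContDiffOn ℝ ∞ (deriv f) s :=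
  hf.deriv_of_isOpen hs (by simp)

/-- second derivative of `x^(k+1) φ` -/
theorem Change_second {k : ℕ} {φ : ℝ → ℝ} (hφ : ContDiffOn ℝ ∞ φ (Ioo 0 1)) {x : ℝ}
    (hx : x ∈ Ioo (0 : ℝ) 1) :
    deriv (deriv (fun y => y ^ (k + 1) * φ y)) x =
      x ^ (k + 1) * (deriv (deriv φ) x + 2 * (k + 1) * deriv φ x / x +
        (k + 1) * k * φ x / x ^ 2) := by
  have hφ' := Change_deriv isOpen_Ioo hφ
  have h1 : deriv (fun y => y ^ (k + 1) * φ y) =ᶠ[𝓝 x]
      fun y => ((k : ℝ) + 1) * y ^ k * φ y + y ^ (k + 1) * deriv φ y := by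
    filter_upwards [isOpen_Ioo.mem_nhds hx] with y hy
    have h := (hasDerivAt_pow (k + 1) y).mul (Change_hasDerivAt isOpen_Ioo hφ hy)
    have h2 := h.deriv
    simp only [Nat.add_sub_cancel, Nat.cast_add, Nat.cast_one] at h2
    exact h2
  have hx0 : x ≠ 0 := hx.1.ne'
  rw [h1.deriv_eq]
  have h3 := (((hasDerivAt_pow k x).const_mul ((k : ℝ) + 1)).mul
    (Change_hasDerivAt isOpen_Ioo hφ hx)).add
    ((hasDerivAt_pow (k + 1) x).mul (Change_hasDerivAt isOpen_Ioo hφ' hx))
  have h4 := h3.deriv
  simp only [Nat.add_sub_cancel, Nat.cast_add, Nat.cast_one] at h4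
  refine h4.trans ?_
  have h5 : (k : ℝ) * x ^ (k - 1) = k * x ^ k / x := by
    rcases k with _ | k
    · simp only [CharP.cast_eq_zero, zero_tsub, pow_zero, mul_one, zero_div]
    · rw [Nat.add_sub_cancel, pow_succ]
      (clear * - hx0; field_simp)
  rw [h5]
  field_simp
  ring

/-- the derivative of `L` at `r` in the variable `x` -/
def Change_M (n : ℕ) (φ : ℝ → ℝ) (y : ℝ) : ℝ := ((n : ℝ) - 1) * φ y / y + deriv φ y - n

theorem Change_M_hasDerivAt {n : ℕ} {φ : ℝ → ℝ} (hφ : ContDiffOn ℝ ∞ φ (Ioo 0 1)) {x : ℝ}
    (hx : x ∈ Ioo (0 : ℝ) 1) :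
    HasDerivAt (Change_M n φ) (((n : ℝ) - 1) * (deriv φ x / x - φ x / x ^ 2) +
      deriv (deriv φ) x) x := by
  have hx0 : x ≠ 0 := hx.1.ne'
  have hφ' := Change_deriv isOpen_Ioo hφ
  have h1 := (((Change_hasDerivAt isOpen_Ioo hφ hx).const_mul ((n : ℝ) - 1)).div
    (hasDerivAt_id x) hx0).add (Change_hasDerivAt isOpen_Ioo hφ' hx)
  have h2 := h1.sub_const (n : ℝ)
  refine (h2.congr_deriv ?_)
  simp only [id]
  field_simp

/-- With `x = r g'(r)` and `φ(x) = r dx/dr`:
`L = (n-1) log x + log φ - n log r`, `r L_r = (n-1) φ/x + φ_x - n`, and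
`S = n(n-1)/x - x^{1-n} (x^{n-1} φ)''`. -/
theorem srad_eq_scal {n : ℕ} (hn : 2 ≤ n) {g φ : ℝ → ℝ} (hg : ContDiffOn ℝ ∞ g (Ioi 0))
    (hφ : ContDiffOn ℝ ∞ φ (Ioo 0 1)) (h1 : ∀ r, 0 < r → r * deriv g r ∈ Ioo (0 : ℝ) 1)
    (h2 : ∀ r, 0 < r → 0 < deriv (fun r => r * deriv g r) r)
    (h3 : ∀ r, 0 < r → φ (r * deriv g r) = r * deriv (fun r => r * deriv g r) r) {r : ℝ}
    (hr : 0 < r) : Srad n g r = P264.B.scal n φ (r * deriv g r) := by
  have hg' := Change_deriv isOpen_Ioi hg
  -- derivative of x
  have hX : ∀ s, 0 < s → HasDerivAt (fun r => r * deriv g r) (deriv g s + s * deriv (deriv g) s)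
      s := by
    intro s hs
    have h := (hasDerivAt_id s).mul (Change_hasDerivAt isOpen_Ioi hg' (mem_Ioi.mpr hs))
    refine h.congr_deriv ?_
    simp
  have hX' : ∀ s, 0 < s → deriv (fun r => r * deriv g r) s = deriv g s + s * deriv (deriv g) s :=
    fun s hs => (hX s hs).deriv
  have hgp : ∀ s, 0 < s → 0 < deriv g s := fun s hs => by
    have := (h1 s hs).1
    exact (mul_pos_iff_of_pos_left hs).mp this
  have hgp2 : ∀ s, 0 < s → 0 < deriv g s + s * deriv (deriv g) s := fun s hs => by
    rw [← hX' s hs]; exact h2 s hs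
  have hφs : ∀ s, 0 < s → φ (s * deriv g s) = s * (deriv g s + s * deriv (deriv g) s) :=
    fun s hs => by rw [h3 s hs, hX' s hs]
  -- the formula for L
  have hL : ∀ s, 0 < s → Lrad n g s = ((n : ℝ) - 1) * Real.log (s * deriv g s) +
      Real.log (φ (s * deriv g s)) - n * Real.log s := by
    intro s hs
    have e1 : ((n - 1 : ℕ) : ℝ) = (n : ℝ) - 1 := by
      rw [Nat.cast_sub (by omega), Nat.cast_one]
    rw [hφs s hs, Real.log_mul hs.ne' (hgp s hs).ne', Real.log_mul hs.ne' (hgp2 s hs).ne', Lrad,
      Real.log_mul (pow_pos (hgp s hs) _).ne' (hgp2 s hs).ne', Real.log_pow, e1]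
    ring
  have hL' : ∀ s, 0 < s → HasDerivAt (Lrad n g) (Change_M n φ (s * deriv g s) / s) s := by
    intro s hs
    have hx := h1 s hs
    have hx0 : s * deriv g s ≠ 0 := hx.1.ne'
    have hφ0 : φ (s * deriv g s) ≠ 0 := by
      rw [hφs s hs]; exact (mul_pos hs (hgp2 s hs)).ne'
    have a1 := ((hX s hs).log hx0).const_mul ((n : ℝ) - 1)
    have a2 := ((Change_hasDerivAt isOpen_Ioo hφ hx).comp s (hX s hs)).log hφ0
    have a3 := (Real.hasDerivAt_log hs.ne').const_mul (n : ℝ)
    have a4 := (a1.add a2).sub a3
    have a5 : Lrad n g =ᶠ[𝓝 s] fun s => ((n : ℝ) - 1) * Real.log (s * deriv g s) +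
      Real.log (φ (s * deriv g s)) - n * Real.log s := by
      filter_upwards [Ioi_mem_nhds hs] with u hu using hL u hu
    refine (HasDerivAt.congr_of_eventuallyEq a4 a5).congr_deriv ?_
    have hφs' := hφs s hs
    have hs0 : s ≠ 0 := hs.ne'
    have e1 : deriv g s + s * deriv (deriv g) s = φ (s * deriv g s) / s := by
      rw [hφs']; (clear * - hs0; field_simp)
    rw [Change_M, e1]
    simp only [Function.comp]
    generalize φ (s * deriv g s) = A at hφ0 ⊢
    generalize deriv φ (s * deriv g s) = B
    generalize s * deriv g s = X at hx0 ⊢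
    (clear * - hx0 hφ0 hs0; field_simp)
  have hL1 : deriv (Lrad n g) r = Change_M n φ (r * deriv g r) / r := (hL' r hr).deriv
  have hL2 : deriv (deriv (Lrad n g)) r =
      ((((n : ℝ) - 1) * (deriv φ (r * deriv g r) / (r * deriv g r) -
        φ (r * deriv g r) / (r * deriv g r) ^ 2) + deriv (deriv φ) (r * deriv g r)) *
        (deriv g r + r * deriv (deriv g) r) * r - Change_M n φ (r * deriv g r)) / r ^ 2 := by
    have b1 : deriv (Lrad n g) =ᶠ[𝓝 r] fun s => Change_M n φ (s * deriv g s) / s := by
      filter_upwards [Ioi_mem_nhds hr] with u hu using (hL' u hu).deriv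
    rw [b1.deriv_eq]
    have b2 := ((Change_M_hasDerivAt (n := n) hφ (h1 r hr)).comp r (hX r hr)).div
      (hasDerivAt_id r) hr.ne'
    have b3 := b2.deriv
    simp only [id, mul_one] at b3
    exact b3
  have hx := h1 r hr
  have hgr := hgp r hr
  have hgr2 := hgp2 r hr
  obtain ⟨k, rfl⟩ : ∃ k, n = k + 2 := ⟨n - 2, by omega⟩
  have hsc : P264.B.scal (k + 2) φ (r * deriv g r) =
      ((k : ℝ) + 2) * ((k : ℝ) + 1) / (r * deriv g r) -
        (deriv (deriv φ) (r * deriv g r) + 2 * (k + 1) * deriv φ (r * deriv g r) /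
          (r * deriv g r) + (k + 1) * k * φ (r * deriv g r) / (r * deriv g r) ^ 2) := by
    unfold P264.B.scal
    have e : k + 2 - 1 = k + 1 := rfl
    rw [e, Change_second hφ hx, mul_div_cancel_left₀ _ (pow_pos hx.1 _).ne']
    push_cast
    ring
  rw [hsc, Srad, hL1, hL2]
  have c1 : Change_M (k + 2) φ (r * deriv g r) / r + r * (((((((k + 2 : ℕ) : ℝ)) - 1) *
      (deriv φ (r * deriv g r) / (r * deriv g r) -
        φ (r * deriv g r) / (r * deriv g r) ^ 2) + deriv (deriv φ) (r * deriv g r)) *
        (deriv g r + r * deriv (deriv g) r) * r - Change_M (k + 2) φ (r * deriv g r)) / r ^ 2) =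
      (((k : ℝ) + 1) * (deriv φ (r * deriv g r) / (r * deriv g r) -
        φ (r * deriv g r) / (r * deriv g r) ^ 2) + deriv (deriv φ) (r * deriv g r)) *
        (deriv g r + r * deriv (deriv g) r) := by
    have e1 : (((k + 2 : ℕ) : ℝ)) - 1 = (k : ℝ) + 1 := by push_cast; ring
    rw [e1]
    generalize deriv g r + r * deriv (deriv g) r = A
    generalize Change_M (k + 2) φ (r * deriv g r) = B
    generalize (((k : ℝ) + 1) * (deriv φ (r * deriv g r) / (r * deriv g r) -
        φ (r * deriv g r) / (r * deriv g r) ^ 2) + deriv (deriv φ) (r * deriv g r)) = D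
    field_simp
    ring
  rw [c1, mul_div_assoc _ (deriv g r + r * deriv (deriv g) r), div_self hgr2.ne', mul_one,
    Change_M]
  have e1 : (((k + 2 : ℕ) : ℝ)) = (k : ℝ) + 2 := by push_cast; ring
  rw [e1]
  have hr0 : r ≠ 0 := hr.ne'
  have hg0 : deriv g r ≠ 0 := hgr.ne'
  generalize φ (r * deriv g r) = A
  generalize deriv φ (r * deriv g r) = B
  generalize deriv (deriv φ) (r * deriv g r) = D
  generalize deriv g r = G at hg0 ⊢
  field_simp
  ring

end P264.Geo

end
end
end

section

attribute [-instance] ProperSMul.toContinuousSMul IsTopologicalTorsor.toContinuousSMul IdemSemiring.toCanonicallyOrderedAdd IdemSemiring.toMulLeftMono IdemSemiring.toMulRightMono AddQuantale.instAddLeftMono AddQuantale.instAddRightMono Quantale.instMulLeftMono Quantale.instMulRightMono FiniteDimensional.rclike_to_real IsScalarTower.complexToReal FiniteDimensional.complexToReal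

section

/-!
# P264 / Geo / R / Sol : the momentum coordinate `x(A,B)`

For `U₀` admissible (`1 + x(1-x) U₀'' > 0` on `[0,1]`) and `(A,B)` in the closed quadrant minus `0`
there is a unique `x ∈ [0,1]` with `A x e^{U'(x)} = B (1-x)`; it is locally the restriction of a
smooth function.
-/

set_option linter.all false

open Set Filter Topology
open scoped ContDiff

noncomputable section

namespace P264.Geo.R

/-- `G((A,B),x) = A x e^{U'(x)} - B (1-x)`. -/
def G (U : ℝ → ℝ) (p : (ℝ × ℝ) × ℝ) : ℝ :=
  p.1.1 * (p.2 * Real.exp (deriv U p.2)) - p.1.2 * (1 - p.2)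

/-- closed quadrant minus the origin -/
def Quad : Set (ℝ × ℝ) := {p | 0 ≤ p.1 ∧ 0 ≤ p.2 ∧ 0 < p.1 + p.2}

variable {U : ℝ → ℝ}

lemma contDiff_deriv (hU : ContDiff ℝ ∞ U) : ContDiff ℝ ∞ (deriv U) := by
  have : ContDiff ℝ (∞ + 1) U := by simpa using hU
  exact (contDiff_succ_iff_deriv.1 this).2.2

lemma contDiff_G (hU : ContDiff ℝ ∞ U) : ContDiff ℝ ∞ (G U) := by
  have h1 := contDiff_deriv hU
  unfold G
  have h2 : ContDiff ℝ ∞ fun p : (ℝ × ℝ) × ℝ => deriv U p.2 := h1.comp contDiff_snd
  fun_prop

/-- derivative of `G` in `x`. -/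
lemma hasDerivAt_G (hU : ContDiff ℝ ∞ U) (A B x : ℝ) :
    HasDerivAt (fun x => G U ((A, B), x))
      (A * Real.exp (deriv U x) * (1 + x * deriv (deriv U) x) + B) x := by
  have h1 : HasDerivAt (deriv U) (deriv (deriv U) x) x :=
    ((contDiff_deriv hU).differentiable (by simp) x).hasDerivAt
  have h2 := (((hasDerivAt_id x).mul h1.exp).const_mul A).sub
    (((hasDerivAt_id x).const_sub 1).const_mul B)
  unfold G
  refine h2.congr_deriv ?_
  simp only [id]
  ring

lemma dG_pos (hU : P264.B.IsInit U) {A B x : ℝ} (hA : 0 ≤ A) (hB : 0 ≤ B) (hAB : 0 < A + B)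
    (hx : x ∈ Icc (0 : ℝ) 1) (h : G U ((A, B), x) = 0) :
    0 < A * Real.exp (deriv U x) * (1 + x * deriv (deriv U) x) + B := by
  have hp := hU.pos x hx
  simp only [G] at h
  have he := Real.exp_pos (deriv U x)
  rcases hA.eq_or_lt with hA0 | hA0
  · subst hA0
    simp only [zero_add, zero_mul, gt_iff_lt] at hAB ⊢
    exact hAB
  · have hx1 : x < 1 := by
      rcases hx.2.eq_or_lt with h1 | h1
      · subst h1
        simp at h
        exact absurd h hA0.ne'
      · exact h1
    have h3 : 0 < (1 - x) * (A * Real.exp (deriv U x) * (1 + x * deriv (deriv U) x) + B) := by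
      have : (1 - x) * (A * Real.exp (deriv U x) * (1 + x * deriv (deriv U) x) + B)
          = A * Real.exp (deriv U x) * (1 + x * (1 - x) * deriv (deriv U) x) := by
        linear_combination (norm := ring_nf) (-1 : ℝ) * h
      rw [this]
      (clear * - hA0 hp; positivity)
    exact (mul_pos_iff_of_pos_left (by (clear * - hx1; linarith))).1 h3

/-- uniqueness -/
lemma G_unique (hU : P264.B.IsInit U) {A B x y : ℝ} (hA : 0 ≤ A) (hB : 0 ≤ B) (hAB : 0 < A + B)
    (hx : x ∈ Icc (0 : ℝ) 1) (hy : y ∈ Icc (0 : ℝ) 1) (h : G U ((A, B), x) = 0)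
    (h' : G U ((A, B), y) = 0) : x = y := by
  rcases hA.eq_or_lt with hA0 | hA0
  · subst hA0
    simp only [G, zero_mul, zero_sub, neg_eq_zero, mul_eq_zero] at h h'
    have hB' : B ≠ 0 := by intro h; simp [h] at hAB
    have h1 := h.resolve_left hB'
    have h2 := h'.resolve_left hB'
    linarith only [h1, h2]
  rcases hB.eq_or_lt with hB0 | hB0
  · subst hB0
    have key : ∀ z, G U ((A, 0), z) = 0 → z = 0 := by
      intro z hz
      simp only [G, zero_mul, sub_zero, mul_eq_zero] at hz
      rcases hz with hz | hz | hz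
      · exact absurd hz hA0.ne'
      · exact hz
      · exact absurd hz (Real.exp_pos _).ne'
    rw [key x h, key y h']
  have mem : ∀ z ∈ Icc (0 : ℝ) 1, G U ((A, B), z) = 0 → z ∈ Ioo (0 : ℝ) 1 := by
    intro z hz hG
    refine ⟨lt_of_le_of_ne hz.1 ?_, lt_of_le_of_ne hz.2 ?_⟩
    · rintro rfl
      simp [G] at hG
      exact hB0.ne' hG
    · rintro rfl
      simp [G] at hG
      exact hA0.ne' hG
  have hx' := mem x hx h
  have hy' := mem y hy h'
  set l : ℝ → ℝ := fun s => Real.log s + deriv U s - Real.log (1 - s) with hl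
  have hder : ∀ s ∈ Ioo (0 : ℝ) 1, HasDerivAt l (1 / s + deriv (deriv U) s + 1 / (1 - s)) s := by
    intro s hs
    have h1 : HasDerivAt (deriv U) (deriv (deriv U) s) s :=
      ((contDiff_deriv hU.smooth).differentiable (by simp) s).hasDerivAt
    have h2 := ((Real.hasDerivAt_log hs.1.ne').add h1).sub
      (((hasDerivAt_id s).const_sub 1).log (by simp; linarith only [hs.2]))
    refine h2.congr_deriv ?_
    simp only [id]
    ring
  have hmono : StrictMonoOn l (Ioo 0 1) := by
    refine strictMonoOn_of_deriv_pos (convex_Ioo 0 1)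
      (fun s hs => (hder s hs).continuousAt.continuousWithinAt) ?_
    intro s hs
    rw [interior_Ioo] at hs
    rw [(hder s hs).deriv]
    have h1 : 0 < s := hs.1
    have h2 : 0 < 1 - s := by linarith only [hs.2]
    have h3 : 1 / s + deriv (deriv U) s + 1 / (1 - s)
        = (1 + s * (1 - s) * deriv (deriv U) s) / (s * (1 - s)) := by
      field_simp
      ring
    rw [h3]
    exact div_pos (hU.pos s ⟨h1.le, hs.2.le⟩) (mul_pos h1 h2)
  have hval : ∀ z ∈ Ioo (0 : ℝ) 1, G U ((A, B), z) = 0 → l z = Real.log B - Real.log A := by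
    intro z hz hG
    have h1 : 0 < z := hz.1
    have h2 : 0 < 1 - z := by linarith only [hz.2]
    have h3 : A * (z * Real.exp (deriv U z)) = B * (1 - z) := by
      simp only [G] at hG; linarith only [hG]
    have h4 := congrArg Real.log h3
    rw [Real.log_mul hA0.ne' (by (clear * - h1; positivity)), Real.log_mul h1.ne' (by positivity),
      Real.log_exp, Real.log_mul hB0.ne' h2.ne'] at h4
    simp only [hl]
    linarith only [h4]
  exact hmono.injOn hx' hy' ((hval x hx' h).trans (hval y hy' h').symm)

lemma G_exists (hU : P264.B.IsInit U) {A B : ℝ} (hA : 0 ≤ A) (hB : 0 ≤ B) :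
    ∃ x ∈ Icc (0 : ℝ) 1, G U ((A, B), x) = 0 := by
  have hc : ContinuousOn (fun x => G U ((A, B), x)) (Icc 0 1) := fun x _ =>
    (hasDerivAt_G hU.smooth A B x).continuousAt.continuousWithinAt
  have h0 : G U ((A, B), 0) ≤ 0 := by simp only [G, zero_mul, mul_zero, sub_zero, mul_one, zero_sub, Left.neg_nonpos_iff, hB]
  have h1 : 0 ≤ G U ((A, B), 1) := by
    simp only [G, one_mul, sub_self, mul_zero, sub_zero]; positivity
  obtain ⟨x, hx, hx'⟩ := intermediate_value_Icc (by norm_num : (0 : ℝ) ≤ 1) hc ⟨h0, h1⟩
  exact ⟨x, hx, hx'⟩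

/-- The momentum coordinate. -/
def xs (U : ℝ → ℝ) (p : ℝ × ℝ) : ℝ :=
  open Classical in if h : ∃ x ∈ Icc (0 : ℝ) 1, G U (p, x) = 0 then h.choose else 0

lemma xs_spec (hU : P264.B.IsInit U) {p : ℝ × ℝ} (hp : p ∈ Quad) :
    xs U p ∈ Icc (0 : ℝ) 1 ∧ G U (p, xs U p) = 0 := by
  have h : ∃ x ∈ Icc (0 : ℝ) 1, G U (p, x) = 0 := G_exists hU hp.1 hp.2.1
  unfold xs
  rw [dif_pos h]
  exact h.choose_spec

lemma xs_eq (hU : P264.B.IsInit U) {p : ℝ × ℝ} (hp : p ∈ Quad) {x : ℝ} (hx : x ∈ Icc (0 : ℝ) 1)
    (h : G U (p, x) = 0) : xs U p = x :=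
  G_unique hU hp.1 hp.2.1 hp.2.2 (xs_spec hU hp).1 hx (xs_spec hU hp).2 h

/-- `xs` is locally the restriction of a smooth function. -/
lemma xs_smooth (hU : P264.B.IsInit U) {p : ℝ × ℝ} (hp : p ∈ Quad) :
    ∃ ψ : ℝ × ℝ → ℝ, ContDiffAt ℝ ∞ ψ p ∧ ∀ᶠ q in 𝓝 p, q ∈ Quad → xs U q = ψ q := by
  obtain ⟨hx, hG⟩ := xs_spec hU hp
  set x₀ := xs U p with hx₀
  have cdf : ContDiffAt ℝ ∞ (G U) (p, x₀) := (contDiff_G hU.smooth).contDiffAt
  have hder := hasDerivAt_G hU.smooth p.1 p.2 x₀
  have hpos := dG_pos hU hp.1 hp.2.1 hp.2.2 hx hG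
  have hfd : fderiv ℝ (G U) (p, x₀) ∘L .inr ℝ (ℝ × ℝ) ℝ
      = (ContinuousLinearMap.toSpanSingleton ℝ
          (p.1 * Real.exp (deriv U x₀) * (1 + x₀ * deriv (deriv U) x₀) + p.2)) := by
    have h1 : HasFDerivAt (fun x : ℝ => G U (p, x))
        (fderiv ℝ (G U) (p, x₀) ∘L .inr ℝ (ℝ × ℝ) ℝ) x₀ := by
      have := (cdf.differentiableAt (by simp)).hasFDerivAt.comp x₀ (hasFDerivAt_prodMk_right p x₀)
      exact this
    exact h1.unique hder.hasFDerivAt
  have if₂ : (fderiv ℝ (G U) (p, x₀) ∘L .inr ℝ (ℝ × ℝ) ℝ).IsInvertible := by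
    rw [hfd]
    refine ⟨ContinuousLinearEquiv.unitsEquivAut ℝ (Units.mk0 _ hpos.ne'), ?_⟩
    ext
    simp only [ContinuousLinearEquiv.coe_coe, ContinuousLinearEquiv.unitsEquivAut_apply, Units.val_mk0, one_mul, ContinuousLinearMap.toSpanSingleton_apply, smul_eq_mul]
  refine ⟨cdf.implicitFunction (by simp) if₂, cdf.contDiffAt_implicitFunction (by simp) if₂, ?_⟩
  have key : ∀ᶠ q in 𝓝 p, ∀ y ∈ Icc (0 : ℝ) 1, G U (q, y) = 0 →
      cdf.implicitFunction (by simp) if₂ q = y := by
    refine isCompact_Icc.eventually_forall_of_forall_eventually ?_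
    intro y hy
    by_cases hyx : y = x₀
    · subst hyx
      have := cdf.eventually_apply_eq_iff_implicitFunction (by simp) if₂
      filter_upwards [this] with v hv h0
      exact hv.1 (by rw [show (v.1, v.2) = v from rfl] at h0; rw [h0]; exact hG.symm)
    · have hne : G U (p, y) ≠ 0 := fun h0 =>
        hyx (G_unique hU hp.1 hp.2.1 hp.2.2 hy hx h0 hG)
      have hc : ContinuousAt (G U) (p, y) := (contDiff_G hU.smooth).continuous.continuousAt
      filter_upwards [hc.eventually_ne hne] with v hv h0
      exact absurd h0 hv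
  filter_upwards [key] with q hq hqQ
  exact (hq _ (xs_spec hU hqQ).1 (xs_spec hU hqQ).2).symm

lemma xs_smul (hU : P264.B.IsInit U) {p : ℝ × ℝ} (hp : p ∈ Quad) {c : ℝ} (hc : 0 < c) :
    xs U (c * p.1, c * p.2) = xs U p := by
  obtain ⟨hx, hG⟩ := xs_spec hU hp
  refine xs_eq hU ⟨by have := hp.1; positivity, by have := hp.2.1; positivity, ?_⟩ hx ?_
  · have := hp.2.2
    show 0 < c * p.1 + c * p.2
    rw [← mul_add]; positivity
  · simp only [G] at hG ⊢
    linear_combination c * hG

end P264.Geo.R
end
end
end

section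

attribute [-instance] ProperSMul.toContinuousSMul IsTopologicalTorsor.toContinuousSMul IdemSemiring.toCanonicallyOrderedAdd IdemSemiring.toMulLeftMono IdemSemiring.toMulRightMono AddQuantale.instAddLeftMono AddQuantale.instAddRightMono Quantale.instMulLeftMono Quantale.instMulRightMono FiniteDimensional.rclike_to_real IsScalarTower.complexToReal FiniteDimensional.complexToReal

section

section

section

open scoped ENNReal
open MeasureTheory

noncomputable section

namespace Vale.Agent.P264

section Conv

set_option linter.unusedSectionVars false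

variable {Γ : Type*} [AddCommGroup Γ]

variable [Countable Γ]

end Conv

end Vale.Agent.P264
end
end
end
end
end

section

attribute [-instance] ProperSMul.toContinuousSMul IsTopologicalTorsor.toContinuousSMul IdemSemiring.toCanonicallyOrderedAdd IdemSemiring.toMulLeftMono IdemSemiring.toMulRightMono AddQuantale.instAddLeftMono AddQuantale.instAddRightMono Quantale.instMulLeftMono Quantale.instMulRightMono FiniteDimensional.rclike_to_real IsScalarTower.complexToReal FiniteDimensional.complexToReal

section

section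

section

open scoped ENNReal
open MeasureTheory

noncomputable section

namespace Vale.Agent.P264

set_option linter.unusedSectionVars false
set_option linter.unusedVariables false

section Wl

variable {Γ : Type*}
variable {F G H : Type*} [NormedAddCommGroup F] [NormedSpace ℝ F] [NormedAddCommGroup G]
  [NormedSpace ℝ G] [NormedAddCommGroup H] [NormedSpace ℝ H]

/-- `ℓ¹(Γ; F)` -/
abbrev l1 (Γ : Type*) (F : Type*) [NormedAddCommGroup F] := lp (fun _ : Γ => F) 1

/-- values -/
def cf (f : l1 Γ F) (ξ : Γ) : F := f.1 ξ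

lemma memlp_of_tsum {f : Γ → F} (h : ∑' ξ, ‖f ξ‖ₑ ≠ ⊤) : Memℓp f 1 := by
  rw [memℓp_gen_iff (by (clear * -; norm_num))]
  simp only [ENNReal.toReal_one, Real.rpow_one]
  have h1 := NNReal.summable_coe.mpr (tsum_enorm_ne_top_iff_summable_nnnorm.mp h)
  simp only [coe_nnnorm] at h1
  exact h1

/-- the element of `ℓ¹` with given values -/
def mkl (f : Γ → F) (h : ∑' ξ, ‖f ξ‖ₑ ≠ ⊤) : l1 Γ F := ⟨f, memlp_of_tsum h⟩

@[simp] lemma cf_mkl (f : Γ → F) (h : ∑' ξ, ‖f ξ‖ₑ ≠ ⊤) (ξ : Γ) : cf (mkl f h) ξ = f ξ := rfl

/-- evaluation as a continuous linear map -/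
def evl (ξ : Γ) : l1 Γ F →L[ℝ] F :=
  LinearMap.mkContinuous ⟨⟨fun f => cf f ξ, fun f g => rfl⟩, fun r f => rfl⟩ 1 (by
    intro f
    change ‖cf f ξ‖ ≤ 1 * ‖f‖
    rw [one_mul]
    exact lp.norm_apply_le_norm one_ne_zero f ξ)

@[simp] lemma evl_apply (ξ : Γ) (f : l1 Γ F) : evl ξ f = cf f ξ := rfl

variable [AddCommGroup Γ]

variable [CompleteSpace H]

end Wl

end Vale.Agent.P264
end
end
end
end
end
namespace AFastecaf5ex1890a
@[reducible] noncomputable def a0.{u1, u2} {x1 : Type u1} {x2 : Type u2} [x3 : NormedAddCommGroup x2] : TopologicalSpace ↥(Vale.Agent.P264.l1 x1 x2) := inferInstance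
end AFastecaf5ex1890a
attribute [local instance] AFastecaf5ex1890a.a0
namespace AFastecaf5ex1890b
@[reducible] noncomputable def a0.{u1, u2} {x1 : Type u1} {x2 : Type u2} [x3 : NormedAddCommGroup x2] : AddCommMonoid ↥(Vale.Agent.P264.l1 x1 x2) := inferInstance
end AFastecaf5ex1890b
attribute [local instance] AFastecaf5ex1890b.a0

section

section

/-! # P264 / Geo / PosB : algebra of the Bochner term -/


noncomputable section

namespace P264.Geo

variable {m : ℕ}

theorem posB_contract {A : Type} [CommRing A] [Algebra ℂ A] (C : Cone m A) (f : A) (e : Fin m) :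
    ∑ a, C.hs C.h a e * (∑ b, C.P a b * C.db b f) = C.db e f := by
  calc ∑ a, C.hs C.h a e * (∑ b, C.P a b * C.db b f)
      = ∑ a, ∑ b, (C.d a (C.db e C.h) * C.P a b) * C.db b f := by
        refine Finset.sum_congr rfl fun a _ => ?_
        rw [Finset.mul_sum]
        refine Finset.sum_congr rfl fun b _ => ?_
        unfold Cone.hs
        ring
    _ = ∑ b, (∑ a, C.d a (C.db e C.h) * C.P a b) * C.db b f := by
        rw [Finset.sum_comm]
        refine Finset.sum_congr rfl fun b _ => ?_
        rw [Finset.sum_mul]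
    _ = C.db e f := by
        simp only [C.PH2, ite_mul, one_mul, zero_mul, Finset.sum_ite_eq, Finset.mem_univ, if_true]

theorem posB_leib {A : Type} [CommRing A] [Algebra ℂ A] (C : Cone m A) (f : A) (c e : Fin m) :
    ∑ a, C.hs C.h a e * C.db c (∑ b, C.P a b * C.db b f) =
      C.db c (C.db e f) - ∑ a, (∑ b, C.P a b * C.db b f) * C.d a (C.db c (C.db e C.h)) := by
  have h1 := congrArg (C.db c) (posB_contract C f e)
  rw [map_sum] at h1
  rw [← h1, ← Finset.sum_sub_distrib]
  refine Finset.sum_congr rfl fun a _ => ?_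
  rw [Derivation.leibniz, smul_eq_mul, smul_eq_mul]
  have h2 : C.db c (C.hs C.h a e) = C.d a (C.db c (C.db e C.h)) := C.dbc a c (C.db e C.h)
  rw [h2]
  ring

/-- Algebra: with `B a c = ∂̄_c (Σ_b P_{ab} (hv)_{b̄})` one has `Σ_a h_{ad̄} B a c` symmetric in
`c, d`. -/
theorem B_symm {A : Type} [CommRing A] [Algebra ℂ A] (C : Cone m A) (f : A) (c e : Fin m) :
    ∑ a, C.hs C.h a e * C.db c (∑ b, C.P a b * C.db b f) =
      ∑ a, C.hs C.h a c * C.db e (∑ b, C.P a b * C.db b f) := by
  rw [posB_leib, posB_leib, C.bb c e f]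
  simp only [C.bb c e C.h]

theorem posB_X {A : Type} [CommRing A] [Algebra ℂ A] (C : Cone m A) (v : A) (a : Fin m) :
    ∑ b, C.P a b * C.db b (C.h * v) = C.om v a + v * C.Z a := by
  rw [← C.hbP a, Cone.om, Finset.mul_sum, Finset.mul_sum, ← Finset.sum_add_distrib]
  refine Finset.sum_congr rfl fun b _ => ?_
  rw [Derivation.leibniz, smul_eq_mul, smul_eq_mul]
  ring

theorem posB_Y {A : Type} [CommRing A] [Algebra ℂ A] (C : Cone m A) (v : A) (c : Fin m) :
    ∑ b, C.P b c * C.d b (C.h * v) = C.omb v c + v * C.W c := by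
  rw [← C.hP c, Cone.omb, Finset.mul_sum, Finset.mul_sum, ← Finset.sum_add_distrib]
  refine Finset.sum_congr rfl fun b _ => ?_
  rw [Derivation.leibniz, smul_eq_mul, smul_eq_mul]
  ring

theorem posB_Eb_om {A : Type} [CommRing A] [Algebra ℂ A] (C : Cone m A) (v : A)
    (hv' : C.Eb v = 0) (a : Fin m) : C.Eb (C.om v a) = 0 := by
  unfold Cone.om
  rw [Derivation.leibniz, smul_eq_mul, smul_eq_mul, C.algA_Eb_h, map_sum]
  have h1 : ∀ b, C.Eb (C.P a b * C.db b v) = -(C.P a b * C.db b v) := by
    intro b
    rw [Derivation.leibniz, smul_eq_mul, smul_eq_mul, C.Eb_P, C.Eb_db, hv', map_zero]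
    ring
  simp only [h1, Finset.sum_neg_distrib]
  ring

theorem posB_E_omb {A : Type} [CommRing A] [Algebra ℂ A] (C : Cone m A) (v : A)
    (hv : C.E v = 0) (c : Fin m) : C.E (C.omb v c) = 0 := by
  unfold Cone.omb
  rw [Derivation.leibniz, smul_eq_mul, smul_eq_mul, C.algA_E_h, map_sum]
  have h1 : ∀ b, C.E (C.P b c * C.d b v) = -(C.P b c * C.d b v) := by
    intro b
    rw [Derivation.leibniz, smul_eq_mul, smul_eq_mul, C.E_P, C.E_d, hv, map_zero]
    ring
  simp only [h1, Finset.sum_neg_distrib]
  ring

/-- Algebra: for `v` of degree `0`, `B2 v = Σ_{a,c} ∂̄_c (P_{ab} (hv)_{b̄}) ∂_a (P_{bc} (hv)_b)`. -/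
theorem B2_eq {A : Type} [CommRing A] [Algebra ℂ A] (C : Cone m A) (v : A) (hv : C.E v = 0)
    (hv' : C.Eb v = 0) :
    C.B2 v = ∑ a, ∑ c, C.db c (∑ b, C.P a b * C.db b (C.h * v)) *
      C.d a (∑ b, C.P b c * C.d b (C.h * v)) := by
  have hX : ∀ a c, C.db c (∑ b, C.P a b * C.db b (C.h * v)) =
      C.db c (C.om v a) + C.Z a * C.db c v := by
    intro a c
    rw [posB_X, map_add, Derivation.leibniz, smul_eq_mul, smul_eq_mul, C.bZ]
    ring
  have hY : ∀ a c, C.d a (∑ b, C.P b c * C.d b (C.h * v)) =
      C.d a (C.omb v c) + C.W c * C.d a v := by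
    intro a c
    rw [posB_Y, map_add, Derivation.leibniz, smul_eq_mul, smul_eq_mul, C.dW]
    ring
  have hs : ∀ a c, C.db c (∑ b, C.P a b * C.db b (C.h * v)) *
      C.d a (∑ b, C.P b c * C.d b (C.h * v)) =
      C.db c (C.om v a) * C.d a (C.omb v c) + (C.d a v * (C.W c * C.db c (C.om v a)) +
      (C.db c v * (C.Z a * C.d a (C.omb v c)) + (C.Z a * C.d a v) * (C.W c * C.db c v))) := by
    intro a c
    rw [hX, hY]
    ring
  simp only [hs, Finset.sum_add_distrib]
  have e2 : ∑ a, ∑ c, C.d a v * (C.W c * C.db c (C.om v a)) = 0 := by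
    refine Finset.sum_eq_zero fun a _ => ?_
    rw [← Finset.mul_sum, ← C.Eb_apply, posB_Eb_om C v hv', mul_zero]
  have e3 : ∑ a, ∑ c, C.db c v * (C.Z a * C.d a (C.omb v c)) = 0 := by
    rw [Finset.sum_comm]
    refine Finset.sum_eq_zero fun c _ => ?_
    rw [← Finset.mul_sum, ← C.E_apply, posB_E_omb C v hv, mul_zero]
  have e4 : ∑ a, ∑ c, (C.Z a * C.d a v) * (C.W c * C.db c v) = 0 := by
    refine Finset.sum_eq_zero fun a _ => ?_
    rw [← Finset.mul_sum, ← C.Eb_apply, hv', mul_zero]
  rw [e2, e3, e4]
  unfold Cone.B2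
  ring

end P264.Geo

end
end
end

section

section

/-! # P264 / Geo / ChartScal : scalar curvature in charts and on the cone -/

open scoped ContDiff ComplexOrder
open TopologicalSpace (Opens)
open MeasureTheory Set

noncomputable section

namespace P264.Geo

variable {n : ℕ}

/-! ### The chart map -/

/-- linear part of `chart k` -/
def csL (k : Fin (n + 1)) : Cm n →L[ℝ] Cm (n + 1) :=
  LinearMap.toContinuousLinearMap
    { toFun := fun v => k.insertNth (0 : ℂ) v
      map_add' := by
        intro v w
        funext a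
        refine Fin.succAboveCases k ?_ (fun i => ?_) a <;> simp
      map_smul' := by
        intro c v
        funext a
        refine Fin.succAboveCases k ?_ (fun i => ?_) a <;> simp }

theorem csL_apply (k : Fin (n + 1)) (v : Cm n) : csL k v = k.insertNth (0 : ℂ) v := rfl

theorem csL_single (k : Fin (n + 1)) (j : Fin n) (c : ℂ) :
    csL k (Pi.single j c) = Pi.single (k.succAbove j) c := by
  rw [csL_apply]
  funext a
  refine Fin.succAboveCases k ?_ (fun i => ?_) a
  · rw [Fin.insertNth_apply_same, Pi.single_eq_of_ne (Fin.succAbove_ne k j).symm]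
  · rw [Fin.insertNth_apply_succAbove]
    by_cases h : i = j
    · subst h; simp
    · rw [Pi.single_eq_of_ne h, Pi.single_eq_of_ne]
      exact fun h' => h (Fin.succAbove_right_injective h')

theorem cs_chart_eq (k : Fin (n + 1)) (z : Cm n) : chart k z = csL k z + Pi.single k 1 := by
  rw [csL_apply]
  funext a
  refine Fin.succAboveCases k ?_ (fun i => ?_) a
  · simp [chart]
  · simp [chart, Fin.succAbove_ne k i]

theorem cs_chart_same (k : Fin (n + 1)) (z : Cm n) : chart k z k = 1 := by simp [chart]

theorem cs_chart_ne (k : Fin (n + 1)) (z : Cm n) : chart k z ≠ 0 := by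
  intro h
  have := congrFun h k
  rw [cs_chart_same] at this
  exact one_ne_zero this

theorem cs_hasFDerivAt (k : Fin (n + 1)) (z : Cm n) : HasFDerivAt (𝕜 := ℝ) (chart k) (csL k) z := by
  have h : chart k = fun z => csL k z + Pi.single k 1 := funext fun z => cs_chart_eq k z
  rw [h]
  exact (csL k).hasFDerivAt.add_const _

theorem cs_fderiv {f : Cm (n + 1) → ℂ} {k : Fin (n + 1)} {z : Cm n}
    (hf : DifferentiableAt ℝ f (chart k z)) (v : Cm n) :
    fderiv ℝ (fun y => f (chart k y)) z v = fderiv ℝ f (chart k z) (csL k v) := by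
  have h := hf.hasFDerivAt.comp z (cs_hasFDerivAt k z)
  have h2 : HasFDerivAt (fun y => f (chart k y)) ((fderiv ℝ f (chart k z)).comp (csL k)) z := h
  rw [h2.fderiv]
  rfl

theorem cs_dz {f : Cm (n + 1) → ℂ} {k : Fin (n + 1)} {z : Cm n}
    (hf : DifferentiableAt ℝ f (chart k z)) (j : Fin n) :
    dz j (fun y => f (chart k y)) z = dz (k.succAbove j) f (chart k z) := by
  unfold dz
  rw [cs_fderiv hf, cs_fderiv hf, csL_single, csL_single]

theorem cs_dzb {f : Cm (n + 1) → ℂ} {k : Fin (n + 1)} {z : Cm n}
    (hf : DifferentiableAt ℝ f (chart k z)) (j : Fin n) :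
    dzb j (fun y => f (chart k y)) z = dzb (k.succAbove j) f (chart k z) := by
  unfold dzb
  rw [cs_fderiv hf, cs_fderiv hf, csL_single, csL_single]

variable {m : ℕ}

theorem cs_dzb_smooth {f : Cm m → ℂ} (hf : ContDiffOn ℝ ∞ f (Om m)) (b : Fin m) :
    ContDiffOn ℝ ∞ (dzb b f) (Om m) := by
  have h1 : ∀ v, ContDiffOn ℝ ∞ (fun x => fderiv ℝ f x v) (Om m) := fun v =>
    (hf.fderiv_of_isOpen (Om m).isOpen (by simp)).clm_apply contDiffOn_const
  unfold dzb
  exact ((h1 _).add (contDiffOn_const.mul (h1 _))).div_const _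

theorem cs_diff {f : Cm m → ℂ} (hf : ContDiffOn ℝ ∞ f (Om m)) {Z : Cm m} (hZ : Z ≠ 0) :
    DifferentiableAt ℝ f Z :=
  (hf.contDiffAt ((Om m).isOpen.mem_nhds hZ)).differentiableAt (by simp)

/-- Chart Hessian of a function of degree `0`. -/
theorem cHess_chart {F : Cm (n + 1) → ℝ} (hF : ContDiffOn ℝ ∞ F {Z | Z ≠ 0}) (k : Fin (n + 1))
    (z : Cm n) (i j : Fin n) :
    cHess (fun y => F (chart k y)) z i j = cHess F (chart k z) (k.succAbove i) (k.succAbove j) := by
  have hF' : ContDiffOn ℝ ∞ (fun y => (F y : ℂ)) (Om (n + 1)) := Sm.ofReal_smooth (O := Om (n + 1)) F hF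
  unfold cHess
  simp only [Matrix.of_apply]
  have h1 : (dzb j fun y => ((F (chart k y) : ℝ) : ℂ)) =
      fun y => dzb (k.succAbove j) (fun y => (F y : ℂ)) (chart k y) := by
    funext y
    exact cs_dzb (f := fun y => (F y : ℂ)) (cs_diff hF' (cs_chart_ne k y)) j
  rw [h1]
  exact cs_dz (cs_diff (cs_dzb_smooth hF' _) (cs_chart_ne k z)) i

/-! ### Matrix algebra -/

/-- `Z k = 1`: replacing the `k`-th row -/
theorem cs_det_alg (k : Fin (n + 1)) (H : Matrix (Fin (n + 1)) (Fin (n + 1)) ℂ)
    (Z W u v : Fin (n + 1) → ℂ) (h : ℂ) (hne : h ≠ 0) (hZk : Z k = 1) (hWk : W k = 1)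
    (hZH : ∀ b, ∑ a, Z a * H a b = v b) (hHW : ∀ a, ∑ b, W b * H a b = u a)
    (hvW : ∑ b, W b * v b = h)
    (G : Matrix (Fin n) (Fin n) ℂ)
    (hG : ∀ i j, G i j = H (k.succAbove i) (k.succAbove j) / h -
      u (k.succAbove i) * v (k.succAbove j) / h ^ 2) :
    G.det = H.det / h ^ (n + 1) := by
  set H1 : Matrix (Fin (n + 1)) (Fin (n + 1)) ℂ := H.updateRow k (∑ a, Z a • H a) with hH1
  have d1 : H1.det = H.det := by
    rw [hH1, Matrix.det_updateRow_sum, hZk, one_smul]
  set H2 : Matrix (Fin (n + 1)) (Fin (n + 1)) ℂ :=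
    H1.updateCol k (fun a => ∑ b, W b • H1 a b) with hH2
  have d2 : H2.det = H1.det := by
    rw [hH2, Matrix.det_updateCol_sum, hWk, one_smul]
  have e1k : ∀ b, H1 k b = v b := by
    intro b
    rw [hH1, Matrix.updateRow_self, Finset.sum_apply, ← hZH b]
    rfl
  have e1s : ∀ i b, H1 (k.succAbove i) b = H (k.succAbove i) b := by
    intro i b
    rw [hH1, Matrix.updateRow_ne (Fin.succAbove_ne k i)]
  have e2kk : H2 k k = h := by
    rw [hH2, Matrix.updateCol_self, ← hvW]
    exact Finset.sum_congr rfl fun b _ => by rw [e1k, smul_eq_mul]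
  have e2ks : ∀ j, H2 k (k.succAbove j) = v (k.succAbove j) := by
    intro j
    rw [hH2, Matrix.updateCol_ne (Fin.succAbove_ne k j), e1k]
  have e2sk : ∀ i, H2 (k.succAbove i) k = u (k.succAbove i) := by
    intro i
    rw [hH2, Matrix.updateCol_self, ← hHW]
    exact Finset.sum_congr rfl fun b _ => by rw [e1s, smul_eq_mul]
  have e2ss : ∀ i j, H2 (k.succAbove i) (k.succAbove j) = H (k.succAbove i) (k.succAbove j) := by
    intro i j
    rw [hH2, Matrix.updateCol_ne (Fin.succAbove_ne k j), e1s]
  set c : Fin (n + 1) → ℂ := fun a => if a = k then 0 else - u a / h with hc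
  set H3 : Matrix (Fin (n + 1)) (Fin (n + 1)) ℂ := Matrix.of fun a b => H2 a b + c a * H2 k b
    with hH3
  have d3 : H3.det = H2.det := by
    refine Matrix.det_eq_of_forall_row_eq_smul_add_const c k (by simp [hc]) ?_
    intro i j
    rfl
  have e3kk : H3 k k = h := by
    simp only [hH3, hc, ite_mul, zero_mul, Matrix.of_apply, e2kk, ↓reduceIte, add_zero]
  have e3sk : ∀ i, H3 (k.succAbove i) k = 0 := by
    intro i
    simp only [hH3, hc, Matrix.of_apply, if_neg (Fin.succAbove_ne k i), e2sk, e2kk]
    field_simp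
    ring
  have e3 : H3.submatrix k.succAbove k.succAbove = h • G := by
    ext i j
    simp only [hH3, hc, Matrix.of_apply, if_neg (Fin.succAbove_ne k i), Matrix.submatrix_apply,
      e2ss, e2ks, Matrix.smul_apply, hG, smul_eq_mul]
    field_simp
    ring
  have d4 : H3.det = h * (h ^ n * G.det) := by
    rw [Matrix.det_succ_column H3 k, Fin.sum_univ_succAbove _ k]
    rw [Finset.sum_eq_zero (fun i _ => by rw [e3sk, mul_zero, zero_mul]), add_zero, e3kk, e3,
      Matrix.det_smul, Fintype.card_fin, ← two_mul, pow_mul, neg_one_sq, one_pow, one_mul]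
  rw [← d1, ← d2, ← d3, d4]
  field_simp
  ring

/-- trace identity -/
theorem cs_trace_alg (k : Fin (n + 1)) (H K : Matrix (Fin (n + 1)) (Fin (n + 1)) ℂ)
    (hHK : H * K = 1)
    (Z W u v : Fin (n + 1) → ℂ) (h : ℂ) (hne : h ≠ 0) (hZk : Z k = 1) (hWk : W k = 1)
    (hZH : ∀ b, ∑ a, Z a * H a b = v b) (hHW : ∀ a, ∑ b, W b * H a b = u a)
    (hvW : ∑ b, W b * v b = h)
    (G : Matrix (Fin n) (Fin n) ℂ)
    (hG : ∀ i j, G i j = H (k.succAbove i) (k.succAbove j) / h -
      u (k.succAbove i) * v (k.succAbove j) / h ^ 2)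
    (Φ : Matrix (Fin (n + 1)) (Fin (n + 1)) ℂ)
    (hZΦ : ∀ b, ∑ a, Z a * Φ a b = 0) (hΦW : ∀ a, ∑ b, W b * Φ a b = 0)
    (Φc : Matrix (Fin n) (Fin n) ℂ)
    (hΦc : ∀ i j, Φc i j = Φ (k.succAbove i) (k.succAbove j)) :
    (G⁻¹ * Φc).trace = h * (K * Φ).trace := by
  -- the selection matrix
  set S : Matrix (Fin n) (Fin (n + 1)) ℂ :=
    Matrix.of fun i a => if k.succAbove i = a then 1 else 0 with hS
  set S' : Matrix (Fin (n + 1)) (Fin n) ℂ :=
    Matrix.of fun a i => if k.succAbove i = a then 1 else 0 with hS'
  set q : Matrix (Fin n) (Fin (n + 1)) ℂ :=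
    Matrix.of fun j b => (if k.succAbove j = b then 1 else 0) -
      (if b = k then W (k.succAbove j) else 0) with hq
  set p : Matrix (Fin (n + 1)) (Fin n) ℂ :=
    Matrix.of fun a i => (if k.succAbove i = a then 1 else 0) -
      (if a = k then Z (k.succAbove i) else 0) with hp
  have hSg : ∀ g : Matrix (Fin (n + 1)) (Fin (n + 1)) ℂ, ∀ i b, (S * g) i b =
      g (k.succAbove i) b := by
    intro g i b
    rw [Matrix.mul_apply, Finset.sum_eq_single (k.succAbove i)]
    · simp [hS]
    · intro a _ ha
      simp [hS, Ne.symm ha]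
    · simp only [Finset.mem_univ, not_true_eq_false, mul_eq_zero, IsEmpty.forall_iff]
  have hSS : ∀ g : Matrix (Fin (n + 1)) (Fin (n + 1)) ℂ, ∀ i j, (S * g * S') i j =
      g (k.succAbove i) (k.succAbove j) := by
    intro g i j
    rw [Matrix.mul_apply, Finset.sum_eq_single (k.succAbove j)]
    · rw [hSg]; simp [hS']
    · intro a _ ha
      simp [hS', Ne.symm ha]
    · simp only [Finset.mem_univ, not_true_eq_false, mul_eq_zero, IsEmpty.forall_iff]
  have hS'q : ∀ g : Matrix (Fin (n + 1)) (Fin (n + 1)) ℂ, (∀ a, ∑ b, W b * g a b = 0) →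
      g * (S' * q) = g := by
    intro g hg
    ext a b
    rw [Matrix.mul_apply, Fin.sum_univ_succAbove _ k]
    have h1 : ∀ i, (S' * q) (k.succAbove i) b = q i b := by
      intro i
      rw [Matrix.mul_apply, Finset.sum_eq_single i]
      · simp [hS']
      · intro j _ hj
        have : k.succAbove j ≠ k.succAbove i := fun h' => hj (Fin.succAbove_right_injective h')
        simp [hS', this]
      · simp only [Finset.mem_univ, not_true_eq_false, mul_eq_zero, IsEmpty.forall_iff]
    have h2 : (S' * q) k b = 0 := by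
      rw [Matrix.mul_apply]
      exact Finset.sum_eq_zero fun j _ => by simp [hS', Fin.succAbove_ne k j]
    rw [h2, mul_zero, zero_add, Finset.sum_congr rfl fun i _ => by rw [h1]]
    refine Fin.succAboveCases k ?_ (fun j => ?_) b
    · have h3 := hg a
      rw [Fin.sum_univ_succAbove _ k, hWk, one_mul] at h3
      have h4 : ∑ i, g a (k.succAbove i) * q i k = - ∑ i, W (k.succAbove i) * g a (k.succAbove i) := by
        rw [← Finset.sum_neg_distrib]
        refine Finset.sum_congr rfl fun i _ => ?_
        simp only [hq, Matrix.of_apply, Fin.succAbove_ne k i, ↓reduceIte, zero_sub, mul_neg, neg_inj]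
        ring
      rw [h4]
      linear_combination -h3
    · rw [Finset.sum_eq_single j]
      · simp [hq, Fin.succAbove_ne k j]
      · intro i _ hi
        have : k.succAbove i ≠ k.succAbove j := fun h' => hi (Fin.succAbove_right_injective h')
        simp [hq, Fin.succAbove_ne k j, this]
      · simp only [Finset.mem_univ, not_true_eq_false, mul_eq_zero, IsEmpty.forall_iff]
  have hpS : ∀ g : Matrix (Fin (n + 1)) (Fin (n + 1)) ℂ, (∀ b, ∑ a, Z a * g a b = 0) →
      (p * S) * g = g := by
    intro g hg
    ext a b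
    rw [Matrix.mul_apply, Fin.sum_univ_succAbove _ k]
    have h1 : ∀ i, (p * S) a (k.succAbove i) = p a i := by
      intro i
      rw [Matrix.mul_apply, Finset.sum_eq_single i]
      · simp [hS]
      · intro j _ hj
        have : k.succAbove j ≠ k.succAbove i := fun h' => hj (Fin.succAbove_right_injective h')
        simp [hS, this]
      · simp only [Finset.mem_univ, not_true_eq_false, mul_eq_zero, IsEmpty.forall_iff]
    have h2 : (p * S) a k = 0 := by
      rw [Matrix.mul_apply]
      exact Finset.sum_eq_zero fun j _ => by simp [hS, Fin.succAbove_ne k j]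
    rw [h2, zero_mul, zero_add, Finset.sum_congr rfl fun i _ => by rw [h1]]
    refine Fin.succAboveCases k ?_ (fun j => ?_) a
    · have h3 := hg b
      rw [Fin.sum_univ_succAbove _ k, hZk, one_mul] at h3
      have h4 : ∑ i, p k i * g (k.succAbove i) b = - ∑ i, Z (k.succAbove i) * g (k.succAbove i) b := by
        rw [← Finset.sum_neg_distrib]
        refine Finset.sum_congr rfl fun i _ => ?_
        simp only [hp, Matrix.of_apply, Fin.succAbove_ne k i, ↓reduceIte, zero_sub, neg_mul]
      rw [h4]
      linear_combination -h3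
    · rw [Finset.sum_eq_single j]
      · simp only [hp, Matrix.of_apply, ↓reduceIte, Fin.succAbove_ne k j, sub_zero, one_mul]
      · intro i _ hi
        have : k.succAbove i ≠ k.succAbove j := fun h' => hi (Fin.succAbove_right_injective h')
        simp [hp, Fin.succAbove_ne k j, this]
      · simp only [Finset.mem_univ, not_true_eq_false, mul_eq_zero, IsEmpty.forall_iff]
  -- the kernel matrix
  set g : Matrix (Fin (n + 1)) (Fin (n + 1)) ℂ :=
    Matrix.of fun a b => H a b / h - u a * v b / h ^ 2 with hg
  have hgW : ∀ a, ∑ b, W b * g a b = 0 := by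
    intro a
    have : ∀ b, W b * g a b = (W b * H a b) / h - (W b * v b) * (u a / h ^ 2) := by
      intro b; simp only [hg, Matrix.of_apply]; ring
    rw [Finset.sum_congr rfl fun b _ => this b, Finset.sum_sub_distrib, ← Finset.sum_div,
      ← Finset.sum_mul, hHW, hvW]
    field_simp
    ring
  have hGg : G = S * g * S' := by
    ext i j
    rw [hSS, hG]
    rfl
  have hΦg : Φc = S * Φ * S' := by
    ext i j
    rw [hSS, hΦc]
  -- `g K = h⁻¹ - h⁻² u ⊗ Z`
  have hvK : ∀ c, ∑ b, v b * K b c = Z c := by
    intro c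
    calc ∑ b, v b * K b c = ∑ b, ∑ a, Z a * (H a b * K b c) := by
          refine Finset.sum_congr rfl fun b _ => ?_
          rw [← hZH b, Finset.sum_mul]
          exact Finset.sum_congr rfl fun a _ => by ring
      _ = ∑ a, Z a * (H * K) a c := by
          rw [Finset.sum_comm]
          refine Finset.sum_congr rfl fun a _ => ?_
          rw [Matrix.mul_apply, Finset.mul_sum]
      _ = Z c := by
          rw [hHK]
          simp [Matrix.one_apply]
  have hgK : ∀ a c, (g * K) a c = (if a = c then 1 else 0) / h - u a * Z c / h ^ 2 := by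
    intro a c
    have h1 : (H * K) a c = if a = c then 1 else 0 := by rw [hHK, Matrix.one_apply]
    rw [Matrix.mul_apply] at h1 ⊢
    rw [← h1, ← hvK c, Finset.sum_div, Finset.mul_sum, Finset.sum_div, ← Finset.sum_sub_distrib]
    refine Finset.sum_congr rfl fun b _ => ?_
    simp only [hg, Matrix.of_apply]
    ring
  have hZp : ∀ i, ∑ c, Z c * p c i = 0 := by
    intro i
    rw [Fin.sum_univ_succAbove _ k, hZk, one_mul, Finset.sum_eq_single i]
    · simp only [hp, Matrix.of_apply, Fin.succAbove_ne k i, ↓reduceIte, zero_sub, sub_zero, mul_one, neg_add_cancel]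
    · intro j _ hj
      have : k.succAbove i ≠ k.succAbove j := fun h' => hj (Fin.succAbove_right_injective h').symm
      simp [hp, this, Fin.succAbove_ne k j]
    · simp only [Finset.mem_univ, not_true_eq_false, mul_eq_zero, IsEmpty.forall_iff]
  have hinv : G * (h • (q * K * p)) = 1 := by
    have h1 : G * (h • (q * K * p)) = h • (S * ((g * (S' * q)) * K) * p) := by
      rw [hGg, Matrix.mul_smul]
      simp only [Matrix.mul_assoc]
    rw [h1, hS'q g hgW]
    ext i l
    rw [Matrix.smul_apply, Matrix.mul_apply]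
    have h2 : ∀ c, (S * (g * K)) i c * p c l =
        (if k.succAbove i = c then p c l else 0) / h -
          (u (k.succAbove i) / h ^ 2) * (Z c * p c l) := by
      intro c
      rw [hSg, hgK]
      split_ifs <;> ring
    rw [Finset.sum_congr rfl fun c _ => h2 c, Finset.sum_sub_distrib, ← Finset.sum_div,
      ← Finset.mul_sum, hZp, mul_zero, sub_zero, Finset.sum_ite_eq, if_pos (Finset.mem_univ _)]
    by_cases hil : i = l
    · subst hil
      simp only [hp, Matrix.of_apply, ↓reduceIte, Fin.succAbove_ne k i, sub_zero, one_div, smul_eq_mul, ne_eq, hne, not_false_eq_true, mul_inv_cancel₀, Matrix.one_apply_eq]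
    · have : k.succAbove l ≠ k.succAbove i := fun h' => hil (Fin.succAbove_right_injective h').symm
      simp only [hp, Matrix.of_apply, this, ↓reduceIte, Fin.succAbove_ne k i, sub_self, zero_div, smul_eq_mul, mul_zero, Matrix.one_apply_ne hil]
  have hGinv : G⁻¹ = h • (q * K * p) := Matrix.inv_eq_right_inv hinv
  rw [hGinv, hΦg, Matrix.smul_mul, Matrix.trace_smul, smul_eq_mul]
  congr 1
  have h5 : q * K * p * (S * Φ * S') = q * (K * ((p * S) * Φ) * S') := by
    simp only [Matrix.mul_assoc]
  rw [h5, hpS Φ hZΦ, Matrix.trace_mul_comm]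
  have h6 : K * Φ * S' * q = K * (Φ * (S' * q)) := by
    simp only [Matrix.mul_assoc]
  rw [h6, hS'q Φ hΦW]

/-! ### Euler relations -/

theorem cs_fd_single (f : Cm m → ℂ) (Z : Cm m) (a : Fin m) (c : ℂ) :
    fderiv ℝ f Z (Pi.single a c) = c * dz a f Z + (starRingEnd ℂ) c * dzb a f Z := by
  have h1 : (Pi.single a c : Cm m) = c.re • (Pi.single a 1 : Cm m) +
      c.im • (Pi.single a Complex.I : Cm m) := by
    rw [← Pi.single_smul, ← Pi.single_smul, ← Pi.single_add]
    congr 1
    apply Complex.ext <;> simp only [Complex.real_smul, mul_one, Complex.re_add_im]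
  rw [h1, map_add, map_smul, map_smul]
  unfold dz dzb
  have h2 : c = c.re + c.im * Complex.I := (Complex.re_add_im c).symm
  have h3 : (starRingEnd ℂ) c = c.re - c.im * Complex.I := by
    apply Complex.ext <;> simp
  rw [h3, Complex.real_smul, Complex.real_smul]
  generalize (fderiv ℝ f Z) (Pi.single a 1) = A
  generalize (fderiv ℝ f Z) (Pi.single a Complex.I) = B
  generalize hx : (c.re : ℂ) = x at *
  generalize hy : (c.im : ℂ) = y at *
  rw [h2]
  linear_combination (y * B) * Complex.I_sq

theorem cs_fd (f : Cm m → ℂ) (Z v : Cm m) :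
    fderiv ℝ f Z v = ∑ a, (v a * dz a f Z + (starRingEnd ℂ) (v a) * dzb a f Z) := by
  have h1 : v = ∑ a, Pi.single a (v a) := (Finset.univ_sum_single v).symm
  conv_lhs => rw [h1]
  rw [map_sum]
  exact Finset.sum_congr rfl fun a _ => cs_fd_single f Z a (v a)

/-- the element of `SA m` and its Hessian -/
theorem cs_fn_hess {F : Cm m → ℝ} (hF : ContDiffOn ℝ ∞ F (Om m)) (a b : Fin m) {Z : Cm m}
    (hZ : Z ≠ 0) : Sm.fn (dA a (dbA b (Sm.ofR F hF))) Z = cHess F Z a b := by
  rw [fn_dA _ _ hZ]
  unfold cHess
  simp only [Matrix.of_apply]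
  have h1 : Sm.fn (dbA b (Sm.ofR F hF)) =ᶠ[nhds Z] dzb b fun y => (F y : ℂ) := by
    filter_upwards [(Om m).isOpen.mem_nhds hZ] with y hy
    rw [fn_dbA _ _ hy]
    unfold dzb
    have h2 : Sm.fn (Sm.ofR F hF) =ᶠ[nhds y] fun y => (F y : ℂ) :=
      Sm.mk_eventuallyEq _ _ hy
    rw [h2.fderiv_eq]
  unfold dz
  rw [h1.fderiv_eq]

theorem cs_fn_dA {F : Cm m → ℝ} (hF : ContDiffOn ℝ ∞ F (Om m)) (a : Fin m) {Z : Cm m}
    (hZ : Z ≠ 0) : Sm.fn (dA a (Sm.ofR F hF)) Z = dz a (fun y => (F y : ℂ)) Z := by
  rw [fn_dA _ _ hZ]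
  have h2 : Sm.fn (Sm.ofR F hF) =ᶠ[nhds Z] fun y => (F y : ℂ) := Sm.mk_eventuallyEq _ _ hZ
  unfold dz
  rw [h2.fderiv_eq]

theorem cs_fn_dbA {F : Cm m → ℝ} (hF : ContDiffOn ℝ ∞ F (Om m)) (a : Fin m) {Z : Cm m}
    (hZ : Z ≠ 0) : Sm.fn (dbA a (Sm.ofR F hF)) Z = dzb a (fun y => (F y : ℂ)) Z := by
  rw [fn_dbA _ _ hZ]
  have h2 : Sm.fn (Sm.ofR F hF) =ᶠ[nhds Z] fun y => (F y : ℂ) := Sm.mk_eventuallyEq _ _ hZ
  unfold dzb
  rw [h2.fderiv_eq]

theorem cs_fn_ZA (a : Fin m) {Z : Cm m} (hZ : Z ≠ 0) : Sm.fn (ZA a) Z = Z a := by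
  unfold ZA
  rw [Sm.mk_fn _ _ (show Z ∈ Om m from hZ)]

theorem cs_fn_WA (a : Fin m) {Z : Cm m} (hZ : Z ≠ 0) :
    Sm.fn (WA a) Z = (starRingEnd ℂ) (Z a) := by
  unfold WA
  rw [Sm.mk_fn _ _ (show Z ∈ Om m from hZ)]

/-- derivative of a degree-`0` function along `w Z` -/
theorem cs_deg0 {F : Cm m → ℝ} (hF : ContDiffOn ℝ ∞ F (Om m))
    (hF0 : ∀ (c : ℂ) Z, Z ≠ 0 → c ≠ 0 → F (c • Z) = F Z) {Z : Cm m} (hZ : Z ≠ 0) (w : ℂ) :
    fderiv ℝ (fun y => (F y : ℂ)) Z (w • Z) = 0 := by
  have hd : DifferentiableAt ℝ (fun y => (F y : ℂ)) Z := cs_diff (Sm.ofReal_smooth F hF) hZ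
  have hγ : HasDerivAt (fun t : ℝ => (1 + (t : ℂ) * w) • Z) (w • Z) 0 := by
    have h1 : HasDerivAt (fun t : ℝ => (1 + (t : ℂ) * w)) w 0 := by
      have h2 : HasDerivAt (fun t : ℝ => (t : ℂ)) 1 0 := Complex.ofRealCLM.hasDerivAt
      simpa using (h2.mul_const w).const_add 1
    exact h1.smul_const Z
  have hγ0 : (fun t : ℝ => (1 + (t : ℂ) * w) • Z) 0 = Z := by simp
  have hc : HasDerivAt (fun t : ℝ => ((F ((1 + (t : ℂ) * w) • Z) : ℝ) : ℂ))
      (fderiv ℝ (fun y => (F y : ℂ)) Z (w • Z)) 0 := by
    have h3 : HasFDerivAt (fun y => (F y : ℂ)) (fderiv ℝ (fun y => (F y : ℂ)) Z)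
        ((fun t : ℝ => (1 + (t : ℂ) * w) • Z) 0) := by
      rw [hγ0]; exact hd.hasFDerivAt
    exact h3.comp_hasDerivAt 0 hγ
  have hev : (fun t : ℝ => ((F ((1 + (t : ℂ) * w) • Z) : ℝ) : ℂ)) =ᶠ[nhds 0]
      fun _ => ((F Z : ℝ) : ℂ) := by
    have hcont : Continuous fun t : ℝ => (1 + (t : ℂ) * w) := by fun_prop
    have h4 : ∀ᶠ t : ℝ in nhds 0, (1 + (t : ℂ) * w) ≠ 0 :=
      hcont.continuousAt.eventually_ne (by simp only [Complex.ofReal_zero, zero_mul, add_zero, ne_eq, one_ne_zero, not_false_eq_true])
    filter_upwards [h4] with t ht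
    rw [hF0 _ Z hZ ht]
  have hc' : HasDerivAt (fun _ : ℝ => ((F Z : ℝ) : ℂ)) 0 0 := hasDerivAt_const _ _
  exact hc.unique (hc'.congr_of_eventuallyEq hev)

theorem cs_euler0 {F : Cm m → ℝ} (hF : ContDiffOn ℝ ∞ F (Om m))
    (hF0 : ∀ (c : ℂ) Z, Z ≠ 0 → c ≠ 0 → F (c • Z) = F Z) :
    (∑ a, ZA a * dA a (Sm.ofR F hF) = 0) ∧ (∑ a, WA a * dbA a (Sm.ofR F hF) = 0) := by
  have key : ∀ Z : Cm m, Z ≠ 0 →
      (∑ a, Z a * dz a (fun y => (F y : ℂ)) Z = 0) ∧
      (∑ a, (starRingEnd ℂ) (Z a) * dzb a (fun y => (F y : ℂ)) Z = 0) := by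
    intro Z hZ
    have h1 := cs_deg0 hF hF0 hZ 1
    have h2 := cs_deg0 hF hF0 hZ Complex.I
    rw [cs_fd, Finset.sum_add_distrib] at h1 h2
    simp only [Pi.smul_apply, smul_eq_mul, one_mul, map_mul, Complex.conj_I, mul_assoc,
      ← Finset.mul_sum, neg_mul, Finset.sum_neg_distrib] at h1 h2
    have hI : Complex.I ≠ 0 := Complex.I_ne_zero
    have h3 : (∑ a, Z a * dz a (fun y => (F y : ℂ)) Z) -
        (∑ a, (starRingEnd ℂ) (Z a) * dzb a (fun y => (F y : ℂ)) Z) = 0 := by
      apply mul_left_cancel₀ hI
      rw [mul_zero, ← h2]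
      ring
    constructor
    · linear_combination (h1 + h3) / 2
    · linear_combination (h1 - h3) / 2
  constructor
  · apply Sm.ext'
    intro Z hZ
    rw [Sm.fn_sum _ _ hZ, Sm.fn_zero hZ, ← (key Z hZ).1]
    refine Finset.sum_congr rfl fun a _ => ?_
    rw [Sm.fn_mul _ _ hZ, cs_fn_ZA a hZ, cs_fn_dA hF a hZ]
  · apply Sm.ext'
    intro Z hZ
    rw [Sm.fn_sum _ _ hZ, Sm.fn_zero hZ, ← (key Z hZ).2]
    refine Finset.sum_congr rfl fun a _ => ?_
    rw [Sm.fn_mul _ _ hZ, cs_fn_WA a hZ, cs_fn_dbA hF a hZ]

/-- differentiate an Euler relation -/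
theorem cs_euler_b {F G : SA m} (h : ∑ a, ZA a * dA a F = G) (b : Fin m) :
    ∑ a, ZA a * dA a (dbA b F) = dbA b G := by
  rw [← h, map_sum]
  refine Finset.sum_congr rfl fun a _ => ?_
  rw [Derivation.leibniz, dbA_ZA, smul_zero, add_zero, smul_eq_mul, dbA_dA_comm]

theorem cs_euler_a {F G : SA m} (h : ∑ b, WA b * dbA b F = G) (a : Fin m) :
    ∑ b, WA b * dA a (dbA b F) = dA a G := by
  rw [← h, map_sum]
  refine Finset.sum_congr rfl fun b _ => ?_
  rw [Derivation.leibniz, dA_WA, smul_zero, add_zero, smul_eq_mul]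

/-- logarithm of the potential -/
theorem cs_log_smooth {h : Cm m → ℝ} (hh : IsCone m h) :
    ContDiffOn ℝ ∞ (fun Z => Real.log (h Z)) (Om m) :=
  hh.smooth.log fun Z hZ => (hh.pos Z hZ).ne'

theorem cs_D_log {h : Cm m → ℝ} (hh : IsCone m h) (v : Cm m) :
    hA hh * Sm.D v (Sm.ofR (fun Z => Real.log (h Z)) (cs_log_smooth hh)) = Sm.D v (hA hh) := by
  apply Sm.ext'
  intro Z hZ
  have h1 : DifferentiableAt ℝ h Z :=
    (hh.smooth.contDiffAt ((Om m).isOpen.mem_nhds hZ)).differentiableAt (by simp)
  have h2 := (hh.pos Z hZ).ne'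
  unfold hA
  rw [Sm.fn_mul _ _ hZ, Sm.D_ofR _ _ _ hZ, Sm.D_ofR _ _ _ hZ, Sm.ofR_fn _ _ hZ,
    fderiv.log h1 h2]
  rw [_root_.smul_apply, smul_eq_mul, ← Complex.ofReal_mul]
  congr 1
  (clear * - h2; field_simp)

theorem cs_alg1 {A B C D x : ℂ} (hx : x ≠ 0) (h : x * A + D / x * C = B) :
    A = B / x - C * D / x ^ 2 := by
  field_simp
  field_simp at h
  linear_combination h

theorem cs_hess_log {h : Cm m → ℝ} (hh : IsCone m h) {Z : Cm m} (hZ : Z ≠ 0) (a b : Fin m) :
    cHess (fun y => Real.log (h y)) Z a b = cHess h Z a b / (h Z : ℂ) -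
      dz a (fun y => (h y : ℂ)) Z * dzb b (fun y => (h y : ℂ)) Z / (h Z : ℂ) ^ 2 := by
  set ℓ : SA m := Sm.ofR (fun Z => Real.log (h Z)) (cs_log_smooth hh) with hℓ
  have hb : ∀ b, hA hh * dbA b ℓ = dbA b (hA hh) := by
    intro b
    simp only [dbA, Derivation.smul_apply, Derivation.add_apply, ← cs_D_log hh]
    simp only [mul_add, mul_smul_comm]
    rfl
  have hab : Sm.fn (dA a (hA hh * dbA b ℓ)) Z = Sm.fn (dA a (dbA b (hA hh))) Z := by rw [hb b]
  rw [Derivation.leibniz, smul_eq_mul, smul_eq_mul] at hab
  have hZ' : Z ∈ Om m := hZ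
  rw [Sm.fn_add _ _ hZ', Sm.fn_mul _ _ hZ', Sm.fn_mul _ _ hZ'] at hab
  have hb1 : Sm.fn (hA hh * dbA b ℓ) Z = Sm.fn (dbA b (hA hh)) Z := by rw [hb b]
  rw [Sm.fn_mul _ _ hZ'] at hb1
  have hpos : ((h Z : ℝ) : ℂ) ≠ 0 := by
    exact_mod_cast (hh.pos Z hZ).ne'
  have e1 : Sm.fn (hA hh) Z = (h Z : ℂ) := Sm.ofR_fn _ _ hZ'
  rw [hℓ, cs_fn_hess (cs_log_smooth hh) a b hZ, ← hℓ] at hab
  unfold hA at hab hb1 e1
  rw [cs_fn_hess hh.smooth a b hZ, cs_fn_dA hh.smooth a hZ] at hab
  rw [cs_fn_dbA hh.smooth b hZ] at hb1
  rw [e1] at hab hb1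
  have hb2 : Sm.fn (dbA b ℓ) Z = dzb b (fun y => (h y : ℂ)) Z / (h Z : ℂ) := by
    rw [eq_div_iff hpos, ← hb1]; ring
  rw [hb2] at hab
  exact cs_alg1 hpos hab

/-! ### The data at a point of a chart -/

theorem cs_homog_cHess {h : Cm m → ℝ} (hh : IsCone m h) {c : ℂ} (hc : c ≠ 0) {Z : Cm m}
    (hZ : Z ≠ 0) : cHess h (c • Z) = cHess h Z := by
  have hd : ∀ f : Cm m → ℂ, ContDiffOn ℝ ∞ f (Om m) → ∀ Z : Cm m, Z ≠ 0 → ∀ v,
      fderiv ℝ (fun y => f (c • y)) Z v = fderiv ℝ f (c • Z) (c • v) := by
    intro f hf Z hZ v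
    have h1 : DifferentiableAt ℝ f (c • Z) := cs_diff hf (smul_ne_zero hc hZ)
    have h2 : HasFDerivAt (fun y : Cm m => c • y)
        ((c • ContinuousLinearMap.id ℂ (Cm m)).restrictScalars ℝ) Z :=
      ((c • ContinuousLinearMap.id ℂ (Cm m)).restrictScalars ℝ).hasFDerivAt
    have h3 := HasFDerivAt.comp Z h1.hasFDerivAt h2
    have h4 : HasFDerivAt (fun y => f (c • y)) ((fderiv ℝ f (c • Z)).comp
      ((c • ContinuousLinearMap.id ℂ (Cm m)).restrictScalars ℝ)) Z := h3
    rw [h4.fderiv]
    rfl
  have hs : ∀ (a : Fin m) (x : ℂ), c • (Pi.single a x : Cm m) = Pi.single a (c * x) := by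
    intro a x
    rw [← Pi.single_smul, smul_eq_mul]
  have hdz : ∀ f : Cm m → ℂ, ContDiffOn ℝ ∞ f (Om m) → ∀ Z : Cm m, Z ≠ 0 → ∀ a,
      dz a (fun y => f (c • y)) Z = c * dz a f (c • Z) := by
    intro f hf Z hZ a
    conv_lhs => unfold dz
    rw [hd f hf Z hZ, hd f hf Z hZ, hs, hs, cs_fd_single, cs_fd_single]
    simp only [mul_one, map_mul, Complex.conj_I]
    linear_combination (-(c * dz a f (c • Z)) / 2 +
      (starRingEnd ℂ) c * dzb a f (c • Z) / 2) * Complex.I_sq
  have hdzb : ∀ f : Cm m → ℂ, ContDiffOn ℝ ∞ f (Om m) → ∀ Z : Cm m, Z ≠ 0 → ∀ a,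
      dzb a (fun y => f (c • y)) Z = (starRingEnd ℂ) c * dzb a f (c • Z) := by
    intro f hf Z hZ a
    conv_lhs => unfold dzb
    rw [hd f hf Z hZ, hd f hf Z hZ, hs, hs, cs_fd_single, cs_fd_single]
    simp only [mul_one, map_mul, Complex.conj_I]
    linear_combination ((c * dz a f (c • Z)) / 2 -
      (starRingEnd ℂ) c * dzb a f (c • Z) / 2) * Complex.I_sq
  have hsm : ContDiffOn ℝ ∞ (fun y => (h y : ℂ)) (Om m) := Sm.ofReal_smooth h hh.smooth
  ext a b
  unfold cHess
  simp only [Matrix.of_apply]
  have hcc : (‖c‖ ^ 2 : ℂ) ≠ 0 := by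
    exact_mod_cast pow_ne_zero 2 (norm_ne_zero_iff.2 hc)
  have e1 : (fun y => ((h (c • y) : ℝ) : ℂ)) =ᶠ[nhds Z] fun y => ((‖c‖ : ℂ) ^ 2) * (h y : ℂ) := by
    filter_upwards [(Om m).isOpen.mem_nhds hZ] with y hy
    rw [hh.homog c y hy hc]
    push_cast
    ring
  have e2 : dzb b (fun y => ((h (c • y) : ℝ) : ℂ)) =ᶠ[nhds Z]
      fun y => ((‖c‖ : ℂ) ^ 2) * dzb b (fun y => (h y : ℂ)) y := by
    filter_upwards [(Om m).isOpen.mem_nhds hZ] with y hy
    have e1' : (fun y => ((h (c • y) : ℝ) : ℂ)) =ᶠ[nhds y]
        fun y => ((‖c‖ : ℂ) ^ 2) * (h y : ℂ) := by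
      filter_upwards [(Om m).isOpen.mem_nhds hy] with x hx
      rw [hh.homog c x hx hc]
      push_cast
      ring
    unfold dzb
    rw [e1'.fderiv_eq, fderiv_const_mul (cs_diff hsm hy)]
    simp only [_root_.smul_apply, smul_eq_mul]
    ring
  have e3 : dz a (dzb b (fun y => ((h (c • y) : ℝ) : ℂ))) Z =
      ((‖c‖ : ℂ) ^ 2) * dz a (dzb b (fun y => (h y : ℂ))) Z := by
    unfold dz
    rw [e2.fderiv_eq, fderiv_const_mul (cs_diff (cs_dzb_smooth hsm b) hZ)]
    simp only [smul_apply, smul_eq_mul]
    ring
  have e4 : dzb b (fun y => ((h (c • y) : ℝ) : ℂ)) =ᶠ[nhds Z]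
      fun y => (starRingEnd ℂ) c * dzb b (fun y => (h y : ℂ)) (c • y) := by
    filter_upwards [(Om m).isOpen.mem_nhds hZ] with y hy
    exact hdzb (fun y => (h y : ℂ)) hsm y hy b
  have e5 : dz a (dzb b (fun y => ((h (c • y) : ℝ) : ℂ))) Z =
      (starRingEnd ℂ) c * (c * dz a (dzb b (fun y => (h y : ℂ))) (c • Z)) := by
    rw [← hdz _ (cs_dzb_smooth hsm b) Z hZ a]
    unfold dz
    rw [e4.fderiv_eq, fderiv_const_mul]
    · simp only [_root_.smul_apply, smul_eq_mul]
      ring
    · have h1 : DifferentiableAt ℝ (dzb b fun y => (h y : ℂ)) (c • Z) :=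
        cs_diff (cs_dzb_smooth hsm b) (smul_ne_zero hc hZ)
      have h2 : DifferentiableAt ℝ (fun y : Cm m => c • y) Z :=
        ((c • ContinuousLinearMap.id ℂ (Cm m)).restrictScalars ℝ).differentiableAt
      exact DifferentiableAt.comp Z h1 h2
  have e6 : (starRingEnd ℂ) c * c = (‖c‖ : ℂ) ^ 2 := by
    rw [mul_comm, Complex.mul_conj, Complex.normSq_eq_norm_sq]
    push_cast
    ring
  rw [e3, ← mul_assoc, e6] at e5
  exact (mul_left_cancel₀ hcc e5).symm

theorem cs_evZ {F : Fin m → SA m} {G : SA m} (h : ∑ a, ZA a * F a = G) {Z : Cm m} (hZ : Z ≠ 0) :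
    ∑ a, Z a * Sm.fn (F a) Z = Sm.fn G Z := by
  have hZ' : Z ∈ Om m := hZ
  rw [← h, Sm.fn_sum _ _ hZ']
  exact Finset.sum_congr rfl fun a _ => by rw [Sm.fn_mul _ _ hZ', cs_fn_ZA a hZ]

theorem cs_evW {F : Fin m → SA m} {G : SA m} (h : ∑ a, WA a * F a = G) {Z : Cm m} (hZ : Z ≠ 0) :
    ∑ a, (starRingEnd ℂ) (Z a) * Sm.fn (F a) Z = Sm.fn G Z := by
  have hZ' : Z ∈ Om m := hZ
  rw [← h, Sm.fn_sum _ _ hZ']
  exact Finset.sum_congr rfl fun a _ => by rw [Sm.fn_mul _ _ hZ', cs_fn_WA a hZ]

section Data

variable {h : Cm m → ℝ} (hh : IsCone m h) {Z : Cm m} (hZ : Z ≠ 0)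
include hh hZ

theorem cs_ZH (b : Fin m) :
    ∑ a, Z a * cHess h Z a b = dzb b (fun y => (h y : ℂ)) Z := by
  have h1 := cs_evZ (cs_euler_b (euler_hA hh) b) hZ
  unfold hA at h1
  rw [cs_fn_dbA hh.smooth b hZ] at h1
  rw [← h1]
  exact Finset.sum_congr rfl fun a _ => by rw [cs_fn_hess hh.smooth a b hZ]

theorem cs_HW (a : Fin m) :
    ∑ b, (starRingEnd ℂ) (Z b) * cHess h Z a b = dz a (fun y => (h y : ℂ)) Z := by
  have h1 := cs_evW (cs_euler_a (eulerb_hA hh) a) hZ
  unfold hA at h1
  rw [cs_fn_dA hh.smooth a hZ] at h1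
  rw [← h1]
  exact Finset.sum_congr rfl fun b _ => by rw [cs_fn_hess hh.smooth a b hZ]

theorem cs_vW : ∑ b, (starRingEnd ℂ) (Z b) * dzb b (fun y => (h y : ℂ)) Z = (h Z : ℂ) := by
  have h1 := cs_evW (eulerb_hA hh) hZ
  unfold hA at h1
  rw [Sm.ofR_fn _ _ (show Z ∈ Om m from hZ)] at h1
  rw [← h1]
  exact Finset.sum_congr rfl fun b _ => by rw [cs_fn_dbA hh.smooth b hZ]

end Data

theorem cs_G {h : Cm (n + 1) → ℝ} (hh : IsCone (n + 1) h) (k : Fin (n + 1)) (z : Cm n)
    (i j : Fin n) : cHess (loc h k) z i j =
      cHess h (chart k z) (k.succAbove i) (k.succAbove j) / (h (chart k z) : ℂ) -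
      dz (k.succAbove i) (fun y => (h y : ℂ)) (chart k z) *
        dzb (k.succAbove j) (fun y => (h y : ℂ)) (chart k z) / (h (chart k z) : ℂ) ^ 2 := by
  have h1 := cHess_chart (F := fun Z => Real.log (h Z)) (cs_log_smooth hh) k z i j
  rw [cs_hess_log hh (cs_chart_ne k z)] at h1
  exact h1

theorem cs_hne {h : Cm (n + 1) → ℝ} (hh : IsCone (n + 1) h) (k : Fin (n + 1)) (z : Cm n) :
    ((h (chart k z) : ℝ) : ℂ) ≠ 0 := by
  exact_mod_cast (hh.pos _ (cs_chart_ne k z)).ne'

/-- `det G = det H / h^{n+1}` in the charts. -/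
theorem det_chart {h : Cm (n + 1) → ℝ} (hh : IsCone (n + 1) h) (k : Fin (n + 1)) (z : Cm n) :
    (cHess (loc h k) z).det = (cHess h (chart k z)).det / ((h (chart k z) : ℝ) : ℂ) ^ (n + 1) :=
  cs_det_alg k (cHess h (chart k z)) (chart k z) (fun b => (starRingEnd ℂ) (chart k z b))
    (fun a => dz a (fun y => (h y : ℂ)) (chart k z))
    (fun b => dzb b (fun y => (h y : ℂ)) (chart k z)) _ (cs_hne hh k z) (cs_chart_same k z)
    (by simp only [cs_chart_same, map_one]) (cs_ZH hh (cs_chart_ne k z)) (cs_HW hh (cs_chart_ne k z))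
    (cs_vW hh (cs_chart_ne k z)) _ (cs_G hh k z)

/-- `tr(G⁻¹ ∂∂̄F) = h tr(H⁻¹ ∂∂̄F)` for `F` of degree `0`. -/
theorem trace_chart {h : Cm (n + 1) → ℝ} (hh : IsCone (n + 1) h) {F : Cm (n + 1) → ℝ}
    (hF : ContDiffOn ℝ ∞ F {Z | Z ≠ 0}) (hF0 : ∀ (c : ℂ) Z, Z ≠ 0 → c ≠ 0 → F (c • Z) = F Z)
    (k : Fin (n + 1)) (z : Cm n) :
    ((cHess (loc h k) z)⁻¹ * cHess (fun y => F (chart k y)) z).trace =
      ((h (chart k z) : ℝ) : ℂ) * ((cHess h (chart k z))⁻¹ * cHess F (chart k z)).trace := by
  have hF' : ContDiffOn ℝ ∞ F (Om (n + 1)) := hF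
  have hne := cs_chart_ne k z
  have hdet : IsUnit (cHess h (chart k z)).det :=
    isUnit_iff_ne_zero.2 (hh.posDef _ hne).det_pos.ne'
  refine cs_trace_alg k (cHess h (chart k z)) (cHess h (chart k z))⁻¹
    (Matrix.mul_nonsing_inv _ hdet) (chart k z) (fun b => (starRingEnd ℂ) (chart k z b))
    (fun a => dz a (fun y => (h y : ℂ)) (chart k z))
    (fun b => dzb b (fun y => (h y : ℂ)) (chart k z)) _ (cs_hne hh k z) (cs_chart_same k z)
    (by simp only [cs_chart_same, map_one]) (cs_ZH hh hne) (cs_HW hh hne)
    (cs_vW hh hne) _ (cs_G hh k z) (cHess F (chart k z)) ?_ ?_ _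
    (cHess_chart hF k z)
  · intro b
    have h1 := cs_evZ (cs_euler_b (cs_euler0 hF' hF0).1 b) hne
    rw [map_zero, Sm.fn_zero (show chart k z ∈ Om (n + 1) from hne)] at h1
    rw [← h1]
    exact Finset.sum_congr rfl fun a _ => by rw [cs_fn_hess hF' a b hne]
  · intro a
    have h1 := cs_evW (cs_euler_a (cs_euler0 hF' hF0).2 a) hne
    rw [map_zero, Sm.fn_zero (show chart k z ∈ Om (n + 1) from hne)] at h1
    rw [← h1]
    exact Finset.sum_congr rfl fun b _ => by rw [cs_fn_hess hF' a b hne]

theorem cs_cHess_sub_mul {f g : Cm m → ℝ} (hf : ContDiff ℝ ∞ f) (hg : ContDiff ℝ ∞ g) (c : ℝ)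
    (z : Cm m) : cHess (fun y => f y - c * g y) z = cHess f z - (c : ℂ) • cHess g z := by
  have hf' : ContDiff ℝ ∞ (fun y => (f y : ℂ)) := Complex.ofRealCLM.contDiff.comp hf
  have hg' : ContDiff ℝ ∞ (fun y => (g y : ℂ)) := Complex.ofRealCLM.contDiff.comp hg
  have hD : ∀ {f : Cm m → ℂ}, ContDiff ℝ ∞ f → ∀ z, DifferentiableAt ℝ f z := fun hf z =>
    hf.contDiffAt.differentiableAt (by simp)
  have hB : ∀ {f : Cm m → ℂ}, ContDiff ℝ ∞ f → ∀ b, ContDiff ℝ ∞ (dzb b f) := by
    intro f hf b
    have h1 : ∀ v, ContDiff ℝ ∞ (fun x => fderiv ℝ f x v) := fun v =>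
      (hf.fderiv_right (m := ∞) (by simp)).clm_apply contDiff_const
    unfold dzb
    exact ((h1 _).add (contDiff_const.mul (h1 _))).div_const _
  have key : ∀ {f g : Cm m → ℂ}, ContDiff ℝ ∞ f → ContDiff ℝ ∞ g → ∀ z v,
      fderiv ℝ (fun y => f y - (c : ℂ) * g y) z v = fderiv ℝ f z v - (c : ℂ) * fderiv ℝ g z v := by
    intro f g hf hg z v
    have h1 := (hD hf z).hasFDerivAt.sub ((hD hg z).hasFDerivAt.const_mul (c : ℂ))
    have h2 : HasFDerivAt (fun y => f y - (c : ℂ) * g y)
        (fderiv ℝ f z - (c : ℂ) • fderiv ℝ g z) z := h1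
    rw [h2.fderiv]
    rfl
  ext a b
  simp only [Matrix.sub_apply, Matrix.smul_apply, smul_eq_mul]
  unfold cHess
  simp only [Matrix.of_apply]
  have h1 : dzb b (fun y => ((f y - c * g y : ℝ) : ℂ)) =
      fun y => dzb b (fun y => (f y : ℂ)) y - (c : ℂ) * dzb b (fun y => (g y : ℂ)) y := by
    funext y
    have h0 : (fun y => ((f y - c * g y : ℝ) : ℂ)) = fun y => (f y : ℂ) - (c : ℂ) * (g y : ℂ) := by
      funext y; push_cast; ring
    rw [h0]
    unfold dzb
    rw [key hf' hg', key hf' hg']
    ring
  rw [h1]
  conv_lhs => unfold dz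
  rw [key (hB hf' b) (hB hg' b), key (hB hf' b) (hB hg' b)]
  unfold dz
  ring

theorem cs_chart_smooth (k : Fin (n + 1)) : ContDiff ℝ ∞ (chart k : Cm n → Cm (n + 1)) := by
  have h : chart k = fun z => csL k z + Pi.single k 1 := funext fun z => cs_chart_eq k z
  rw [h]
  exact (csL k).contDiff.add contDiff_const

theorem cs_comp_chart {F : Cm (n + 1) → ℝ} (hF : ContDiffOn ℝ ∞ F (Om (n + 1)))
    (k : Fin (n + 1)) : ContDiff ℝ ∞ (fun y => F (chart k y)) := by
  rw [← contDiffOn_univ]
  exact hF.comp (cs_chart_smooth k).contDiffOn fun z _ => cs_chart_ne k z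

/-- The scalar curvature in the charts, `S = σ + n(n+1)`. -/
theorem scal_chart {h : Cm (n + 1) → ℝ} (hh : IsCone (n + 1) h) (k : Fin (n + 1)) (z : Cm n) :
    scalG (cHess (loc h k)) z = sigR h (chart k z) + n * (n + 1) := by
  set F1 : Cm (n + 1) → ℝ := fun Z => Real.log (cHess h Z).det.re with hF1
  have hF1s : ContDiffOn ℝ ∞ F1 (Om (n + 1)) := logdet_smooth hh
  have hF10 : ∀ (c : ℂ) Z, Z ≠ 0 → c ≠ 0 → F1 (c • Z) = F1 Z := by
    intro c Z hZ hc
    simp only [hF1]
    rw [cs_homog_cHess hh hc hZ]
  have hlog : (fun y => Real.log (cHess (loc h k) y).det.re) =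
      fun y => F1 (chart k y) - ((n : ℝ) + 1) * loc h k y := by
    funext y
    have hne := cs_chart_ne k y
    have hp := hh.pos _ hne
    have hdp := (hh.posDef _ hne).det_pos
    have hre : (0 : ℝ) < (cHess h (chart k y)).det.re := (Complex.pos_iff.1 hdp).1
    have h1 : (cHess (loc h k) y).det.re = (cHess h (chart k y)).det.re /
        h (chart k y) ^ (n + 1) := by
      rw [det_chart hh, ← Complex.ofReal_pow, Complex.div_ofReal_re]
    rw [h1, Real.log_div hre.ne' (pow_pos hp _).ne', Real.log_pow]
    simp only [hF1, loc]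
    push_cast
    ring
  have hG : IsUnit (cHess (loc h k) z).det := by
    rw [det_chart hh]
    refine isUnit_iff_ne_zero.2 (div_ne_zero ?_ (pow_ne_zero _ (cs_hne hh k z)))
    exact (hh.posDef _ (cs_chart_ne k z)).det_pos.ne'
  unfold scalG sigR
  have hloc : ContDiff ℝ ∞ (loc h k) := cs_comp_chart (cs_log_smooth hh) k
  rw [hlog, cs_cHess_sub_mul (cs_comp_chart hF1s k) hloc,
    Matrix.mul_sub, Matrix.trace_sub, trace_chart hh hF1s hF10, Matrix.mul_smul,
    Matrix.trace_smul]
  have h2 : (cHess (loc h k) z)⁻¹ * cHess (loc h k) z = 1 :=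
    Matrix.nonsing_inv_mul _ hG
  rw [h2, Matrix.trace_one, Fintype.card_fin]
  rw [Complex.sub_re, Complex.re_ofReal_mul, smul_eq_mul, Complex.re_ofReal_mul,
    Complex.natCast_re]
  ring

end P264.Geo

end
end
end

section

section

/-! # P264 / Geo / SigScale : scaling of `σ` -/

open scoped ContDiff ComplexOrder
open TopologicalSpace (Opens)
open MeasureTheory Set

noncomputable section

namespace P264.Geo

variable {n : ℕ}

theorem sgs_dz_const_mul {m : ℕ} (j : Fin m) (a : ℂ) (f : Cm m → ℂ) (z : Cm m) :
    dz j (fun y => a * f y) z = a * dz j f z := by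
  have h : fderiv ℝ (fun y => a * f y) = a • fderiv ℝ f := fderiv_const_smul_field (f := f) a
  unfold dz
  rw [h]
  simp only [Pi.smul_apply, _root_.smul_apply, smul_eq_mul]
  ring

theorem sgs_dzb_const_mul {m : ℕ} (j : Fin m) (a : ℂ) (f : Cm m → ℂ) (z : Cm m) :
    dzb j (fun y => a * f y) z = a * dzb j f z := by
  have h : fderiv ℝ (fun y => a * f y) = a • fderiv ℝ f := fderiv_const_smul_field (f := f) a
  unfold dzb
  rw [h]
  simp only [Pi.smul_apply, _root_.smul_apply, smul_eq_mul]
  ring

theorem sgs_cHess_const_mul {m : ℕ} (a : ℝ) (f : Cm m → ℝ) (z : Cm m) :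
    cHess (fun y => a * f y) z = (a : ℂ) • cHess f z := by
  ext j k
  simp only [cHess, Matrix.of_apply, Matrix.smul_apply, smul_eq_mul]
  have h1 : (dzb k fun y => ((a * f y : ℝ) : ℂ)) = fun y => (a : ℂ) * dzb k (fun y => (f y : ℂ)) y := by
    funext y
    rw [← sgs_dzb_const_mul]
    congr 1
    funext w
    push_cast
    rfl
  rw [h1, sgs_dz_const_mul]

theorem sgs_dz_congr {m : ℕ} (j : Fin m) {f g : Cm m → ℂ} {z : Cm m} (h : f =ᶠ[nhds z] g) :
    dz j f z = dz j g z := by
  unfold dz
  rw [h.fderiv_eq]

theorem sgs_dzb_congr {m : ℕ} (j : Fin m) {f g : Cm m → ℂ} {z : Cm m} (h : f =ᶠ[nhds z] g) :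
    dzb j f z = dzb j g z := by
  unfold dzb
  rw [h.fderiv_eq]

theorem sgs_cHess_congr {m : ℕ} {f g : Cm m → ℝ} {z : Cm m} (h : f =ᶠ[nhds z] g) :
    cHess f z = cHess g z := by
  ext j k
  simp only [cHess, Matrix.of_apply]
  apply sgs_dz_congr
  have h2 : (fun y => (f y : ℂ)) =ᶠ[nhds z] fun y => (g y : ℂ) := by
    filter_upwards [h] with y hy
    rw [hy]
  filter_upwards [h2.eventuallyEq_nhds] with y hy
  exact sgs_dzb_congr k hy

theorem sgs_cHess_const_add {m : ℕ} (a : ℝ) (f : Cm m → ℝ) (z : Cm m) :
    cHess (fun y => a + f y) z = cHess f z := by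
  ext j k
  simp only [cHess, Matrix.of_apply]
  congr 1
  funext y
  unfold dzb
  have h : fderiv ℝ (fun y => ((a + f y : ℝ) : ℂ)) y = fderiv ℝ (fun y => (f y : ℂ)) y := by
    have : (fun y => ((a + f y : ℝ) : ℂ)) = fun y => (a : ℂ) + (f y : ℂ) := by
      funext w
      push_cast
      rfl
    rw [this, fderiv_const_add]
  rw [h]

theorem sgs_fderiv_comp {m : ℕ} {c : ℂ} (hc : c ≠ 0) (f : Cm m → ℂ) (z v : Cm m) :
    fderiv ℝ (fun y => f (c • y)) z v = fderiv ℝ f (c • z) (c • v) := by
  have h := (ContinuousLinearEquiv.smulLeft (R₁ := ℝ) (M₁ := Cm m) (Units.mk0 c hc)).comp_right_fderiv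
    (f := f) (x := z)
  have h2 := congrArg (fun L : Cm m →L[ℝ] ℂ => L v) h
  exact h2

theorem sgs_smul_single_one {m : ℕ} (c : ℂ) (j : Fin m) :
    c • (Pi.single j (1 : ℂ) : Cm m) = c.re • (Pi.single j (1 : ℂ) : Cm m)
      + c.im • (Pi.single j Complex.I : Cm m) := by
  ext i
  rcases eq_or_ne i j with rfl | h
  · simp only [Pi.smul_apply, Pi.single_eq_same, smul_eq_mul, mul_one, Pi.add_apply, Complex.real_smul, Complex.re_add_im]
  · simp [Pi.single_eq_of_ne h]

theorem sgs_smul_single_I {m : ℕ} (c : ℂ) (j : Fin m) :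
    c • (Pi.single j Complex.I : Cm m) = (-c.im) • (Pi.single j (1 : ℂ) : Cm m)
      + c.re • (Pi.single j Complex.I : Cm m) := by
  ext i
  rcases eq_or_ne i j with rfl | h
  · simp only [Pi.smul_apply, Pi.single_eq_same, smul_eq_mul, Pi.add_apply, Complex.real_smul]
    apply Complex.ext <;> simp
  · simp [Pi.single_eq_of_ne h]

theorem sgs_dz_comp {m : ℕ} {c : ℂ} (hc : c ≠ 0) (j : Fin m) (f : Cm m → ℂ) (z : Cm m) :
    dz j (fun y => f (c • y)) z = c * dz j f (c • z) := by
  unfold dz
  rw [sgs_fderiv_comp hc, sgs_fderiv_comp hc, sgs_smul_single_one, sgs_smul_single_I]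
  simp only [map_add, map_smul, Complex.real_smul]
  have e : c = (c.re : ℂ) + (c.im : ℂ) * Complex.I := (Complex.re_add_im c).symm
  set A := fderiv ℝ f (c • z) (Pi.single j 1)
  set B := fderiv ℝ f (c • z) (Pi.single j Complex.I)
  have e2 : c * ((A - Complex.I * B) / 2) = ((c.re : ℂ) + (c.im : ℂ) * Complex.I)
      * ((A - Complex.I * B) / 2) := by rw [← e]
  rw [e2]
  have hI : Complex.I ^ 2 = -1 := Complex.I_sq
  push_cast
  linear_combination ((c.im : ℂ) * B / 2) * hI

theorem sgs_dzb_comp {m : ℕ} {c : ℂ} (hc : c ≠ 0) (j : Fin m) (f : Cm m → ℂ) (z : Cm m) :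
    dzb j (fun y => f (c • y)) z = (starRingEnd ℂ) c * dzb j f (c • z) := by
  unfold dzb
  rw [sgs_fderiv_comp hc, sgs_fderiv_comp hc, sgs_smul_single_one, sgs_smul_single_I]
  simp only [map_add, map_smul, Complex.real_smul]
  have e : (starRingEnd ℂ) c = (c.re : ℂ) - (c.im : ℂ) * Complex.I := by
    apply Complex.ext <;> simp
  set A := fderiv ℝ f (c • z) (Pi.single j 1)
  set B := fderiv ℝ f (c • z) (Pi.single j Complex.I)
  rw [e]
  have hI : Complex.I ^ 2 = -1 := Complex.I_sq
  push_cast
  linear_combination ((c.im : ℂ) * B / 2) * hI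

/-- The complex Hessian of `f ∘ c`. -/
theorem sgs_cHess_comp {m : ℕ} {c : ℂ} (hc : c ≠ 0) (f : Cm m → ℝ) (z : Cm m) :
    cHess (fun y => f (c • y)) z = ((‖c‖ ^ 2 : ℝ) : ℂ) • cHess f (c • z) := by
  ext j k
  simp only [cHess, Matrix.of_apply, Matrix.smul_apply, smul_eq_mul]
  have h1 : (dzb k fun y => ((f (c • y) : ℝ) : ℂ))
      = fun y => (starRingEnd ℂ) c * (fun w => dzb k (fun y => (f y : ℂ)) w) (c • y) := by
    funext y
    exact sgs_dzb_comp hc k (fun y => (f y : ℂ)) y
  rw [h1, sgs_dz_const_mul, sgs_dz_comp hc j (fun w => dzb k (fun y => (f y : ℂ)) w)]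
  rw [← mul_assoc, Complex.conj_mul']
  push_cast
  rfl

theorem sgs_det_re_pos {m : ℕ} {h : Cm m → ℝ} (hh : IsCone m h) {Z : Cm m} (hZ : Z ≠ 0) :
    0 < (cHess h Z).det.re ∧ (cHess h Z).det.im = 0 := by
  have h1 := (hh.posDef Z hZ).det_pos
  rw [Complex.lt_def] at h1
  exact ⟨by simpa only [Complex.zero_re] using h1.1, by simpa using h1.2.symm⟩

theorem sgs_isUnit_det {m : ℕ} {h : Cm m → ℝ} (hh : IsCone m h) {Z : Cm m} (hZ : Z ≠ 0) :
    IsUnit (cHess h Z).det := by
  rw [isUnit_iff_ne_zero]
  exact ((hh.posDef Z hZ).det_pos).ne'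

theorem sgs_ne_nhds {m : ℕ} {Z : Cm m} (hZ : Z ≠ 0) : ∀ᶠ Y in nhds Z, Y ≠ 0 :=
  isOpen_ne.mem_nhds hZ

/-- Scale invariance of `σ`. -/
theorem sigR_smul {m : ℕ} {h : Cm m → ℝ} (hh : IsCone m h) (a : ℝ) (ha : 0 < a) {Z : Cm m}
    (hZ : Z ≠ 0) : sigR (fun Y => a * h Y) Z = sigR h Z := by
  have ha' : (a : ℂ) ≠ 0 := by exact_mod_cast ha.ne'
  have hL : cHess (fun Y => Real.log (cHess (fun Y => a * h Y) Y).det.re) Z
      = cHess (fun Y => Real.log (cHess h Y).det.re) Z := by
    rw [← sgs_cHess_const_add (Real.log (a ^ m)) (fun Y => Real.log (cHess h Y).det.re) Z]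
    apply sgs_cHess_congr
    filter_upwards [sgs_ne_nhds hZ] with Y hY
    have h1 := (sgs_det_re_pos hh hY).1
    rw [sgs_cHess_const_mul, Matrix.det_smul, Fintype.card_fin, ← Real.log_mul (by positivity) h1.ne']
    congr 1
    rw [← Complex.ofReal_pow, Complex.re_ofReal_mul]
  unfold sigR
  rw [hL, sgs_cHess_const_mul]
  have hinv : ((a : ℂ) • cHess h Z)⁻¹ = (a : ℂ)⁻¹ • (cHess h Z)⁻¹ :=
    Matrix.inv_smul' (A := cHess h Z) (Units.mk0 (a : ℂ) ha') (sgs_isUnit_det hh hZ)
  rw [hinv, Matrix.smul_mul, Matrix.trace_smul, smul_eq_mul, ← Complex.ofReal_inv,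
    Complex.re_ofReal_mul]
  field_simp

theorem isCone_smul {m : ℕ} {h : Cm m → ℝ} (hh : IsCone m h) (a : ℝ) (ha : 0 < a) :
    IsCone m (fun Y => a * h Y) where
  smooth := contDiffOn_const.mul hh.smooth
  pos := fun Z hZ => mul_pos ha (hh.pos Z hZ)
  homog := by
    intro c Z hZ hc
    rw [hh.homog c Z hZ hc]
    ring
  posDef := by
    intro Z hZ
    rw [sgs_cHess_const_mul]
    exact (hh.posDef Z hZ).smul (by exact_mod_cast ha)

theorem sgs_cHess_homog {m : ℕ} {h : Cm m → ℝ} (hh : IsCone m h) (c : ℂ) (hc : c ≠ 0) {Z : Cm m}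
    (hZ : Z ≠ 0) : cHess h (c • Z) = cHess h Z := by
  have hc' : ((‖c‖ ^ 2 : ℝ) : ℂ) ≠ 0 := by
    have : ‖c‖ ≠ 0 := norm_ne_zero_iff.2 hc
    exact_mod_cast pow_ne_zero 2 this
  have h1 := sgs_cHess_comp hc h Z
  have h2 : cHess (fun y => h (c • y)) Z = cHess (fun y => ‖c‖ ^ 2 * h y) Z := by
    apply sgs_cHess_congr
    filter_upwards [sgs_ne_nhds hZ] with Y hY
    exact hh.homog c Y hY hc
  rw [h2, sgs_cHess_const_mul] at h1
  exact (smul_right_injective _ hc' h1).symm

/-- `σ` has degree `0`. -/
theorem sigR_homog {m : ℕ} {h : Cm m → ℝ} (hh : IsCone m h) (c : ℂ) (hc : c ≠ 0) {Z : Cm m}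
    (hZ : Z ≠ 0) : sigR h (c • Z) = sigR h Z := by
  have hcn : ‖c‖ ≠ 0 := norm_ne_zero_iff.2 hc
  have hc' : ((‖c‖ ^ 2 : ℝ) : ℂ) ≠ 0 := by
    exact_mod_cast pow_ne_zero 2 hcn
  have h1 := sgs_cHess_comp hc (fun Y => Real.log (cHess h Y).det.re) Z
  have h2 : cHess (fun y => (fun Y => Real.log (cHess h Y).det.re) (c • y)) Z
      = cHess (fun Y => Real.log (cHess h Y).det.re) Z := by
    apply sgs_cHess_congr
    filter_upwards [sgs_ne_nhds hZ] with Y hY
    rw [sgs_cHess_homog hh c hc hY]
  rw [h2] at h1
  unfold sigR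
  rw [h1, sgs_cHess_homog hh c hc hZ, hh.homog c Z hZ hc, Matrix.mul_smul, Matrix.trace_smul,
    smul_eq_mul, Complex.re_ofReal_mul]
  ring

end P264.Geo

end
end
end

section

section

/-!
# P264 / B / Far / OuterBlock : outer block energies are bounded, uniformly in `T` (D12)
-/

open MeasureTheory Set Filter Real
open scoped ContDiff Topology

namespace P264.B

open Aa

variable {R χ : ℝ → ℝ} {Rmin α : ℝ}

/-- `om R` is bounded on `z ≥ 0`. -/
theorem Profile.om_bound_right (hR : Profile R Rmin α) :
    ∃ K : ℝ, 0 ≤ K ∧ ∀ z, 0 ≤ z → |om R z| ≤ K := by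
  obtain ⟨C1, hC1⟩ := hR.right
  have hsub : ∀ j, 1 ≤ j → ∀ z, iteratedDeriv j (fun s => R s - α) z = iteratedDeriv j R z := by
    intro j hj z
    obtain ⟨i, rfl⟩ : ∃ i, j = i + 1 := ⟨j - 1, by omega⟩
    rw [iteratedDeriv_succ', iteratedDeriv_succ']
    congr 1
    funext y
    simp only [deriv_sub_const_fun]
  have hC0 : 0 ≤ C1 := by
    have h := hC1 0 (by norm_num) 0 le_rfl
    have h2 := abs_nonneg (iteratedDeriv 0 (fun s => R s - α) 0)
    simp only [mul_zero, Real.exp_zero, mul_one] at h
    linarith only [h2, h]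
  refine ⟨4 * C1 + 2, by linarith only [hC0], fun z hz => ?_⟩
  have he : Real.exp (-2 * z) ≤ 1 := Real.exp_le_one_iff.2 (by linarith)
  have h1 := hC1 1 (by norm_num) z hz
  have h2 := hC1 2 (by norm_num) z hz
  rw [hsub 1 le_rfl] at h1
  rw [hsub 2 (by norm_num)] at h2
  have h3 : C1 * Real.exp (-2 * z) ≤ C1 := by linarith only [mul_nonneg (sub_nonneg.2 hC0) (sub_nonneg.2 he)]
  have h4 := hR.upper z
  have h5 := hR.lower z
  have h6 := hR.Rmin_pos
  have h7 := abs_le.1 (h1.trans h3)
  have h8 := abs_le.1 (h2.trans h3)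
  unfold om
  rw [abs_le]
  constructor <;> linarith only [h4, h7, h8, h5, h6]

private lemma cs3 (a b p q r : ℝ) :
    (a * r - 4 * q + b * p) ^ 2 ≤ (a ^ 2 + 16 + b ^ 2) * (p ^ 2 + q ^ 2 + r ^ 2) := by
  have h : (a ^ 2 + 16 + b ^ 2) * (p ^ 2 + q ^ 2 + r ^ 2) - (a * r - 4 * q + b * p) ^ 2 =
      (a * q + 4 * r) ^ 2 + (a * p - b * r) ^ 2 + (4 * p + b * q) ^ 2 := by ring
  have h1 := sq_nonneg (a * q + 4 * r)
  have h2 := sq_nonneg (a * p - b * r)
  have h3 := sq_nonneg (4 * p + b * q)
  linarith only [h1, h2, h3]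

private lemma sq_sub_le (p q : ℝ) : (p - q) ^ 2 ≤ 2 * p ^ 2 + 2 * q ^ 2 := by
  have := sq_nonneg (p + q)
  linarith

private lemma wsq_le {u F : ℝ} (h1 : -1 ≤ u) (h2 : u ≤ 1) : (1 - u ^ 2) ^ 4 * F ^ 2 ≤ F ^ 2 := by
  have h3 : 0 ≤ 1 - u ^ 2 := by linarith only [mul_nonneg (sub_nonneg.2 h1) (sub_nonneg.2 h2)]
  have hw : (1 - u ^ 2) ^ 4 ≤ 1 := pow_le_one₀ h3 (by nlinarith only [])
  have := sq_nonneg F
  linarith [mul_nonneg (sq_nonneg (F : ℝ)) (sub_nonneg.2 hw)]

private lemma coef_le {x a : ℝ} (ha : 0 < a) (hax : a ≤ x) (hx : x ≤ 1) :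
    x ^ 2 + 16 + (6 / x) ^ 2 ≤ 17 + 36 / a ^ 2 := by
  have hx0 : 0 < x := ha.trans_le hax
  have e0 : (6 / x) ^ 2 = 36 / x ^ 2 := by rw [div_pow]; norm_num
  have e1 : x ^ 2 ≤ 1 := by nlinarith only [hx, ha, hax]
  have e2 : 36 / x ^ 2 ≤ 36 / a ^ 2 :=
    div_le_div_of_nonneg_left (by norm_num) (by positivity) (pow_le_pow_left₀ ha.le hax 2)
  linarith only [e2, e1, e0]

private lemma step_le {x a G c : ℝ} (ha : 0 < a) (hax : a ≤ x) (hG : 0 ≤ G)
    (hc : c ≤ 17 + 36 / a ^ 2) : c * G ≤ (17 + 36 / a ^ 2) / a * (G * x) := by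
  have e1 : c * G ≤ (17 + 36 / a ^ 2) * G := mul_le_mul_of_nonneg_right hc hG
  have e2 : (17 + 36 / a ^ 2) / a * (G * x) = (17 + 36 / a ^ 2) * G * (x / a) := by ring
  have e3 : 1 ≤ x / a := (one_le_div ha).2 hax
  have e4 : 0 ≤ (17 + 36 / a ^ 2) * G := by positivity
  have e5 := mul_le_mul_of_nonneg_left e3 e4
  rw [e2]
  linarith only [e5, e1]

/-- (D12) Outer block energies are bounded, uniformly in `T`. -/
theorem outer_block (hR : Profile R Rmin α) {X a C : ℝ} (ha : 0 < a) (hC : 0 ≤ C)
    (hχ : Cutoff χ X) :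
    ∃ K : ℝ, 0 ≤ K ∧ ∀ T : ℝ, 0 < T → T ≤ 1 → ∀ (U₀ : ℝ → ℝ) (U φ : ℝ → ℝ → ℝ),
      IsFlowU 8 T U₀ U φ → ∀ b : ℝ, X ≤ b → b < 1 → OuterCtl T a b C φ →
      ∀ c s : ℝ, exp (-s) ≤ T → a ≤ exp (c - 1) → exp (c + 1) ≤ X / 2 →
        0 ≤ c - 1 + s / 2 → blockE χ R φ T c s ≤ K := by
  obtain ⟨KR, hKR0, hKR⟩ := hR.om_bound_right
  refine ⟨2 * (17 + 36 / a ^ 2) * (C / a) + 4 * KR ^ 2, by (clear * - ha hC; positivity), ?_⟩
  intro T hT _ U₀ U φ hφ b hXb hb hO c s hs hac hcX hz0
  have hX0 := hχ.X_pos
  have hX1 := hχ.X_lt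
  set t := tt T s with ht
  have htm : t ∈ Icc 0 T := tt_mem hs le_rfl
  set f : ℝ × ℝ → ℝ := fun p => φ p.1 p.2 with hf
  have hJ : ∀ k, ContinuousOn (fun x => dx T k f (t, x)) (Icc 0 1) := by
    intro k
    refine (smooth_dx hT hφ.sφ k).continuousOn.comp (by fun_prop) ?_
    intro x hx
    exact ⟨htm, hx⟩
  set G : ℝ → ℝ := fun x => dx T 0 f (t, x) ^ 2 + dx T 1 f (t, x) ^ 2 + dx T 2 f (t, x) ^ 2 with hG
  have hGc : ContinuousOn G (Icc 0 1) := (((hJ 0).pow 2).add ((hJ 1).pow 2)).add ((hJ 2).pow 2)
  have hG0 : ∀ x, 0 ≤ G x := fun x => by (clear * -; positivity)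
  have hd1 : ∀ x ∈ Ioo (0 : ℝ) 1, deriv (φ t) x = dx T 1 f (t, x) := fun x hx =>
    (der_dx hT hφ.sφ 0 htm hx).deriv
  have hd2 : ∀ x ∈ Ioo (0 : ℝ) 1, iteratedDeriv 2 (φ t) x = dx T 2 f (t, x) := by
    intro x hx
    rw [iteratedDeriv_two']
    have e : deriv (φ t) =ᶠ[𝓝 x] fun y => dx T 1 f (t, y) := by
      filter_upwards [isOpen_Ioo.mem_nhds hx] with y hy
      exact hd1 y hy
    rw [e.deriv_eq]
    exact (der_dx hT hφ.sφ 1 htm hx).deriv
  -- the integral over `[a, b]`
  have hexp : exp (c - 1) ≤ exp (c + 1) := exp_le_exp.2 (by linarith only [])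
  have hab : a ≤ b := by linarith only [ha, hXb, hac, hcX, hexp]
  have hI : ∫ x in a..b, G x ≤ C := by
    refine le_trans (le_of_eq ?_) (hO.h2 t htm)
    apply intervalIntegral.integral_congr
    intro x hx
    rw [uIcc_of_le hab] at hx
    have hx' : x ∈ Ioo (0 : ℝ) 1 := ⟨lt_of_lt_of_le ha hx.1, lt_of_le_of_lt hx.2 hb⟩
    simp only [hG]
    rw [hd1 x hx', hd2 x hx']
    rfl
  have hI2 : ∫ x in exp (c - 1)..exp (c + 1), G x ≤ C := by
    refine le_trans ?_ hI
    refine intervalIntegral.integral_mono_interval hac hexp (by linarith only [ha, hXb, hac, hcX, hexp])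
      (Eventually.of_forall fun x => hG0 x) ?_
    refine ContinuousOn.intervalIntegrable ?_
    rw [uIcc_of_le hab]
    exact hGc.mono (Icc_subset_Icc ha.le hb.le)
  have hI3 : ∫ u in (-1 : ℝ)..1, G (exp (c + u)) * exp (c + u) ≤ C := by
    have h := intervalIntegral.integral_comp_mul_deriv' (a := -1) (b := 1)
      (f := fun u => exp (c + u)) (f' := fun u => exp (c + u)) (g := G)
      (fun u _ => by
        have h1 : HasDerivAt (fun u : ℝ => c + u) 1 u := by
          simpa only [id_eq] using (hasDerivAt_id u).const_add c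
        simpa using h1.exp)
      (by fun_prop)
      (by
        refine hGc.mono ?_
        rintro _ ⟨u, hu, rfl⟩
        rw [uIcc_of_le (by norm_num)] at hu
        have h1 : exp (c + u) ≤ exp (c + 1) := exp_le_exp.2 (by linarith only [hu.2])
        exact ⟨(exp_pos _).le, by linarith only [hXb, hb, hcX, h1]⟩)
    have h2 : ∫ u in (-1 : ℝ)..1, G (exp (c + u)) * exp (c + u) =
        ∫ x in exp (c + -1)..exp (c + 1), G x := h
    rw [h2]
    have e : c + -1 = c - 1 := by ring
    rw [e]
    exact hI2
  -- the integrand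
  have hxx : ∀ u : ℝ, xx s (c + s / 2 + u) = exp (c + u) := by
    intro u
    unfold xx
    congr 1
    ring
  set F : ℝ → ℝ := fun u =>
    (exp (c + u) * dx T 2 f (t, exp (c + u)) - 4 * dx T 1 f (t, exp (c + u))
      + 6 * (dx T 0 f (t, exp (c + u)) / exp (c + u))) - om R (c + s / 2 + u) with hFdef
  have hmem : ∀ u ∈ Icc (-1 : ℝ) 1, exp (c + u) ∈ Icc a (X / 2) := by
    intro u hu
    refine ⟨hac.trans (exp_le_exp.2 (by linarith only [hu.1])), ?_⟩
    exact (exp_le_exp.2 (by linarith only [hu.2])).trans hcX
  have hJu : ∀ k, ContinuousOn (fun u => dx T k f (t, exp (c + u))) (Icc (-1) 1) := by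
    intro k
    refine (hJ k).comp (by fun_prop) ?_
    intro u hu
    have := hmem u hu
    exact ⟨(exp_pos _).le, by linarith only [hXb, hb, this.2]⟩
  have hE : Continuous fun u : ℝ => exp (c + u) := by fun_prop
  have hoR : Continuous (om R) := (om_contDiff hR.smooth).continuous
  have hFc : ContinuousOn F (Icc (-1) 1) := by
    refine (((hE.continuousOn.mul (hJu 2)).sub (continuousOn_const.mul (hJu 1))).add
      (continuousOn_const.mul ((hJu 0).div hE.continuousOn fun u _ => (exp_pos _).ne'))).sub ?_
    exact (hoR.comp (by fun_prop : Continuous fun u : ℝ => c + s / 2 + u)).continuousOn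
  have hEq : blockE χ R φ T c s = ∫ u in (-1 : ℝ)..1, (1 - u ^ 2) ^ 4 * F u ^ 2 := by
    unfold blockE
    apply intervalIntegral.integral_congr
    intro u hu
    rw [uIcc_of_le (by norm_num)] at hu
    simp only
    rcases eq_or_lt_of_le hu.2 with h | h
    · rw [h]; norm_num
    · have h3 : xx s (c + s / 2 + u) < X / 2 := by
        rw [hxx]
        exact lt_of_lt_of_le (exp_lt_exp.2 (by linarith only [h])) hcX
      rw [om_GG_far hR hφ hχ hs h3]
      simp only [hj_e0, hj_e1, hj_e2, hFdef, hxx]
      ring
  have hpt : ∀ u ∈ Icc (-1 : ℝ) 1, (1 - u ^ 2) ^ 4 * F u ^ 2 ≤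
      2 * (17 + 36 / a ^ 2) / a * (G (exp (c + u)) * exp (c + u)) + 2 * KR ^ 2 := by
    intro u hu
    have h1 := hmem u hu
    set x := exp (c + u) with hx
    have hx0 : 0 < x := exp_pos _
    refine (wsq_le hu.1 hu.2).trans ?_
    set p0 := dx T 0 f (t, x) with hp0
    set p1 := dx T 1 f (t, x) with hp1
    set p2 := dx T 2 f (t, x) with hp2
    have hFu : F u = (x * p2 - 4 * p1 + 6 / x * p0) - om R (c + s / 2 + u) := by
      show (x * p2 - 4 * p1 + 6 * (p0 / x)) - om R (c + s / 2 + u) = _
      ring
    have hGx : G x = p0 ^ 2 + p1 ^ 2 + p2 ^ 2 := rfl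
    have hom := hKR (c + s / 2 + u) (by linarith only [hz0, hu.1])
    have hom2 : om R (c + s / 2 + u) ^ 2 ≤ KR ^ 2 := by
      rw [← sq_abs]
      exact pow_le_pow_left₀ (abs_nonneg _) hom 2
    have hcs := cs3 x (6 / x) p0 p1 p2
    have hx1 : x ≤ 1 := by linarith only [hXb, hb, h1.2]
    have hcoef := coef_le ha h1.1 hx1
    have hG0x : 0 ≤ G x := hG0 x
    have hstep := step_le ha h1.1 hG0x hcoef
    rw [hFu]
    rw [← hGx] at hcs
    have hsq := sq_sub_le (x * p2 - 4 * p1 + 6 / x * p0) (om R (c + s / 2 + u))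
    have e5 : 2 * (17 + 36 / a ^ 2) / a * (G x * x) =
        2 * ((17 + 36 / a ^ 2) / a * (G x * x)) := by ring
    rw [e5]
    linarith only [hom2, hcs, hstep, hsq]
  have hGuc : ContinuousOn (fun u => G (exp (c + u)) * exp (c + u)) (Icc (-1) 1) := by
    refine ContinuousOn.mul (hGc.comp (by fun_prop) ?_) (by fun_prop)
    intro u hu
    have := hmem u hu
    exact ⟨(exp_pos _).le, by linarith only [hXb, hb, this.2]⟩
  have hi1 : IntervalIntegrable (fun u => (1 - u ^ 2) ^ 4 * F u ^ 2) volume (-1) 1 := by
    refine ContinuousOn.intervalIntegrable ?_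
    rw [uIcc_of_le (by norm_num)]
    exact ContinuousOn.mul (by (clear * -; fun_prop)) (hFc.pow 2)
  have hi2 : IntervalIntegrable (fun u => G (exp (c + u)) * exp (c + u)) volume (-1) 1 := by
    refine ContinuousOn.intervalIntegrable ?_
    rw [uIcc_of_le (by norm_num)]
    exact hGuc
  have hi3 : IntervalIntegrable (fun u => 2 * (17 + 36 / a ^ 2) / a *
      (G (exp (c + u)) * exp (c + u)) + 2 * KR ^ 2) volume (-1) 1 :=
    (hi2.const_mul _).add intervalIntegrable_const
  rw [hEq]
  calc ∫ u in (-1 : ℝ)..1, (1 - u ^ 2) ^ 4 * F u ^ 2 ≤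
      ∫ u in (-1 : ℝ)..1, (2 * (17 + 36 / a ^ 2) / a * (G (exp (c + u)) * exp (c + u))
        + 2 * KR ^ 2) := intervalIntegral.integral_mono_on (by norm_num) hi1 hi3 hpt
    _ = 2 * (17 + 36 / a ^ 2) / a * (∫ u in (-1 : ℝ)..1, G (exp (c + u)) * exp (c + u))
        + 4 * KR ^ 2 := by
      rw [intervalIntegral.integral_add (hi2.const_mul _) intervalIntegrable_const,
        intervalIntegral.integral_const_mul, intervalIntegral.integral_const]
      simp only [smul_eq_mul]
      ring
    _ ≤ 2 * (17 + 36 / a ^ 2) / a * C + 4 * KR ^ 2 := by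
      have : 0 ≤ 2 * (17 + 36 / a ^ 2) / a := by positivity
      have := mul_le_mul_of_nonneg_left hI3 this
      linarith only [this]
    _ = 2 * (17 + 36 / a ^ 2) * (C / a) + 4 * KR ^ 2 := by ring

end P264.B
end
end

section

section

/-!
# P264 / B / Far / FinalContra : (D17) the contradiction at time `T`

If `w = h - R` stays small (relative to `R`) on `0 < x ≤ X` for all `s ≥ s₀`, then letting
`t → T` gives `φ(T,x) ≤ (1+η) α x` for small `x`, which is incompatible with `φ_x(T,0) = 1`.
-/

open MeasureTheory Set Filter Real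
open scoped ContDiff Topology

namespace P264.B

variable {R ρ χ : ℝ → ℝ} {Rmin α z₀ rf E₃ : ℝ}

/-- The self-similar profile tends to `α` at `+∞`. -/
theorem profile_tendsto_right (hR : Profile R Rmin α) : Tendsto R atTop (𝓝 α) := by
  obtain ⟨C, hC⟩ := hR.right
  have h0 : Tendsto (fun z : ℝ => C * exp (-2 * z)) atTop (𝓝 0) := by
    have h1 : Tendsto (fun z : ℝ => exp (-(2 * z))) atTop (𝓝 0) :=
      tendsto_exp_neg_atTop_nhds_zero.comp
        (tendsto_id.const_mul_atTop (by norm_num : (0 : ℝ) < 2))
    have h2 := h1.const_mul C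
    rw [mul_zero] at h2
    refine h2.congr fun z => ?_
    rw [neg_mul]
  have h1 : Tendsto (fun z => R z - α) atTop (𝓝 0) := by
    refine squeeze_zero_norm' ?_ h0
    filter_upwards [eventually_ge_atTop (0 : ℝ)] with z hz
    have := hC 0 (by norm_num) z hz
    rw [iteratedDeriv_zero] at this
    rw [Real.norm_eq_abs]
    exact this
  have h2 := h1.add_const α
  rw [zero_add] at h2
  exact h2.congr fun z => by ring

/-- (D17) The contradiction at time `T`. -/
theorem final_contra (hR : Profile R Rmin α) {U₀ : ℝ → ℝ} {U φ : ℝ → ℝ → ℝ} {T X s₀ η : ℝ}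
    (hφ : IsFlowU 8 T U₀ U φ) (hs₀ : exp (-s₀) = T) (hX : 0 < X) (hX1 : X < 1) (hη : 0 ≤ η)
    (hα : α * (1 + η) < 1) (hsm : ∀ s, s₀ ≤ s → Small R φ T X η s) : False := by
  have hT : 0 < T := hs₀ ▸ exp_pos _
  -- the times `tt T s` stay in `[0, T]`
  have htt : ∀ s, s₀ ≤ s → tt T s ∈ Icc (0 : ℝ) T := by
    intro s hs
    have h1 : exp (-s) ≤ T := by
      rw [← hs₀]
      exact exp_le_exp.2 (by linarith only [hs])
    have h2 : 0 < exp (-s) := exp_pos _
    unfold tt
    exact ⟨by linarith, by linarith⟩
  have httlim : Tendsto (fun s => tt T s) atTop (𝓝[Icc (0 : ℝ) T] T) := by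
    refine tendsto_nhdsWithin_iff.2 ⟨?_, ?_⟩
    · have h1 : Tendsto (fun s : ℝ => T - exp (-s)) atTop (𝓝 (T - 0)) :=
        tendsto_const_nhds.sub tendsto_exp_neg_atTop_nhds_zero
      rw [sub_zero] at h1
      exact h1
    · filter_upwards [eventually_ge_atTop s₀] with s hs
      exact htt s hs
  -- the bound at time `T`
  have key : ∀ x, 0 < x → x ≤ X → φ T x / x ≤ (1 + η) * α := by
    intro x hx0 hxX
    have hx01 : x ∈ Icc (0 : ℝ) 1 := ⟨hx0.le, by linarith only [hX1, hxX]⟩
    have hcont : ContinuousWithinAt (fun t => φ t x) (Icc 0 T) T := by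
      have hc : ContinuousOn (fun p : ℝ × ℝ => φ p.1 p.2) (Icc 0 T ×ˢ Icc 0 1) :=
        hφ.smooth.continuousOn
      have hc1 : ContinuousOn (fun t => φ t x) (Icc 0 T) := by
        have hpair : ContinuousOn (fun t : ℝ => ((t, x) : ℝ × ℝ)) (Icc 0 T) := by fun_prop
        exact hc.comp hpair fun t ht => ⟨ht, hx01⟩
      exact hc1 T ⟨hT.le, le_rfl⟩
    have hlim1 : Tendsto (fun s => φ (tt T s) x / x) atTop (𝓝 (φ T x / x)) :=
      (hcont.tendsto.comp httlim).div_const x
    have hlim2 : Tendsto (fun s : ℝ => (1 + η) * R (log x + s / 2)) atTop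
        (𝓝 ((1 + η) * α)) := by
      refine Tendsto.const_mul _ ((profile_tendsto_right hR).comp ?_)
      exact tendsto_atTop_add_const_left _ _
        (tendsto_id.atTop_div_const (by norm_num : (0 : ℝ) < 2))
    refine le_of_tendsto_of_tendsto hlim1 hlim2 ?_
    filter_upwards [eventually_ge_atTop s₀] with s hs
    have hxx : xx s (log x + s / 2) = x := by
      unfold xx
      rw [add_sub_cancel_right, exp_log hx0]
    have h1 := hsm s hs (log x + s / 2) (by rw [hxx]; exact hxX)
    unfold WW HH at h1
    rw [hxx] at h1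
    have h2 := (abs_le.1 h1).2
    linarith only [h2]
  -- the derivative at `0`
  have hp : IsProfile (φ T) := hφ.profile T ⟨hT.le, le_rfl⟩
  have hd : HasDerivWithinAt (φ T) 1 (Icc 0 1) 0 := by
    have hdiff : DifferentiableWithinAt ℝ (φ T) (Icc 0 1) 0 :=
      (hp.smooth.differentiableOn (by simp)) 0 ⟨le_rfl, zero_le_one⟩
    have := hdiff.hasDerivWithinAt
    rwa [hp.left1] at this
  have hd' : HasDerivWithinAt (φ T) 1 (Ioo 0 X) 0 := by
    refine hd.mono fun x hx => ⟨hx.1.le, ?_⟩
    exact (hx.2.trans hX1).le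
  have hslope := hasDerivWithinAt_iff_tendsto_slope.1 hd'
  have hne : (𝓝[Ioo (0 : ℝ) X \ {0}] 0).NeBot := by
    have h1 : Ioo (0 : ℝ) X \ {0} = Ioo 0 X := by
      ext x
      constructor
      · exact fun h => h.1
      · exact fun h => ⟨h, fun h0 => (ne_of_gt h.1) h0⟩
    rw [h1, nhdsWithin_Ioo_eq_nhdsGT hX]
    infer_instance
  have hle : (1 : ℝ) ≤ (1 + η) * α := by
    refine le_of_tendsto hslope ?_
    filter_upwards [self_mem_nhdsWithin] with x hx
    have h1 : slope (φ T) 0 x = φ T x / x := by
      rw [slope_def_field, hp.left0, sub_zero, sub_zero]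
    rw [h1]
    exact key x hx.1.1 hx.1.2.le
  linarith only [hα, hle]

end P264.B
end
end

section

section

/-!
# P264 / B / Far / ExistsCutoff : existence of the cut-off function
-/

open MeasureTheory Set Filter Real
open scoped ContDiff Topology

namespace P264.B

/-- (D19) Existence of the cut-off function. -/
theorem exists_cutoff_far {X : ℝ} (hX : 0 < X) (hX1 : X < 1) : ∃ χ : ℝ → ℝ, Cutoff χ X := by
  refine ⟨fun x => Real.smoothTransition (2 - 2 * x / X), hX, hX1, ?_, fun x hx => ?_,
    fun x hx => ?_, fun x => ⟨Real.smoothTransition.nonneg _, Real.smoothTransition.le_one _⟩⟩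
  · exact Real.smoothTransition.contDiff.comp
      (contDiff_const.sub ((contDiff_const.mul contDiff_id).div_const X))
  · apply Real.smoothTransition.one_of_one_le
    have h : 2 * x / X ≤ 1 := by
      rw [div_le_one hX]
      linarith only [hx]
    linarith only [h]
  · apply Real.smoothTransition.zero_of_nonpos
    have h : 2 ≤ 2 * x / X := by
      rw [le_div_iff₀ hX]
      linarith
    linarith

end P264.B
end
end

section

section

/-!
# P264 / B / Near / AaDeriv : derivative of the scalar unknowns (E4)
-/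

open MeasureTheory Set Filter Real
open scoped ContDiff Topology
open Vale.Agent.P264.Cal (PC1)
open P264.Cal (pdt pdx)

namespace P264.B.Aa

/-! ### localisation of the support -/

/-- A compact subset of `(-∞, c)` is contained in some `(a,b)` with `b < c`. -/
theorem exists_ab {K : Set ℝ} (hK : IsCompact K) {c : ℝ} (h : ∀ z ∈ K, z < c) :
    ∃ a b : ℝ, a < b ∧ b < c ∧ K ⊆ Ioo a b := by
  rcases K.eq_empty_or_nonempty with rfl | hne
  · exact ⟨c - 2, c - 1, by linarith only [], by linarith, empty_subset _⟩
  · obtain ⟨M, hM, hM2⟩ := hK.exists_isGreatest hne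
    obtain ⟨m, hm, hm2⟩ := hK.exists_isLeast hne
    have h1 := h M hM
    have h2 := hM2 hm
    refine ⟨m - 1, (M + c) / 2, by linarith, by linarith only [h1], fun z hz => ⟨?_, ?_⟩⟩
    · have := hm2 hz; linarith
    · have := hM2 hz; linarith

/-- An integral over the line of a function supported in `(a,b)`. -/
theorem integral_eq_interval {a b : ℝ} (hab : a ≤ b) {k : ℝ → ℝ}
    (h : ∀ z, z ∉ Ioo a b → k z = 0) : ∫ z, k z = ∫ z in a..b, k z := by
  rw [intervalIntegral.integral_of_le hab]
  symm
  apply setIntegral_eq_integral_of_forall_compl_eq_zero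
  intro z hz
  exact h z fun hz' => hz ⟨hz'.1, hz'.2.le⟩

section test

variable {ψ : ℝ → ℝ}

theorem ev_zero {z : ℝ} (hz : z ∉ tsupport ψ) : ψ =ᶠ[𝓝 z] fun _ => 0 := by
  have := (isClosed_tsupport ψ).isOpen_compl.mem_nhds hz
  filter_upwards [this] with y hy
  exact image_eq_zero_of_notMem_tsupport hy

theorem F_ev_zero {z : ℝ} (hz : z ∉ tsupport ψ) :
    (fun u => exp (-2 * u) * ψ u) =ᶠ[𝓝 z] fun _ => 0 := by
  filter_upwards [ev_zero hz] with y hy
  rw [hy, mul_zero]

theorem iter_zero {f : ℝ → ℝ} {z : ℝ} (h : f =ᶠ[𝓝 z] fun _ => 0) (k : ℕ) :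
    iteratedDeriv k f z = 0 := by
  have h1 := h.iteratedDeriv_eq k
  rw [h1]
  simp

theorem piDadj_zero {z : ℝ} (hz : z ∉ tsupport ψ) :
    piDadj (fun u => exp (-2 * u) * ψ u) z = 0 := by
  have h := F_ev_zero hz
  unfold piDadj
  have h0 : (fun u => exp (-2 * u) * ψ u) z = 0 := h.eq_of_nhds
  rw [iter_zero h, iter_zero h, iter_zero h, iter_zero h]
  simp only at h0
  simp only [h0]
  ring

theorem psi_zero {z : ℝ} (hz : z ∉ tsupport ψ) : ψ z = 0 := image_eq_zero_of_notMem_tsupport hz

theorem dpsi_zero {z : ℝ} (hz : z ∉ tsupport ψ) : deriv ψ z = 0 := by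
  rw [(ev_zero hz).deriv_eq]
  simp

end test

/-- Four-fold integration by parts against a `C⁴` function with zero boundary jets. -/
theorem ibp4 {a b : ℝ} (hab : a ≤ b) {F : ℝ → ℝ} (hF : ContDiff ℝ 4 F)
    (ha : ∀ k ≤ 3, iteratedDeriv k F a = 0) (hb : ∀ k ≤ 3, iteratedDeriv k F b = 0)
    {u : ℕ → ℝ → ℝ} (hu : ∀ k ≤ 3, ∀ z ∈ Icc a b, HasDerivAt (u k) (u (k + 1) z) z)
    (hc : ContinuousOn (u 4) (Icc a b)) :
    ∫ z in a..b, piDadj F z * u 0 z
      = ∫ z in a..b, F z * (u 4 z + 12 * u 3 z + 13 * u 2 z - 138 * u 1 z + 112 * u 0 z) := by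
  have huc : ∀ k ≤ 4, ContinuousOn (u k) (Icc a b) := by
    intro k hk
    rcases Nat.lt_or_ge k 4 with h | h
    · exact fun z hz => (hu k (by omega) z hz).continuousAt.continuousWithinAt
    · have : k = 4 := by omega
      rw [this]; exact hc
  have hF' : ContDiff ℝ (4 : ℕ) F := hF
  have hFc : ∀ k ≤ 4, Continuous (iteratedDeriv k F) := fun k hk =>
    hF.continuous_iteratedDeriv k (by exact_mod_cast hk)
  have hFp : ∀ k ≤ 3, PC1 ∅ a b (iteratedDeriv k F) (iteratedDeriv (k + 1) F) := fun k hk =>
    PC1.of_hasDerivAt hab (hFc k (by omega)).continuousOn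
      (fun z _ => hasDerivAt_iter hF' (by omega) z) (hFc (k + 1) (by omega)).continuousOn
  have hup : ∀ k ≤ 3, PC1 ∅ a b (u k) (u (k + 1)) := fun k hk =>
    PC1.of_hasDerivAt hab (huc k (by omega)) (fun z hz => hu k hk z ⟨hz.1.le, hz.2.le⟩)
      (huc (k + 1) (by omega))
  -- one step
  have step : ∀ j ≤ 3, ∀ i ≤ 3, ∫ z in a..b, iteratedDeriv (j + 1) F z * u i z
      = -∫ z in a..b, iteratedDeriv j F z * u (i + 1) z := by
    intro j hj i hi
    have h := (hFp j hj).parts countable_empty hab (hup i hi)
    rw [h, ha j hj, hb j hj]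
    ring
  have s1 := step 0 (by norm_num) 0 (by norm_num)
  have s2 : ∫ z in a..b, iteratedDeriv 2 F z * u 0 z
      = ∫ z in a..b, iteratedDeriv 0 F z * u 2 z := by
    rw [step 1 (by norm_num) 0 (by norm_num), step 0 (by norm_num) 1 (by norm_num), neg_neg]
  have s3 : ∫ z in a..b, iteratedDeriv 3 F z * u 0 z
      = -∫ z in a..b, iteratedDeriv 0 F z * u 3 z := by
    rw [step 2 (by norm_num) 0 (by norm_num), step 1 (by norm_num) 1 (by norm_num),
      step 0 (by norm_num) 2 (by norm_num), neg_neg]
  have s4 : ∫ z in a..b, iteratedDeriv 4 F z * u 0 z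
      = ∫ z in a..b, iteratedDeriv 0 F z * u 4 z := by
    rw [step 3 (by norm_num) 0 (by norm_num), step 2 (by norm_num) 1 (by norm_num),
      step 1 (by norm_num) 2 (by norm_num), step 0 (by norm_num) 3 (by norm_num)]
    ring
  have int : ∀ k ≤ 4, ∀ i ≤ 4, IntervalIntegrable (fun z => iteratedDeriv k F z * u i z)
      volume a b := by
    intro k hk i hi
    apply ContinuousOn.intervalIntegrable
    rw [uIcc_of_le hab]
    exact (hFc k hk).continuousOn.mul (huc i hi)
  have l1 : ∫ z in a..b, piDadj F z * u 0 z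
      = (∫ z in a..b, iteratedDeriv 4 F z * u 0 z) - 12 * (∫ z in a..b, iteratedDeriv 3 F z * u 0 z)
        + 13 * (∫ z in a..b, iteratedDeriv 2 F z * u 0 z)
        + 138 * (∫ z in a..b, iteratedDeriv 1 F z * u 0 z)
        + 112 * (∫ z in a..b, iteratedDeriv 0 F z * u 0 z) := by
    have i4 := int 4 (by norm_num) 0 (by norm_num)
    have i3 := (int 3 (by norm_num) 0 (by norm_num)).const_mul 12
    have i2 := (int 2 (by norm_num) 0 (by norm_num)).const_mul 13
    have i1 := (int 1 (by norm_num) 0 (by norm_num)).const_mul 138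
    have i0 := (int 0 (by norm_num) 0 (by norm_num)).const_mul 112
    rw [← intervalIntegral.integral_const_mul, ← intervalIntegral.integral_const_mul,
      ← intervalIntegral.integral_const_mul, ← intervalIntegral.integral_const_mul,
      ← intervalIntegral.integral_sub i4 i3, ← intervalIntegral.integral_add (i4.sub i3) i2,
      ← intervalIntegral.integral_add ((i4.sub i3).add i2) i1,
      ← intervalIntegral.integral_add (((i4.sub i3).add i2).add i1) i0]
    apply intervalIntegral.integral_congr
    intro z _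
    simp only [piDadj, iteratedDeriv_zero]
    ring
  have l2 : ∫ z in a..b, F z * (u 4 z + 12 * u 3 z + 13 * u 2 z - 138 * u 1 z + 112 * u 0 z)
      = (∫ z in a..b, iteratedDeriv 0 F z * u 4 z) + 12 * (∫ z in a..b, iteratedDeriv 0 F z * u 3 z)
        + 13 * (∫ z in a..b, iteratedDeriv 0 F z * u 2 z)
        - 138 * (∫ z in a..b, iteratedDeriv 0 F z * u 1 z)
        + 112 * (∫ z in a..b, iteratedDeriv 0 F z * u 0 z) := by
    have i4 := int 0 (by norm_num) 4 (by norm_num)
    have i3 := (int 0 (by norm_num) 3 (by norm_num)).const_mul 12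
    have i2 := (int 0 (by norm_num) 2 (by norm_num)).const_mul 13
    have i1 := (int 0 (by norm_num) 1 (by norm_num)).const_mul 138
    have i0 := (int 0 (by norm_num) 0 (by norm_num)).const_mul 112
    rw [← intervalIntegral.integral_const_mul, ← intervalIntegral.integral_const_mul,
      ← intervalIntegral.integral_const_mul, ← intervalIntegral.integral_const_mul,
      ← intervalIntegral.integral_add i4 i3, ← intervalIntegral.integral_add (i4.add i3) i2,
      ← intervalIntegral.integral_sub ((i4.add i3).add i2) i1,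
      ← intervalIntegral.integral_add (((i4.add i3).add i2).sub i1) i0]
    apply intervalIntegral.integral_congr
    intro z _
    simp only [iteratedDeriv_zero]
    ring
  rw [l1, l2, s1, s2, s3, s4]
  ring

section main

variable {R ψ : ℝ → ℝ} {Rmin α : ℝ} {T : ℝ} {U₀ : ℝ → ℝ} {U φ : ℝ → ℝ → ℝ} {s : ℝ}

/-- `∂_s (1/h)` at fixed `z`. -/
noncomputable def mS (T : ℝ) (U _φ : ℝ → ℝ → ℝ) (r z : ℝ) : ℝ :=
  -(xx r z) / 2 * dx T 2 (fun p : ℝ × ℝ => U p.1 p.2) (tt T r, xx r z)
    + xx r z * (exp (-r) * pdt (bx T) (dx T 2 (fun p : ℝ × ℝ => U p.1 p.2)) (tt T r, xx r z)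
        - xx r z / 2 * dx T 3 (fun p : ℝ × ℝ => U p.1 p.2) (tt T r, xx r z))
    - xx r z / 2 / (1 - xx r z) ^ 2

/-- `∂_z (1/h)`. -/
noncomputable def mZ (T : ℝ) (U : ℝ → ℝ → ℝ) (r z : ℝ) : ℝ :=
  xx r z * dx T 2 (fun p : ℝ × ℝ => U p.1 p.2) (tt T r, xx r z)
    + xx r z ^ 2 * dx T 3 (fun p : ℝ × ℝ => U p.1 p.2) (tt T r, xx r z)
    + xx r z / (1 - xx r z) ^ 2

/-- `1/h` in terms of `U`. -/
noncomputable def mm (T : ℝ) (U : ℝ → ℝ → ℝ) (r z : ℝ) : ℝ :=
  xx r z * dx T 2 (fun p : ℝ × ℝ => U p.1 p.2) (tt T r, xx r z) + 1 + xx r z / (1 - xx r z)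

theorem mm_deriv_s (h : IsFlowU 8 T U₀ U φ) (hs : exp (-s) ≤ T) {r z : ℝ} (hr : s ≤ r)
    (hz : xx s z < 1) :
    HasDerivWithinAt (fun r => mm T U r z) (mS T U φ r z) (Ici s) r := by
  have hT := T_pos hs
  have hx1 : xx r z < 1 := lt_of_le_of_lt (exp_le_exp.2 (by linarith only [hr])) hz
  have h1 := hasDerivWithinAt_jet_s hT h.sU 2 hs hr hz
  have hX := (hasDerivAt_xx_s r z).hasDerivWithinAt (s := Ici s)
  have h2 := (hX.fun_mul h1).add_const 1
  have h3 := hX.fun_div (hX.const_sub 1) (by linarith : (1 : ℝ) - xx r z ≠ 0)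
  refine (h2.add h3).congr_deriv ?_
  have : (1 : ℝ) - xx r z ≠ 0 := by linarith
  simp only [mS]
  field_simp
  ring

theorem mm_deriv_z (h : IsFlowU 8 T U₀ U φ) (hs : exp (-s) ≤ T) {z : ℝ}
    (hz : xx s z < 1) : HasDerivAt (fun z => mm T U s z) (mZ T U s z) z := by
  have hT := T_pos hs
  have h1 := hasDerivAt_jet_z hT h.sU 2 (tt_mem hs le_rfl) hz
  have hX := hasDerivAt_xx_z s z
  have h2 := (hX.fun_mul h1).add_const 1
  have h3 := hX.fun_div (hX.const_sub 1) (by linarith only [hz] : (1 : ℝ) - xx s z ≠ 0)
  refine (h2.add h3).congr_deriv ?_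
  have : (1 : ℝ) - xx s z ≠ 0 := by linarith
  simp only [mZ]
  field_simp
  ring

/-- `∂_s m = -(1/2) D m + e^{-2z} Pi(D)(h-1)`. -/
theorem mS_eq (h : IsFlowU 8 T U₀ U φ) (hs : exp (-s) ≤ T) {z : ℝ} (hz : xx s z < 1) :
    mS T U φ s z = -(1 / 2) * mZ T U s z + exp (-2 * z) *
      (hj T φ s 4 z + 12 * hj T φ s 3 z + 13 * hj T φ s 2 z - 138 * hj T φ s 1 z
        + 112 * (hj T φ s 0 z - 1)) := by
  rw [← Utxx h hs le_rfl hz]
  simp only [mS, mZ]
  rw [exp_neg_s s z]
  ring

theorem continuousOn_frame {f : ℝ × ℝ → ℝ} (hf : ContinuousOn f (bx T)) (hs : exp (-s) ≤ T)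
    {a b : ℝ} (hb : b < s / 2) {S : Set ℝ} (hS : S ⊆ Ici s) :
    ContinuousOn (fun q : ℝ × ℝ => f (tt T q.1, xx q.1 q.2)) (S ×ˢ Icc a b) := by
  have hc : Continuous fun q : ℝ × ℝ => ((tt T q.1, xx q.1 q.2) : ℝ × ℝ) := by
    unfold tt xx
    fun_prop
  refine hf.comp hc.continuousOn ?_
  rintro ⟨r, z⟩ ⟨hr, hz⟩
  have hr' : s ≤ r := hS hr
  refine ⟨tt_mem hs hr', (xx_pos _ _).le, ?_⟩
  apply le_of_lt
  rw [xx_lt_one_iff]
  have := hz.2
  simp only
  linarith only [hb, hr', this]

theorem aa_eq_interval (h : IsFlowU 8 T U₀ U φ) (hs : exp (-s) ≤ T) {a b : ℝ} (hab : a < b)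
    (hb : b < s / 2) (hsub : tsupport ψ ⊆ Ioo a b) {r : ℝ} (hr : s ≤ r) :
    aa ψ R φ T r = ∫ z in a..b, ψ z * (mm T U r z - 1 / R z) := by
  unfold aa
  rw [integral_eq_interval hab.le]
  · apply intervalIntegral.integral_congr
    intro z hz
    rw [uIcc_of_le hab.le] at hz
    have hz1 : xx r z < 1 := by
      rw [xx_lt_one_iff]
      have := hz.2
      linarith only [hb, hr, this]
    simp only
    rw [inv_HH h hs hr hz1]
    rfl
  · intro z hz
    rw [psi_zero (fun h => hz (hsub h)), zero_mul]

theorem mS_cont (h : IsFlowU 8 T U₀ U φ) (hs : exp (-s) ≤ T) {a b : ℝ} (hb : b < s / 2)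
    {S : Set ℝ} (hS : S ⊆ Ici s) :
    ContinuousOn (fun q : ℝ × ℝ => mS T U φ q.1 q.2) (S ×ˢ Icc a b) := by
  have hT := T_pos hs
  have c2 := continuousOn_frame (a := a) (smooth_dx hT h.sU 2).continuousOn hs hb hS
  have c3 := continuousOn_frame (a := a) (smooth_dx hT h.sU 3).continuousOn hs hb hS
  have c4 := continuousOn_frame (a := a)
    (smooth_pdt hT (smooth_dx hT h.sU 2)).continuousOn hs hb hS
  have cx : Continuous fun q : ℝ × ℝ => xx q.1 q.2 := by unfold xx; fun_prop
  have hne : ∀ q ∈ S ×ˢ Icc a b, (1 - xx q.1 q.2) ^ 2 ≠ 0 := by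
    rintro ⟨r, z⟩ ⟨hr, hz⟩
    have h1 : xx r z < 1 := by
      rw [xx_lt_one_iff]
      have h2 := hz.2
      have h3 : s ≤ r := hS hr
      simp only at h2
      linarith only [hb, h2, h3]
    have : (0 : ℝ) < 1 - xx r z := by linarith only [h1]
    (clear * - h1; positivity)
  unfold mS
  refine ((((cx.neg.div_const 2).continuousOn.mul c2).add
    (cx.continuousOn.mul (((by fun_prop : Continuous fun q : ℝ × ℝ => exp (-q.1)).continuousOn.mul
      c4).sub ((cx.div_const 2).continuousOn.mul c3)))).sub ?_)
  exact (cx.div_const 2).continuousOn.div ((continuous_const.sub cx).pow 2).continuousOn hne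

theorem mm_cont (h : IsFlowU 8 T U₀ U φ) (hs : exp (-s) ≤ T) {a b : ℝ} (hb : b < s / 2)
    {S : Set ℝ} (hS : S ⊆ Ici s) :
    ContinuousOn (fun q : ℝ × ℝ => mm T U q.1 q.2) (S ×ˢ Icc a b) := by
  have hT := T_pos hs
  have c2 := continuousOn_frame (a := a) (smooth_dx hT h.sU 2).continuousOn hs hb hS
  have cx : Continuous fun q : ℝ × ℝ => xx q.1 q.2 := by unfold xx; (clear * -; fun_prop)
  have hne : ∀ q ∈ S ×ˢ Icc a b, (1 - xx q.1 q.2) ≠ 0 := by
    rintro ⟨r, z⟩ ⟨hr, hz⟩
    have h1 : xx r z < 1 := by
      rw [xx_lt_one_iff]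
      have h2 := hz.2
      have h3 : s ≤ r := hS hr
      simp only at h2
      linarith only [hb, h2, h3]
    have : (0 : ℝ) < 1 - xx r z := by linarith only [h1]
    exact this.ne'
  unfold mm
  exact ((cx.continuousOn.mul c2).add continuousOn_const).add
    (cx.continuousOn.div (continuous_const.sub cx).continuousOn hne)

/-- derivative of `aa` as an integral of `mS`. -/
theorem aa_deriv_raw (hR : Profile R Rmin α) (h : IsFlowU 8 T U₀ U φ) (hs : exp (-s) ≤ T)
    (hψ : Continuous ψ) {a b : ℝ} (hab : a < b)
    (hb : b < s / 2) (hsub : tsupport ψ ⊆ Ioo a b) {r : ℝ} (hr : s ≤ r) :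
    HasDerivWithinAt (fun r => aa ψ R φ T r) (∫ z in a..b, ψ z * mS T U φ r z) (Ici s) r := by
  have hRc : Continuous R := hR.smooth.continuous
  have hRp : ∀ z, R z ≠ 0 := fun z => (lt_of_lt_of_le hR.Rmin_pos (hR.lower z)).ne'
  set S : Set ℝ := Icc s (r + 1) with hSdef
  have hS : S ⊆ Ici s := fun x hx => hx.1
  have hrS : r ∈ S := ⟨hr, by linarith only []⟩
  have key := P264.Cal.hasFDerivWithinAt_integral (F := ℝ) (S := S) isCompact_Icc
    (convex_Icc _ _)
    (f := fun r z => ψ z * (mm T U r z - 1 / R z))
    (f' := fun r z => ContinuousLinearMap.toSpanSingleton ℝ (ψ z * mS T U φ r z))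
    (a := a) (b := b) hab.le ?_ ?_ ?_ hrS
  · have h2 := key.hasDerivWithinAt
    have e : (∫ z in a..b, ContinuousLinearMap.toSpanSingleton ℝ
        (ψ z * mS T U φ r z)) (1 : ℝ) = ∫ z in a..b, ψ z * mS T U φ r z := by
      rw [ContinuousLinearMap.intervalIntegral_apply]
      · simp only [ContinuousLinearMap.toSpanSingleton_apply, smul_eq_mul, one_mul]
      · apply ContinuousOn.intervalIntegrable
        rw [uIcc_of_le hab.le]
        have c1 : ContinuousOn (fun z : ℝ => ψ z * mS T U φ r z) (Icc a b) :=
          hψ.continuousOn.mul ((mS_cont h hs hb hS).comp (f := fun z : ℝ => ((r, z) : ℝ × ℝ))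
            (by fun_prop) (fun z hz => ⟨hrS, hz⟩))
        exact (ContinuousLinearMap.toSpanSingletonCLE (𝕜 := ℝ) (E := ℝ)).continuous.comp_continuousOn
          c1
    rw [e] at h2
    have h3 : HasDerivWithinAt (fun r => ∫ z in a..b, ψ z * (mm T U r z - 1 / R z))
        (∫ z in a..b, ψ z * mS T U φ r z) (Ici s) r := by
      refine h2.mono_of_mem_nhdsWithin ?_
      have : Icc s (r + 1) = Ici s ∩ Iic (r + 1) := Ici_inter_Iic.symm
      rw [hSdef, this]
      exact inter_mem self_mem_nhdsWithin (mem_nhdsWithin_of_mem_nhds (Iic_mem_nhds (by linarith only [])))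
    refine h3.congr (fun r' hr' => ?_) ?_
    · exact aa_eq_interval h hs hab hb hsub hr'
    · exact aa_eq_interval h hs hab hb hsub hr
  · refine (hψ.comp continuous_snd).continuousOn.mul ((mm_cont h hs hb hS).sub ?_)
    exact (continuous_const.div (hRc.comp continuous_snd) fun q => hRp q.2).continuousOn
  · have c1 : ContinuousOn (fun q : ℝ × ℝ => ψ q.2 * mS T U φ q.1 q.2) (S ×ˢ Icc a b) :=
      (hψ.comp continuous_snd).continuousOn.mul (mS_cont h hs hb hS)
    exact (ContinuousLinearMap.toSpanSingletonCLE (𝕜 := ℝ) (E := ℝ)).continuous.comp_continuousOn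
      c1
  · intro r' hr' z hz
    have hz1 : xx s z < 1 := by
      rw [xx_lt_one_iff]
      have := hz.2
      linarith only [hb, this]
    have d1 := (((mm_deriv_s h hs (hS hr') hz1).mono hS).sub_const (1 / R z)).const_mul (ψ z)
    exact d1.hasFDerivWithinAt

/-- **(E4)** derivative of the scalar unknowns. -/
theorem aa_deriv (hR : Profile R Rmin α) (hφ : IsFlowU 8 T U₀ U φ) (hs : exp (-s) ≤ T)
    (hψ : ContDiff ℝ 4 ψ) (hψc : HasCompactSupport ψ) (hz : ∀ z ∈ tsupport ψ, xx s z < 1) :
    HasDerivWithinAt (fun s' => aa ψ R φ T s') (aS ψ R φ T s) (Ici s) s := by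
  have hT := T_pos hs
  obtain ⟨a, b, hab, hb, hsub⟩ := exists_ab (K := tsupport ψ) hψc.isCompact (c := s / 2)
    (fun z hz' => xx_lt_one_iff.1 (hz z hz'))
  have hraw := aa_deriv_raw hR hφ hs hψ.continuous hab hb hsub le_rfl
  refine hraw.congr_deriv ?_
  -- notation
  have hRc : Continuous R := hR.smooth.continuous
  have hRp : ∀ z, 0 < R z := fun z => lt_of_lt_of_le hR.Rmin_pos (hR.lower z)
  have ha' : a ∉ tsupport ψ := fun h => lt_irrefl _ (hsub h).1
  have hb' : b ∉ tsupport ψ := fun h => lt_irrefl _ (hsub h).2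
  have hx1 : ∀ z ∈ Icc a b, xx s z < 1 := by
    intro z hz
    rw [xx_lt_one_iff]
    have := hz.2
    linarith only [hb, this]
  set F : ℝ → ℝ := fun u => exp (-2 * u) * ψ u with hF
  have hFs : ContDiff ℝ 4 F := by
    have : ContDiff ℝ 4 fun u : ℝ => exp (-2 * u) := by fun_prop
    exact this.mul hψ
  -- integration by parts against `h - 1`
  have hjd : ∀ k ≤ 3, ∀ z ∈ Icc a b, HasDerivAt (hj T φ s k) (hj T φ s (k + 1) z) z :=
    fun k hk z hz => hj_hasDerivAt hφ hs le_rfl (hx1 z hz) hk
  have hjc : ∀ k ≤ 4, ContinuousOn (hj T φ s k) (Icc a b) := by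
    intro k hk
    rcases Nat.lt_or_ge k 4 with h | h
    · exact fun z hz => (hjd k (by omega) z hz).continuousAt.continuousWithinAt
    · have h4 : k = 4 := by omega
      rw [h4]
      have hJ : ∀ k, ContinuousOn (fun z => dx T k (fun p : ℝ × ℝ => φ p.1 p.2)
          (tt T s, xx s z)) (Icc a b) := fun k z hz =>
        (hasDerivAt_jet_z hT hφ.sφ k (tt_mem hs le_rfl) (hx1 z hz)).continuousAt.continuousWithinAt
      have hX : ContinuousOn (fun z => xx s z) (Icc a b) :=
        fun z _ => (hasDerivAt_xx_z s z).continuousAt.continuousWithinAt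
      have : hj T φ s 4 = fun z => xx s z ^ 3 * dx T 4 (fun p : ℝ × ℝ => φ p.1 p.2) (tt T s, xx s z)
          + 2 * xx s z ^ 2 * dx T 3 (fun p : ℝ × ℝ => φ p.1 p.2) (tt T s, xx s z)
          + xx s z * dx T 2 (fun p : ℝ × ℝ => φ p.1 p.2) (tt T s, xx s z)
          - dx T 1 (fun p : ℝ × ℝ => φ p.1 p.2) (tt T s, xx s z)
          + dx T 0 (fun p : ℝ × ℝ => φ p.1 p.2) (tt T s, xx s z) / xx s z := rfl
      rw [this]
      exact (((((hX.pow 3).mul (hJ 4)).add ((continuousOn_const.mul (hX.pow 2)).mul (hJ 3))).add
        (hX.mul (hJ 2))).sub (hJ 1)).add ((hJ 0).div hX fun z _ => (xx_pos s z).ne')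
  have i1 := ibp4 hab.le hFs
    (fun k _ => iter_zero (F_ev_zero ha') k) (fun k _ => iter_zero (F_ev_zero hb') k)
    (u := fun k z => match k with
      | 0 => hj T φ s 0 z - 1
      | k + 1 => hj T φ s (k + 1) z) (by
      intro k hk z hz
      rcases k with _ | k
      · exact (hjd 0 hk z hz).sub_const 1
      · exact hjd (k + 1) hk z hz) (hjc 4 le_rfl)
  -- integration by parts against `R - 1`
  have hR1 : ContDiff ℝ 4 fun u => R u - 1 := hR.smooth.sub contDiff_const
  have i2 := ibp4 hab.le hFs
    (fun k _ => iter_zero (F_ev_zero ha') k) (fun k _ => iter_zero (F_ev_zero hb') k)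
    (u := fun k => iteratedDeriv k fun u => R u - 1)
    (fun k hk z _ => hasDerivAt_iter (n := 4) hR1 (by omega) z)
    (hR1.continuous_iteratedDeriv 4 (by (clear * -; norm_num))).continuousOn
  simp only [iteratedDeriv_zero] at i1 i2
  -- the transport term
  have hψd : ∀ z, HasDerivAt ψ (deriv ψ z) z := fun z =>
    (hψ.differentiable (by norm_num) z).hasDerivAt
  have hψ'c : Continuous (deriv ψ) := hψ.continuous_deriv (by norm_num)
  have pψ : PC1 ∅ a b ψ (deriv ψ) := PC1.of_hasDerivAt' hψd hψ'c
  have hmc : ContinuousOn (fun z => mm T U s z) (Icc a b) := fun z hz =>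
    (mm_deriv_z hφ hs (hx1 z hz)).continuousAt.continuousWithinAt
  have hmZc : ContinuousOn (fun z => mZ T U s z) (Icc a b) := by
    have hJ : ∀ k, ContinuousOn (fun z => dx T k (fun p : ℝ × ℝ => U p.1 p.2)
        (tt T s, xx s z)) (Icc a b) := fun k z hz =>
      (hasDerivAt_jet_z hT hφ.sU k (tt_mem hs le_rfl) (hx1 z hz)).continuousAt.continuousWithinAt
    have hX : ContinuousOn (fun z => xx s z) (Icc a b) :=
      fun z _ => (hasDerivAt_xx_z s z).continuousAt.continuousWithinAt
    unfold mZ
    refine ((hX.mul (hJ 2)).add ((hX.pow 2).mul (hJ 3))).add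
      (hX.div ((continuousOn_const.sub hX).pow 2) fun z hz => ?_)
    have := hx1 z hz
    have : (0 : ℝ) < 1 - xx s z := by linarith only [this]
    positivity
  have pm : PC1 ∅ a b (fun z => mm T U s z) (fun z => mZ T U s z) :=
    PC1.of_hasDerivAt hab.le hmc (fun z hz => mm_deriv_z hφ hs (hx1 z ⟨hz.1.le, hz.2.le⟩)) hmZc
  have i3 := pψ.parts countable_empty hab.le pm
  rw [psi_zero ha', psi_zero hb'] at i3
  -- `∫ (ψ/R)' = 0`
  have hRd : ∀ z, HasDerivAt R (deriv R z) z := fun z =>
    (hR.smooth.differentiable (by norm_num) z).hasDerivAt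
  have hR'c : Continuous (deriv R) := hR.smooth.continuous_deriv (by norm_num)
  have pq : PC1 ∅ a b (fun z => ψ z / R z)
      (fun z => (deriv ψ z * R z - ψ z * deriv R z) / R z ^ 2) := by
    refine PC1.of_hasDerivAt' (fun z => (hψd z).fun_div (hRd z) (hRp z).ne') ?_
    exact ((hψ'c.mul hRc).sub (hψ.continuous.mul hR'c)).div (hRc.pow 2) fun z =>
      (pow_pos (hRp z) 2).ne'
  have i4 := pq.integral countable_empty hab.le
  rw [psi_zero ha', psi_zero hb', zero_div, zero_div, sub_zero] at i4
  -- continuity of all pieces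
  have hAc : Continuous (piDadj F) := by
    unfold piDadj
    have : ∀ k ≤ 4, Continuous (iteratedDeriv k F) := fun k hk =>
      hFs.continuous_iteratedDeriv k (by exact_mod_cast hk)
    have c0 : Continuous F := hFs.continuous
    exact ((((this 4 le_rfl).sub (continuous_const.mul (this 3 (by norm_num)))).add
      (continuous_const.mul (this 2 (by norm_num)))).add
      (continuous_const.mul (this 1 (by norm_num)))).add (continuous_const.mul c0)
  have hkc : Continuous (kap R) := by
    unfold kap piD
    have : ∀ k ≤ 4, Continuous (iteratedDeriv k fun u => R u - 1) := fun k hk =>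
      hR1.continuous_iteratedDeriv k (by exact_mod_cast hk)
    have c0 : Continuous fun u => R u - 1 := hR1.continuous
    exact ((((this 4 le_rfl).add (continuous_const.mul (this 3 (by norm_num)))).add
      (continuous_const.mul (this 2 (by norm_num)))).sub
      (continuous_const.mul (this 1 (by norm_num)))).add (continuous_const.mul c0)
  have hHc : ContinuousOn (fun z => HH φ T s z) (Icc a b) := hjc 0 (by norm_num)
  have hHp : ∀ z ∈ Icc a b, 0 < HH φ T s z := fun z hz => HH_pos hφ hs le_rfl (hx1 z hz)
  have hmH : ∀ z ∈ Icc a b, mm T U s z = 1 / HH φ T s z := fun z hz =>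
    (inv_HH hφ hs le_rfl (hx1 z hz)).symm
  have ii : ∀ {k : ℝ → ℝ}, ContinuousOn k (Icc a b) → IntervalIntegrable k volume a b := by
    intro k hk
    rw [← uIcc_of_le hab.le] at hk
    exact hk.intervalIntegrable
  -- the left hand side
  have L : ∫ z in a..b, ψ z * mS T U φ s z
      = (1 / 2) * (∫ z in a..b, deriv ψ z * mm T U s z)
        + ∫ z in a..b, piDadj F z * (hj T φ s 0 z - 1) := by
    have e1 : ∫ z in a..b, ψ z * mS T U φ s z
        = ∫ z in a..b, (-(1 / 2) * (ψ z * mZ T U s z) + F z * (hj T φ s 4 z + 12 * hj T φ s 3 z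
          + 13 * hj T φ s 2 z - 138 * hj T φ s 1 z + 112 * (hj T φ s 0 z - 1))) := by
      apply intervalIntegral.integral_congr
      intro z hz
      rw [uIcc_of_le hab.le] at hz
      simp only
      rw [mS_eq hφ hs (hx1 z hz)]
      simp only [hF]
      ring
    rw [e1, intervalIntegral.integral_add, ← i1, intervalIntegral.integral_const_mul]
    · rw [i3]
      ring
    · exact ii (continuousOn_const.mul (hψ.continuous.continuousOn.mul hmZc))
    · refine ii (hFs.continuous.continuousOn.mul ?_)
      exact ((((hjc 4 le_rfl).add (continuousOn_const.mul (hjc 3 (by norm_num)))).add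
        (continuousOn_const.mul (hjc 2 (by norm_num)))).sub
        (continuousOn_const.mul (hjc 1 (by norm_num)))).add
        (continuousOn_const.mul ((hjc 0 (by norm_num)).sub continuousOn_const))
  rw [L]
  -- the right hand side
  unfold aS
  rw [integral_eq_interval hab.le (k := fun z => ((1 / 2) * deriv ψ z - R z ^ 2 * piDadj F z)
      * (1 / HH φ T s z - 1 / R z)) ?_,
    integral_eq_interval hab.le (k := fun z => piDadj F z * (WW R φ T s z ^ 2 / HH φ T s z)) ?_,
    integral_eq_interval hab.le (k := fun z => ψ z * resid R z / R z ^ 2) ?_]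
  rotate_left
  · intro z hz
    rw [psi_zero (fun h => hz (hsub h))]
    ring
  · intro z hz
    rw [piDadj_zero (fun h => hz (hsub h)), zero_mul]
  · intro z hz
    rw [piDadj_zero (fun h => hz (hsub h)), dpsi_zero (fun h => hz (hsub h))]
    ring
  have hHinv : ContinuousOn (fun z => 1 / HH φ T s z) (Icc a b) :=
    continuousOn_const.div hHc fun z hz => (hHp z hz).ne'
  have hRinv : ContinuousOn (fun z => 1 / R z) (Icc a b) :=
    (continuous_const.div hRc fun z => (hRp z).ne').continuousOn
  have hWc : ContinuousOn (fun z => WW R φ T s z) (Icc a b) := hHc.sub hRc.continuousOn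
  have hresc : Continuous (resid R) := by
    unfold resid
    exact (continuous_const.mul hR'c).sub
      (((by fun_prop : Continuous fun z : ℝ => exp (-2 * z)).mul (hRc.pow 2)).mul hkc)
  have c1 : ContinuousOn (fun z => ((1 / 2) * deriv ψ z - R z ^ 2 * piDadj F z)
      * (1 / HH φ T s z - 1 / R z)) (Icc a b) :=
    (((continuous_const.mul hψ'c).sub ((hRc.pow 2).mul hAc)).continuousOn).mul
      (hHinv.sub hRinv)
  have c2 : ContinuousOn (fun z => piDadj F z * (WW R φ T s z ^ 2 / HH φ T s z)) (Icc a b) :=
    hAc.continuousOn.mul ((hWc.pow 2).div hHc fun z hz => (hHp z hz).ne')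
  have c3 : ContinuousOn (fun z => ψ z * resid R z / R z ^ 2) (Icc a b) :=
    ((hψ.continuous.mul hresc).div (hRc.pow 2) fun z => (pow_pos (hRp z) 2).ne').continuousOn
  rw [← intervalIntegral.integral_add (ii c1) (ii c2),
    ← intervalIntegral.integral_sub ((ii c1).add (ii c2)) (ii c3)]
  have e2 : ∫ z in a..b, ((1 / 2 * deriv ψ z - R z ^ 2 * piDadj F z)
        * (1 / HH φ T s z - 1 / R z) + piDadj F z * (WW R φ T s z ^ 2 / HH φ T s z)
        - ψ z * resid R z / R z ^ 2)
      = ∫ z in a..b, (1 / 2 * (deriv ψ z * mm T U s z) + piDadj F z * (hj T φ s 0 z - 1)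
        + (F z * kap R z - piDadj F z * (R z - 1))
        - 1 / 2 * ((deriv ψ z * R z - ψ z * deriv R z) / R z ^ 2)) := by
    apply intervalIntegral.integral_congr
    intro z hz
    rw [uIcc_of_le hab.le] at hz
    have h1 := hHp z hz
    have h2 := hRp z
    simp only
    rw [hmH z hz, hj_zero]
    simp only [hF, WW, resid]
    field_simp
    ring
  rw [e2]
  have d1 : ContinuousOn (fun z => 1 / 2 * (deriv ψ z * mm T U s z)) (Icc a b) :=
    continuousOn_const.mul (hψ'c.continuousOn.mul hmc)
  have d2 : ContinuousOn (fun z => piDadj F z * (hj T φ s 0 z - 1)) (Icc a b) :=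
    hAc.continuousOn.mul ((hjc 0 (by norm_num)).sub continuousOn_const)
  have d3 : ContinuousOn (fun z => F z * kap R z - piDadj F z * (R z - 1)) (Icc a b) :=
    ((hFs.continuous.mul hkc).sub (hAc.mul (hRc.sub continuous_const))).continuousOn
  have d4 : ContinuousOn (fun z => 1 / 2 * ((deriv ψ z * R z - ψ z * deriv R z) / R z ^ 2))
      (Icc a b) :=
    continuousOn_const.mul (((hψ'c.mul hRc).sub (hψ.continuous.mul hR'c)).div (hRc.pow 2) fun z =>
      (pow_pos (hRp z) 2).ne').continuousOn
  rw [intervalIntegral.integral_sub (((ii d1).add (ii d2)).add (ii d3)) (ii d4),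
    intervalIntegral.integral_add ((ii d1).add (ii d2)) (ii d3),
    intervalIntegral.integral_add (ii d1) (ii d2), intervalIntegral.integral_const_mul,
    intervalIntegral.integral_const_mul, i4]
  have e3 : ∫ z in a..b, F z * kap R z = ∫ z in a..b, piDadj F z * (R z - 1) := by
    rw [i2]
    rfl
  have e4 : ∫ z in a..b, (F z * kap R z - piDadj F z * (R z - 1)) = 0 := by
    have q1 : IntervalIntegrable (fun z => F z * kap R z) volume a b :=
      ii (hFs.continuous.mul hkc).continuousOn
    have q2 : IntervalIntegrable (fun z => piDadj F z * (R z - 1)) volume a b :=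
      ii (hAc.mul (hRc.sub continuous_const)).continuousOn
    rw [intervalIntegral.integral_sub q1 q2, e3, sub_self]
  rw [e4]
  ring

end main

end P264.B.Aa

namespace P264.B

/-- **(E4)** derivative of the scalar unknowns. -/
theorem aa_deriv {R ψ : ℝ → ℝ} {Rmin α T s : ℝ} {U₀ : ℝ → ℝ} {U φ : ℝ → ℝ → ℝ}
    (hR : Profile R Rmin α) (hφ : IsFlowU 8 T U₀ U φ) (hs : exp (-s) ≤ T)
    (hψ : ContDiff ℝ 4 ψ) (hψc : HasCompactSupport ψ) (hz : ∀ z ∈ tsupport ψ, xx s z < 1) :
    HasDerivWithinAt (fun s' => aa ψ R φ T s') (aS ψ R φ T s) (Ici s) s :=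
  Aa.aa_deriv hR hφ hs hψ hψc hz

end P264.B
end
end

section

section

/-!
# P264 / B / L2 : contraction of two solutions in `L²(x^{n-1} dx)` (module M4a)

For two smooth solutions `(U, φ)`, `(V, ψ)` of the one-dimensional flow,
`d/dt ∫ x^{n-1} (U-V)² = -2 ∫ x^{n-1} (φ-ψ)²/(φψ) ≤ 0`.
Consequently every functional `∫ w (1/φ - 1/ψ) dx = ∫ w'' (U-V) dx` is Lipschitz in the initial
data, uniformly in time.
-/

open Set MeasureTheory
open scoped ContDiff

namespace P264.B

/-- Cauchy–Schwarz on a compact interval for continuous functions. -/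
theorem cs_interval {a b : ℝ} (hab : a ≤ b) {f g : ℝ → ℝ} (hf : ContinuousOn f (Icc a b))
    (hg : ContinuousOn g (Icc a b)) :
    (∫ x in a..b, f x * g x) ^ 2 ≤ (∫ x in a..b, f x ^ 2) * ∫ x in a..b, g x ^ 2 := by
  have hf' : ContinuousOn f (uIcc a b) := by rwa [uIcc_of_le hab]
  have hg' : ContinuousOn g (uIcc a b) := by rwa [uIcc_of_le hab]
  have i1 : IntervalIntegrable (fun x => f x ^ 2) volume a b := (hf'.pow 2).intervalIntegrable
  have i2 : IntervalIntegrable (fun x => g x ^ 2) volume a b := (hg'.pow 2).intervalIntegrable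
  have i3 : IntervalIntegrable (fun x => f x * g x) volume a b := (hf'.mul hg').intervalIntegrable
  set P := ∫ x in a..b, f x ^ 2
  set R := ∫ x in a..b, g x ^ 2
  set S := ∫ x in a..b, f x * g x
  have key : ∀ l : ℝ, 0 ≤ P * (l * l) + (-2 * S) * l + R := by
    intro l
    have h1 : 0 ≤ ∫ x in a..b, (l * f x - g x) ^ 2 :=
      intervalIntegral.integral_nonneg hab fun x _ => sq_nonneg _
    have h2 : ∫ x in a..b, (l * f x - g x) ^ 2
        = (l * l) * P + (-2 * l) * S + R := by
      have : (fun x => (l * f x - g x) ^ 2)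
          = fun x => ((l * l) * f x ^ 2 + (-2 * l) * (f x * g x)) + g x ^ 2 := by
        funext x; ring
      rw [this, intervalIntegral.integral_add ((i1.const_mul _).add (i3.const_mul _)) i2,
        intervalIntegral.integral_add (i1.const_mul _) (i3.const_mul _),
        intervalIntegral.integral_const_mul, intervalIntegral.integral_const_mul]
    rw [h2] at h1
    linarith
  have := discrim_le_zero key
  rw [discrim] at this
  linarith

section

variable {m : ℕ} {T : ℝ} {U₀ V₀ : ℝ → ℝ} {U φ V ψ : ℝ → ℝ → ℝ}

/-- `∂ₓ² U` in terms of jets. -/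
theorem jet2_eq {J K : ℕ → ℝ → ℝ → ℝ} (h : Jets T U J K) {t : ℝ} (ht : t ∈ Icc 0 T) {x : ℝ}
    (hx : x ∈ Ioo (0 : ℝ) 1) : deriv (deriv (U t)) x = J 2 t x := by
  have hopen : IsOpen (Ioo (0 : ℝ) 1) := isOpen_Ioo
  have hU : U t = J 0 t := by funext y; exact (h.zero t y).symm
  have e1 : deriv (U t) =ᶠ[nhds x] J 1 t := by
    filter_upwards [hopen.mem_nhds hx] with y hy
    rw [hU]
    exact (h.hasDerivAt 0 ht hy).deriv
  rw [e1.deriv_eq]
  exact (h.hasDerivAt 1 ht hx).deriv

/-- `φ_x(1) = -1` in terms of jets. -/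
theorem jet1_right {J K : ℕ → ℝ → ℝ → ℝ} (h : Jets T φ J K) {t : ℝ}
    (ht : t ∈ Icc 0 T) (hp : IsProfile (φ t)) : J 1 t 1 = -1 := by
  have h1 := h.dx 0 t ht 1 ⟨zero_le_one, le_rfl⟩
  have hU : φ t = J 0 t := by funext y; exact (h.zero t y).symm
  have h2 := h1.derivWithin (uniqueDiffOn_Icc one_pos 1 ⟨zero_le_one, le_rfl⟩)
  rw [← hU, hp.right1] at h2
  exact h2.symm

/-- Time derivative of the potential in terms of the jets of the profile. -/
theorem pot_time (hT : 0 < T) (h : IsFlowU (m + 3) T U₀ U φ) {J K Jp Kp : ℕ → ℝ → ℝ → ℝ}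
    (hJ : Jets T U J K) (hp : Jets T φ Jp Kp) {t : ℝ} (ht : t ∈ Icc 0 T) {x : ℝ}
    (hx : x ∈ Ioo (0 : ℝ) 1) :
    x ^ (m + 2) * K 0 t x = -((m + 3 : ℝ) * (m + 2) * x ^ (m + 1))
      + ((m + 2) * (m + 1) * x ^ m * Jp 0 t x + 2 * (m + 2) * x ^ (m + 1) * Jp 1 t x
        + x ^ (m + 2) * Jp 2 t x) := by
  have h1 := hJ.dt 0 t ht x ⟨hx.1.le, hx.2.le⟩
  have h2 := h.flow t ht x hx
  have h3 : (fun τ => U τ x) = fun τ => J 0 τ x := by
    funext τ; rw [hJ.zero]
  rw [h3] at h2
  have hu := uniqueDiffOn_Icc hT t ht
  have h4 := (h1.derivWithin hu).symm.trans (h2.derivWithin hu)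
  have h5 := (deriv2_scal (n := m + 3) (by omega) (f := φ t) (j := fun k => Jp k t)
    (fun y _ => (hp.zero t y).symm) (fun k y hy => hp.hasDerivAt k ht hy) hx).1
  rw [h4, h5]
  have hx0 : x ≠ 0 := hx.1.ne'
  push_cast
  field_simp
  ring

/-- The integration by parts behind the contraction. -/
theorem l2_parts (hT : 0 < T) (hU : IsFlowU (m + 3) T U₀ U φ) (hV : IsFlowU (m + 3) T V₀ V ψ)
    {J K Jp Kp J' K' Jq Kq : ℕ → ℝ → ℝ → ℝ}
    (hJ : Jets T U J K) (hp : Jets T φ Jp Kp) (hJ' : Jets T V J' K') (hq : Jets T ψ Jq Kq)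
    {t : ℝ} (ht : t ∈ Icc 0 T) :
    ∫ x in (0 : ℝ)..1, 2 * x ^ (m + 2) * (J 0 t x - J' 0 t x) * (K 0 t x - K' 0 t x) ≤ 0 := by
  have hc : ∀ {φ : ℝ → ℝ → ℝ} {J K : ℕ → ℝ → ℝ → ℝ}, Jets T φ J K → ∀ k,
      ContinuousOn (J k t) (Icc 0 1) := by
    intro φ J K h k
    exact (h.contJ k).comp (f := fun x : ℝ => ((t, x) : ℝ × ℝ)) (by fun_prop)
      (fun x hx => ⟨ht, hx⟩)
  have hpc : ∀ {φ : ℝ → ℝ → ℝ} {J K : ℕ → ℝ → ℝ → ℝ}, Jets T φ J K → ∀ k,
      Vale.Agent.P264.Cal.PC1 ∅ 0 1 (J k t) (J (k + 1) t) := fun h k =>
    Vale.Agent.P264.Cal.PC1.of_hasDerivAt zero_le_one (hc h k)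
      (fun x hx => h.hasDerivAt k ht hx) (hc h (k + 1))
  -- the polynomial factors
  have hpow : ∀ k : ℕ, Vale.Agent.P264.Cal.PC1 ∅ 0 1 (fun x : ℝ => x ^ (k + 1))
      (fun x => ((k : ℝ) + 1) * x ^ k) := fun k =>
    Vale.Agent.P264.Cal.PC1.of_hasDerivAt' (fun x => by simpa only [Nat.cast_add, Nat.cast_one, add_tsub_cancel_right] using hasDerivAt_pow (k + 1) x)
      (by fun_prop)
  set D : ℕ → ℝ → ℝ := fun k x => Jp k t x - Jq k t x with hD
  set W : ℕ → ℝ → ℝ := fun k x => J k t x - J' k t x with hW
  have hDp : ∀ k, Vale.Agent.P264.Cal.PC1 ∅ 0 1 (D k) (D (k + 1)) := fun k =>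
    (hpc hp k).sub (hpc hq k)
  have hWp : ∀ k, Vale.Agent.P264.Cal.PC1 ∅ 0 1 (W k) (W (k + 1)) := fun k =>
    (hpc hJ k).sub (hpc hJ' k)
  have hF0 : Vale.Agent.P264.Cal.PC1 ∅ 0 1 (fun x => x ^ (m + 2) * D 0 x)
      (fun x => (m + 2) * x ^ (m + 1) * D 0 x + x ^ (m + 2) * D 1 x) := by
    refine ((hpow (m + 1)).mul zero_le_one (hDp 0)).congr (fun x _ => rfl) (fun x _ => ?_)
      countable_empty zero_le_one
    push_cast
    ring
  have hF1 : Vale.Agent.P264.Cal.PC1 ∅ 0 1
      (fun x => (m + 2) * x ^ (m + 1) * D 0 x + x ^ (m + 2) * D 1 x)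
      (fun x => (m + 2) * (m + 1) * x ^ m * D 0 x + 2 * (m + 2) * x ^ (m + 1) * D 1 x
        + x ^ (m + 2) * D 2 x) := by
    have a1 := (((hpow m).const_mul ((m : ℝ) + 2)).mul zero_le_one (hDp 0)).add
      ((hpow (m + 1)).mul zero_le_one (hDp 1))
    refine a1.congr (fun x _ => rfl) (fun x _ => ?_) countable_empty zero_le_one
    push_cast
    ring
  have hp0 := hU.profile t ht
  have hq0 := hV.profile t ht
  have hD01 : D 0 1 = 0 := by
    simp only [hD, hp.zero, hq.zero, hp0.right0, hq0.right0, sub_self]
  have hD11 : D 1 1 = 0 := by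
    simp only [hD, jet1_right hp ht hp0, jet1_right hq ht hq0, sub_self]
  have hparts := Vale.Agent.P264.Cal.PC1.parts2_zero (s := ∅) countable_empty zero_le_one
    hF0 hF1 (hWp 0) (hWp 1) (by simp) (by simp) (by simp [hD01]) (by simp [hD01, hD11])
  have h1 : ∫ x in (0 : ℝ)..1, 2 * x ^ (m + 2) * (J 0 t x - J' 0 t x) * (K 0 t x - K' 0 t x)
      = 2 * ∫ x in (0 : ℝ)..1, ((m + 2) * (m + 1) * x ^ m * D 0 x
        + 2 * (m + 2) * x ^ (m + 1) * D 1 x + x ^ (m + 2) * D 2 x) * W 0 x := by
    rw [← intervalIntegral.integral_const_mul]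
    apply intervalIntegral.integral_congr_ae
    have hne1 : ∀ᵐ x : ℝ, x ≠ 1 := by
      simp [ae_iff, measure_singleton]
    filter_upwards [hne1] with x hx1 hx
    rw [uIoc_of_le zero_le_one] at hx
    have hx' : x ∈ Ioo (0 : ℝ) 1 := ⟨hx.1, lt_of_le_of_ne hx.2 hx1⟩
    have e1 := pot_time hT hU hJ hp ht hx'
    have e2 := pot_time hT hV hJ' hq ht hx'
    simp only [hD, hW]
    linear_combination 2 * (J 0 t x - J' 0 t x) * (e1 - e2)
  rw [h1, hparts]
  have h2 : ∫ x in (0 : ℝ)..1, x ^ (m + 2) * D 0 x * W (1 + 1) x ≤ 0 := by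
    have : 0 ≤ ∫ x in (0 : ℝ)..1, -(x ^ (m + 2) * D 0 x * W (1 + 1) x) := by
      apply intervalIntegral.integral_nonneg_of_ae_restrict zero_le_one
      have hne1 : ∀ᵐ x : ℝ, x ≠ 1 := by
        simp [ae_iff, measure_singleton]
      have hne0 : ∀ᵐ x : ℝ, x ≠ 0 := by
        simp [ae_iff, measure_singleton]
      filter_upwards [ae_restrict_mem measurableSet_Icc, ae_restrict_of_ae hne1,
        ae_restrict_of_ae hne0] with x hx hx1 hx0
      have hx' : x ∈ Ioo (0 : ℝ) 1 :=
        ⟨lt_of_le_of_ne hx.1 (Ne.symm hx0), lt_of_le_of_ne hx.2 hx1⟩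
      have r1 := hU.rel t ht x hx'
      have r2 := hV.rel t ht x hx'
      rw [jet2_eq hJ ht hx'] at r1
      rw [jet2_eq hJ' ht hx'] at r2
      have p1 := hp0.pos x hx'
      have p2 := hq0.pos x hx'
      have hW2 : W (1 + 1) x = (ψ t x - φ t x) / (φ t x * ψ t x) := by
        simp only [hW]
        have q1 : J (1 + 1) t x = 1 / φ t x - (1 / x + 1 / (1 - x)) := by
          rw [eq_sub_iff_add_eq, eq_div_iff p1.ne']
          linarith only [r1]
        have q2 : J' (1 + 1) t x = 1 / ψ t x - (1 / x + 1 / (1 - x)) := by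
          rw [eq_sub_iff_add_eq, eq_div_iff p2.ne']
          linarith only [r2]
        rw [q1, q2]
        field_simp
        ring
      have hD0 : D 0 x = φ t x - ψ t x := by
        simp only [hD, hp.zero, hq.zero]
      rw [hW2, hD0]
      have : -(x ^ (m + 2) * (φ t x - ψ t x) * ((ψ t x - φ t x) / (φ t x * ψ t x)))
          = x ^ (m + 2) * ((φ t x - ψ t x) ^ 2 / (φ t x * ψ t x)) := by
        ring
      simp only [Pi.zero_apply]
      rw [this]
      have := hx'.1
      (clear * - this p1 p2; positivity)
    rw [intervalIntegral.integral_neg] at this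
    linarith only [this]
  linarith only [h2]

/-- **`L²` contraction.** -/
theorem l2_contraction (hT : 0 < T) (hU : IsFlowU (m + 3) T U₀ U φ)
    (hV : IsFlowU (m + 3) T V₀ V ψ) :
    AntitoneOn (fun t => ∫ x in (0 : ℝ)..1, x ^ (m + 2) * (U t x - V t x) ^ 2) (Icc 0 T) := by
  obtain ⟨J, K, hJ⟩ := exists_jets hT hU.smoothU
  obtain ⟨J', K', hJ'⟩ := exists_jets hT hV.smoothU
  obtain ⟨Jp, Kp, hp⟩ := exists_jets hT hU.smooth
  obtain ⟨Jq, Kq, hq⟩ := exists_jets hT hV.smooth
  have hder : ∀ t ∈ Icc (0 : ℝ) T,
      HasDerivWithinAt (fun t => ∫ x in (0 : ℝ)..1, x ^ (m + 2) * (U t x - V t x) ^ 2)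
        (∫ x in (0 : ℝ)..1, 2 * x ^ (m + 2) * (J 0 t x - J' 0 t x) * (K 0 t x - K' 0 t x))
        (Icc 0 T) t := by
    intro t ht
    have h := P264.Cal.hasFDerivWithinAt_integral (F := ℝ) (S := Icc 0 T) isCompact_Icc
      (convex_Icc 0 T)
      (f := fun s x => x ^ (m + 2) * (U s x - V s x) ^ 2)
      (f' := fun s x => ContinuousLinearMap.toSpanSingleton ℝ
        (2 * x ^ (m + 2) * (J 0 s x - J' 0 s x) * (K 0 s x - K' 0 s x)))
      (a := 0) (b := 1) zero_le_one ?_ ?_ ?_ ht
    · have h2 := h.hasDerivWithinAt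
      have e : (∫ x in (0 : ℝ)..1, ContinuousLinearMap.toSpanSingleton ℝ
          (2 * x ^ (m + 2) * (J 0 t x - J' 0 t x) * (K 0 t x - K' 0 t x))) (1 : ℝ)
          = ∫ x in (0 : ℝ)..1,
            2 * x ^ (m + 2) * (J 0 t x - J' 0 t x) * (K 0 t x - K' 0 t x) := by
        rw [ContinuousLinearMap.intervalIntegral_apply]
        · simp only [ContinuousLinearMap.toSpanSingleton_apply, smul_eq_mul, one_mul]
        · apply ContinuousOn.intervalIntegrable
          rw [uIcc_of_le zero_le_one]
          have c1 : ContinuousOn (fun x : ℝ =>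
              2 * x ^ (m + 2) * (J 0 t x - J' 0 t x) * (K 0 t x - K' 0 t x)) (Icc 0 1) := by
            have a1 : ContinuousOn (J 0 t) (Icc 0 1) := (hJ.contJ 0).comp
              (f := fun x : ℝ => ((t, x) : ℝ × ℝ)) (by fun_prop) (fun x hx => ⟨ht, hx⟩)
            have a2 : ContinuousOn (J' 0 t) (Icc 0 1) := (hJ'.contJ 0).comp
              (f := fun x : ℝ => ((t, x) : ℝ × ℝ)) (by fun_prop) (fun x hx => ⟨ht, hx⟩)
            have a3 : ContinuousOn (K 0 t) (Icc 0 1) := (hJ.contK 0).comp
              (f := fun x : ℝ => ((t, x) : ℝ × ℝ)) (by fun_prop) (fun x hx => ⟨ht, hx⟩)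
            have a4 : ContinuousOn (K' 0 t) (Icc 0 1) := (hJ'.contK 0).comp
              (f := fun x : ℝ => ((t, x) : ℝ × ℝ)) (by fun_prop) (fun x hx => ⟨ht, hx⟩)
            exact ((by fun_prop : Continuous fun x : ℝ => 2 * x ^ (m + 2)).continuousOn.mul
              (a1.sub a2)).mul (a3.sub a4)
          exact (ContinuousLinearMap.toSpanSingletonCLE (𝕜 := ℝ) (E := ℝ)).continuous.comp_continuousOn
            c1
      rw [e] at h2
      exact h2
    · have a1 : ContinuousOn (fun p : ℝ × ℝ => U p.1 p.2) (Icc 0 T ×ˢ Icc 0 1) :=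
        hU.smoothU.continuousOn
      have a2 : ContinuousOn (fun p : ℝ × ℝ => V p.1 p.2) (Icc 0 T ×ˢ Icc 0 1) :=
        hV.smoothU.continuousOn
      exact (by fun_prop : Continuous fun p : ℝ × ℝ => p.2 ^ (m + 2)).continuousOn.mul
        ((a1.sub a2).pow 2)
    · have c1 : ContinuousOn (fun p : ℝ × ℝ =>
          2 * p.2 ^ (m + 2) * (J 0 p.1 p.2 - J' 0 p.1 p.2) * (K 0 p.1 p.2 - K' 0 p.1 p.2))
          (Icc 0 T ×ˢ Icc 0 1) :=
        ((by fun_prop : Continuous fun p : ℝ × ℝ => 2 * p.2 ^ (m + 2)).continuousOn.mul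
          ((hJ.contJ 0).sub (hJ'.contJ 0))).mul ((hJ.contK 0).sub (hJ'.contK 0))
      exact (ContinuousLinearMap.toSpanSingletonCLE (𝕜 := ℝ) (E := ℝ)).continuous.comp_continuousOn
        c1
    · intro s hs x hx
      have d1 : HasDerivWithinAt (fun τ => U τ x) (K 0 s x) (Icc 0 T) s := by
        have := hJ.dt 0 s hs x hx
        simpa only [hJ.zero] using this
      have d2 : HasDerivWithinAt (fun τ => V τ x) (K' 0 s x) (Icc 0 T) s := by
        have := hJ'.dt 0 s hs x hx
        simpa only [hJ'.zero] using this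
      have d3 := ((d1.sub d2).pow 2).const_mul (x ^ (m + 2))
      have d4 : HasDerivWithinAt (fun τ => x ^ (m + 2) * (U τ x - V τ x) ^ 2)
          (2 * x ^ (m + 2) * (J 0 s x - J' 0 s x) * (K 0 s x - K' 0 s x)) (Icc 0 T) s := by
        refine d3.congr_deriv ?_
        rw [hJ.zero, hJ'.zero]
        simp only [Nat.cast_ofNat, Pi.sub_apply, Nat.add_one_sub_one, pow_one]
        ring
      exact d4.hasFDerivWithinAt
  refine antitoneOn_of_hasDerivWithinAt_nonpos (convex_Icc 0 T)
    (fun t ht => (hder t ht).continuousWithinAt) (f' := fun t => ∫ x in (0 : ℝ)..1,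
      2 * x ^ (m + 2) * (J 0 t x - J' 0 t x) * (K 0 t x - K' 0 t x)) ?_ ?_
  · intro t ht
    exact (hder t (interior_subset ht)).mono interior_subset
  · intro t ht
    exact l2_parts hT hU hV hJ hp hJ' hq (interior_subset ht)

/-- `1/φ - 1/ψ = (U - V)''`. -/
theorem inv_sub_inv (hU : IsFlowU (m + 3) T U₀ U φ) (hV : IsFlowU (m + 3) T V₀ V ψ)
    {J K J' K' : ℕ → ℝ → ℝ → ℝ} (hJ : Jets T U J K) (hJ' : Jets T V J' K')
    {t : ℝ} (ht : t ∈ Icc 0 T) {x : ℝ} (hx : x ∈ Ioo (0 : ℝ) 1) :
    1 / φ t x - 1 / ψ t x = J 2 t x - J' 2 t x := by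
  have r1 := hU.rel t ht x hx
  have r2 := hV.rel t ht x hx
  rw [jet2_eq hJ ht hx] at r1
  rw [jet2_eq hJ' ht hx] at r2
  have p1 := (hU.profile t ht).pos x hx
  have p2 := (hV.profile t ht).pos x hx
  have q1 : 1 / φ t x = J 2 t x + 1 / x + 1 / (1 - x) := by
    rw [div_eq_iff p1.ne']
    linarith only [r1]
  have q2 : 1 / ψ t x = J' 2 t x + 1 / x + 1 / (1 - x) := by
    rw [div_eq_iff p2.ne']
    linarith only [r2]
  rw [q1, q2]
  ring

/-- A functional `∫ w (1/φ - 1/ψ)` with a `C²` weight supported in `[a,b] ⊂ (0,1)` is bounded by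
the `L²(x^{n-1})` distance of the initial potentials. -/
theorem functional_bound (hT : 0 < T) (hU : IsFlowU (m + 3) T U₀ U φ)
    (hV : IsFlowU (m + 3) T V₀ V ψ) {a b : ℝ} (ha : 0 < a) (hab : a ≤ b) (hb : b < 1)
    {w w' w'' : ℝ → ℝ} (hw : ∀ x, HasDerivAt w (w' x) x) (hw' : ∀ x, HasDerivAt w' (w'' x) x)
    (hc : Continuous w'') (hsupp : ∀ x, x ∉ Icc a b → w x = 0) {t : ℝ} (ht : t ∈ Icc 0 T) :
    (∫ x in a..b, w x * (1 / φ t x - 1 / ψ t x)) ^ 2
      ≤ (∫ x in a..b, w'' x ^ 2 / x ^ (m + 2)) *
        ∫ x in (0 : ℝ)..1, x ^ (m + 2) * (U₀ x - V₀ x) ^ 2 := by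
  obtain ⟨J, K, hJ⟩ := exists_jets hT hU.smoothU
  obtain ⟨J', K', hJ'⟩ := exists_jets hT hV.smoothU
  have hwc : Continuous w := continuous_iff_continuousAt.2 fun x => (hw x).continuousAt
  have hwc' : Continuous w' := continuous_iff_continuousAt.2 fun x => (hw' x).continuousAt
  have hIcc : ∀ x ∈ Icc a b, x ∈ Ioo (0 : ℝ) 1 := fun x hx =>
    ⟨lt_of_lt_of_le ha hx.1, lt_of_le_of_lt hx.2 hb⟩
  -- `w` and `w'` vanish at the end points
  have hend : ∀ y, (y = a ∨ y = b) → w y = 0 ∧ w' y = 0 := by
    -- outside `[a,b]` both vanish, hence by continuity at the end points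
    have hopen : ∀ y, y ∉ Icc a b → w' y = 0 := by
      intro y hy
      have : w =ᶠ[nhds y] fun _ => 0 := by
        filter_upwards [isClosed_Icc.isOpen_compl.mem_nhds hy] with z hz
        exact hsupp z hz
      have h1 := this.deriv_eq
      rw [(hw y).deriv] at h1
      simpa using h1
    have hcl : ∀ y, (y = a ∨ y = b) → y ∈ closure (Icc a b)ᶜ := by
      rintro y (rfl | rfl)
      · have hsub : Iio y ⊆ (Icc y b)ᶜ := fun z (hz : z < y) (hz' : z ∈ Icc y b) =>
          not_lt.2 hz'.1 hz
        apply closure_mono hsub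
        rw [closure_Iio]
        exact self_mem_Iic
      · have hsub : Ioi y ⊆ (Icc a y)ᶜ := fun z (hz : y < z) (hz' : z ∈ Icc a y) =>
          not_lt.2 hz'.2 hz
        apply closure_mono hsub
        rw [closure_Ioi]
        exact self_mem_Ici
    intro y hy
    constructor
    · have : closure (Icc a b)ᶜ ⊆ w ⁻¹' {0} :=
        (isClosed_singleton.preimage hwc).closure_subset_iff.2 fun z hz => hsupp z hz
      exact this (hcl y hy)
    · have : closure (Icc a b)ᶜ ⊆ w' ⁻¹' {0} :=
        (isClosed_singleton.preimage hwc').closure_subset_iff.2 fun z hz => hopen z hz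
      exact this (hcl y hy)
  have hcJ : ∀ {φ : ℝ → ℝ → ℝ} {J K : ℕ → ℝ → ℝ → ℝ}, Jets T φ J K → ∀ k,
      ContinuousOn (J k t) (Icc 0 1) := by
    intro φ J K h k
    exact (h.contJ k).comp (f := fun x : ℝ => ((t, x) : ℝ × ℝ)) (by fun_prop)
      (fun x hx => ⟨ht, hx⟩)
  set W : ℕ → ℝ → ℝ := fun k x => J k t x - J' k t x with hW
  have hWc : ∀ k, ContinuousOn (W k) (Icc a b) := fun k =>
    ((hcJ hJ k).sub (hcJ hJ' k)).mono fun x hx => ⟨(hIcc x hx).1.le, (hIcc x hx).2.le⟩
  have hWp : ∀ k, Vale.Agent.P264.Cal.PC1 ∅ a b (W k) (W (k + 1)) := fun k =>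
    Vale.Agent.P264.Cal.PC1.of_hasDerivAt hab (hWc k)
      (fun x hx => (hJ.hasDerivAt k ht (hIcc x ⟨hx.1.le, hx.2.le⟩)).sub
        (hJ'.hasDerivAt k ht (hIcc x ⟨hx.1.le, hx.2.le⟩))) (hWc (k + 1))
  have hwp : Vale.Agent.P264.Cal.PC1 ∅ a b w w' :=
    Vale.Agent.P264.Cal.PC1.of_hasDerivAt' hw hwc'
  have hwp' : Vale.Agent.P264.Cal.PC1 ∅ a b w' w'' :=
    Vale.Agent.P264.Cal.PC1.of_hasDerivAt' hw' hc
  have hparts := Vale.Agent.P264.Cal.PC1.parts2_zero (s := ∅) countable_empty hab
    hwp hwp' (hWp 0) (hWp 1) (hend a (Or.inl rfl)).1 (hend a (Or.inl rfl)).2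
    (hend b (Or.inr rfl)).1 (hend b (Or.inr rfl)).2
  have h1 : ∫ x in a..b, w x * (1 / φ t x - 1 / ψ t x) = ∫ x in a..b, w'' x * W 0 x := by
    rw [hparts]
    apply intervalIntegral.integral_congr
    intro x hx
    rw [uIcc_of_le hab] at hx
    simp only
    rw [inv_sub_inv hU hV hJ hJ' ht (hIcc x hx)]
  -- Cauchy-Schwarz
  have hpos : ∀ x ∈ Icc a b, 0 < x ^ (m + 2) := fun x hx => pow_pos (hIcc x hx).1 _
  have hsq : ContinuousOn (fun x : ℝ => √(x ^ (m + 2))) (Icc a b) := by fun_prop
  have c1 : ContinuousOn (fun x => w'' x / √(x ^ (m + 2))) (Icc a b) :=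
    hc.continuousOn.div hsq fun x hx => (Real.sqrt_pos.2 (hpos x hx)).ne'
  have c2 : ContinuousOn (fun x => √(x ^ (m + 2)) * W 0 x) (Icc a b) := hsq.mul (hWc 0)
  have h2 := cs_interval hab c1 c2
  have e1 : ∫ x in a..b, w'' x / √(x ^ (m + 2)) * (√(x ^ (m + 2)) * W 0 x)
      = ∫ x in a..b, w'' x * W 0 x := by
    apply intervalIntegral.integral_congr
    intro x hx
    rw [uIcc_of_le hab] at hx
    have := (Real.sqrt_pos.2 (hpos x hx)).ne'
    simp only
    (clear * - this; field_simp)
  have e2 : ∫ x in a..b, (w'' x / √(x ^ (m + 2))) ^ 2 = ∫ x in a..b, w'' x ^ 2 / x ^ (m + 2) := by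
    apply intervalIntegral.integral_congr
    intro x hx
    rw [uIcc_of_le hab] at hx
    simp only
    rw [div_pow, Real.sq_sqrt (hpos x hx).le]
  have e3 : ∫ x in a..b, (√(x ^ (m + 2)) * W 0 x) ^ 2
      = ∫ x in a..b, x ^ (m + 2) * (U t x - V t x) ^ 2 := by
    apply intervalIntegral.integral_congr
    intro x hx
    rw [uIcc_of_le hab] at hx
    simp only
    rw [mul_pow, Real.sq_sqrt (hpos x hx).le]
    simp only [hW, hJ.zero, hJ'.zero]
  rw [e1, e2, e3] at h2
  rw [h1]
  refine h2.trans ?_
  have hP : 0 ≤ ∫ x in a..b, w'' x ^ 2 / x ^ (m + 2) :=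
    intervalIntegral.integral_nonneg hab fun x hx => by
      have := hpos x hx
      (clear * - this; positivity)
  refine mul_le_mul_of_nonneg_left ?_ hP
  -- enlarge the domain of integration, then contraction
  have hUc : ContinuousOn (fun x => x ^ (m + 2) * (U t x - V t x) ^ 2) (Icc 0 1) := by
    have a1 := hcJ hJ 0
    have a2 := hcJ hJ' 0
    have a3 : (fun x => x ^ (m + 2) * (U t x - V t x) ^ 2)
        = fun x => x ^ (m + 2) * (J 0 t x - J' 0 t x) ^ 2 := by
      funext x
      rw [hJ.zero, hJ'.zero]
    rw [a3]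
    exact (by fun_prop : Continuous fun x : ℝ => x ^ (m + 2)).continuousOn.mul
      ((a1.sub a2).pow 2)
  have h3 : ∫ x in a..b, x ^ (m + 2) * (U t x - V t x) ^ 2
      ≤ ∫ x in (0 : ℝ)..1, x ^ (m + 2) * (U t x - V t x) ^ 2 := by
    apply intervalIntegral.integral_mono_interval ha.le hab hb.le
    · filter_upwards [ae_restrict_mem measurableSet_Ioc] with x hx
      have := hx.1
      simp only [Pi.zero_apply]
      (clear * - this; positivity)
    · rw [← uIcc_of_le zero_le_one] at hUc
      exact hUc.intervalIntegrable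
  have h4 := l2_contraction hT hU hV ⟨le_rfl, hT.le⟩ ht ht.1
  simp only at h4
  have h5 : ∫ x in (0 : ℝ)..1, x ^ (m + 2) * (U 0 x - V 0 x) ^ 2
      = ∫ x in (0 : ℝ)..1, x ^ (m + 2) * (U₀ x - V₀ x) ^ 2 := by
    apply intervalIntegral.integral_congr
    intro x hx
    rw [uIcc_of_le zero_le_one] at hx
    simp only
    rw [hU.init x hx, hV.init x hx]
  rw [h5] at h4
  exact h3.trans h4

end

end P264.B
end
end

section

section

/-! # P264 / Geo / AlgJ1 : integrations by parts, first part -/

noncomputable section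

namespace P264.Geo.Cone

variable {m : ℕ} {A : Type} [CommRing A] [Algebra ℂ A] (C : Cone m A)

/-- `∫ κ'(h) h F μ = - m ∫ κ(h) F μ` for `F` of degree `0`: integrate `Σ ∂_a (Z_a F μ)`. -/
theorem J1_h (J : C.Func) (F : A) (hF : C.E F = 0) :
    J.J1 (C.h * F * C.μ) = -(m : ℂ) * J.J0 (F * C.μ) := by
  have h1 : ∑ a, C.d a (C.Z a * (F * C.μ)) = (m : ℂ) • (F * C.μ) := by
    have h2 : ∀ a, C.d a (C.Z a * (F * C.μ)) = F * C.μ + C.Z a * C.d a (F * C.μ) := by
      intro a
      rw [Derivation.leibniz, C.dZ]
      simp only [if_true, smul_eq_mul]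
      ring
    rw [Finset.sum_congr rfl (fun a _ => h2 a), Finset.sum_add_distrib, ← C.E_apply,
      Derivation.leibniz, hF, C.E_μ]
    simp only [Finset.sum_const, Finset.card_univ, Fintype.card_fin, Algebra.smul_def, eq_natCast, smul_eq_mul, mul_zero, add_zero, map_natCast]
  have h3 : ∑ a, C.d a C.h * (C.Z a * (F * C.μ)) = C.h * F * C.μ := by
    calc ∑ a, C.d a C.h * (C.Z a * (F * C.μ)) = (∑ a, C.Z a * C.d a C.h) * (F * C.μ) := by
          rw [Finset.sum_mul]
          exact Finset.sum_congr rfl (fun a _ => by ring)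
      _ = C.h * F * C.μ := by rw [C.Eh]; ring
  have h4 : J.J0 (∑ a, C.d a (C.Z a * (F * C.μ))) = -J.J1 (∑ a, C.d a C.h * (C.Z a * (F * C.μ))) := by
    rw [map_sum, map_sum, ← Finset.sum_neg_distrib]
    exact Finset.sum_congr rfl (fun a _ => J.ibp a _)
  rw [h1, h3, map_smul, smul_eq_mul] at h4
  linear_combination h4

/-- `∫ κ F (h Δ G) μ = - ∫ κ h ⟨∂G, ∂̄F⟩ μ`, `E G = 0`. -/
theorem J0_lap (J : C.Func) (F G : A) (hG : C.E G = 0) :
    J.J0 (F * (C.h * C.lap G) * C.μ) = -J.J0 (C.h * C.ip G F * C.μ) := by
  have h1 : ∑ a, ∑ b, C.db b ((C.μ * C.P a b) * (C.d a G * (F * C.h)))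
      = F * (C.h * C.lap G) * C.μ + C.h * C.ip G F * C.μ := by
    have h2 : ∀ a b, C.db b ((C.μ * C.P a b) * (C.d a G * (F * C.h)))
        = C.db b (C.μ * C.P a b) * (C.d a G * (F * C.h))
          + (F * C.h * C.μ) * (C.P a b * C.hs G a b)
          + (C.h * C.μ) * (C.P a b * (C.d a G * C.db b F))
          + (C.μ * F * C.d a G) * (C.db b C.h * C.P a b) := by
      intro a b
      rw [Derivation.leibniz, Derivation.leibniz (C.db b) (C.d a G), Derivation.leibniz (C.db b) F,
        C.dbc, hs]
      simp only [smul_eq_mul]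
      ring
    simp only [h2, Finset.sum_add_distrib, ← Finset.mul_sum, ← Finset.sum_mul, C.piolab_μ, C.hbP]
    have h5 : ∑ a, C.μ * F * C.d a G * C.Z a = C.μ * F * C.E G := by
      rw [C.E_apply, Finset.mul_sum]
      exact Finset.sum_congr rfl (fun a _ => by ring)
    rw [h5, hG, lap, ip]
    simp only [zero_mul, mul_zero]
    ring
  have h3 : ∑ a, ∑ b, C.db b C.h * ((C.μ * C.P a b) * (C.d a G * (F * C.h))) = 0 := by
    calc ∑ a, ∑ b, C.db b C.h * ((C.μ * C.P a b) * (C.d a G * (F * C.h)))
        = ∑ a, (C.μ * F * C.h) * (C.Z a * C.d a G) := by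
          refine Finset.sum_congr rfl (fun a _ => ?_)
          rw [← C.hbP a, Finset.sum_mul, Finset.mul_sum]
          exact Finset.sum_congr rfl (fun b _ => by ring)
      _ = 0 := by rw [← Finset.mul_sum, ← C.E_apply, hG, mul_zero]
  have h4 : J.J0 (∑ a, ∑ b, C.db b ((C.μ * C.P a b) * (C.d a G * (F * C.h))))
      = -J.J1 (∑ a, ∑ b, C.db b C.h * ((C.μ * C.P a b) * (C.d a G * (F * C.h)))) := by
    simp only [map_sum, ← Finset.sum_neg_distrib]
    exact Finset.sum_congr rfl (fun a _ => Finset.sum_congr rfl (fun b _ => J.ibpb b _))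
  rw [h1, h3, map_zero, neg_zero, map_add] at h4
  linear_combination h4

/-- `∫ κ F (h Δ G) μ = - ∫ κ h ⟨∂F, ∂̄G⟩ μ`, `Ē G = 0`. -/
theorem J0_lap' (J : C.Func) (F G : A) (hG : C.Eb G = 0) :
    J.J0 (F * (C.h * C.lap G) * C.μ) = -J.J0 (C.h * C.ip F G * C.μ) := by
  have h1 : ∑ b, ∑ a, C.d a ((C.μ * C.P a b) * (C.db b G * (F * C.h)))
      = F * (C.h * C.lap G) * C.μ + C.h * C.ip F G * C.μ := by
    have h2 : ∀ b a, C.d a ((C.μ * C.P a b) * (C.db b G * (F * C.h)))
        = C.d a (C.μ * C.P a b) * (C.db b G * (F * C.h))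
          + (F * C.h * C.μ) * (C.P a b * C.hs G a b)
          + (C.h * C.μ) * (C.P a b * (C.d a F * C.db b G))
          + (C.μ * F * C.db b G) * (C.d a C.h * C.P a b) := by
      intro b a
      rw [Derivation.leibniz, Derivation.leibniz (C.d a) (C.db b G), Derivation.leibniz (C.d a) F, hs]
      simp only [smul_eq_mul]
      ring
    simp only [h2, Finset.sum_add_distrib, ← Finset.mul_sum, ← Finset.sum_mul, C.piola_μ, C.hP]
    have h5 : ∑ b, C.μ * F * C.db b G * C.W b = C.μ * F * C.Eb G := by
      rw [C.Eb_apply, Finset.mul_sum]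
      exact Finset.sum_congr rfl (fun a _ => by ring)
    have h6 : ∑ b, ∑ a, C.P a b * C.hs G a b = C.lap G := Finset.sum_comm
    have h7 : ∑ b, ∑ a, C.P a b * (C.d a F * C.db b G) = C.ip F G := Finset.sum_comm
    rw [h5, hG, h6, h7]
    simp only [zero_mul, mul_zero]
    ring
  have h3 : ∑ b, ∑ a, C.d a C.h * ((C.μ * C.P a b) * (C.db b G * (F * C.h))) = 0 := by
    calc ∑ b, ∑ a, C.d a C.h * ((C.μ * C.P a b) * (C.db b G * (F * C.h)))
        = ∑ b, (C.μ * F * C.h) * (C.W b * C.db b G) := by
          refine Finset.sum_congr rfl (fun b _ => ?_)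
          rw [← C.hP b, Finset.sum_mul, Finset.mul_sum]
          exact Finset.sum_congr rfl (fun a _ => by ring)
      _ = 0 := by rw [← Finset.mul_sum, ← C.Eb_apply, hG, mul_zero]
  have h4 : J.J0 (∑ b, ∑ a, C.d a ((C.μ * C.P a b) * (C.db b G * (F * C.h))))
      = -J.J1 (∑ b, ∑ a, C.d a C.h * ((C.μ * C.P a b) * (C.db b G * (F * C.h)))) := by
    simp only [map_sum, ← Finset.sum_neg_distrib]
    exact Finset.sum_congr rfl (fun b _ => Finset.sum_congr rfl (fun a _ => J.ibp a _))
  rw [h1, h3, map_zero, neg_zero, map_add] at h4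
  linear_combination h4

/-- symmetry of `h Δ` on degree `0`. -/
theorem J0_symm (J : C.Func) (F G : A) (hF : C.E F = 0) (hG : C.Eb G = 0) :
    J.J0 (F * (C.h * C.lap G) * C.μ) = J.J0 (G * (C.h * C.lap F) * C.μ) := by
  rw [C.J0_lap' J F G hG, C.J0_lap J G F hF]

/-- `∫ κ v² (h Δσ) μ = -2 ∫ κ v h ⟨∂σ, ∂̄v⟩ μ`. -/
theorem J0_sig (J : C.Func) (v : A) (hv : C.E v = 0) (hv' : C.Eb v = 0) :
    J.J0 (v ^ 2 * (C.h * C.lap C.sig) * C.μ) = -2 * J.J0 (v * (C.h * C.ip C.sig v) * C.μ) := by
  rw [C.J0_lap J _ _ C.E_sig]
  have h1 : C.ip C.sig (v ^ 2) = 2 * (v * C.ip C.sig v) := by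
    rw [ip, ip, Finset.mul_sum, Finset.mul_sum]
    refine Finset.sum_congr rfl (fun a _ => ?_)
    rw [Finset.mul_sum, Finset.mul_sum]
    refine Finset.sum_congr rfl (fun b _ => ?_)
    rw [pow_two, Derivation.leibniz]
    simp only [smul_eq_mul]
    ring
  have h2 : C.h * C.ip C.sig (v ^ 2) * C.μ = (2 : ℂ) • (v * (C.h * C.ip C.sig v) * C.μ) := by
    rw [h1, Algebra.smul_def, map_ofNat]
    ring
  rw [h2, map_smul, smul_eq_mul]
  ring

end P264.Geo.Cone

end
end
end

section

section

/-!
# P264 / H3 / Tab : tables of lower bounds of `σ = ρ e^z` and of upper bounds of `√bsq`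
(helper288)
-/

open MeasureTheory Set Filter Real
open P264.Prof

namespace P264.H3

/-- `m_j ≤ σ` on the cell `j`, `m` increasing, the last one below the tail constant `c` -/
def lowchk (c : ℤ) : List Cell → List ℤ → Bool
  | [], m :: _ => decide (m ≤ c)
  | s :: l, m :: m' :: ms => decide (m ≤ lowB s.c) && decide (m ≤ m') && lowchk c l (m' :: ms)
  | _, _ => false

/-- breakpoints with lower bounds -/
def bl : List Cell → List ℤ → ℤ → List (ℤ × ℤ)
  | [], m :: _, e => [(e, m)]
  | s :: l, m :: ms, e => (e, m) :: bl l ms (s.C + s.H)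
  | _, [], _ => []

theorem low_head {P : ℕ} {T : ℕ → ℝ → ℝ} {c : ℤ} (l : List Cell) (m : ℤ) (ms : List ℤ) (r : ℤ)
    (h : lowchk c l (m :: ms) = true) (hch : Chain l r)
    (hT : ∀ y : ℝ, ((rend l r : ℤ) : ℝ) ≤ 16 * y → (c : ℝ) / 2 ^ P ≤ T 0 y) (y : ℝ)
    (hy : (r : ℝ) ≤ 16 * y) : (m : ℝ) / 2 ^ P ≤ pw P T l 0 y := by
  induction l generalizing m ms r with
  | nil =>
    simp only [lowchk, decide_eq_true_eq] at h
    have h' : (m : ℝ) ≤ c := by exact_mod_cast h
    refine le_trans ?_ (hT y hy)
    gcongr
  | cons s l ih =>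
    cases ms with
    | nil => simp [lowchk] at h
    | cons m' ms =>
      simp only [lowchk, Bool.and_eq_true, decide_eq_true_eq] at h
      obtain ⟨⟨h1, h2⟩, h3⟩ := h
      obtain ⟨hc1, hc2, hc3⟩ := hch
      by_cases hc : 16 * y < ((s.C + s.H : ℤ) : ℝ)
      · rw [pw, if_pos hc]
        have hv := abs_v_le hc2 (y := y) (by rw [hc1]; exact hy) hc
        refine le_trans ?_ (low_le P s hv)
        have : (m : ℝ) ≤ (lowB s.c : ℝ) := by exact_mod_cast h1
        (clear * - this; gcongr)
      · rw [pw, if_neg hc]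
        have := ih m' ms (s.C + s.H) h3 hc3 hT (not_lt.1 hc)
        refine le_trans ?_ this
        have : (m : ℝ) ≤ m' := by exact_mod_cast h2
        (clear * - this; gcongr)

theorem low_all {P : ℕ} {T : ℕ → ℝ → ℝ} {c : ℤ} {σ : ℝ → ℝ} (l : List Cell) (ms : List ℤ) (r : ℤ)
    (h : lowchk c l ms = true) (hch : Chain l r)
    (hT : ∀ y : ℝ, ((rend l r : ℤ) : ℝ) ≤ 16 * y → (c : ℝ) / 2 ^ P ≤ T 0 y)
    (hσ : ∀ y : ℝ, (r : ℝ) ≤ 16 * y → σ y = pw P T l 0 y) :
    ∀ p ∈ bl l ms r, ∀ y : ℝ, (p.1 : ℝ) ≤ 16 * y → (p.2 : ℝ) / 2 ^ P ≤ σ y := by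
  induction l generalizing ms r with
  | nil =>
    cases ms with
    | nil => simp only [lowchk, Bool.false_eq_true] at h
    | cons m ms =>
      intro p hp y hy
      simp only [bl, List.mem_singleton] at hp
      subst hp
      rw [hσ y hy]
      exact low_head [] m ms r h hch hT y hy
  | cons s l ih =>
    cases ms with
    | nil => simp [lowchk] at h
    | cons m ms =>
      intro p hp y hy
      simp only [bl, List.mem_cons] at hp
      rcases hp with hp | hp
      · subst hp
        rw [hσ y hy]
        exact low_head (s :: l) m ms r h hch hT y hy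
      · cases ms with
        | nil => simp [lowchk] at h
        | cons m' ms =>
          simp only [lowchk, Bool.and_eq_true, decide_eq_true_eq] at h
          obtain ⟨⟨h1, h2⟩, h3⟩ := h
          obtain ⟨hc1, hc2, hc3⟩ := hch
          refine ih (m' :: ms) (s.C + s.H) h3 hc3 hT (fun y hy => ?_) p hp y hy
          have h5 : (r : ℝ) ≤ 16 * y := by
            refine le_trans ?_ hy
            have : r ≤ s.C + s.H := by omega
            exact_mod_cast this
          rw [hσ y h5, pw, if_neg (not_lt.2 hy)]

/-- check of the table `τ` : `bsq ≤ (τ/2^T)²` on the cells -/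
def btchk (P Q T : ℕ) : List Cell → List ℤ → List ℤ → Bool
  | s :: l, m :: ms, τ :: τs => decide (0 ≤ τ) && incr (bl (s :: l) (m :: ms) (s.C - s.H)) &&
      decide ((s.C + s.H) * bsum P Q (s.C - s.H) (bl (s :: l) (m :: ms) (s.C - s.H)) * 2 ^ (2 * T)
        ≤ τ ^ 2 * 16 * 2 ^ Q) && btchk P Q T l ms τs
  | [], _, [] => true
  | _, _, _ => false

theorem bt_all {ρ : ℝ → ℝ} (hρ : ∀ s, 0 < ρ s)
    (hint : ∀ z, IntegrableOn (fun s => (exp (z - s) - exp (2 * (z - s))) ^ 2 / ρ s) (Ioi z))
    {P Q T : ℕ} (l : List Cell) (ms τs : List ℤ) (r : ℤ)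
    (h : btchk P Q T l ms τs = true) (hch : Chain l r)
    (hlow : ∀ p ∈ bl l ms r, ∀ s, (p.1 : ℝ) ≤ 16 * exp s → (p.2 : ℝ) / 2 ^ P ≤ ρ s * exp s) :
    ∀ p ∈ l.zip τs, 0 ≤ p.2 ∧ ∀ z, ((p.1.C - p.1.H : ℤ) : ℝ) ≤ 16 * exp z →
      16 * exp z < ((p.1.C + p.1.H : ℤ) : ℝ) → P264.B.bsq ρ z ≤ ((p.2 : ℝ) / 2 ^ T) ^ 2 := by
  induction l generalizing ms τs r with
  | nil => intro p hp; simp at hp
  | cons s l ih =>
    cases ms with
    | nil => simp only [btchk, Bool.false_eq_true] at h
    | cons m ms =>
      cases τs with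
      | nil => simp [btchk] at h
      | cons τ τs =>
        simp only [btchk, Bool.and_eq_true, decide_eq_true_eq] at h
        obtain ⟨⟨⟨h0, h1⟩, h2⟩, h3⟩ := h
        obtain ⟨hc1, hc2, hc3⟩ := hch
        intro p hp
        rw [List.zip_cons_cons, List.mem_cons] at hp
        rcases hp with hp | hp
        · subst hp
          refine ⟨h0, fun z hz1 hz2 => ?_⟩
          have hb := bsq_le_bsum hρ (hint z) (P := P) (Q := Q) (a := s.C - s.H) (m := m)
            (bl l ms (s.C + s.H)) (by simpa [bl] using h1) hz1
            (fun p hp t ht => by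
              refine hlow p ?_ t ht
              simpa [bl, hc1] using hp)
          have hb0 : 0 ≤ P264.B.bsq ρ z := P264.B.bsq_nonneg hρ z
          have he : bl (s :: l) (m :: ms) (s.C - s.H) = (s.C - s.H, m) :: bl l ms (s.C + s.H) := rfl
          rw [← he] at hb
          set β := bsum P Q (s.C - s.H) (bl (s :: l) (m :: ms) (s.C - s.H)) with hβ
          have hβ0 : (0 : ℝ) ≤ (β : ℝ) / 2 ^ Q := by
            have := hb0.trans hb
            exact nonneg_of_mul_nonneg_right this (exp_pos z)
          have h4 : exp z ≤ ((s.C + s.H : ℤ) : ℝ) / 16 := by linarith only [hz2]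
          have h5 : P264.B.bsq ρ z ≤ ((s.C + s.H : ℤ) : ℝ) / 16 * ((β : ℝ) / 2 ^ Q) :=
            hb.trans (mul_le_mul_of_nonneg_right h4 hβ0)
          refine h5.trans ?_
          have h6 : ((s.C + s.H : ℤ) : ℝ) * (β : ℝ) * 2 ^ (2 * T) ≤ (τ : ℝ) ^ 2 * 16 * 2 ^ Q := by
            exact_mod_cast h2
          have e3 : (2 : ℝ) ^ (2 * T) = (2 ^ T) ^ 2 := by rw [mul_comm, pow_mul]
          rw [e3] at h6
          rw [div_mul_div_comm, div_pow, div_le_div_iff₀ (by positivity) (by positivity)]
          calc ((s.C + s.H : ℤ) : ℝ) * (β : ℝ) * (2 ^ T) ^ 2 ≤ (τ : ℝ) ^ 2 * 16 * 2 ^ Q := h6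
            _ = (τ : ℝ) ^ 2 * (16 * 2 ^ Q) := by ring
        · exact ih ms τs (s.C + s.H) h3 hc3 (fun p hp t ht => by
            refine hlow p ?_ t ht
            simp only [bl, List.mem_cons]
            exact Or.inr hp) p hp

end P264.H3
end
end

section

section

/-!
# P264 / H3 / Exp : derivatives of `z ↦ F (e^z)` for a family of `y`-derivatives (helper288)
-/

open MeasureTheory Set Filter Real

namespace P264.H3

/-- `F 0, F 1, …, F n` are successive derivatives on `(0,∞)`. -/
def Fam (n : ℕ) (F : ℕ → ℝ → ℝ) : Prop :=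
  ∀ k < n, ∀ y : ℝ, 0 < y → HasDerivAt (F k) (F (k + 1) y) y

/-- `D^j` of `F 0` at `y`, `D = y d/dy`, for `j ≤ 4`. -/
def DD (F : ℕ → ℝ → ℝ) : ℕ → ℝ → ℝ
  | 0, y => F 0 y
  | 1, y => y * F 1 y
  | 2, y => y ^ 2 * F 2 y + y * F 1 y
  | 3, y => y ^ 3 * F 3 y + 3 * (y ^ 2 * F 2 y) + y * F 1 y
  | 4, y => y ^ 4 * F 4 y + 6 * (y ^ 3 * F 3 y) + 7 * (y ^ 2 * F 2 y) + y * F 1 y
  | _, _ => 0

theorem hd_term {F : ℕ → ℝ → ℝ} {n k : ℕ} (hF : Fam n F) (hk : k < n) (z : ℝ) :
    HasDerivAt (fun s => exp s ^ k * F k (exp s))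
      (k * (exp z ^ k * F k (exp z)) + exp z ^ (k + 1) * F (k + 1) (exp z)) z := by
  have h1 : HasDerivAt (fun s => exp s ^ k) (k * exp z ^ k) z := by
    have := (hasDerivAt_exp z).pow k
    refine this.congr_deriv ?_
    rcases k with _ | k
    · simp
    · simp only [Nat.add_sub_cancel]; ring
  have h2 : HasDerivAt (fun s => F k (exp s)) (F (k + 1) (exp z) * exp z) z :=
    (hF k hk (exp z) (exp_pos z)).comp z (hasDerivAt_exp z)
  refine (h1.mul h2).congr_deriv ?_
  ring

theorem DD_hasDerivAt {F : ℕ → ℝ → ℝ} {n : ℕ} (hF : Fam n F) (j : ℕ) (hj : j < 4) (hjn : j < n)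
    (z : ℝ) :
    HasDerivAt (fun s => DD F j (exp s)) (DD F (j + 1) (exp z)) z := by
  have ht := fun k (hk : k < n) => hd_term hF hk z
  interval_cases j
  · have h0 := ht 0 (by omega)
    refine (h0.congr_of_eventuallyEq (Eventually.of_forall fun s => ?_)).congr_deriv ?_
    · simp only [DD, pow_zero, one_mul]
    · simp [DD]
  · have h1 := ht 1 (by omega)
    refine (h1.congr_of_eventuallyEq (Eventually.of_forall fun s => ?_)).congr_deriv ?_
    · simp [DD]
    · simp only [DD]; push_cast; ring
  · have h1 := ht 1 (by omega)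
    have h2 := ht 2 (by omega)
    refine ((h2.add h1).congr_of_eventuallyEq (Eventually.of_forall fun s => ?_)).congr_deriv ?_
    · simp [DD]
    · simp only [DD]; push_cast; ring
  · have h1 := ht 1 (by omega)
    have h2 := ht 2 (by omega)
    have h3 := ht 3 (by omega)
    refine (((h3.add (h2.const_mul 3)).add h1).congr_of_eventuallyEq
      (Eventually.of_forall fun s => ?_)).congr_deriv ?_
    · simp [DD]
    · simp only [DD]; push_cast; ring

/-- `e^{-2z} (D-2)^j F` : the derivatives of `e^{-2z} F(e^z)`. -/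
theorem iteratedDeriv_expm2 {F : ℕ → ℝ → ℝ} (hF : Fam 4 F) :
    (∀ z, HasDerivAt (fun s => exp (-2 * s) * DD F 0 (exp s))
      (exp (-2 * z) * (DD F 1 (exp z) - 2 * DD F 0 (exp z))) z) ∧
    (∀ z, HasDerivAt (fun s => exp (-2 * s) * (DD F 1 (exp s) - 2 * DD F 0 (exp s)))
      (exp (-2 * z) * (DD F 2 (exp z) - 4 * DD F 1 (exp z) + 4 * DD F 0 (exp z))) z) ∧
    (∀ z, HasDerivAt (fun s => exp (-2 * s) * (DD F 2 (exp s) - 4 * DD F 1 (exp s)
        + 4 * DD F 0 (exp s)))
      (exp (-2 * z) * (DD F 3 (exp z) - 6 * DD F 2 (exp z) + 12 * DD F 1 (exp z)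
        - 8 * DD F 0 (exp z))) z) ∧
    (∀ z, HasDerivAt (fun s => exp (-2 * s) * (DD F 3 (exp s) - 6 * DD F 2 (exp s)
        + 12 * DD F 1 (exp s) - 8 * DD F 0 (exp s)))
      (exp (-2 * z) * (DD F 4 (exp z) - 8 * DD F 3 (exp z) + 24 * DD F 2 (exp z)
        - 32 * DD F 1 (exp z) + 16 * DD F 0 (exp z))) z) := by
  have he : ∀ z : ℝ, HasDerivAt (fun s => exp (-2 * s)) (exp (-2 * z) * (-2)) z := by
    intro z
    have := ((hasDerivAt_id z).const_mul (-2 : ℝ)).exp
    simpa using this
  have h := fun j hj z => DD_hasDerivAt hF j hj (by omega : j < 4) z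
  refine ⟨fun z => ?_, fun z => ?_, fun z => ?_, fun z => ?_⟩
  · refine ((he z).mul (h 0 (by norm_num) z)).congr_deriv ?_; ring
  · refine ((he z).mul ((h 1 (by norm_num) z).sub ((h 0 (by norm_num) z).const_mul 2))).congr_deriv
      ?_
    simp only [Nat.reduceAdd, Pi.sub_apply, Pi.add_apply]; ring
  · refine ((he z).mul (((h 2 (by norm_num) z).sub ((h 1 (by norm_num) z).const_mul 4)).add
      ((h 0 (by norm_num) z).const_mul 4))).congr_deriv ?_
    simp only [Nat.reduceAdd, Pi.sub_apply, Pi.add_apply]; ring
  · refine ((he z).mul ((((h 3 (by norm_num) z).sub ((h 2 (by norm_num) z).const_mul 6)).add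
      ((h 1 (by norm_num) z).const_mul 12)).sub ((h 0 (by norm_num) z).const_mul 8))).congr_deriv ?_
    simp only [Nat.reduceAdd, Pi.sub_apply, Pi.add_apply]; ring

open P264.B in
/-- `Pi(-D)(e^{-2z} F) = y² F'''' - 14 y F''' + 56 F''`. -/
theorem piDadj_exp {F : ℕ → ℝ → ℝ} (hF : Fam 4 F) (z : ℝ) :
    piDadj (fun s => exp (-2 * s) * F 0 (exp s)) z =
      exp z ^ 2 * F 4 (exp z) - 14 * (exp z * F 3 (exp z)) + 56 * F 2 (exp z) := by
  obtain ⟨h0, h1, h2, h3⟩ := iteratedDeriv_expm2 hF
  have e0 : (fun s => exp (-2 * s) * F 0 (exp s)) = fun s => exp (-2 * s) * DD F 0 (exp s) := rfl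
  have i1 : iteratedDeriv 1 (fun s => exp (-2 * s) * F 0 (exp s)) =
      fun z => exp (-2 * z) * (DD F 1 (exp z) - 2 * DD F 0 (exp z)) := by
    rw [iteratedDeriv_one, e0]; funext z; exact (h0 z).deriv
  have i2 : iteratedDeriv 2 (fun s => exp (-2 * s) * F 0 (exp s)) =
      fun z => exp (-2 * z) * (DD F 2 (exp z) - 4 * DD F 1 (exp z) + 4 * DD F 0 (exp z)) := by
    rw [iteratedDeriv_succ, i1]; funext z; exact (h1 z).deriv
  have i3 : iteratedDeriv 3 (fun s => exp (-2 * s) * F 0 (exp s)) =
      fun z => exp (-2 * z) * (DD F 3 (exp z) - 6 * DD F 2 (exp z) + 12 * DD F 1 (exp z)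
        - 8 * DD F 0 (exp z)) := by
    rw [iteratedDeriv_succ, i2]; funext z; exact (h2 z).deriv
  have i4 : iteratedDeriv 4 (fun s => exp (-2 * s) * F 0 (exp s)) =
      fun z => exp (-2 * z) * (DD F 4 (exp z) - 8 * DD F 3 (exp z) + 24 * DD F 2 (exp z)
        - 32 * DD F 1 (exp z) + 16 * DD F 0 (exp z)) := by
    rw [iteratedDeriv_succ, i3]; funext z; exact (h3 z).deriv
  rw [piDadj, i1, i2, i3, i4]
  have hexp : exp (-2 * z) * exp z ^ 2 = 1 := by
    rw [← exp_nat_mul, ← exp_add]; simp
  simp only [DD]
  have key : ∀ a b c : ℝ, exp (-2 * z) * (exp z ^ 4 * a - 14 * (exp z ^ 3 * b)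
      + 56 * (exp z ^ 2 * c)) = exp z ^ 2 * a - 14 * (exp z * b) + 56 * c := by
    intro a b c
    have : exp (-2 * z) * (exp z ^ 4 * a - 14 * (exp z ^ 3 * b) + 56 * (exp z ^ 2 * c)) =
      (exp (-2 * z) * exp z ^ 2) * (exp z ^ 2 * a - 14 * (exp z * b) + 56 * c) := by ring
    rw [this, hexp, one_mul]
  rw [← key]
  ring

/-- first derivative -/
theorem deriv_exp {F : ℕ → ℝ → ℝ} (hF : Fam 4 F) (z : ℝ) :
    deriv (fun s => F 0 (exp s)) z = exp z * F 1 (exp z) := by
  have := DD_hasDerivAt hF 0 (by norm_num) (by norm_num) z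
  exact this.deriv

end P264.H3
end
end

section

section

/-!
# P264 / H3 / Leib : the jet of `R² k` by the Leibniz rule, and its packed evaluation (helper288)
-/

open P264.Prof

namespace P264.H3

/-! ## the jet of `R² k` -/

/-- jet of `R² k` from the jets of `R` and `k` -/
def Lz (R K : ℕ → ℝ) : ℕ → ℝ
  | 0 => R 0 * R 0 * K 0
  | 1 => 2 * (R 0 * R 1) * K 0 + R 0 * R 0 * K 1
  | 2 => 2 * (R 1 * R 1 + R 0 * R 2) * K 0 + (2 * (2 * (R 0 * R 1) * K 1) + R 0 * R 0 * K 2)
  | 3 => (6 * (R 1 * R 2) + 2 * (R 0 * R 3)) * K 0 + (3 * (2 * (R 1 * R 1 + R 0 * R 2) * K 1) +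
      (3 * (2 * (R 0 * R 1) * K 2) + R 0 * R 0 * K 3))
  | 4 => (6 * (R 2 * R 2) + (8 * (R 1 * R 3) + 2 * (R 0 * R 4))) * K 0 +
      (4 * ((6 * (R 1 * R 2) + 2 * (R 0 * R 3)) * K 1) +
      (6 * (2 * (R 1 * R 1 + R 0 * R 2) * K 2) + (4 * (2 * (R 0 * R 1) * K 3) + R 0 * R 0 * K 4)))
  | _ => 0

theorem Lz_v0 (R K : ℕ → ℝ) : Lz R K 0 = R 0 * R 0 * K 0 := rfl

theorem Lz_v1 (R K : ℕ → ℝ) : Lz R K 1 = 2 * (R 0 * R 1) * K 0 + R 0 * R 0 * K 1 := rfl

theorem Lz_v2 (R K : ℕ → ℝ) : Lz R K 2 =
    2 * (R 1 * R 1 + R 0 * R 2) * K 0 + (2 * (2 * (R 0 * R 1) * K 1) + R 0 * R 0 * K 2) := rfl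

theorem Lz_v3 (R K : ℕ → ℝ) : Lz R K 3 =
    (6 * (R 1 * R 2) + 2 * (R 0 * R 3)) * K 0 + (3 * (2 * (R 1 * R 1 + R 0 * R 2) * K 1) +
      (3 * (2 * (R 0 * R 1) * K 2) + R 0 * R 0 * K 3)) := rfl

theorem Lz_v4 (R K : ℕ → ℝ) : Lz R K 4 =
    (6 * (R 2 * R 2) + (8 * (R 1 * R 3) + 2 * (R 0 * R 4))) * K 0 +
      (4 * ((6 * (R 1 * R 2) + 2 * (R 0 * R 3)) * K 1) +
      (6 * (2 * (R 1 * R 1 + R 0 * R 2) * K 2) + (4 * (2 * (R 0 * R 1) * K 3) + R 0 * R 0 * K 4))) :=
  rfl

theorem Lz_zero (R : ℕ → ℝ) (k : ℕ) : Lz R (fun _ => 0) k = 0 := by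
  rcases k with _ | _ | _ | _ | _ | k <;> simp [Lz]

theorem Lz_fam {R K : ℕ → ℝ → ℝ} (hR : Fam 4 R) (hK : Fam 4 K) :
    Fam 4 (fun j y => Lz (fun k => R k y) (fun k => K k y) j) := by
  intro k hk y hy
  have r0 := hR 0 (by norm_num) y hy
  have r1 := hR 1 (by norm_num) y hy
  have r2 := hR 2 (by norm_num) y hy
  have r3 := hR 3 (by norm_num) y hy
  have k0 := hK 0 (by norm_num) y hy
  have k1 := hK 1 (by norm_num) y hy
  have k2 := hK 2 (by norm_num) y hy
  have k3 := hK 3 (by norm_num) y hy
  simp only [Nat.reduceAdd, zero_add] at r0 r1 r2 r3 k0 k1 k2 k3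
  have hA1 := (r0.mul r1).const_mul 2
  have hA2 := ((r1.mul r1).add (r0.mul r2)).const_mul 2
  have hA3 := ((r1.mul r2).const_mul 6).add ((r0.mul r3).const_mul 2)
  interval_cases k
  · refine ((r0.mul r0).mul k0).congr_deriv ?_
    simp only [Lz, Pi.mul_apply]; ring
  · refine ((hA1.mul k0).add ((r0.mul r0).mul k1)).congr_deriv ?_
    simp only [Lz, Pi.mul_apply]; ring
  · refine ((hA2.mul k0).add (((hA1.mul k1).const_mul 2).add ((r0.mul r0).mul k2))).congr_deriv ?_
    simp only [Lz, Pi.mul_apply, Pi.add_apply]; ring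
  · refine ((hA3.mul k0).add (((hA2.mul k1).const_mul 3).add
      (((hA1.mul k2).const_mul 3).add ((r0.mul r0).mul k3)))).congr_deriv ?_
    simp only [Lz, Pi.mul_apply, Pi.add_apply]; ring

theorem Lz_scale (D A B : ℝ) (r k : ℕ → ℝ) (hA : A ≠ 0) (hB : B ≠ 0) {j : ℕ} (hj : j ≤ 4) :
    Lz (fun j => D ^ j * r j / A) (fun j => D ^ j * k j / B) j = D ^ j * Lz r k j / (A ^ 2 * B) := by
  interval_cases j <;> simp only [Lz] <;> field_simp

/-! ## the residual and `P` on a cell -/

/-- `Y² g⁗ - 14 H Y g‴ + 56 H² g″` -/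
def PX (C H : ℤ) (r k : ℕ → ℝ → ℝ) (v : ℝ) : ℝ :=
  ((C : ℝ) + H * v) * ((C : ℝ) + H * v) * Lz (fun j => r j v) (fun j => k j v) 4 +
    (((-14 * H : ℤ) : ℝ) * (((C : ℝ) + H * v) * Lz (fun j => r j v) (fun j => k j v) 3) +
      ((56 * H ^ 2 : ℤ) : ℝ) * Lz (fun j => r j v) (fun j => k j v) 2)

/-- numerator of `(1/2) y g' - R² P - (p/q) g` over `2 q H⁴ 2^(4M+K)` -/
def NX (M : ℕ) (p q C H : ℤ) (r k : ℕ → ℝ → ℝ) (v : ℝ) : ℝ :=
  ((q * H ^ 3 * 2 ^ (2 * M) : ℤ) : ℝ) *
      (((C : ℝ) + H * v) * Lz (fun j => r j v) (fun j => k j v) 1) +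
    (((-512 * q : ℤ) : ℝ) * (r 0 v * r 0 v * PX C H r k v) +
      ((-2 * p * H ^ 4 * 2 ^ (2 * M) : ℤ) : ℝ) * Lz (fun j => r j v) (fun j => k j v) 0)

/-- the derivative lists as functions -/
noncomputable def dl (l : List ℤ) (j : ℕ) (v : ℝ) : ℝ := ev (pdk j l) v

/-- `G_j` on the cell -/
noncomputable def GZ (M K : ℕ) (s t : Cell) (j : ℕ) (y : ℝ) : ℝ :=
  Lz (fun j => s.val M j y) (fun j => t.val K j y) j

theorem GZ_eq {M K : ℕ} {s t : Cell} (hC : t.C = s.C) (hH : t.H = s.H) {j : ℕ} (hj : j ≤ 4)
    (y : ℝ) : GZ M K s t j y = (16 / (s.H : ℝ)) ^ j *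
      Lz (fun j => dl s.c j ((16 * y - s.C) / s.H)) (fun j => dl t.c j ((16 * y - s.C) / s.H)) j /
        (2 ^ M) ^ 2 / 2 ^ K := by
  rw [GZ]
  have e1 : (fun j => s.val M j y) =
      fun j => (16 / (s.H : ℝ)) ^ j * dl s.c j ((16 * y - s.C) / s.H) / 2 ^ M := by
    funext j; rw [Cell.val, dl, ev_pdk]
  have e2 : (fun j => t.val K j y) =
      fun j => (16 / (s.H : ℝ)) ^ j * dl t.c j ((16 * y - s.C) / s.H) / 2 ^ K := by
    funext j; rw [Cell.val, dl, ev_pdk, hC, hH]
  rw [e1, e2, Lz_scale _ _ _ _ _ (by positivity) (by positivity) hj, div_div]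

theorem PX_eq {M K : ℕ} {s t : Cell} (hC : t.C = s.C) (hH : t.H = s.H) (hs : 0 < s.H) (y : ℝ) :
    256 * PX s.C s.H (dl s.c) (dl t.c) ((16 * y - s.C) / s.H) =
      (y ^ 2 * GZ M K s t 4 y - 14 * (y * GZ M K s t 3 y) + 56 * GZ M K s t 2 y) *
        ((s.H : ℝ) ^ 4 * 2 ^ (2 * M + K)) := by
  have hH' : (s.H : ℝ) ≠ 0 := by exact_mod_cast hs.ne'
  have hy : (s.C : ℝ) + s.H * ((16 * y - s.C) / s.H) = 16 * y := by field_simp; ring
  have e2 : (2 : ℝ) ^ (2 * M + K) = (2 ^ M) ^ 2 * 2 ^ K := by rw [pow_add, mul_comm 2 M, pow_mul]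
  rw [PX, hy, GZ_eq hC hH (by norm_num), GZ_eq hC hH (by norm_num), GZ_eq hC hH (by norm_num), e2]
  generalize Lz (fun j => dl s.c j ((16 * y - s.C) / s.H))
    (fun j => dl t.c j ((16 * y - s.C) / s.H)) 4 = g4
  generalize Lz (fun j => dl s.c j ((16 * y - s.C) / s.H))
    (fun j => dl t.c j ((16 * y - s.C) / s.H)) 3 = g3
  generalize Lz (fun j => dl s.c j ((16 * y - s.C) / s.H))
    (fun j => dl t.c j ((16 * y - s.C) / s.H)) 2 = g2
  push_cast
  field_simp
  ring

theorem NX_eq {M K : ℕ} {p q : ℤ} (hq : 0 < q) {s t : Cell} (hC : t.C = s.C) (hH : t.H = s.H)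
    (hs : 0 < s.H) (y : ℝ) :
    NX M p q s.C s.H (dl s.c) (dl t.c) ((16 * y - s.C) / s.H) =
      ((1 / 2) * (y * GZ M K s t 1 y)
        - s.val M 0 y ^ 2 * (y ^ 2 * GZ M K s t 4 y - 14 * (y * GZ M K s t 3 y)
          + 56 * GZ M K s t 2 y)
        - (p : ℝ) / q * GZ M K s t 0 y) * (2 * q * (s.H : ℝ) ^ 4 * 2 ^ (2 * M) *
          2 ^ (2 * M + K)) := by
  have hHr : (s.H : ℝ) ≠ 0 := by exact_mod_cast hs.ne'
  have hqr : (q : ℝ) ≠ 0 := by exact_mod_cast hq.ne'
  have hP := PX_eq (M := M) (K := K) hC hH hs y
  have hP' : y ^ 2 * GZ M K s t 4 y - 14 * (y * GZ M K s t 3 y) + 56 * GZ M K s t 2 y =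
      256 * PX s.C s.H (dl s.c) (dl t.c) ((16 * y - s.C) / s.H) /
        ((s.H : ℝ) ^ 4 * 2 ^ (2 * M + K)) := by
    rw [hP]; (clear * - hHr; field_simp)
  have hy : (s.C : ℝ) + s.H * ((16 * y - s.C) / s.H) = 16 * y := by field_simp; ring
  have e2 : (2 : ℝ) ^ (2 * M + K) = (2 ^ M) ^ 2 * 2 ^ K := by rw [pow_add, mul_comm 2 M, pow_mul]
  have e3 : (2 : ℝ) ^ (2 * M) = (2 ^ M) ^ 2 := by rw [mul_comm 2 M, pow_mul]
  have h0 : s.val M 0 y = dl s.c 0 ((16 * y - s.C) / s.H) / 2 ^ M := by
    simp only [Cell.val, dl, pderk, pow_zero, one_mul, pdk]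
  rw [hP', NX, hy, GZ_eq hC hH (by norm_num), GZ_eq hC hH (by norm_num), h0, e2]
  generalize Lz (fun j => dl s.c j ((16 * y - s.C) / s.H))
    (fun j => dl t.c j ((16 * y - s.C) / s.H)) 1 = g1
  generalize Lz (fun j => dl s.c j ((16 * y - s.C) / s.H))
    (fun j => dl t.c j ((16 * y - s.C) / s.H)) 0 = g0
  generalize PX s.C s.H (dl s.c) (dl t.c) ((16 * y - s.C) / s.H) = P
  generalize dl s.c 0 ((16 * y - s.C) / s.H) = r0
  push_cast
  rw [e3]
  field_simp
  ring

end P264.H3
end
end

section

section

/-!
# P264 / H3 / PackC : packed evaluation of the residual and of `P` on a cell (helper288)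
-/

open P264.Prof

namespace P264.H3

universe u

/-! ## plain packed forms -/

/-- the packed derivative lists -/
def jK (B : ℤ) (l : List ℤ) (j : ℕ) : HK := HK.ofList B (pdk j l)

theorem RH_jK (B : ℤ) (l : List ℤ) (j : ℕ) : RH B (dl l j) (jK B l j) := RH.ofList B (pdk j l)

/-- packed form of `Lz` -/
def LK (B1 : ℤ) (x y : ℕ → HK) : ℕ → HK
  | 0 => HK.mul (HK.mul (x 0) (x 0)) (y 0)
  | 1 => HK.add B1 (HK.mul (HK.smul 2 (HK.mul (x 0) (x 1))) (y 0))
      (HK.mul (HK.mul (x 0) (x 0)) (y 1))
  | 2 => HK.add B1 (HK.mul (HK.smul 2 (HK.add B1 (HK.mul (x 1) (x 1)) (HK.mul (x 0) (x 2)))) (y 0))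
      (HK.add B1 (HK.smul 2 (HK.mul (HK.smul 2 (HK.mul (x 0) (x 1))) (y 1)))
        (HK.mul (HK.mul (x 0) (x 0)) (y 2)))
  | 3 => HK.add B1 (HK.mul (HK.add B1 (HK.smul 6 (HK.mul (x 1) (x 2)))
        (HK.smul 2 (HK.mul (x 0) (x 3)))) (y 0))
      (HK.add B1 (HK.smul 3 (HK.mul (HK.smul 2 (HK.add B1 (HK.mul (x 1) (x 1))
          (HK.mul (x 0) (x 2)))) (y 1)))
        (HK.add B1 (HK.smul 3 (HK.mul (HK.smul 2 (HK.mul (x 0) (x 1))) (y 2)))
          (HK.mul (HK.mul (x 0) (x 0)) (y 3))))
  | _ => HK.add B1 (HK.mul (HK.add B1 (HK.smul 6 (HK.mul (x 2) (x 2)))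
        (HK.add B1 (HK.smul 8 (HK.mul (x 1) (x 3))) (HK.smul 2 (HK.mul (x 0) (x 4))))) (y 0))
      (HK.add B1 (HK.smul 4 (HK.mul (HK.add B1 (HK.smul 6 (HK.mul (x 1) (x 2)))
          (HK.smul 2 (HK.mul (x 0) (x 3)))) (y 1)))
        (HK.add B1 (HK.smul 6 (HK.mul (HK.smul 2 (HK.add B1 (HK.mul (x 1) (x 1))
            (HK.mul (x 0) (x 2)))) (y 2)))
          (HK.add B1 (HK.smul 4 (HK.mul (HK.smul 2 (HK.mul (x 0) (x 1))) (y 3)))
            (HK.mul (HK.mul (x 0) (x 0)) (y 4)))))

theorem RH_LK {B : ℤ} {r k : ℕ → ℝ → ℝ} {x y : ℕ → HK} (hx : ∀ j, RH B (r j) (x j))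
    (hy : ∀ j, RH B (k j) (y j)) {j : ℕ} (hj : j ≤ 4) :
    RH B (fun v => Lz (fun j => r j v) (fun j => k j v) j) (LK (B + 1) x y j) := by
  have a0 := (hx 0).mul (hx 0)
  have a1 := ((hx 0).mul (hx 1)).smul 2
  have a2 := (((hx 1).mul (hx 1)).add ((hx 0).mul (hx 2))).smul 2
  have a3 := (((hx 1).mul (hx 2)).smul 6).add (((hx 0).mul (hx 3)).smul 2)
  have a4 := (((hx 2).mul (hx 2)).smul 6).add
    ((((hx 1).mul (hx 3)).smul 8).add (((hx 0).mul (hx 4)).smul 2))
  interval_cases j
  · exact a0.mul (hy 0)
  · refine ((a1.mul (hy 0)).add (a0.mul (hy 1))).congr fun v => ?_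
    simp only [Lz_v1]; push_cast; ring
  · refine ((a2.mul (hy 0)).add (((a1.mul (hy 1)).smul 2).add (a0.mul (hy 2)))).congr fun v => ?_
    simp only [Lz_v2]; push_cast; ring
  · refine ((a3.mul (hy 0)).add (((a2.mul (hy 1)).smul 3).add (((a1.mul (hy 2)).smul 3).add
      (a0.mul (hy 3))))).congr fun v => ?_
    simp only [Lz_v3]; push_cast; ring
  · refine ((a4.mul (hy 0)).add (((a3.mul (hy 1)).smul 4).add (((a2.mul (hy 2)).smul 6).add
      (((a1.mul (hy 3)).smul 4).add (a0.mul (hy 4)))))).congr fun v => ?_
    simp only [Lz_v4]; push_cast; ring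

/-- packed `PX` -/
def PXK (B1 : ℤ) (Y : HK) (H : ℤ) (g2 g3 g4 : HK) : HK :=
  HK.add B1 (HK.mul (HK.mul Y Y) g4)
    (HK.add B1 (HK.smul (-14 * H) (HK.mul Y g3)) (HK.smul (56 * H ^ 2) g2))

/-- packed `NX` -/
def NXK (B1 : ℤ) (M : ℕ) (p q : ℤ) (Y : HK) (H : ℤ) (r0 g0 g1 P : HK) : HK :=
  HK.add B1 (HK.smul (q * H ^ 3 * 2 ^ (2 * M)) (HK.mul Y g1))
    (HK.add B1 (HK.smul (-512 * q) (HK.mul (HK.mul r0 r0) P))
      (HK.smul (-2 * p * H ^ 4 * 2 ^ (2 * M)) g0))

/-- packed `P` of a cell -/
def PK (B : ℤ) (s t : Cell) : HK :=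
  PXK (B + 1) (HK.lin B s.C s.H) s.H (LK (B + 1) (jK B s.c) (jK B t.c) 2)
    (LK (B + 1) (jK B s.c) (jK B t.c) 3) (LK (B + 1) (jK B s.c) (jK B t.c) 4)

/-- packed residual of a cell -/
def NK (B : ℤ) (M : ℕ) (p q : ℤ) (s t : Cell) : HK :=
  NXK (B + 1) M p q (HK.lin B s.C s.H) s.H (jK B s.c 0) (LK (B + 1) (jK B s.c) (jK B t.c) 0)
    (LK (B + 1) (jK B s.c) (jK B t.c) 1) (PK B s t)

theorem RH_PK (B : ℤ) (s t : Cell) : RH B (PX s.C s.H (dl s.c) (dl t.c)) (PK B s t) := by
  have hx := RH_jK B s.c
  have hy := RH_jK B t.c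
  have hl := RH.lin B s.C s.H
  exact ((hl.mul hl).mul (RH_LK hx hy (by norm_num : 4 ≤ 4))).add
    (((hl.mul (RH_LK hx hy (by norm_num : 3 ≤ 4))).smul (-14 * s.H)).add
      ((RH_LK hx hy (by norm_num : 2 ≤ 4)).smul (56 * s.H ^ 2)))

theorem RH_NK (B : ℤ) (M : ℕ) (p q : ℤ) (s t : Cell) :
    RH B (NX M p q s.C s.H (dl s.c) (dl t.c)) (NK B M p q s t) := by
  have hx := RH_jK B s.c
  have hy := RH_jK B t.c
  have hl := RH.lin B s.C s.H
  exact ((hl.mul (RH_LK hx hy (by norm_num : 1 ≤ 4))).smul (q * s.H ^ 3 * 2 ^ (2 * M))).add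
    (((((hx 0).mul (hx 0)).mul (RH_PK B s t)).smul (-512 * q)).add
      ((RH_LK hx hy (by norm_num : 0 ≤ 4)).smul (-2 * p * s.H ^ 4 * 2 ^ (2 * M))))

/-! ## call-by-value evaluation -/

/-- evaluate `x`, then continue -/
def forceK {α : Type u} (x : HK) (k : HK → α) : α :=
  forceI x.N fun n => forceN x.b fun b => forceN x.d fun d => k ⟨n, b, d⟩

theorem forceK_eq {α : Type u} (x : HK) (k : HK → α) : forceK x k = k x := by
  simp only [forceK, forceI_eq, forceN_eq]

/-- `hf` by value -/
def hfC (B1 Bm : ℤ) : List ℤ → ℤ → ℤ → ℤ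
  | [], acc, _ => acc
  | a :: l, acc, p => forceI (Int.add (Int.mul acc B1) (Int.mul a p)) fun acc' =>
      forceI (Int.mul p Bm) fun p' => hfC B1 Bm l acc' p'

theorem hfC_eq (B : ℤ) (l : List ℤ) (acc p : ℤ) : hfC (B + 1) (B - 1) l acc p = hf B l acc p := by
  induction l generalizing acc p with
  | nil => rfl
  | cons a l ih => simp only [hfC, forceI_eq, ih]; rfl

/-- `HK.ofList` by value -/
def ofC {α : Type u} (B1 Bm : ℤ) (l : List ℤ) (k : HK → α) : α :=
  forceK ⟨hfC B1 Bm l 0 1, hb l, l.length - 1⟩ k

theorem ofC_eq {α : Type u} (B : ℤ) (l : List ℤ) (k : HK → α) :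
    ofC (B + 1) (B - 1) l k = k (HK.ofList B l) := by
  rw [ofC, forceK_eq, hfC_eq]; rfl

/-- call-by-value computation of `NK`, `PK` -/
def cellK {α : Type u} (B B1 Bm : ℤ) (M : ℕ) (p q : ℤ) (s t : Cell) (k : HK → HK → α) : α :=
  forceL s.c fun c0 => forceL (pdL c0) fun c1 => forceL (pdL c1) fun c2 =>
  forceL (pdL c2) fun c3 => forceL (pdL c3) fun c4 =>
  forceL t.c fun d0 => forceL (pdL d0) fun d1 => forceL (pdL d1) fun d2 =>
  forceL (pdL d2) fun d3 => forceL (pdL d3) fun d4 =>
  ofC B1 Bm c0 fun x0 => ofC B1 Bm c1 fun x1 => ofC B1 Bm c2 fun x2 => ofC B1 Bm c3 fun x3 =>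
  ofC B1 Bm c4 fun x4 =>
  ofC B1 Bm d0 fun y0 => ofC B1 Bm d1 fun y1 => ofC B1 Bm d2 fun y2 => ofC B1 Bm d3 fun y3 =>
  ofC B1 Bm d4 fun y4 =>
  forceK (HK.mul x0 x0) fun a0 =>
  forceK (HK.smul 2 (HK.mul x0 x1)) fun a1 =>
  forceK (HK.smul 2 (HK.add B1 (HK.mul x1 x1) (HK.mul x0 x2))) fun a2 =>
  forceK (HK.add B1 (HK.smul 6 (HK.mul x1 x2)) (HK.smul 2 (HK.mul x0 x3))) fun a3 =>
  forceK (HK.add B1 (HK.smul 6 (HK.mul x2 x2))
    (HK.add B1 (HK.smul 8 (HK.mul x1 x3)) (HK.smul 2 (HK.mul x0 x4)))) fun a4 =>
  forceK (HK.mul a0 y0) fun g0 =>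
  forceK (HK.add B1 (HK.mul a1 y0) (HK.mul a0 y1)) fun g1 =>
  forceK (HK.add B1 (HK.mul a2 y0) (HK.add B1 (HK.smul 2 (HK.mul a1 y1)) (HK.mul a0 y2))) fun g2 =>
  forceK (HK.add B1 (HK.mul a3 y0) (HK.add B1 (HK.smul 3 (HK.mul a2 y1))
    (HK.add B1 (HK.smul 3 (HK.mul a1 y2)) (HK.mul a0 y3)))) fun g3 =>
  forceK (HK.add B1 (HK.mul a4 y0) (HK.add B1 (HK.smul 4 (HK.mul a3 y1))
    (HK.add B1 (HK.smul 6 (HK.mul a2 y2)) (HK.add B1 (HK.smul 4 (HK.mul a1 y3))
      (HK.mul a0 y4))))) fun g4 =>
  forceK (HK.lin B s.C s.H) fun Y =>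
  forceK (PXK B1 Y s.H g2 g3 g4) fun P =>
  forceK (HK.add B1 (HK.smul (q * s.H ^ 3 * 2 ^ (2 * M)) (HK.mul Y g1))
    (HK.add B1 (HK.smul (-512 * q) (HK.mul a0 P))
      (HK.smul (-2 * p * s.H ^ 4 * 2 ^ (2 * M)) g0))) fun N => k N P

theorem cellK_eq {α : Type u} (B : ℤ) (M : ℕ) (p q : ℤ) (s t : Cell) (k : HK → HK → α) :
    cellK B (B + 1) (B - 1) M p q s t k = k (NK B M p q s t) (PK B s t) := by
  simp only [cellK, forceL_eq, ofC_eq, forceK_eq]
  rfl

end P264.H3
end
end

section

section

/-!
# P264 / Prof / K8 : the approximate left eigenfunctions `k_0, k_1` (data of helper692) (helper965)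

`kf i k y` is the `k`-th derivative (`k ≤ 4`) of `k_i(y)`; `k_i` is `C⁴` on the whole line,
zero for `y ≤ 1/2` and for `y ≥ 256`.
-/

namespace P264.Prof

/-- the cells of `k_0`, `k_1` -/
def kcells : Fin 2 → List Cell
  | 0 => kcells0
  | 1 => kcells1

/-- `k`-th derivative of `k_i` -/
noncomputable def kf (i : Fin 2) (k : ℕ) (y : ℝ) : ℝ := pw M8 (tval 0 256 []) (kcells i) k y

theorem ev_tlist_nil (k : ℕ) (v : ℝ) : ev (tlist [] k) v = 0 := by
  induction k generalizing v with
  | zero => rfl
  | succ k ih =>
    have hd : ∀ v : ℝ, ev (pder (tlist [] k)) v = 0 := by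
      intro v
      have h1 := hasDerivAt_ev (tlist [] k) v
      have h2 : ev (tlist [] k) = fun _ => 0 := funext ih
      rw [h2] at h1
      exact h1.unique (hasDerivAt_const v (0 : ℝ))
    simp [tlist, ptail, ev_psmul, ev_padd, ih, hd]

theorem tval_nil (B : ℕ) (Y : ℤ) (k : ℕ) (y : ℝ) : tval B Y [] k y = 0 := by
  rw [tval, ev_tlist_nil, zero_div]

theorem kmatch (i : Fin 2) : Match M8 4 (tval 0 256 []) (kcells i) := by
  fin_cases i
  · exact match_of_matchB (by norm_num) kcells0 (by (clear * -; decide +kernel))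
  · exact match_of_matchB (by norm_num) kcells1 (by decide +kernel)

theorem kf_hasDerivAt_pos (i : Fin 2) (k : ℕ) (hk : k < 4) (y : ℝ) (hy : 0 < y) :
    HasDerivAt (kf i k) (kf i (k + 1) y) y :=
  pw_hasDerivAt (fun k _ hy => tval_hasDerivAt 0 256 [] k hy) (kcells i) (kmatch i) k hk y hy

theorem kf_continuousAt_pos (i : Fin 2) (k : ℕ) (hk : k ≤ 4) (y : ℝ) (hy : 0 < y) :
    ContinuousAt (kf i k) y :=
  pw_continuousAt (fun k _ hy => (tval_hasDerivAt 0 256 [] k hy).continuousAt) (kcells i)
    (kmatch i) k hk y hy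

/-- all cells but the first one -/
def ktail (i : Fin 2) : List Cell := (kcells i).tail

theorem kcells_eq (i : Fin 2) : kcells i = ⟨0, 8, []⟩ :: ktail i := by
  fin_cases i
  · rfl
  · rfl

theorem kchain (i : Fin 2) : Chain (ktail i) 8 := by
  fin_cases i
  · exact chain_of_chainB _ _ (by (clear * -; decide +kernel))
  · exact chain_of_chainB _ _ (by decide +kernel)

theorem krend (i : Fin 2) : rend (ktail i) 8 = 4096 := by
  fin_cases i
  · (clear * -; decide +kernel)
  · decide +kernel

theorem pderk_nil (k : ℕ) : pderk k [] = [] := by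
  induction k with
  | zero => rfl
  | succ k ih => simp [pderk, ih, pder]

theorem kf_first (i : Fin 2) (k : ℕ) {y : ℝ} (hy : y < 1 / 2) : kf i k y = 0 := by
  rw [kf, kcells_eq, pw, if_pos]
  · simp only [Cell.val, Int.cast_ofNat, pderk_nil, Int.cast_zero, sub_zero, ev_nil, mul_zero, zero_div]
  · push_cast; linarith

theorem kf_tail (i : Fin 2) (k : ℕ) {y : ℝ} (hy : 1 / 2 ≤ y) :
    kf i k y = pw M8 (tval 0 256 []) (ktail i) k y := by
  rw [kf, kcells_eq, pw, if_neg]
  push_cast; linarith only [hy]

/-- `k_i` is `C⁴` on the whole line -/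
theorem kf_hasDerivAt (i : Fin 2) (k : ℕ) (hk : k < 4) (y : ℝ) :
    HasDerivAt (kf i k) (kf i (k + 1) y) y := by
  by_cases hy : 0 < y
  · exact kf_hasDerivAt_pos i k hk y hy
  · have hy' : y < 1 / 2 := by push Not at hy; linarith only [hy]
    rw [kf_first i (k + 1) hy']
    refine (hasDerivAt_const y (0 : ℝ)).congr_of_eventuallyEq ?_
    filter_upwards [Iio_mem_nhds hy'] with z hz
    exact kf_first i k hz

theorem kf_continuous (i : Fin 2) (k : ℕ) (hk : k ≤ 4) : Continuous (kf i k) := by
  rw [continuous_iff_continuousAt]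
  intro y
  by_cases hy : 0 < y
  · exact kf_continuousAt_pos i k hk y hy
  · have hy' : y < 1 / 2 := by push Not at hy; linarith only [hy]
    refine (continuousAt_const (y := (0 : ℝ))).congr ?_
    filter_upwards [Iio_mem_nhds hy'] with z hz
    exact (kf_first i k hz).symm

theorem kf_left (i : Fin 2) {k : ℕ} (hk : k ≤ 4) {y : ℝ} (hy : y ≤ 1 / 2) : kf i k y = 0 := by
  rcases lt_or_eq_of_le hy with h | h
  · exact kf_first i k h
  · subst h
    have hc := (kf_continuous i k hk).tendsto (1 / 2 : ℝ)
    have h1 : Filter.Tendsto (kf i k) (nhdsWithin (1 / 2) (Set.Iio (1 / 2))) (nhds (kf i k (1 / 2))) :=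
      hc.mono_left nhdsWithin_le_nhds
    have h2 : Filter.Tendsto (kf i k) (nhdsWithin (1 / 2) (Set.Iio (1 / 2))) (nhds 0) := by
      refine tendsto_const_nhds.congr' ?_
      filter_upwards [self_mem_nhdsWithin] with z hz
      exact (kf_first i k hz).symm
    exact tendsto_nhds_unique h1 h2

theorem kf_right (i : Fin 2) (k : ℕ) {y : ℝ} (hy : 256 ≤ y) : kf i k y = 0 := by
  rw [kf_tail i k (by linarith), pw_eq_tail _ 8 (kchain i) k y (by rw [krend]; push_cast; linarith)]
  exact tval_nil 0 256 k y

end P264.Prof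
end
end

section

section

/-!
# P264 / Prof / Rel2 : cellwise residual bounds with Bernstein coefficients (helper608)
-/

namespace P264.Prof

/-- `|y² eps| ≤ B / 2^KB` on the cell (Bernstein coefficients, packed). -/
def resS (M KB : ℕ) (s : Cell) (B : ℤ) : Bool :=
  decide (0 < s.H) && absK 512 (B * (2 ^ (9 + 3 * M) * s.H ^ 4)) (2 ^ KB) (resK (2 ^ 512) M s)

theorem res_of_resS {M KB : ℕ} {s : Cell} {B : ℤ} (h : resS M KB s B = true) (y : ℝ)
    (hy : |(16 * y - s.C) / s.H| ≤ 1) :
    |resy2 y (fun k => s.val M k y)| ≤ (B : ℝ) / 2 ^ KB := by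
  simp only [resS, Bool.and_eq_true, decide_eq_true_eq] at h
  obtain ⟨hH, hB⟩ := h
  have h1 := abs_of_absK (by norm_num) (by positivity) (RH.res (2 ^ 512) M s) hB hy
  rw [ev_resP M s hH, abs_mul, abs_neg] at h1
  have hpos : (0 : ℝ) < 2 ^ (9 + 3 * M) * (s.H : ℝ) ^ 4 := by
    have : (0 : ℝ) < s.H := by exact_mod_cast hH
    positivity
  rw [abs_of_pos hpos] at h1
  push_cast at h1
  have e : (B : ℝ) * (2 ^ (9 + 3 * M) * (s.H : ℝ) ^ 4) / 2 ^ KB =
      (B : ℝ) / 2 ^ KB * (2 ^ (9 + 3 * M) * (s.H : ℝ) ^ 4) := by ring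
  rw [e] at h1
  exact le_of_mul_le_mul_right h1 hpos

/-- `ψ(y) = y ρ(y)`, `ρ(y) = (1/y)(1+(4y/29)^7)/(1+(y/25)^7)`. -/
noncomputable def psiW (y : ℝ) : ℝ := (1 + (4 * y / 29) ^ 7) / (1 + (y / 25) ^ 7)

theorem psiW_pos {y : ℝ} (hy : 0 ≤ y) : 0 < psiW y := by
  unfold psiW; positivity

theorem psiW_mono {y z : ℝ} (hy : 0 ≤ y) (hyz : y ≤ z) : psiW y ≤ psiW z := by
  have hz : 0 ≤ z := hy.trans hyz
  unfold psiW
  rw [div_le_div_iff₀ (by positivity) (by positivity)]
  have h7 : y ^ 7 ≤ z ^ 7 := pow_le_pow_left₀ hy hyz 7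
  have hy7 : 0 ≤ y ^ 7 := by positivity
  have hz7 : 0 ≤ z ^ 7 := by positivity
  have e1 : (4 * y / 29) ^ 7 = (4 / 29) ^ 7 * y ^ 7 := by ring
  have e2 : (4 * z / 29) ^ 7 = (4 / 29) ^ 7 * z ^ 7 := by ring
  have e3 : (y / 25) ^ 7 = (1 / 25) ^ 7 * y ^ 7 := by ring
  have e4 : (z / 25) ^ 7 = (1 / 25) ^ 7 * z ^ 7 := by ring
  rw [e1, e2, e3, e4]
  have hc : (1 / 25 : ℝ) ^ 7 ≤ (4 / 29) ^ 7 := by norm_num
  linarith only [h7]

theorem psiW_le {y : ℝ} (hy : 0 ≤ y) : psiW y ≤ (100 / 29) ^ 7 := by
  unfold psiW
  rw [div_le_iff₀ (by positivity)]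
  have hy7 : 0 ≤ y ^ 7 := by positivity
  have e1 : (4 * y / 29) ^ 7 = (4 / 29) ^ 7 * y ^ 7 := by ring
  have e3 : (y / 25) ^ 7 = (1 / 25) ^ 7 * y ^ 7 := by ring
  rw [e1, e3]
  norm_num
  linarith only []

/-- the cell check for H1 : `(y² eps)² ψ (1+y)² ≤ (p/q) y⁴ R²`. -/
def h1B (M KB : ℕ) (p q : ℤ) (s : Cell) (B : ℤ) : Bool :=
  decide (0 < lowB s.c) && decide (0 < s.C - s.H) &&
  decide (B ^ 2 * (400 ^ 7 * (116 ^ 7 + (s.C + s.H) ^ 7)) * (16 + (s.C + s.H)) ^ 2 *
      2 ^ (2 * M) * 16 ^ 2 * q ≤
    p * (s.C - s.H) ^ 4 * lowB s.c ^ 2 * 2 ^ (2 * KB) *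
      (116 ^ 7 * (400 ^ 7 + (s.C + s.H) ^ 7)))

theorem h1_of_h1B {M KB : ℕ} {p q : ℤ} (hp : 0 ≤ p) (hq : 0 < q) {s : Cell} {B : ℤ}
    (hres : resS M KB s B = true) (h : h1B M KB p q s B = true)
    (y : ℝ) (hy : |(16 * y - s.C) / s.H| ≤ 1) :
    (resy2 y (fun k => s.val M k y)) ^ 2 * psiW y * (1 + y) ^ 2 ≤
      (p : ℝ) / q * (y ^ 4 * (s.val M 0 y) ^ 2) := by
  simp only [h1B, Bool.and_eq_true, decide_eq_true_eq] at h
  obtain ⟨⟨hlow, hCH⟩, hE⟩ := h
  have hH : 0 < s.H := by
    simp only [resS, Bool.and_eq_true, decide_eq_true_eq] at hres; exact hres.1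
  have hHr : (0 : ℝ) < s.H := by exact_mod_cast hH
  have hr := res_of_resS hres y hy
  have hv := abs_le.1 hy
  have hyl : ((s.C : ℝ) - s.H) / 16 ≤ y := by
    have := hv.1; rw [le_div_iff₀ hHr] at this; linarith only [this]
  have hyr : y ≤ ((s.C : ℝ) + s.H) / 16 := by
    have := hv.2; rw [div_le_iff₀ hHr] at this; linarith only [this]
  have hCHr : (0 : ℝ) < (s.C : ℝ) - s.H := by exact_mod_cast hCH
  have hy0 : 0 < y := lt_of_lt_of_le (by (clear * - hCHr; positivity)) hyl
  have hlowr : (0 : ℝ) < (lowB s.c : ℝ) := by exact_mod_cast hlow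
  have hR : (lowB s.c : ℝ) / 2 ^ M ≤ s.val M 0 y := by
    have := lowB_le s.c hy
    simp only [Cell.val, pow_zero, one_mul, pderk]
    (clear * - this; gcongr)
  have hq' : (0 : ℝ) < q := by exact_mod_cast hq
  have hp' : (0 : ℝ) ≤ p := by exact_mod_cast hp
  set yl := ((s.C : ℝ) - s.H) / 16 with hyl_def
  set yr := ((s.C : ℝ) + s.H) / 16 with hyr_def
  set low := (lowB s.c : ℝ) / 2 ^ M with hlow_def
  have hyl0 : 0 < yl := by (clear * - hCHr; positivity)
  have hlow0 : 0 < low := by positivity
  have hyr0 : 0 < yr := hy0.trans_le hyr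
  -- left side
  have h1 : (resy2 y (fun k => s.val M k y)) ^ 2 ≤ ((B : ℝ) / 2 ^ KB) ^ 2 := by
    rw [← sq_abs]; exact pow_le_pow_left₀ (abs_nonneg _) hr 2
  have h2 : psiW y ≤ psiW yr := psiW_mono hy0.le hyr
  have h3 : (1 + y) ^ 2 ≤ (1 + yr) ^ 2 := pow_le_pow_left₀ (by linarith only [hy0]) (by linarith only [hyr]) 2
  have hL : (resy2 y (fun k => s.val M k y)) ^ 2 * psiW y * (1 + y) ^ 2 ≤
      ((B : ℝ) / 2 ^ KB) ^ 2 * psiW yr * (1 + yr) ^ 2 := by
    have := psiW_pos hy0.le
    have := (psiW_pos hyr0.le).le
    have := mul_nonneg (sq_nonneg ((B : ℝ) / 2 ^ KB)) this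
    (clear p q hp hq hE hlow hH hHr hv hlowr hq' hp' yl hyl hyl_def hyr_def low hR hlow_def hyl0 hlow0 this; gcongr)
  have hRt : (p : ℝ) / q * (yl ^ 4 * low ^ 2) ≤ (p : ℝ) / q * (y ^ 4 * (s.val M 0 y) ^ 2) := by
    (clear * - hCHr hyl hlow hR hy0 hp hq; gcongr)
  refine hL.trans (le_trans ?_ hRt)
  have hE' : (B : ℝ) ^ 2 * (400 ^ 7 * (116 ^ 7 + ((s.C : ℝ) + s.H) ^ 7)) *
      (16 + ((s.C : ℝ) + s.H)) ^ 2 * 2 ^ (2 * M) * 16 ^ 2 * q ≤
      p * ((s.C : ℝ) - s.H) ^ 4 * (lowB s.c : ℝ) ^ 2 * 2 ^ (2 * KB) *
      (116 ^ 7 * (400 ^ 7 + ((s.C : ℝ) + s.H) ^ 7)) := by exact_mod_cast hE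
  have hS : (s.C : ℝ) + s.H = 16 * yr := by rw [hyr_def]; ring
  have hD : (s.C : ℝ) - s.H = 16 * yl := by rw [hyl_def]; ring
  have hl : (lowB s.c : ℝ) = low * 2 ^ M := by rw [hlow_def]; field_simp
  rw [hS, hD, hl] at hE'
  have e2M : (2 : ℝ) ^ (2 * M) = (2 ^ M) ^ 2 := by rw [mul_comm, pow_mul]
  have e2K : (2 : ℝ) ^ (2 * KB) = (2 ^ KB) ^ 2 := by rw [mul_comm, pow_mul]
  rw [e2M, e2K] at hE'
  have hψ : psiW yr = (400 ^ 7 * (116 ^ 7 + (16 * yr) ^ 7)) /
      (116 ^ 7 * (400 ^ 7 + (16 * yr) ^ 7)) := by
    unfold psiW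
    have : (0 : ℝ) < 400 ^ 7 + (16 * yr) ^ 7 := by (clear * - hyr0; positivity)
    field_simp
    ring
  rw [hψ]
  have hden : (0 : ℝ) < 116 ^ 7 * (400 ^ 7 + (16 * yr) ^ 7) := by (clear * - hyr0; positivity)
  have hnum : (0 : ℝ) < (2 ^ KB) ^ 2 * (116 ^ 7 * (400 ^ 7 + (16 * yr) ^ 7)) * q := by (clear * - hyr0 hq; positivity)
  have e : ((B : ℝ) / 2 ^ KB) ^ 2 * ((400 ^ 7 * (116 ^ 7 + (16 * yr) ^ 7)) /
      (116 ^ 7 * (400 ^ 7 + (16 * yr) ^ 7))) * (1 + yr) ^ 2 =
      ((B : ℝ) ^ 2 * (400 ^ 7 * (116 ^ 7 + (16 * yr) ^ 7)) * (1 + yr) ^ 2 * q) /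
      ((2 ^ KB) ^ 2 * (116 ^ 7 * (400 ^ 7 + (16 * yr) ^ 7)) * q) := by
    (clear * - hq hyr0; field_simp)
  rw [e, div_le_iff₀ hnum]
  have hM : (0 : ℝ) < (2 ^ M) ^ 2 * 16 ^ 4 := by positivity
  refine le_of_mul_le_mul_right ?_ hM
  calc (B : ℝ) ^ 2 * (400 ^ 7 * (116 ^ 7 + (16 * yr) ^ 7)) * (1 + yr) ^ 2 * q *
        ((2 ^ M) ^ 2 * 16 ^ 4)
      = (B : ℝ) ^ 2 * (400 ^ 7 * (116 ^ 7 + (16 * yr) ^ 7)) * (16 + 16 * yr) ^ 2 *
          (2 ^ M) ^ 2 * 16 ^ 2 * q := by ring
    _ ≤ _ := hE'
    _ = _ := by (clear * - hq hyr0 hlow0 hyl0; field_simp)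

end P264.Prof
end
end

section

section

/-!
# P264 / Prof / Main8 : the approximate profile `R8` (`n = 8`, branch 1) and its properties (helper608)

`R8 k` is the `k`-th derivative (`k ≤ 4`) of the approximate profile `R(y) = Q(y)/y`.
-/

namespace P264.Prof

/-- the profile `R = R8 0` and its derivatives `R8 1, …, R8 4` -/
noncomputable def R8 (k : ℕ) (y : ℝ) : ℝ := pw M8 (tval B8 256 b8) cells8 k y

theorem match8 : Match M8 4 (tval B8 256 b8) cells8 :=
  match_of_matchB (by norm_num) cells8 (by (clear * -; decide +kernel))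

theorem R8_hasDerivAt (k : ℕ) (hk : k < 4) (y : ℝ) (hy : 0 < y) :
    HasDerivAt (R8 k) (R8 (k + 1) y) y :=
  pw_hasDerivAt (fun k _ hy => tval_hasDerivAt B8 256 b8 k hy) cells8 match8 k hk y hy

theorem R8_continuousAt (k : ℕ) (hk : k ≤ 4) (y : ℝ) (hy : 0 < y) : ContinuousAt (R8 k) y :=
  pw_continuousAt (fun k _ hy => (tval_hasDerivAt B8 256 b8 k hy).continuousAt) cells8 match8 k hk
    y hy

/-- the first cell: `y ∈ (-∞, 1/2)`, polynomial in `v = 2y` -/
def first8 : Cell := cells8.head (by decide)

theorem cells8_eq : cells8 = first8 :: cells8.tail := rfl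

theorem R8_first (k : ℕ) (y : ℝ) (hy : y < 1 / 2) : R8 k y = first8.val M8 k y := by
  rw [R8, cells8_eq, pw, if_pos]
  have : ((first8.C + first8.H : ℤ) : ℝ) = 8 := by
    have : first8.C + first8.H = 8 := by (clear * -; decide +kernel)
    rw [this]; norm_num
  rw [this]; linarith only [hy]

theorem R8_zero : R8 0 0 = 1 := by
  rw [R8_first 0 0 (by norm_num), Cell.val]
  have h1 : first8.C = 0 := by (clear * -; decide +kernel)
  have h2 : evI first8.c 0 = 2 ^ M8 := by decide +kernel
  have : ((16 : ℝ) * 0 - first8.C) / first8.H = ((0 : ℤ) : ℝ) := by rw [h1]; simp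
  rw [this, pderk, ev_intCast, h2]
  simp

/-- the profile is `C⁴` on the whole line (the first cell extends it to `y ≤ 0`) -/
theorem R8_hasDerivAt' (k : ℕ) (hk : k < 4) (y : ℝ) : HasDerivAt (R8 k) (R8 (k + 1) y) y := by
  by_cases hy : 0 < y
  · exact R8_hasDerivAt k hk y hy
  · have hy' : y < 1 / 2 := by push Not at hy; linarith only [hy]
    rw [R8_first (k + 1) y hy']
    refine (first8.hasDerivAt M8 (by (clear * -; decide +kernel)) k y).congr_of_eventuallyEq ?_
    filter_upwards [Iio_mem_nhds hy'] with z hz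
    exact R8_first k z hz

theorem R8_continuous (k : ℕ) (hk : k ≤ 4) : Continuous (R8 k) := by
  rw [continuous_iff_continuousAt]
  intro y
  by_cases hy : 0 < y
  · exact R8_continuousAt k hk y hy
  · have hy' : y < 1 / 2 := by push Not at hy; linarith only [hy]
    refine (first8.hasDerivAt M8 (by (clear * -; decide +kernel)) k y).continuousAt.congr ?_
    filter_upwards [Iio_mem_nhds hy'] with z hz
    exact (R8_first k z hz).symm

theorem chain8 : Chain cells8.tail 8 := chain_of_chainB _ _ (by (clear * -; decide +kernel))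

theorem rend8 : rend cells8.tail 8 = 4096 := by (clear * -; decide +kernel)

theorem R8_tail (k : ℕ) {y : ℝ} (hy : 1 / 2 ≤ y) :
    R8 k y = pw M8 (tval B8 256 b8) cells8.tail k y := by
  have h8 : ((first8.C + first8.H : ℤ) : ℝ) = 8 := by
    have : first8.C + first8.H = 8 := by (clear * -; decide +kernel)
    rw [this]; norm_num
  have hnot : ¬ (16 * y < ((first8.C + first8.H : ℤ) : ℝ)) := by rw [h8]; push Not; linarith
  have : pw M8 (tval B8 256 b8) (first8 :: cells8.tail) k y =
      pw M8 (tval B8 256 b8) cells8.tail k y := by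
    rw [pw, if_neg hnot]
  exact this

/-! ## residual -/

/-- list version of a two-argument check -/
def allZip (f : Cell → ℤ → Bool) : List Cell → List ℤ → Bool
  | [], _ => true
  | s :: l, B :: m => f s B && allZip f l m
  | _ :: _, [] => false

theorem exists_of_allZip {f : Cell → ℤ → Bool} (l : List Cell) (m : List ℤ)
    (h : allZip f l m = true) : ∀ s ∈ l, ∃ B, f s B = true := by
  induction l generalizing m with
  | nil => intro s hs; simp at hs
  | cons a l ih =>
    cases m with
    | nil => simp [allZip] at h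
    | cons B m =>
      simp only [allZip, Bool.and_eq_true] at h
      intro s hs
      rcases List.mem_cons.1 hs with rfl | hs
      · exact ⟨B, h.1⟩
      · exact ih m h.2 s hs

/-- relative residual check with given bound `B` of `|y² eps|` -/
def relB2 (M KB : ℕ) (p q : ℤ) (s : Cell) (B : ℤ) : Bool :=
  decide (0 < lowB s.c) && decide (0 < s.C - s.H) &&
  decide (B * 16 * 2 ^ M * q ≤ p * (s.C - s.H) * lowB s.c * 2 ^ KB)

/-- the combined kernel check on the cells `1, 2, …` -/
theorem chk8 : allZip (fun s B => resS M8 60 s B && (relB2 M8 60 120 (10 ^ 9) s B &&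
    h1B M8 60 441 (10 ^ 16) s B)) cells8.tail resBd8 = true := by
  (clear * -; decide +kernel)

/-- residual on the tail, list data -/
theorem tl_eq : tlist b8 1 = 0 :: (tlist b8 1).tail := by (clear * -; decide +kernel)

theorem abs_ev_le_of_bernU' {p q : ℤ} (hq : 0 < q) (l : List ℤ)
    (h : bernU p q l = true) {u : ℝ} (h0 : 0 ≤ u) (h1 : u ≤ 1) :
    |ev l u| ≤ (p : ℝ) / q := by
  cases l with
  | nil => simp [bernU, homU, binrow, domB] at h
  | cons c l => exact abs_ev_le_of_bernU hq c l h h0 h1

theorem bernT : bernU (5 * 2 ^ (3 * B8 + 1)) (10 ^ 12) (resT B8 256 b8 (tlist b8 1).tail) = true := by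
  (clear * -; decide +kernel)

/-- `|y² eps| ≤ 5e-12` on the tail -/
theorem tail_res8 {y : ℝ} (hy : 256 ≤ y) :
    |resy2 y (fun k => tval B8 256 b8 k y)| ≤ 5 / 10 ^ 12 := by
  have hy0 : 0 < y := by linarith
  have hw1 : (((256 : ℤ) : ℝ) / y) ^ 2 ≤ 1 := by
    have : ((256 : ℤ) : ℝ) / y ≤ 1 := (div_le_one hy0).2 (by push_cast; exact hy)
    exact pow_le_one₀ (by positivity) this
  have h1 := abs_ev_le_of_bernU' (by norm_num) _ bernT (u := (((256 : ℤ) : ℝ) / y) ^ 2)
    (by positivity) hw1
  rw [ev_resT B8 256 b8 _ tl_eq hy0, abs_mul,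
    abs_of_pos (by positivity : (0 : ℝ) < 2 ^ (3 * B8 + 1))] at h1
  have e : (((5 * 2 ^ (3 * B8 + 1) : ℤ) : ℝ)) / (((10 ^ 12 : ℤ)) : ℝ) =
      5 / 10 ^ 12 * 2 ^ (3 * B8 + 1) := by push_cast; ring
  rw [e] at h1
  exact le_of_mul_le_mul_right h1 (by positivity)

theorem tail_range8 {y : ℝ} (hy : 256 ≤ y) :
    8009 / 10000 ≤ tval B8 256 b8 0 y ∧ tval B8 256 b8 0 y ≤ 8015 / 10000 := by
  have h2 := (tail_range (B := B8) (Y := 256) (b := b8) (by norm_num) (lo := 8009)
    (hi := 8015) (q := 10000) (by norm_num) (by (clear * -; decide +kernel)) (by decide +kernel) (y := y)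
    (by push_cast; exact hy))
  push_cast at h2
  exact h2

/-- pointwise form of H1 for `y ≥ 1/2`: `(y² eps)² ψ (1+y)² ≤ (2.1e-7)² y⁴ R²`. -/
theorem R8_h1_ge {y : ℝ} (hy : 1 / 2 ≤ y) :
    (resy2 y (fun k => R8 k y)) ^ 2 * psiW y * (1 + y) ^ 2 ≤
      441 / 10 ^ 16 * (y ^ 4 * (R8 0 y) ^ 2) := by
  have e : (fun k => R8 k y) = fun k => pw M8 (tval B8 256 b8) cells8.tail k y := by
    funext k; exact R8_tail k hy
  have e0 : R8 0 y = pw M8 (tval B8 256 b8) cells8.tail 0 y := R8_tail 0 hy
  rw [e, e0]
  have := pw_forall (M := M8) (T := tval B8 256 b8)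
    (fun y F => (resy2 y F) ^ 2 * psiW y * (1 + y) ^ 2 ≤
      441 / 10 ^ 16 * (y ^ 4 * (F 0) ^ 2)) cells8.tail 8 chain8
    (fun s hs y hy => by
      obtain ⟨B, hB⟩ := exists_of_allZip _ _ chk8 s hs
      simp only [Bool.and_eq_true] at hB
      have := h1_of_h1B (p := 441) (q := 10 ^ 16) (by norm_num) (by norm_num) hB.1 hB.2.2 y hy
      norm_num at this ⊢
      exact this)
    (fun y hy => by
      rw [rend8] at hy
      have hy64 : (256 : ℝ) ≤ y := by push_cast at hy; linarith only [hy]
      have h1 := tail_res8 hy64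
      have h2 := (tail_range8 hy64).1
      have h4 : psiW y ≤ (100 / 29) ^ 7 := psiW_le (by linarith only [hy64])
      have h5 : (1 + y) ^ 2 ≤ (257 / 256) ^ 2 * y ^ 2 := by nlinarith only [hy64]
      have h6 : (resy2 y fun k => tval B8 256 b8 k y) ^ 2 ≤ (5 / 10 ^ 12) ^ 2 := by
        rw [← sq_abs]; exact pow_le_pow_left₀ (abs_nonneg _) h1 2
      have h7 : (8009 / 10000 : ℝ) ^ 2 ≤ (tval B8 256 b8 0 y) ^ 2 :=
        pow_le_pow_left₀ (by norm_num) h2 2
      have hpsi := (psiW_pos (by linarith only [hy64] : (0 : ℝ) ≤ y)).le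
      calc (resy2 y fun k => tval B8 256 b8 k y) ^ 2 * psiW y * (1 + y) ^ 2
          ≤ (5 / 10 ^ 12) ^ 2 * (100 / 29) ^ 7 * ((257 / 256) ^ 2 * y ^ 2) := by (clear * - h6 h4 hpsi h5 hy64; gcongr)
        _ ≤ 441 / 10 ^ 16 * (y ^ 4 * (8009 / 10000) ^ 2) := by
            have : (256 : ℝ) ^ 2 * y ^ 2 ≤ y ^ 4 := by
              have : (256 : ℝ) ^ 2 ≤ y ^ 2 := pow_le_pow_left₀ (by norm_num) hy64 2
              nlinarith only [hy64, h5]
            nlinarith only [this]
        _ ≤ _ := by (clear * - h7 hy64; gcongr))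
    y (by push_cast; linarith only [hy])
  exact this

/-- beyond `256` the profile is the explicit tail -/
theorem R8_ge256 (k : ℕ) {y : ℝ} (hy : 256 ≤ y) : R8 k y = tval B8 256 b8 k y := by
  rw [R8_tail k (by linarith)]
  refine pw_eq_tail _ 8 chain8 k y ?_
  rw [rend8]; push_cast; linarith

/-- residual on the tail: `|y² eps| ≤ 5e-12` for `y ≥ 256`. -/
theorem R8_res_tail {y : ℝ} (hy : 256 ≤ y) : |resy2 y (fun k => R8 k y)| ≤ 5 / 10 ^ 12 := by
  have e : (fun k => R8 k y) = fun k => tval B8 256 b8 k y := by
    funext k; exact R8_ge256 k hy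
  rw [e]
  exact tail_res8 hy

/-- the residual polynomial on the first cell is divisible by `v³` -/
theorem resfirst_eq : resP M8 first8 = 0 :: 0 :: 0 :: (resP M8 first8).drop 3 := by
  (clear * -; decide +kernel)

theorem bernF : bernU (2 ^ (9 + 3 * M8) * 8 ^ 4 * 10) (8 * 10 ^ 11) ((resP M8 first8).drop 3) =
    true := by (clear * -; decide +kernel)

/-- residual on the first cell: `|y² eps| ≤ 1e-10 y³` for `0 ≤ y ≤ 1/2`. -/
theorem R8_res_first {y : ℝ} (hy0 : 0 ≤ y) (hy : y < 1 / 2) :
    |resy2 y (fun k => R8 k y)| ≤ 1 / 10 ^ 10 * y ^ 3 := by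
  have e : (fun k => R8 k y) = fun k => first8.val M8 k y := by
    funext k; exact R8_first k y hy
  rw [e]
  have hC : first8.C = 0 := by (clear * -; decide +kernel)
  have hH : first8.H = 8 := by decide +kernel
  have hv : ((16 : ℝ) * y - first8.C) / first8.H = 2 * y := by
    rw [hC, hH]; push_cast; ring
  have h1 := ev_resP M8 first8 (by decide +kernel) y
  rw [hv, resfirst_eq, hH] at h1
  simp only [ev_cons] at h1
  have h2 := abs_ev_le_of_bernU' (by norm_num) _ bernF (u := 2 * y) (by linarith only [hy0]) (by linarith only [hy])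
  set E := ev ((resP M8 first8).drop 3) (2 * y) with hE
  set r := resy2 y fun k => first8.val M8 k y with hr
  have e2 : (((2 ^ (9 + 3 * M8) * 8 ^ 4 * 10 : ℤ) : ℝ)) / ((8 * 10 ^ 11 : ℤ) : ℝ) =
      2 ^ (9 + 3 * M8) * 8 ^ 4 * 10 / (8 * 10 ^ 11) := by push_cast; ring
  rw [e2] at h2
  push_cast at h1
  have h4 : 8 * y ^ 3 * E = -r * (2 ^ (9 + 3 * M8) * 8 ^ 4) := by rw [← h1]; ring
  have h5 : |r| * (2 ^ (9 + 3 * M8) * 8 ^ 4) = 8 * y ^ 3 * |E| := by
    have := congrArg abs h4
    rw [abs_mul, abs_mul (-r), abs_neg, abs_of_nonneg (by (clear * - hy0; positivity) : (0 : ℝ) ≤ 8 * y ^ 3),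
      abs_of_pos (by positivity : (0 : ℝ) < 2 ^ (9 + 3 * M8) * 8 ^ 4)] at this
    exact this.symm
  have hpos : (0 : ℝ) < 2 ^ (9 + 3 * M8) * 8 ^ 4 := by positivity
  refine le_of_mul_le_mul_right ?_ hpos
  rw [h5]
  have hy3 : 0 ≤ y ^ 3 := by (clear * - hy0; positivity)
  calc 8 * y ^ 3 * |E| ≤ 8 * y ^ 3 * (2 ^ (9 + 3 * M8) * 8 ^ 4 * 10 / (8 * 10 ^ 11)) := by (clear * - h2 hy0; gcongr)
    _ = _ := by ring

/-! ## range -/

theorem range8 : cells8.tail.all (rangeB M8 1157 10000 10000) = true := by (clear * -; decide +kernel)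

theorem R8_range {y : ℝ} (hy : 0 ≤ y) : 1157 / 10000 ≤ R8 0 y ∧ R8 0 y ≤ 1 := by
  by_cases h : y < 1 / 2
  · rw [R8_first 0 y h, Cell.val]
    have hC : first8.C = 0 := by (clear * -; decide +kernel)
    have hH : first8.H = 8 := by decide +kernel
    have hv : ((16 : ℝ) * y - first8.C) / first8.H = 2 * y := by
      rw [hC, hH]; push_cast; ring
    rw [hv, pderk]
    have hv1 : |2 * y| ≤ 1 := by rw [abs_of_nonneg (by linarith only [hy])]; linarith only [h]
    have hc : first8.c = 2 ^ M8 :: first8.c.tail := by decide +kernel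
    have hl := lowB_le first8.c.tail hv1
    have hh := le_highB first8.c.tail hv1
    have hneg : highB first8.c.tail ≤ 0 := by decide +kernel
    have hlow : -2 ^ M8 * 884 ≤ 1000 * lowB first8.c.tail := by decide +kernel
    have hneg' : (highB first8.c.tail : ℝ) ≤ 0 := by exact_mod_cast hneg
    have hlow' : -2 ^ M8 * 884 ≤ 1000 * (lowB first8.c.tail : ℝ) := by exact_mod_cast hlow
    rw [hc, ev_cons]
    push_cast
    simp only [pow_zero, one_mul]
    have h2y : 0 ≤ 2 * y := by linarith only [hy]
    have h2y1 : 2 * y ≤ 1 := by linarith only [h]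
    constructor
    · rw [le_div_iff₀ (by positivity)]
      nlinarith only [hl, hlow', h, hh, hneg']
    · rw [div_le_iff₀ (by positivity)]
      nlinarith only [h2y, hh, hneg']
  · push Not at h
    rw [R8_tail 0 h]
    exact pw_forall (M := M8) (T := tval B8 256 b8)
      (fun _ F => 1157 / 10000 ≤ F 0 ∧ F 0 ≤ 1) cells8.tail 8 chain8
      (fun s hs y hy => by
        have := range_of_rangeB (lo := 1157) (hi := 10000) (q := 10000) (by norm_num)
          (List.all_eq_true.1 range8 s hs) y hy
        norm_num at this ⊢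
        exact this)
      (fun y hy => by
        rw [rend8] at hy
        have hy64 : (256 : ℝ) ≤ y := by push_cast at hy; linarith only [hy]
        have h2 := tail_range8 hy64
        exact ⟨by linarith only [h2], by linarith only [h2]⟩)
      y (by push_cast; linarith)

end P264.Prof
end
end

section

section

/-!
# P264 / Prof / ZProf : the profile in the variable `z = log y` (helper608)

`Rz z = R8 0 (exp z)`; structure `Profile`, residual, `H1`.
-/

open MeasureTheory Set Filter Real
open scoped ContDiff Topology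

namespace P264.Prof

open P264.B

/-! ### chains of derivatives -/

theorem iteratedDeriv_of_chain {n : ℕ} {G : ℕ → ℝ → ℝ}
    (h : ∀ j < n, ∀ z, HasDerivAt (G j) (G (j + 1) z) z) :
    ∀ j ≤ n, iteratedDeriv j (G 0) = G j := by
  intro j
  induction j with
  | zero => intro _; exact iteratedDeriv_zero
  | succ j ih =>
    intro hj
    rw [iteratedDeriv_succ, ih (by omega)]
    funext z
    exact (h j (by omega) z).deriv

theorem contDiff_of_chain {n : ℕ} {G : ℕ → ℝ → ℝ}
    (h : ∀ j < n, ∀ z, HasDerivAt (G j) (G (j + 1) z) z) (hc : Continuous (G n)) :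
    ContDiff ℝ n (G 0) := by
  have hit := iteratedDeriv_of_chain h
  rw [contDiff_nat_iff_iteratedDeriv]
  constructor
  · intro m hm'
    rw [hit m hm']
    rcases hm'.lt_or_eq with h1 | h1
    · exact continuous_iff_continuousAt.2 fun z => (h m h1 z).continuousAt
    · rw [h1]; exact hc
  · intro m hm'
    rw [hit m hm'.le]
    exact fun z => (h m hm' z).differentiableAt

/-- derivatives of `z ↦ F 0 (exp z)` -/
noncomputable def GZ (F : ℕ → ℝ → ℝ) : ℕ → ℝ → ℝ
  | 0, z => F 0 (exp z)
  | 1, z => exp z * F 1 (exp z)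
  | 2, z => exp z * F 1 (exp z) + exp z ^ 2 * F 2 (exp z)
  | 3, z => exp z * F 1 (exp z) + 3 * exp z ^ 2 * F 2 (exp z) + exp z ^ 3 * F 3 (exp z)
  | 4, z => exp z * F 1 (exp z) + 7 * exp z ^ 2 * F 2 (exp z) + 6 * exp z ^ 3 * F 3 (exp z)
      + exp z ^ 4 * F 4 (exp z)
  | _, _ => 0

theorem hasDerivAt_GZ {F : ℕ → ℝ → ℝ} (h : ∀ k < 4, ∀ y, 0 < y → HasDerivAt (F k) (F (k + 1) y) y)
    (j : ℕ) (hj : j < 4) (z : ℝ) : HasDerivAt (GZ F j) (GZ F (j + 1) z) z := by
  have hF : ∀ k < 4, HasDerivAt (fun z => F k (exp z)) (F (k + 1) (exp z) * exp z) z :=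
    fun k hk => (h k hk (exp z) (exp_pos z)).comp z (Real.hasDerivAt_exp z)
  have hE : HasDerivAt (fun z => exp z) (exp z) z := Real.hasDerivAt_exp z
  interval_cases j
  · refine (hF 0 (by norm_num)).congr_deriv ?_
    simp only [GZ]; ring
  · refine (hE.mul (hF 1 (by norm_num))).congr_deriv ?_
    simp only [GZ]; ring
  · refine ((hE.mul (hF 1 (by norm_num))).add ((hE.pow 2).mul (hF 2 (by norm_num)))).congr_deriv ?_
    simp only [GZ]; push_cast; simp only [pow_one, Pi.pow_apply]; ring
  · refine (((hE.mul (hF 1 (by norm_num))).add (((hE.pow 2).const_mul 3).mul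
      (hF 2 (by norm_num)))).add ((hE.pow 3).mul (hF 3 (by norm_num)))).congr_deriv ?_
    simp only [GZ]; push_cast; simp only [pow_one, Pi.pow_apply]; ring

theorem continuous_GZ4 {F : ℕ → ℝ → ℝ} (h : ∀ k ≤ 4, Continuous (F k)) :
    Continuous (GZ F 4) := by
  have h1 := (h 1 (by norm_num)).comp Real.continuous_exp
  have h2 := (h 2 (by norm_num)).comp Real.continuous_exp
  have h3 := (h 3 (by norm_num)).comp Real.continuous_exp
  have h4 := (h 4 (by norm_num)).comp Real.continuous_exp
  have hE := Real.continuous_exp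
  show Continuous fun z => exp z * F 1 (exp z) + 7 * exp z ^ 2 * F 2 (exp z) +
    6 * exp z ^ 3 * F 3 (exp z) + exp z ^ 4 * F 4 (exp z)
  exact (((hE.mul h1).add ((continuous_const.mul (hE.pow 2)).mul h2)).add
    ((continuous_const.mul (hE.pow 3)).mul h3)).add ((hE.pow 4).mul h4)

/-! ### the profile -/

/-- the profile as a function of `z = log y` -/
noncomputable def Rz (z : ℝ) : ℝ := R8 0 (exp z)

theorem Rz_eq : Rz = GZ R8 0 := rfl

theorem hd_R8 (k : ℕ) (hk : k < 4) (y : ℝ) (_ : 0 < y) : HasDerivAt (R8 k) (R8 (k + 1) y) y :=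
  R8_hasDerivAt' k hk y

theorem Rz_contDiff : ContDiff ℝ 4 Rz := by
  have := contDiff_of_chain (n := 4) (G := GZ R8) (fun j hj z => hasDerivAt_GZ hd_R8 j hj z)
    (continuous_GZ4 R8_continuous)
  exact_mod_cast this

theorem Rz_sub_iter (α : ℝ) (j : ℕ) (hj : j ≤ 4) :
    iteratedDeriv j (fun s => Rz s - α) = fun z => GZ R8 j z - (if j = 0 then α else 0) := by
  have := iteratedDeriv_of_chain (n := 4)
    (G := fun j z => GZ R8 j z - (if j = 0 then α else 0))
    (fun j hj z => by
      have := (hasDerivAt_GZ hd_R8 j hj z).sub_const (if j = 0 then α else 0)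
      simpa using this) j hj
  simpa [Rz_eq] using this

theorem kap_Rz (z : ℝ) : kap Rz z = Gop (exp z) (fun k => R8 k (exp z)) := by
  unfold kap piD
  rw [Rz_sub_iter 1 4 (by norm_num), Rz_sub_iter 1 3 (by norm_num), Rz_sub_iter 1 2 (by norm_num),
    Rz_sub_iter 1 1 (by norm_num)]
  simp only [GZ, Gop, Rz]
  norm_num
  ring

theorem resid_Rz (z : ℝ) :
    resid Rz z = resy2 (exp z) (fun k => R8 k (exp z)) / exp z ^ 2 := by
  have h1 : deriv Rz z = exp z * R8 1 (exp z) := by
    rw [Rz_eq, (hasDerivAt_GZ hd_R8 0 (by norm_num) z).deriv]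
    rfl
  have h2 : exp (-2 * z) = (exp z ^ 2)⁻¹ := by
    rw [← Real.exp_nat_mul, ← Real.exp_neg]; congr 1; push_cast; ring
  rw [resid, h1, kap_Rz, h2, resy2]
  have : exp z ≠ 0 := (exp_pos z).ne'
  simp only [Rz]
  field_simp

theorem Rz_lower (z : ℝ) : 1157 / 10000 ≤ Rz z := (R8_range (exp_pos z).le).1

theorem Rz_upper (z : ℝ) : Rz z ≤ 1 := (R8_range (exp_pos z).le).2

/-! ### polynomials -/

/-- integer list to real polynomial -/
noncomputable def toPoly : List ℤ → Polynomial ℝ
  | [] => 0
  | a :: l => Polynomial.C (a : ℝ) + Polynomial.X * toPoly l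

theorem eval_toPoly (l : List ℤ) (x : ℝ) : (toPoly l).eval x = ev l x := by
  induction l with
  | nil => simp only [toPoly, Polynomial.eval_zero, ev_nil]
  | cons a l ih => simp [toPoly, ih]

theorem Rz_left : ∃ p : Polynomial ℝ, p.eval 0 = 1 ∧ ∃ Z : ℝ, ∀ z ≤ Z, Rz z = p.eval (exp z) := by
  have key : ∀ y : ℝ, y < 1 / 2 → R8 0 y = (Polynomial.C (1 / 2 ^ M8 : ℝ) *
      (toPoly first8.c).comp (Polynomial.C 2 * Polynomial.X)).eval y := by
    intro y hy
    have hC : first8.C = 0 := by (clear * -; decide +kernel)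
    have hH : first8.H = 8 := by decide +kernel
    have hv : ((16 : ℝ) * y - first8.C) / first8.H = 2 * y := by
      rw [hC, hH]; push_cast; ring
    rw [R8_first 0 y hy, Cell.val, hv]
    simp only [Polynomial.eval_mul, Polynomial.eval_C, Polynomial.eval_comp, Polynomial.eval_X,
      eval_toPoly, pow_zero, one_mul, pderk]
    ring
  refine ⟨Polynomial.C (1 / 2 ^ M8 : ℝ) * (toPoly first8.c).comp (Polynomial.C 2 * Polynomial.X),
    ?_, -1, ?_⟩
  · rw [← key 0 (by norm_num), R8_zero]
  · intro z hz
    refine key _ ?_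
    have h1 : exp z ≤ exp (-1) := exp_le_exp.2 hz
    have h2 : exp (-1 : ℝ) < 0.3678794412 := Real.exp_neg_one_lt_d9
    linarith only [h1, h2]

theorem exp6 {z : ℝ} (hz : 6 ≤ z) : 256 ≤ exp z := by
  have h1 : (2.7182818283 : ℝ) < exp 1 := Real.exp_one_gt_d9
  have h2 : exp 6 = exp 1 ^ 6 := by rw [← Real.exp_nat_mul]; norm_num
  have h3 : exp 6 ≤ exp z := exp_le_exp.2 hz
  have h4 : (2.7 : ℝ) ^ 6 ≤ exp 1 ^ 6 := pow_le_pow_left₀ (by norm_num) (by linarith) 6
  norm_num at h4
  linarith only [h3, h4]

/-- the tail polynomial in `exp (-2z)` -/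
noncomputable def qtail : Polynomial ℝ :=
  Polynomial.C (1 / 2 ^ B8 : ℝ) * (toPoly b8).comp (Polynomial.C 65536 * Polynomial.X)

theorem Rz_tail {z : ℝ} (hz : 6 ≤ z) : Rz z = qtail.eval (exp (-2 * z)) := by
  rw [Rz, R8_ge256 0 (exp6 hz), tval]
  have hw : (((256 : ℤ) : ℝ) / exp z) ^ 2 = 65536 * exp (-2 * z) := by
    have h2 : exp (-2 * z) = (exp z ^ 2)⁻¹ := by
      rw [← Real.exp_nat_mul, ← Real.exp_neg]; congr 1; push_cast; ring
    rw [h2, div_pow]; push_cast; norm_num; ring
  rw [hw]
  simp only [qtail, Polynomial.eval_mul, Polynomial.eval_C, Polynomial.eval_comp,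
    Polynomial.eval_X, eval_toPoly, pow_zero, mul_one, tlist]
  ring

/-- `D` on polynomials in `exp (-2z)` -/
noncomputable def Tp (q : Polynomial ℝ) : Polynomial ℝ :=
  Polynomial.C (-2) * Polynomial.X * Polynomial.derivative q

theorem iteratedDeriv_polyexp (q : Polynomial ℝ) (j : ℕ) :
    iteratedDeriv j (fun z => q.eval (exp (-2 * z))) = fun z => (Tp^[j] q).eval (exp (-2 * z)) := by
  induction j with
  | zero => simp [iteratedDeriv_zero]
  | succ j ih =>
    rw [iteratedDeriv_succ, ih, Function.iterate_succ_apply']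
    funext z
    have h1 : HasDerivAt (fun z : ℝ => exp (-2 * z)) (exp (-2 * z) * (-2)) z := by
      have := ((hasDerivAt_id z).const_mul (-2 : ℝ)).exp
      simpa using this
    have h2 := ((Tp^[j] q).hasDerivAt (exp (-2 * z))).comp z h1
    have h3 := h2.deriv
    simp only [Function.comp_def] at h3
    rw [h3, Tp]
    simp only [Polynomial.eval_mul, Polynomial.eval_C, Polynomial.eval_X]
    ring

theorem exists_bound_poly (q : Polynomial ℝ) : ∃ C : ℝ, 0 ≤ C ∧ ∀ z : ℝ, 0 ≤ z →
    |(Polynomial.X * q).eval (exp (-2 * z))| ≤ C * exp (-2 * z) := by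
  have hc : ContinuousOn (fun x : ℝ => |q.eval x|) (Icc 0 1) :=
    (Polynomial.continuous q).abs.continuousOn
  obtain ⟨C, hC⟩ := (isCompact_Icc.bddAbove_image hc)
  refine ⟨max C 0, le_max_right _ _, fun z hz => ?_⟩
  have hx : exp (-2 * z) ∈ Icc (0 : ℝ) 1 := ⟨(exp_pos _).le, exp_le_one_iff.2 (by linarith)⟩
  have h1 : |q.eval (exp (-2 * z))| ≤ C := hC ⟨_, hx, rfl⟩
  rw [Polynomial.eval_mul, Polynomial.eval_X, abs_mul, abs_of_pos (exp_pos _), mul_comm]
  exact mul_le_mul_of_nonneg_right (h1.trans (le_max_left _ _)) (exp_pos _).le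

theorem X_dvd_Tp (q : Polynomial ℝ) : Polynomial.X ∣ Tp q :=
  ⟨Polynomial.C (-2) * Polynomial.derivative q, by rw [Tp]; ring⟩

/-- value at infinity -/
noncomputable def alpha8 : ℝ := qtail.eval 0

theorem Rz_right : ∃ C : ℝ, ∀ j ≤ 4, ∀ z, 0 ≤ z →
    |iteratedDeriv j (fun s => Rz s - alpha8) z| ≤ C * exp (-2 * z) := by
  -- one constant for each `j`
  have key : ∀ j ≤ 4, ∃ C : ℝ, 0 ≤ C ∧ ∀ z, 0 ≤ z →
      |iteratedDeriv j (fun s => Rz s - alpha8) z| ≤ C * exp (-2 * z) := by
    intro j hj
    -- tail
    have htail : ∃ C : ℝ, 0 ≤ C ∧ ∀ z, 6 < z →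
        |iteratedDeriv j (fun s => Rz s - alpha8) z| ≤ C * exp (-2 * z) := by
      have hdvd : Polynomial.X ∣ Tp^[j] (qtail - Polynomial.C alpha8) := by
        rcases j with _ | j
        · rw [Function.iterate_zero, id, Polynomial.X_dvd_iff]
          simp [alpha8, Polynomial.coeff_zero_eq_eval_zero]
        · rw [Function.iterate_succ_apply']
          exact X_dvd_Tp _
      obtain ⟨r, hr⟩ := hdvd
      obtain ⟨C, hC0, hC⟩ := exists_bound_poly r
      refine ⟨C, hC0, fun z hz => ?_⟩
      have heq : (fun s => Rz s - alpha8) =ᶠ[𝓝 z]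
          fun s => (qtail - Polynomial.C alpha8).eval (exp (-2 * s)) := by
        filter_upwards [Ioi_mem_nhds hz] with s hs
        rw [Rz_tail (le_of_lt hs)]
        simp
      rw [heq.iteratedDeriv_eq, iteratedDeriv_polyexp, hr]
      exact hC z (by linarith only [hz])
    obtain ⟨C1, hC10, hC1⟩ := htail
    have hcont : Continuous (fun z => |iteratedDeriv j (fun s => Rz s - alpha8) z| *
        exp (2 * z)) := by
      have hcd : ContDiff ℝ 4 (fun s => Rz s - alpha8) := Rz_contDiff.sub contDiff_const
      have := hcd.continuous_iteratedDeriv j (by exact_mod_cast hj)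
      exact this.abs.mul (Real.continuous_exp.comp (continuous_const.mul continuous_id))
    obtain ⟨C2, hC2⟩ := (isCompact_Icc (a := (0 : ℝ)) (b := 6)).bddAbove_image hcont.continuousOn
    refine ⟨max (max C1 C2) 0, le_max_right _ _, fun z hz => ?_⟩
    by_cases h6 : 6 < z
    · refine (hC1 z h6).trans ?_
      exact mul_le_mul_of_nonneg_right ((le_max_left _ _).trans (le_max_left _ _)) (exp_pos _).le
    · push Not at h6
      have h1 : |iteratedDeriv j (fun s => Rz s - alpha8) z| * exp (2 * z) ≤ C2 :=
        hC2 ⟨z, ⟨hz, h6⟩, rfl⟩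
      have h2 : |iteratedDeriv j (fun s => Rz s - alpha8) z| ≤ C2 * exp (-2 * z) := by
        have e : exp (2 * z) * exp (-2 * z) = 1 := by rw [← Real.exp_add]; simp
        calc |iteratedDeriv j (fun s => Rz s - alpha8) z|
            = |iteratedDeriv j (fun s => Rz s - alpha8) z| * exp (2 * z) * exp (-2 * z) := by
              rw [mul_assoc, e, mul_one]
          _ ≤ C2 * exp (-2 * z) := mul_le_mul_of_nonneg_right h1 (exp_pos _).le
      refine h2.trans ?_
      exact mul_le_mul_of_nonneg_right ((le_max_right _ _).trans (le_max_left _ _)) (exp_pos _).le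
  choose! C hC0 hC using key
  refine ⟨∑ j ∈ Finset.range 5, C j, fun j hj z hz => ?_⟩
  refine (hC j hj z hz).trans ?_
  refine mul_le_mul_of_nonneg_right ?_ (exp_pos _).le
  exact Finset.single_le_sum (f := C) (fun i hi => hC0 i (by
    have := Finset.mem_range.1 hi; omega)) (Finset.mem_range.2 (by omega))

theorem profile8 : Profile Rz (1157 / 10000) alpha8 where
  smooth := Rz_contDiff
  Rmin_pos := by norm_num
  lower := Rz_lower
  upper := Rz_upper
  left := Rz_left
  right := Rz_right
  right_poly := ⟨qtail, 6, fun z hz => Rz_tail hz⟩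

end P264.Prof
end
end

section

section

/-!
# P264 / Prof / ZH1 : the residual bound (H1) in the variable `z` (helper608)
-/

open MeasureTheory Set Filter Real
open scoped ContDiff Topology

namespace P264.Prof

open P264.B

/-- pointwise form of H1 on the whole half line -/
theorem R8_h1 {y : ℝ} (hy : 0 < y) :
    (resy2 y (fun k => R8 k y)) ^ 2 * psiW y * (1 + y) ^ 2 ≤
      441 / 10 ^ 16 * (y ^ 4 * (R8 0 y) ^ 2) := by
  by_cases h : 1 / 2 ≤ y
  · exact R8_h1_ge h
  · push Not at h
    have h1 := R8_res_first hy.le h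
    have h2 : (resy2 y (fun k => R8 k y)) ^ 2 ≤ (1 / 10 ^ 10 * y ^ 3) ^ 2 := by
      rw [← sq_abs]; exact pow_le_pow_left₀ (abs_nonneg _) h1 2
    have h3 : psiW y ≤ 2 := by
      unfold psiW
      have a1 : (4 * y / 29) ^ 7 ≤ 1 := pow_le_one₀ (by positivity) (by linarith only [h])
      have a2 : 0 ≤ (y / 25) ^ 7 := by positivity
      rw [div_le_iff₀ (by positivity)]
      linarith only [a1]
    have h4 : (1 + y) ^ 2 ≤ 4 := by nlinarith only [hy, h]
    have h5 := (R8_range hy.le).1
    have h6 : (1157 / 10000 : ℝ) ^ 2 ≤ (R8 0 y) ^ 2 := pow_le_pow_left₀ (by norm_num) h5 2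
    have hp := (psiW_pos hy.le).le
    have hy2 : y ^ 2 ≤ 1 := by nlinarith only [hy, h]
    have hy4 : 0 ≤ y ^ 4 := by positivity
    calc (resy2 y (fun k => R8 k y)) ^ 2 * psiW y * (1 + y) ^ 2
        ≤ (1 / 10 ^ 10 * y ^ 3) ^ 2 * 2 * 4 := by gcongr
      _ = 8 / 10 ^ 20 * (y ^ 4 * y ^ 2) := by ring
      _ ≤ 8 / 10 ^ 20 * (y ^ 4 * 1) := by gcongr
      _ ≤ 441 / 10 ^ 16 * (y ^ 4 * (1157 / 10000) ^ 2) := by linarith only [hy4]
      _ ≤ _ := by gcongr

/-- an integral bound by `e^{-|z|}` -/
theorem integral_le_of_le_exp {f : ℝ → ℝ} {c : ℝ} (hc : 0 ≤ c) (hf : ∀ z, 0 ≤ f z)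
    (h1 : ∀ z ≤ 0, f z ≤ c * exp z) (h2 : ∀ z, 0 < z → f z ≤ c * exp (-z)) :
    ∫ z, f z ≤ 2 * c := by
  classical
  set g : ℝ → ℝ := fun z => if z ≤ 0 then c * exp z else c * exp (-z) with hg
  have hgI : IntegrableOn g (Iic 0) := by
    have h0 : IntegrableOn (fun z => c * exp z) (Iic 0) := (integrableOn_exp_Iic 0).const_mul c
    refine h0.congr_fun ?_ measurableSet_Iic
    intro z hz
    simp only [hg, if_pos (mem_Iic.1 hz)]
  have hgJ : IntegrableOn g (Ioi 0) := by
    have h0 : IntegrableOn (fun z => c * exp (-z)) (Ioi 0) :=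
      (integrableOn_exp_neg_Ioi 0).const_mul c
    refine h0.congr_fun ?_ measurableSet_Ioi
    intro z hz
    simp only [hg, if_neg (not_le.2 (mem_Ioi.1 hz))]
  have hgint : Integrable g := by
    rw [← integrableOn_univ, ← Iic_union_Ioi (a := (0 : ℝ))]
    exact hgI.union hgJ
  have hle : ∀ z, f z ≤ g z := by
    intro z
    by_cases hz : z ≤ 0
    · simp only [hg, if_pos hz]; exact h1 z hz
    · simp only [hg, if_neg hz]; exact h2 z (not_le.1 hz)
  calc ∫ z, f z ≤ ∫ z, g z :=
        integral_mono_of_nonneg (Eventually.of_forall hf) hgint (Eventually.of_forall hle)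
    _ = (∫ z in Iic 0, g z) + ∫ z in Ioi 0, g z := by
        rw [← setIntegral_union (by
          rw [Set.disjoint_left]; intro x hx hx'; exact absurd (mem_Iic.1 hx) (not_le.2 hx'))
          measurableSet_Ioi hgI hgJ, Iic_union_Ioi, setIntegral_univ]
    _ = (∫ z in Iic 0, c * exp z) + ∫ z in Ioi 0, c * exp (-z) := by
        congr 1
        · refine setIntegral_congr_fun measurableSet_Iic fun z hz => ?_
          simp only [hg, if_pos (mem_Iic.1 hz)]
        · refine setIntegral_congr_fun measurableSet_Ioi fun z hz => ?_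
          simp only [hg, if_neg (not_le.2 (mem_Ioi.1 hz))]
    _ = 2 * c := by
        rw [integral_const_mul, integral_const_mul, integral_exp_Iic_zero,
          integral_exp_neg_Ioi_zero]
        ring

/-- **H1** for every weight `ρ` with `e^z ρ(z) ≤ (1+1/1000) ψ(e^z)`. -/
theorem H1_of_weight {ρ : ℝ → ℝ} (hpos : ∀ z, 0 ≤ ρ z)
    (hρ : ∀ z, exp z * ρ z ≤ 1001 / 1000 * psiW (exp z)) :
    ∫ z, exp (2 * z) * ρ z * resid Rz z ^ 2 / Rz z ^ 2 ≤ (3 / 10 ^ 7) ^ 2 := by
  set c : ℝ := 1001 / 1000 * (441 / 10 ^ 16) with hc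
  have hbd : ∀ z, exp (2 * z) * ρ z * resid Rz z ^ 2 / Rz z ^ 2 ≤
      c * (exp z / (1 + exp z) ^ 2) := by
    intro z
    have hy := exp_pos z
    set y := exp z with hydef
    have e2 : exp (2 * z) = y ^ 2 := by
      rw [hydef, ← Real.exp_nat_mul]; norm_num
    have hR : 0 < Rz z := lt_of_lt_of_le (by norm_num) (Rz_lower z)
    rw [resid_Rz, e2, ← hydef]
    set r := resy2 y (fun k => R8 k y) with hr
    have h1 := R8_h1 hy
    rw [← hr] at h1
    have hRe : R8 0 y = Rz z := rfl
    rw [hRe] at h1
    rw [div_le_iff₀ (by positivity)]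
    have hρ' := hρ z
    rw [← hydef] at hρ'
    have e3 : y ^ 2 * ρ z * (r / y ^ 2) ^ 2 = (y * ρ z) * r ^ 2 / y ^ 3 := by
      (clear * - hy; field_simp)
    rw [e3, div_le_iff₀ (by positivity)]
    have h2 : y * ρ z * r ^ 2 ≤ 1001 / 1000 * psiW y * r ^ 2 :=
      mul_le_mul_of_nonneg_right hρ' (sq_nonneg _)
    refine h2.trans ?_
    have h3 : 1001 / 1000 * psiW y * r ^ 2 * (1 + y) ^ 2 ≤
        c * (y * Rz z ^ 2 * y ^ 3) := by
      calc 1001 / 1000 * psiW y * r ^ 2 * (1 + y) ^ 2
          = 1001 / 1000 * (r ^ 2 * psiW y * (1 + y) ^ 2) := by ring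
        _ ≤ 1001 / 1000 * (441 / 10 ^ 16 * (y ^ 4 * Rz z ^ 2)) := by (clear * - h1; gcongr)
        _ = _ := by rw [hc]; ring
    have e4 : c * (y / (1 + y) ^ 2) * Rz z ^ 2 * y ^ 3 =
        c * (y * Rz z ^ 2 * y ^ 3) / (1 + y) ^ 2 := by ring
    rw [e4, le_div_iff₀ (by positivity)]
    exact h3
  have hc0 : 0 ≤ c := by rw [hc]; norm_num
  have hnn : ∀ z, 0 ≤ exp (2 * z) * ρ z * resid Rz z ^ 2 / Rz z ^ 2 := by
    intro z
    have := hpos z
    (clear * - this; positivity)
  have := integral_le_of_le_exp (c := c) hc0 hnn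
    (fun z _ => (hbd z).trans (by
      have hy := exp_pos z
      gcongr
      rw [div_le_iff₀ (by positivity)]
      (by_contra nlg; linarith only [nlg, mul_nonneg (sq_nonneg (exp z)) (sq_nonneg (exp z)), mul_nonneg (le_of_lt (sub_pos.2 hy)) (sq_nonneg (exp z)), mul_pos (sub_pos.2 (not_le.1 nlg)) (sub_pos.2 hy)])))
    (fun z _ => (hbd z).trans (by
      have hy := exp_pos z
      gcongr
      rw [Real.exp_neg, div_le_iff₀ (by positivity), inv_mul_eq_div, le_div_iff₀ hy]
      linarith))
  refine this.trans ?_
  rw [hc]; norm_num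

/-! ### bounds for the far field -/

theorem Rz_far {z : ℝ} (hz : 6 ≤ z) : 8009 / 10000 ≤ Rz z ∧ Rz z ≤ 8015 / 10000 := by
  have h := tail_range8 (exp6 hz)
  rw [Rz, R8_ge256 0 (exp6 hz)]
  exact h

theorem resid_far {z : ℝ} (hz : 6 ≤ z) : |resid Rz z| ≤ 5 / 10 ^ 12 * exp (-2 * z) := by
  have h := R8_res_tail (exp6 hz)
  have h2 : exp (-2 * z) = (exp z ^ 2)⁻¹ := by
    rw [← Real.exp_nat_mul, ← Real.exp_neg]; congr 1; push_cast; ring
  rw [resid_Rz, abs_div, abs_of_pos (by positivity : (0 : ℝ) < exp z ^ 2), h2, ← div_eq_mul_inv]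
  gcongr

theorem GT_bern : bernU (24 * 2 ^ B8) 1 (GT B8 b8) = true := by (clear * -; decide +kernel)

theorem kap_far {z : ℝ} (hz : 6 ≤ z) : |kap Rz z| ≤ 24 := by
  have hy := exp6 hz
  have hy0 := exp_pos z
  have e : (fun k => R8 k (exp z)) = fun k => tval B8 256 b8 k (exp z) := by
    funext k; exact R8_ge256 k hy
  rw [kap_Rz, e]
  have hw1 : (((256 : ℤ) : ℝ) / exp z) ^ 2 ≤ 1 := by
    have : ((256 : ℤ) : ℝ) / exp z ≤ 1 := (div_le_one hy0).2 (by push_cast; exact hy)
    exact pow_le_one₀ (by positivity) this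
  have h1 := abs_ev_le_of_bernU' (by norm_num) _ GT_bern (u := (((256 : ℤ) : ℝ) / exp z) ^ 2)
    (by positivity) hw1
  rw [ev_GT B8 256 b8 hy0, abs_mul, abs_of_pos (by positivity : (0 : ℝ) < 2 ^ B8)] at h1
  push_cast at h1
  have h2 : |Gop (exp z) fun k => tval B8 256 b8 k (exp z)| * 2 ^ B8 ≤ 24 * 2 ^ B8 := by
    simpa only [Nat.ofNat_pos, pow_pos, mul_le_mul_iff_left₀, div_one] using h1
  exact le_of_mul_le_mul_right h2 (by positivity)

end P264.Prof
end
end

section

section

/-!
# P264 / B / Far / EcutBound : (D13) time integral of the cut-off error (helper4)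
-/

open MeasureTheory Set Filter Real
open scoped ContDiff Topology

namespace P264.B.Ecut

/-! ### frame -/

theorem xpos (s z : ℝ) : 0 < xx s z := exp_pos _

theorem xder (s z : ℝ) : HasDerivAt (fun z => xx s z) (xx s z) z := by
  have h : HasDerivAt (fun z : ℝ => z - s / 2) 1 z := (hasDerivAt_id z).sub_const _
  simpa [xx] using h.exp

theorem xcont (s : ℝ) : Continuous (fun z => xx s z) := by unfold xx; fun_prop

theorem tmem {T s : ℝ} (hs : exp (-s) ≤ T) : tt T s ∈ Icc 0 T := by
  unfold tt
  exact ⟨by linarith, by linarith [exp_pos (-s)]⟩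

theorem tpos {T s : ℝ} (hs : exp (-s) ≤ T) : 0 < T := lt_of_lt_of_le (exp_pos _) hs

theorem iter_chain {F : ℕ → ℝ → ℝ} {O : Set ℝ} (hO : IsOpen O) {N : ℕ}
    (h : ∀ k < N, ∀ z ∈ O, HasDerivAt (F k) (F (k + 1) z) z) :
    ∀ k ≤ N, ∀ z ∈ O, iteratedDeriv k (F 0) z = F k z := by
  intro k
  induction k with
  | zero => intro _ z _; simp
  | succ k ih =>
    intro hk z hz
    have hev : iteratedDeriv k (F 0) =ᶠ[𝓝 z] F k := by
      filter_upwards [hO.mem_nhds hz] with y hy
      exact ih (by omega) y hy
    rw [iteratedDeriv_succ, hev.deriv_eq]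
    exact (h k (by omega) z hz).deriv

/-! ### jets of the cut-off -/

/-- `(x d/dx)^k χ`. -/
noncomputable def eu (χ : ℝ → ℝ) : ℕ → ℝ → ℝ
  | 0 => χ
  | k + 1 => fun x => x * deriv (eu χ k) x

theorem eu_smooth {χ : ℝ → ℝ} (h : ContDiff ℝ ∞ χ) (k : ℕ) : ContDiff ℝ ∞ (eu χ k) := by
  induction k with
  | zero => exact h
  | succ k ih =>
    have h1 : ContDiff ℝ ∞ (deriv (eu χ k)) := (contDiff_infty_iff_deriv.1 ih).2
    exact contDiff_id.mul h1

theorem eu_der {χ : ℝ → ℝ} (h : ContDiff ℝ ∞ χ) (k : ℕ) (s z : ℝ) :
    HasDerivAt (fun z => eu χ k (xx s z)) (eu χ (k + 1) (xx s z)) z := by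
  have h1 : HasDerivAt (eu χ k) (deriv (eu χ k) (xx s z)) (xx s z) :=
    ((eu_smooth h k).differentiable (by simp) _).hasDerivAt
  have h2 := h1.comp z (xder s z)
  rw [mul_comm] at h2
  exact h2

/-! ### jets of `h = φ/x` -/

section
variable {T s : ℝ} {U₀ : ℝ → ℝ} {U φ : ℝ → ℝ → ℝ}

/-- `∂ₓᵏ φ`. -/
noncomputable def jt (T : ℝ) (φ : ℝ → ℝ → ℝ) (k : ℕ) (t x : ℝ) : ℝ :=
  dx T k (fun p : ℝ × ℝ => φ p.1 p.2) (t, x)

/-- `(x d/dx)^k (φ/x)`, `k ≤ 4`. -/
noncomputable def hk (T : ℝ) (φ : ℝ → ℝ → ℝ) (k : ℕ) (t x : ℝ) : ℝ :=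
  match k with
  | 0 => jt T φ 0 t x / x
  | 1 => jt T φ 1 t x - jt T φ 0 t x / x
  | 2 => x * jt T φ 2 t x - jt T φ 1 t x + jt T φ 0 t x / x
  | 3 => x ^ 2 * jt T φ 3 t x + jt T φ 1 t x - jt T φ 0 t x / x
  | _ => x ^ 3 * jt T φ 4 t x + 2 * x ^ 2 * jt T φ 3 t x + x * jt T φ 2 t x - jt T φ 1 t x
      + jt T φ 0 t x / x

theorem jt_der (h : IsFlowU 8 T U₀ U φ) (hT : 0 < T) {t : ℝ} (ht : t ∈ Icc 0 T) (k : ℕ) {x : ℝ}
    (hx : x ∈ Ioo (0 : ℝ) 1) : HasDerivAt (jt T φ k t) (jt T φ (k + 1) t x) x :=
  der_dx hT h.sφ k ht hx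

theorem jt_der_z (h : IsFlowU 8 T U₀ U φ) (hs : exp (-s) ≤ T) (k : ℕ) {z : ℝ}
    (hz : xx s z < 1) :
    HasDerivAt (fun z => jt T φ k (tt T s) (xx s z))
      (xx s z * jt T φ (k + 1) (tt T s) (xx s z)) z := by
  have h2 := (jt_der h (tpos hs) (tmem hs) k (x := xx s z) ⟨xpos s z, hz⟩).comp z (xder s z)
  rw [mul_comm] at h2
  exact h2

theorem hk_der (h : IsFlowU 8 T U₀ U φ) (hs : exp (-s) ≤ T) {k : ℕ} (hk4 : k < 4) {z : ℝ}
    (hz : xx s z < 1) :
    HasDerivAt (fun z => hk T φ k (tt T s) (xx s z)) (hk T φ (k + 1) (tt T s) (xx s z)) z := by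
  have hx0 : xx s z ≠ 0 := (xpos s z).ne'
  have hX := xder s z
  have j0 := jt_der_z h hs 0 hz
  have j1 := jt_der_z h hs 1 hz
  have j2 := jt_der_z h hs 2 hz
  have j3 := jt_der_z h hs 3 hz
  have hd := j0.fun_div hX hx0
  interval_cases k
  · refine hd.congr_deriv ?_
    simp only [hk]
    (clear * - hx0; field_simp)
  · refine (j1.sub hd).congr_deriv ?_
    simp only [hk]
    field_simp
    ring
  · refine (((hX.mul j2).sub j1).add hd).congr_deriv ?_
    simp only [hk]
    field_simp
    ring
  · refine ((((hX.fun_pow 2).mul j3).add j1).sub hd).congr_deriv ?_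
    simp only [hk]
    field_simp
    ring

end

/-! ### the commutator -/

section
variable {R χ : ℝ → ℝ} {Rmin α T X s z : ℝ} {U₀ : ℝ → ℝ} {U φ : ℝ → ℝ → ℝ}

/-- jets of `w = h - R`. -/
noncomputable def wk (R : ℝ → ℝ) (T : ℝ) (φ : ℝ → ℝ → ℝ) (s : ℝ) (k : ℕ) (z : ℝ) : ℝ :=
  hk T φ k (tt T s) (xx s z) - iteratedDeriv k R z

theorem wk_der (hR : Profile R Rmin α) (h : IsFlowU 8 T U₀ U φ) (hs : exp (-s) ≤ T) {k : ℕ}
    (hk4 : k < 4) (hz : xx s z < 1) : HasDerivAt (wk R T φ s k) (wk R T φ s (k + 1) z) z :=
  (hk_der h hs hk4 hz).sub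
    (hasDerivAt_iter (n := 4) hR.smooth (by omega) z)

theorem wk_zero : WW R φ T s = wk R T φ s 0 := by
  funext z
  unfold WW wk HH hk jt
  simp [dx_zero]

/-- jets of `G = χ w`. -/
noncomputable def gk (χ R : ℝ → ℝ) (T : ℝ) (φ : ℝ → ℝ → ℝ) (s : ℝ) (k : ℕ) (z : ℝ) : ℝ :=
  match k with
  | 0 => eu χ 0 (xx s z) * wk R T φ s 0 z
  | 1 => eu χ 1 (xx s z) * wk R T φ s 0 z + eu χ 0 (xx s z) * wk R T φ s 1 z
  | 2 => eu χ 2 (xx s z) * wk R T φ s 0 z + 2 * (eu χ 1 (xx s z) * wk R T φ s 1 z)
      + eu χ 0 (xx s z) * wk R T φ s 2 z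
  | 3 => eu χ 3 (xx s z) * wk R T φ s 0 z + 3 * (eu χ 2 (xx s z) * wk R T φ s 1 z)
      + 3 * (eu χ 1 (xx s z) * wk R T φ s 2 z) + eu χ 0 (xx s z) * wk R T φ s 3 z
  | _ => eu χ 4 (xx s z) * wk R T φ s 0 z + 4 * (eu χ 3 (xx s z) * wk R T φ s 1 z)
      + 6 * (eu χ 2 (xx s z) * wk R T φ s 2 z) + 4 * (eu χ 1 (xx s z) * wk R T φ s 3 z)
      + eu χ 0 (xx s z) * wk R T φ s 4 z

theorem gk_der (hR : Profile R Rmin α) (hχ : ContDiff ℝ ∞ χ) (h : IsFlowU 8 T U₀ U φ)
    (hs : exp (-s) ≤ T) {k : ℕ} (hk4 : k < 4) (hz : xx s z < 1) :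
    HasDerivAt (gk χ R T φ s k) (gk χ R T φ s (k + 1) z) z := by
  have e : ∀ k, HasDerivAt (fun z => eu χ k (xx s z)) (eu χ (k + 1) (xx s z)) z :=
    fun k => eu_der hχ k s z
  have w : ∀ k < 4, HasDerivAt (wk R T φ s k) (wk R T φ s (k + 1) z) z :=
    fun k hk => wk_der hR h hs hk hz
  interval_cases k
  · exact (e 0).mul (w 0 (by norm_num))
  · refine (((e 1).mul (w 0 (by norm_num))).add ((e 0).mul (w 1 (by norm_num)))).congr_deriv ?_
    simp only [gk]
    ring
  · refine ((((e 2).mul (w 0 (by norm_num))).add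
      (((e 1).mul (w 1 (by norm_num))).const_mul 2)).add
      ((e 0).mul (w 2 (by norm_num)))).congr_deriv ?_
    simp only [gk]
    ring
  · refine (((((e 3).mul (w 0 (by norm_num))).add
      (((e 2).mul (w 1 (by norm_num))).const_mul 3)).add
      (((e 1).mul (w 2 (by norm_num))).const_mul 3)).add
      ((e 0).mul (w 3 (by norm_num)))).congr_deriv ?_
    simp only [gk]
    ring

theorem gk_zero : GG χ R φ T s = gk χ R T φ s 0 := by
  funext z
  unfold GG
  rw [wk_zero]
  rfl

/-- Coefficients of the commutator `[Pi(D), χ]`. -/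
noncomputable def cc (χ : ℝ → ℝ) (k : ℕ) (x : ℝ) : ℝ :=
  match k with
  | 0 => eu χ 4 x + 12 * eu χ 3 x + 13 * eu χ 2 x - 138 * eu χ 1 x
  | 1 => 4 * eu χ 3 x + 36 * eu χ 2 x + 26 * eu χ 1 x
  | 2 => 6 * eu χ 2 x + 36 * eu χ 1 x
  | _ => 4 * eu χ 1 x

/-- The commutator in terms of jets. -/
noncomputable def cf (χ R : ℝ → ℝ) (T : ℝ) (φ : ℝ → ℝ → ℝ) (t x z : ℝ) : ℝ :=
  cc χ 0 x * (hk T φ 0 t x - iteratedDeriv 0 R z) + cc χ 1 x * (hk T φ 1 t x - iteratedDeriv 1 R z)
    + cc χ 2 x * (hk T φ 2 t x - iteratedDeriv 2 R z)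
    + cc χ 3 x * (hk T φ 3 t x - iteratedDeriv 3 R z)

theorem comm_eq (hR : Profile R Rmin α) (hχ : ContDiff ℝ ∞ χ) (h : IsFlowU 8 T U₀ U φ)
    (hs : exp (-s) ≤ T) (hz : xx s z < 1) :
    piD (GG χ R φ T s) z - χ (xx s z) * piD (WW R φ T s) z
      = cf χ R T φ (tt T s) (xx s z) z := by
  have hO : IsOpen {z | xx s z < 1} := isOpen_lt (xcont s) continuous_const
  have hg : ∀ k ≤ 4, iteratedDeriv k (GG χ R φ T s) z = gk χ R T φ s k z := by
    rw [gk_zero]
    exact fun k hk => iter_chain (F := gk χ R T φ s) hO
      (fun k hk y hy => gk_der hR hχ h hs hk hy) k hk z hz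
  have hw : ∀ k ≤ 4, iteratedDeriv k (WW R φ T s) z = wk R T φ s k z := by
    rw [wk_zero]
    exact fun k hk => iter_chain (F := wk R T φ s) hO
      (fun k hk y hy => wk_der hR h hs hk hy) k hk z hz
  have hg0 : GG χ R φ T s z = gk χ R T φ s 0 z := by rw [gk_zero]
  have hw0 : WW R φ T s z = wk R T φ s 0 z := by rw [wk_zero]
  unfold piD
  rw [hg 4 le_rfl, hg 3 (by norm_num), hg 2 (by norm_num), hg 1 (by norm_num), hg0,
    hw 4 le_rfl, hw 3 (by norm_num), hw 2 (by norm_num), hw 1 (by norm_num), hw0]
  have he : χ (xx s z) = eu χ 0 (xx s z) := rfl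
  rw [he]
  unfold cf
  have f0 : hk T φ 0 (tt T s) (xx s z) - iteratedDeriv 0 R z = wk R T φ s 0 z := rfl
  have f1 : hk T φ 1 (tt T s) (xx s z) - iteratedDeriv 1 R z = wk R T φ s 1 z := rfl
  have f2 : hk T φ 2 (tt T s) (xx s z) - iteratedDeriv 2 R z = wk R T φ s 2 z := rfl
  have f3 : hk T φ 3 (tt T s) (xx s z) - iteratedDeriv 3 R z = wk R T φ s 3 z := rfl
  rw [f0, f1, f2, f3]
  simp only [gk, cc]
  ring

/-- Eventually equal functions have the same `piD`. -/
theorem piD_congr {f g : ℝ → ℝ} (h : f =ᶠ[𝓝 z] g) : piD f z = piD g z := by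
  unfold piD
  rw [h.iteratedDeriv_eq 4, h.iteratedDeriv_eq 3, h.iteratedDeriv_eq 2, h.iteratedDeriv_eq 1,
    h.eq_of_nhds]

theorem cutE_left (hχ : Cutoff χ X) (hz : xx s z < X / 2) : cutE χ R φ T s z = 0 := by
  have ho : IsOpen {z | xx s z < X / 2} := isOpen_lt (xcont s) continuous_const
  have h1 : GG χ R φ T s =ᶠ[𝓝 z] WW R φ T s := by
    filter_upwards [ho.mem_nhds hz] with y hy
    unfold GG
    rw [hχ.one _ (le_of_lt hy), one_mul]
  unfold cutE
  rw [piD_congr h1, hχ.one _ hz.le]
  ring

theorem cutE_right (hχ : Cutoff χ X) (hz : X < xx s z) : cutE χ R φ T s z = 0 := by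
  have ho : IsOpen {z | X < xx s z} := isOpen_lt continuous_const (xcont s)
  have h1 : GG χ R φ T s =ᶠ[𝓝 z] fun _ => 0 := by
    filter_upwards [ho.mem_nhds hz] with y hy
    unfold GG
    rw [hχ.zero _ (le_of_lt hy), zero_mul]
  have h2 : piD (fun _ : ℝ => (0 : ℝ)) z = 0 := by
    unfold piD
    simp
  unfold cutE
  rw [piD_congr h1, hχ.zero _ hz.le, h2]
  ring

/-- The integrand in the fixed variable `u = log x`. -/
noncomputable def Ph (χ R ρ : ℝ → ℝ) (T : ℝ) (φ : ℝ → ℝ → ℝ) (s u : ℝ) : ℝ :=
  exp (2 * (u + s / 2)) * ρ (u + s / 2) *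
    (exp (-2 * (u + s / 2)) * hk T φ 0 (tt T s) (exp u) ^ 2 *
      cf χ R T φ (tt T s) (exp u) (u + s / 2)) ^ 2 / R (u + s / 2) ^ 2

theorem ecut2_eq {ρ : ℝ → ℝ} (hR : Profile R Rmin α) (hχ : Cutoff χ X)
    (h : IsFlowU 8 T U₀ U φ) (hs : exp (-s) ≤ T) :
    ecut2 χ R ρ φ T s = ∫ u in (log (X / 2))..(log X), Ph χ R ρ T φ s u := by
  have hX := hχ.X_pos
  have hX2 : (0 : ℝ) < X / 2 := by linarith
  have hAB : log (X / 2) ≤ log X := log_le_log hX2 (by linarith only [hX])
  set F : ℝ → ℝ := fun z => exp (2 * z) * ρ z * cutE χ R φ T s z ^ 2 / R z ^ 2 with hF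
  have h1 : ecut2 χ R ρ φ T s = ∫ z in Icc (log (X / 2) + s / 2) (log X + s / 2), F z := by
    unfold ecut2
    rw [setIntegral_eq_integral_of_forall_compl_eq_zero]
    intro z hz
    have h0 : cutE χ R φ T s z = 0 := by
      rw [mem_Icc, not_and_or, not_le, not_le] at hz
      rcases hz with hz | hz
      · apply cutE_left hχ
        unfold xx
        rw [← lt_log_iff_exp_lt hX2]
        linarith only [hz]
      · apply cutE_right hχ
        unfold xx
        rw [← log_lt_iff_lt_exp hX]
        linarith only [hz]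
    simp only [hF, h0]
    simp
  rw [h1, integral_Icc_eq_integral_Ioc, ← intervalIntegral.integral_of_le (by linarith only [hAB]),
    ← intervalIntegral.integral_comp_add_right (f := F) (s / 2)]
  apply intervalIntegral.integral_congr
  intro u hu
  rw [uIcc_of_le hAB] at hu
  have hx : xx s (u + s / 2) = exp u := by unfold xx; congr 1; ring
  have hlt : xx s (u + s / 2) < 1 := by
    rw [hx]
    refine lt_of_le_of_lt ?_ hχ.X_lt
    rw [← le_log_iff_exp_le hX]
    exact hu.2
  simp only [hF, Ph]
  unfold cutE
  rw [comm_eq hR hχ.smooth h hs hlt, hx]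
  have hH : HH φ T s (u + s / 2) = hk T φ 0 (tt T s) (exp u) := by
    unfold HH hk jt
    rw [hx]
    simp [dx_zero]
  rw [hH]

/-! ### continuity -/

theorem jt_cont2 (h : IsFlowU 8 T U₀ U φ) (hT : 0 < T) (k : ℕ) :
    ContinuousOn (fun p : ℝ × ℝ => jt T φ k p.1 p.2) (Icc 0 T ×ˢ Icc 0 1) :=
  (smooth_dx hT h.sφ k).continuousOn

theorem jt_cont1 (h : IsFlowU 8 T U₀ U φ) (hT : 0 < T) (k : ℕ) {t : ℝ} (ht : t ∈ Icc 0 T) :
    ContinuousOn (fun x => jt T φ k t x) (Icc 0 1) := cont_dx hT h.sφ k ht

theorem cc_cont {χ : ℝ → ℝ} (hχ : ContDiff ℝ ∞ χ) (k : ℕ) : Continuous (cc χ k) := by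
  have e : ∀ k, Continuous (eu χ k) := fun k => (eu_smooth hχ k).continuous
  have e1 := e 1
  have e2 := e 2
  have e3 := e 3
  have e4 := e 4
  unfold cc
  rcases k with _ | _ | _ | k
  · fun_prop
  · fun_prop
  · fun_prop
  · fun_prop

theorem Ph_cont {ρ : ℝ → ℝ} (hρ : Continuous ρ) (hR : Profile R Rmin α) (hχ : Cutoff χ X)
    (h : IsFlowU 8 T U₀ U φ) (hT : 0 < T) {s₀ σ : ℝ} (hs : exp (-s₀) ≤ T) :
    ContinuousOn (fun q : ℝ × ℝ => Ph χ R ρ T φ q.1 q.2)
      (Icc s₀ σ ×ˢ Icc (log (X / 2)) (log X)) := by
  have hX := hχ.X_pos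
  have hX2 : (0 : ℝ) < X / 2 := by linarith
  have hJ : ∀ k, ContinuousOn (fun q : ℝ × ℝ => jt T φ k (tt T q.1) (exp q.2))
      (Icc s₀ σ ×ˢ Icc (log (X / 2)) (log X)) := by
    intro k
    have hc : Continuous fun q : ℝ × ℝ => ((tt T q.1, exp q.2) : ℝ × ℝ) := by
      unfold tt
      fun_prop
    refine (jt_cont2 h hT k).comp hc.continuousOn ?_
    rintro ⟨s, u⟩ ⟨h1, h2⟩
    simp only at h1 h2
    refine ⟨tmem ((exp_le_exp.2 (by linarith [h1.1])).trans hs), (exp_pos _).le, ?_⟩
    have h4 : exp u ≤ X := (le_log_iff_exp_le hX).1 h2.2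
    exact h4.trans hχ.X_lt.le
  have hE : Continuous fun q : ℝ × ℝ => exp q.2 := by fun_prop
  have hne : ∀ q ∈ Icc s₀ σ ×ˢ Icc (log (X / 2)) (log X), exp q.2 ≠ 0 := fun q _ => (exp_pos _).ne'
  have hK : ∀ k < 4, ContinuousOn (fun q : ℝ × ℝ => hk T φ k (tt T q.1) (exp q.2))
      (Icc s₀ σ ×ˢ Icc (log (X / 2)) (log X)) := by
    intro k hk4
    have h0 := (hJ 0).div hE.continuousOn hne
    interval_cases k
    · exact h0
    · exact (hJ 1).sub h0
    · exact ((hE.continuousOn.mul (hJ 2)).sub (hJ 1)).add h0
    · exact (((hE.continuousOn.pow 2).mul (hJ 3)).add (hJ 1)).sub h0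
  have hZ : Continuous fun q : ℝ × ℝ => q.2 + q.1 / 2 := by fun_prop
  have hI : ∀ k ≤ 4, Continuous (iteratedDeriv k R) := by
    intro k hk4
    exact (contDiff_iter (m := 4 - k) (n := 4) hR.smooth (by omega)).continuous
  have hC : ∀ k, ContinuousOn (fun q : ℝ × ℝ => cc χ k (exp q.2))
      (Icc s₀ σ ×ˢ Icc (log (X / 2)) (log X)) :=
    fun k => ((cc_cont hχ.smooth k).comp hE).continuousOn
  have hW : ∀ k < 4, ContinuousOn (fun q : ℝ × ℝ => hk T φ k (tt T q.1) (exp q.2)
      - iteratedDeriv k R (q.2 + q.1 / 2)) (Icc s₀ σ ×ˢ Icc (log (X / 2)) (log X)) :=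
    fun k hk4 => (hK k hk4).sub ((hI k hk4.le).comp hZ).continuousOn
  have hcf : ContinuousOn (fun q : ℝ × ℝ => cf χ R T φ (tt T q.1) (exp q.2) (q.2 + q.1 / 2))
      (Icc s₀ σ ×ˢ Icc (log (X / 2)) (log X)) :=
    ((((hC 0).mul (hW 0 (by norm_num))).add ((hC 1).mul (hW 1 (by norm_num)))).add
      ((hC 2).mul (hW 2 (by norm_num)))).add ((hC 3).mul (hW 3 (by norm_num)))
  have hRc : Continuous fun q : ℝ × ℝ => R (q.2 + q.1 / 2) := hR.smooth.continuous.comp hZ
  have hρc : Continuous fun q : ℝ × ℝ => ρ (q.2 + q.1 / 2) := hρ.comp hZ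
  have h1 : Continuous fun q : ℝ × ℝ => exp (2 * (q.2 + q.1 / 2)) := by fun_prop
  have h2 : Continuous fun q : ℝ × ℝ => exp (-2 * (q.2 + q.1 / 2)) := by fun_prop
  refine (((h1.mul hρc).continuousOn.mul
    (((h2.continuousOn.mul ((hK 0 (by norm_num)).pow 2)).mul hcf).pow 2))).div
    (hRc.pow 2).continuousOn ?_
  intro q _
  have : 0 < R (q.2 + q.1 / 2) := lt_of_lt_of_le hR.Rmin_pos (hR.lower _)
  positivity

/-! ### pointwise bound -/

/-- The controlled density. -/
noncomputable def Jd (T : ℝ) (φ : ℝ → ℝ → ℝ) (t x : ℝ) : ℝ :=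
  1 + (jt T φ 0 t x ^ 2 + jt T φ 1 t x ^ 2 + jt T φ 2 t x ^ 2) + jt T φ 3 t x ^ 2

theorem R_jets (hR : Profile R Rmin α) :
    ∃ CR : ℝ, 0 ≤ CR ∧ ∀ k < 4, ∀ z, 0 ≤ z → |iteratedDeriv k R z| ≤ CR := by
  obtain ⟨C, hC⟩ := hR.right
  have hC0 : 0 ≤ C := by
    have := (abs_nonneg _).trans (hC 0 (by norm_num) 0 le_rfl)
    simpa only [ge_iff_le, mul_zero, exp_zero, mul_one] using this
  refine ⟨C + 1, by linarith, fun k hk4 z hz => ?_⟩
  rcases Nat.eq_zero_or_pos k with rfl | hk0
  · rw [iteratedDeriv_zero, abs_le]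
    have := hR.lower z
    have := hR.upper z
    have := hR.Rmin_pos
    constructor <;> linarith
  · have h1 : iteratedDeriv k (fun s => R s - α) z = iteratedDeriv k R z := by
      have hR4 : ContDiffAt ℝ (k : ℕ) R z :=
        (hR.smooth.of_le (by exact_mod_cast hk4.le)).contDiffAt
      rw [iteratedDeriv_fun_sub hR4 contDiffAt_const, iteratedDeriv_const]
      simp [hk0.ne']
    rw [← h1]
    refine (hC k hk4.le z hz).trans ?_
    have : exp (-2 * z) ≤ 1 := exp_le_one_iff.2 (by linarith only [hz])
    nlinarith only [hC0, this]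

theorem five_sq (a b c d e : ℝ) :
    (a + b + c + d + e) ^ 2 ≤ 5 * (a ^ 2 + b ^ 2 + c ^ 2 + d ^ 2 + e ^ 2) := by
  have h : 5 * (a ^ 2 + b ^ 2 + c ^ 2 + d ^ 2 + e ^ 2) - (a + b + c + d + e) ^ 2
      = (a - b) ^ 2 + (a - c) ^ 2 + (a - d) ^ 2 + (a - e) ^ 2 + (b - c) ^ 2 + (b - d) ^ 2
        + (b - e) ^ 2 + (c - d) ^ 2 + (c - e) ^ 2 + (d - e) ^ 2 := by ring
  have h2 : 0 ≤ (a - b) ^ 2 + (a - c) ^ 2 + (a - d) ^ 2 + (a - e) ^ 2 + (b - c) ^ 2 + (b - d) ^ 2
        + (b - e) ^ 2 + (c - d) ^ 2 + (c - e) ^ 2 + (d - e) ^ 2 := by (clear * -; positivity)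
  rw [← h] at h2
  exact sub_nonneg.1 h2

theorem dens_le (q r a b c d : ℝ) :
    q ^ 2 * a ^ 2 + b ^ 2 + c ^ 2 + d ^ 2 + r ^ 2
      ≤ (q ^ 2 + r ^ 2 + 1) * (1 + (a ^ 2 + b ^ 2 + c ^ 2) + d ^ 2) := by
  have h : (q ^ 2 + r ^ 2 + 1) * (1 + (a ^ 2 + b ^ 2 + c ^ 2) + d ^ 2)
      - (q ^ 2 * a ^ 2 + b ^ 2 + c ^ 2 + d ^ 2 + r ^ 2)
      = q ^ 2 * (1 + b ^ 2 + c ^ 2 + d ^ 2) + r ^ 2 * (a ^ 2 + b ^ 2 + c ^ 2 + d ^ 2)
        + 1 + a ^ 2 := by ring
  have h2 : 0 ≤ q ^ 2 * (1 + b ^ 2 + c ^ 2 + d ^ 2) + r ^ 2 * (a ^ 2 + b ^ 2 + c ^ 2 + d ^ 2)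
        + 1 + a ^ 2 := by (clear * -; positivity)
  rw [← h] at h2
  exact sub_nonneg.1 h2

theorem cf_sq_le {CR ME q t x z : ℝ} (hCR : ∀ k < 4, |iteratedDeriv k R z| ≤ CR)
    (hME : ∀ k < 4, |cc χ k x| ≤ ME) (hx : 0 < x) (hx1 : x ≤ 1) (hq : 1 / x ≤ q) :
    cf χ R T φ t x z ^ 2 ≤ 80 * ME ^ 2 * (q ^ 2 + CR ^ 2 + 1) * Jd T φ t x := by
  have hME0 : 0 ≤ ME := (abs_nonneg _).trans (hME 0 (by norm_num))
  have hCR0 : 0 ≤ CR := (abs_nonneg _).trans (hCR 0 (by norm_num))
  have hq0 : 0 ≤ q := le_trans (by positivity) hq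
  set J0 := jt T φ 0 t x with hJ0
  set J1 := jt T φ 1 t x with hJ1
  set J2 := jt T φ 2 t x with hJ2
  set J3 := jt T φ 3 t x with hJ3
  have h0 : |J0 / x| ≤ q * |J0| := by
    rw [abs_div, abs_of_pos hx, div_eq_mul_one_div, mul_comm]
    (clear * - hq; gcongr)
  have hxx2 : |x * J2| ≤ |J2| := by
    rw [abs_mul, abs_of_pos hx]
    nlinarith only [hx1, abs_nonneg J2]
  have hxx3 : |x ^ 2 * J3| ≤ |J3| := by
    rw [abs_mul, abs_of_pos (by positivity)]
    have : x ^ 2 ≤ 1 := by nlinarith only [hx1, hx]
    linarith only [mul_nonneg (sub_nonneg.2 this) (sub_nonneg.2 (abs_nonneg J3))]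
  set S : ℝ := q * |J0| + |J1| + |J2| + |J3| + CR with hS
  have hS0 : 0 ≤ S := by (clear * - hq0 hCR0; positivity)
  have w0 : |hk T φ 0 t x - iteratedDeriv 0 R z| ≤ S := by
    have a := abs_sub (hk T φ 0 t x) (iteratedDeriv 0 R z)
    have b := hCR 0 (by norm_num)
    have c : |hk T φ 0 t x| ≤ q * |J0| := h0
    rw [hS]
    linarith only [a, b, c, abs_nonneg J1, abs_nonneg J2, abs_nonneg J3]
  have w1 : |hk T φ 1 t x - iteratedDeriv 1 R z| ≤ S := by
    have a := abs_sub (hk T φ 1 t x) (iteratedDeriv 1 R z)
    have b := hCR 1 (by norm_num)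
    have c : |hk T φ 1 t x| ≤ |J1| + q * |J0| := by
      have := abs_sub J1 (J0 / x)
      have e : hk T φ 1 t x = J1 - J0 / x := rfl
      rw [e]
      linarith only [h0, this]
    rw [hS]
    linarith only [a, b, c, abs_nonneg J2, abs_nonneg J3]
  have w2 : |hk T φ 2 t x - iteratedDeriv 2 R z| ≤ S := by
    have a := abs_sub (hk T φ 2 t x) (iteratedDeriv 2 R z)
    have b := hCR 2 (by norm_num)
    have c : |hk T φ 2 t x| ≤ |J2| + |J1| + q * |J0| := by
      have e1 := abs_sub (x * J2) J1
      have e2 := abs_add_le (x * J2 - J1) (J0 / x)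
      have e : hk T φ 2 t x = x * J2 - J1 + J0 / x := rfl
      rw [e]
      linarith only [h0, hxx2, e1, e2]
    rw [hS]
    linarith only [a, b, c, abs_nonneg J3]
  have w3 : |hk T φ 3 t x - iteratedDeriv 3 R z| ≤ S := by
    have a := abs_sub (hk T φ 3 t x) (iteratedDeriv 3 R z)
    have b := hCR 3 (by norm_num)
    have c : |hk T φ 3 t x| ≤ |J3| + |J1| + q * |J0| := by
      have e1 := abs_add_le (x ^ 2 * J3) J1
      have e2 := abs_sub (x ^ 2 * J3 + J1) (J0 / x)
      have e : hk T φ 3 t x = x ^ 2 * J3 + J1 - J0 / x := rfl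
      rw [e]
      linarith only [h0, hxx3, e1, e2]
    rw [hS]
    linarith only [a, b, c, abs_nonneg J2]
  have hterm : ∀ k < 4, |cc χ k x * (hk T φ k t x - iteratedDeriv k R z)| ≤ ME * S := by
    intro k hk4
    rw [abs_mul]
    have hw : |hk T φ k t x - iteratedDeriv k R z| ≤ S := by
      interval_cases k
      · exact w0
      · exact w1
      · exact w2
      · exact w3
    exact mul_le_mul (hME k hk4) hw (abs_nonneg _) hME0
  have hcf : |cf χ R T φ t x z| ≤ 4 * (ME * S) := by
    have t0 := abs_le.1 (hterm 0 (by norm_num))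
    have t1 := abs_le.1 (hterm 1 (by norm_num))
    have t2 := abs_le.1 (hterm 2 (by norm_num))
    have t3 := abs_le.1 (hterm 3 (by norm_num))
    unfold cf
    rw [abs_le]
    constructor
    · linarith only [t0, t1, t2, t3]
    · linarith only [t0, t1, t2, t3]
  have hcf2 : cf χ R T φ t x z ^ 2 ≤ 16 * ME ^ 2 * S ^ 2 := by
    have := sq_le_sq' (by linarith only [(abs_le.1 hcf).1]) (abs_le.1 hcf).2
    calc _ ≤ (4 * (ME * S)) ^ 2 := this
      _ = _ := by ring
  have hS2 : S ^ 2 ≤ 5 * (q ^ 2 + CR ^ 2 + 1) * Jd T φ t x := by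
    have e1 : S ^ 2 ≤ 5 * (q ^ 2 * J0 ^ 2 + J1 ^ 2 + J2 ^ 2 + J3 ^ 2 + CR ^ 2) := by
      have := five_sq (q * |J0|) |J1| |J2| |J3| CR
      rw [mul_pow, sq_abs, sq_abs, sq_abs, sq_abs] at this
      exact this
    have e2 : q ^ 2 * J0 ^ 2 + J1 ^ 2 + J2 ^ 2 + J3 ^ 2 + CR ^ 2
        ≤ (q ^ 2 + CR ^ 2 + 1) * Jd T φ t x := dens_le q CR J0 J1 J2 J3
    linarith only [e1, e2]
  calc _ ≤ 16 * ME ^ 2 * S ^ 2 := hcf2
    _ ≤ 16 * ME ^ 2 * (5 * (q ^ 2 + CR ^ 2 + 1) * Jd T φ t x) := by (clear * - hS2; gcongr)
    _ = _ := by ring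

/-- Derivatives of the slices. -/
theorem iter_jt (h : IsFlowU 8 T U₀ U φ) (hT : 0 < T) {t : ℝ} (ht : t ∈ Icc 0 T) (k : ℕ) {x : ℝ}
    (hx : x ∈ Ioo (0 : ℝ) 1) : iteratedDeriv k (φ t) x = jt T φ k t x :=
  iter_chain (F := fun k => jt T φ k t) (N := k) isOpen_Ioo
    (fun k _ _ hz => jt_der h hT ht k hz) k le_rfl x hx

theorem Ph_le {ρ : ℝ → ℝ} {ν : ℝ} (hR : Profile R Rmin α) {Kρ CR ME C u : ℝ}
    (hν : 0 < ν) (hρ0 : ∀ z, 0 < ρ z) (hKρ0 : 0 < Kρ)
    (hKρ : ∀ z, ρ z ≤ Kρ * exp (-(2 * ν) * z))
    (hCR : ∀ k < 4, ∀ z, 0 ≤ z → |iteratedDeriv k R z| ≤ CR)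
    (hME : ∀ k < 4, ∀ x ∈ Icc (X / 2) X, |cc χ k x| ≤ ME)
    (hX : 0 < X) (hX1 : X < 1) (hC : 0 ≤ C) (hz : 0 ≤ log (X / 2) + s / 2)
    (hu : u ∈ Icc (log (X / 2)) (log X))
    (hJ : jt T φ 0 (tt T s) (exp u) ∈ Icc 0 (1 + C)) :
    Ph χ R ρ T φ s u ≤ (exp (-2 * log (X / 2)) * Kρ * exp (-(2 * ν) * log (X / 2)) *
      (2 / X * (1 + C)) ^ 4 * (80 * ME ^ 2 * ((2 / X) ^ 2 + CR ^ 2 + 1)) / Rmin ^ 2) *
      (exp (-ν * s) * exp (-s)) * Jd T φ (tt T s) (exp u) := by
  have hX2 : (0 : ℝ) < X / 2 := by linarith only [hX]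
  have hxl : X / 2 ≤ exp u := by rw [← log_le_iff_le_exp hX2]; exact hu.1
  have hxu : exp u ≤ X := by rw [← le_log_iff_exp_le hX]; exact hu.2
  have hx0 : 0 < exp u := exp_pos u
  have hz0 : 0 ≤ u + s / 2 := by linarith only [hz, hu.1]
  have hq : 1 / exp u ≤ 2 / X := by
    rw [div_le_div_iff₀ hx0 hX]
    linarith only [hxl]
  have hRp : 0 < R (u + s / 2) := lt_of_lt_of_le hR.Rmin_pos (hR.lower _)
  have hRm := hR.Rmin_pos
  -- rewrite
  have e0 : Ph χ R ρ T φ s u = exp (-2 * (u + s / 2)) * ρ (u + s / 2) *
      hk T φ 0 (tt T s) (exp u) ^ 4 * cf χ R T φ (tt T s) (exp u) (u + s / 2) ^ 2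
        / R (u + s / 2) ^ 2 := by
    unfold Ph
    have : exp (2 * (u + s / 2)) * exp (-2 * (u + s / 2)) = 1 := by
      rw [← exp_add]; simp
    congr 1
    calc _ = (exp (2 * (u + s / 2)) * exp (-2 * (u + s / 2))) * exp (-2 * (u + s / 2)) *
          ρ (u + s / 2) * hk T φ 0 (tt T s) (exp u) ^ 4 *
            cf χ R T φ (tt T s) (exp u) (u + s / 2) ^ 2 := by ring
      _ = _ := by rw [this]; ring
  have b1 : exp (-2 * (u + s / 2)) ≤ exp (-2 * log (X / 2)) * exp (-s) := by
    rw [← exp_add]
    apply exp_le_exp.2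
    linarith only [hu.1]
  have b2 : ρ (u + s / 2) ≤ Kρ * exp (-(2 * ν) * log (X / 2)) * exp (-ν * s) := by
    refine (hKρ _).trans ?_
    rw [mul_assoc, ← exp_add]
    apply mul_le_mul_of_nonneg_left _ hKρ0.le
    apply exp_le_exp.2
    have : ν * log (X / 2) ≤ ν * u := mul_le_mul_of_nonneg_left hu.1 hν.le
    linarith only [this]
  have hH0 : 0 ≤ hk T φ 0 (tt T s) (exp u) := div_nonneg hJ.1 hx0.le
  have hH1 : hk T φ 0 (tt T s) (exp u) ≤ 2 / X * (1 + C) := by
    have e : hk T φ 0 (tt T s) (exp u) = 1 / exp u * jt T φ 0 (tt T s) (exp u) := by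
      show jt T φ 0 (tt T s) (exp u) / exp u = _
      ring
    rw [e]
    exact mul_le_mul hq hJ.2 hJ.1 (by positivity)
  have b3 : hk T φ 0 (tt T s) (exp u) ^ 4 ≤ (2 / X * (1 + C)) ^ 4 := by (clear * - hH0 hH1; gcongr)
  have b4 : cf χ R T φ (tt T s) (exp u) (u + s / 2) ^ 2
      ≤ 80 * ME ^ 2 * ((2 / X) ^ 2 + CR ^ 2 + 1) * Jd T φ (tt T s) (exp u) :=
    cf_sq_le (fun k hk4 => hCR k hk4 _ hz0) (fun k hk4 => hME k hk4 _ ⟨hxl, hxu⟩) hx0
      (hxu.trans hX1.le) hq
  have b5 : R (u + s / 2) ^ 2 ≥ Rmin ^ 2 := pow_le_pow_left₀ hRm.le (hR.lower _) 2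
  rw [e0]
  calc _ ≤ (exp (-2 * log (X / 2)) * exp (-s)) *
        (Kρ * exp (-(2 * ν) * log (X / 2)) * exp (-ν * s)) * (2 / X * (1 + C)) ^ 4 *
        (80 * ME ^ 2 * ((2 / X) ^ 2 + CR ^ 2 + 1) * Jd T φ (tt T s) (exp u)) / Rmin ^ 2 := by
        have hρp := (hρ0 (u + s / 2)).le
        have hJd : 0 ≤ Jd T φ (tt T s) (exp u) := by unfold Jd; (clear * -; positivity)
        (clear * - hKρ0 hX hC hJd b1 b2 hρp b3 b4 hRm b5; gcongr)
    _ = _ := by ring

theorem log_subst {g : ℝ → ℝ} (hX : 0 < X) (hg : ContinuousOn g (Icc (X / 2) X))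
    (hg0 : ∀ x ∈ Icc (X / 2) X, 0 ≤ g x) :
    ∫ u in (log (X / 2))..(log X), g (exp u) ≤ 2 / X * ∫ x in (X / 2)..X, g x := by
  have hX2 : (0 : ℝ) < X / 2 := by linarith
  have hAB : log (X / 2) ≤ log X := log_le_log hX2 (by linarith only [hX])
  have hmem : ∀ u ∈ Icc (log (X / 2)) (log X), exp u ∈ Icc (X / 2) X := by
    intro u hu
    exact ⟨by rw [← log_le_iff_le_exp hX2]; exact hu.1, by rw [← le_log_iff_exp_le hX]; exact hu.2⟩
  have hc : ContinuousOn (fun u => g (exp u)) (Icc (log (X / 2)) (log X)) :=
    hg.comp continuous_exp.continuousOn hmem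
  have h1 : ∫ u in (log (X / 2))..(log X), (g ∘ exp) u * exp u = ∫ x in (X / 2)..X, g x := by
    have := intervalIntegral.integral_comp_mul_deriv'' (f := exp) (f' := exp) (g := g)
      (a := log (X / 2)) (b := log X) continuous_exp.continuousOn
      (fun x _ => (hasDerivAt_exp x).hasDerivWithinAt) continuous_exp.continuousOn
      (hg.mono (by
        rintro _ ⟨u, hu, rfl⟩
        rw [uIcc_of_le hAB] at hu
        exact hmem u hu))
    rw [exp_log hX2, exp_log hX] at this
    exact this
  rw [← h1, ← intervalIntegral.integral_const_mul]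
  apply intervalIntegral.integral_mono_on hAB
  · apply ContinuousOn.intervalIntegrable
    rw [uIcc_of_le hAB]
    exact hc
  · apply ContinuousOn.intervalIntegrable
    rw [uIcc_of_le hAB]
    exact continuousOn_const.mul (hc.mul continuous_exp.continuousOn)
  · intro u hu
    have h2 := hmem u hu
    have h3 := hg0 _ h2
    have h4 : 1 ≤ 2 / X * exp u := by
      rw [div_mul_eq_mul_div, le_div_iff₀ hX]
      linarith only [h2.1]
    simp only [Function.comp_apply]
    nlinarith only [h3, h4]

end

end P264.B.Ecut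

namespace P264.B

open Ecut

/-- (D13) Time integral of the cut-off error. -/
theorem ecut_bound {R ρ χ : ℝ → ℝ} {Rmin α : ℝ} {ν κ₁ κ₂ : ℝ} (hρ : Weight ρ ν κ₁ κ₂)
    (hR : Profile R Rmin α) {X C : ℝ}
    (hC : 0 ≤ C) (hχ : Cutoff χ X) :
    ∃ K : ℝ, 0 ≤ K ∧ ∀ T : ℝ, 0 < T → T ≤ 1 → ∀ (U₀ : ℝ → ℝ) (U φ : ℝ → ℝ → ℝ),
      IsFlowU 8 T U₀ U φ → (∀ x ∈ Icc (X / 2) X, φ 0 x ≤ 1) →
      ∀ a b : ℝ, 0 < a → a ≤ X / 2 → X ≤ b → b < 1 → OuterCtl T a b C φ →
      ∀ s₀ σ : ℝ, exp (-s₀) = T → s₀ ≤ σ → 0 ≤ log (X / 2) + s₀ / 2 →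
        IntervalIntegrable (fun s => ecut2 χ R ρ φ T s) volume s₀ σ ∧
        ∫ s in s₀..σ, ecut2 χ R ρ φ T s ≤ K * exp (-ν * s₀) := by
  have hX := hχ.X_pos
  have hX1 := hχ.X_lt
  have hX2 : (0 : ℝ) < X / 2 := by linarith
  have hAB : log (X / 2) ≤ log X := log_le_log hX2 (by linarith only [hX])
  have hν := hρ.nu.1
  have hRm := hR.Rmin_pos
  obtain ⟨Kρ, hKρ0, hKρ⟩ := hρ.bounds
  obtain ⟨CR, hCR0, hCR⟩ := R_jets hR
  have hME : ∃ ME : ℝ, 0 ≤ ME ∧ ∀ k < 4, ∀ x ∈ Icc (X / 2) X, |cc χ k x| ≤ ME := by
    have h1 : ∀ k : ℕ, ∃ M : ℝ, 0 ≤ M ∧ ∀ x ∈ Icc (X / 2) X, |cc χ k x| ≤ M := by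
      intro k
      obtain ⟨M, hM⟩ := isCompact_Icc.exists_bound_of_continuousOn
        (s := Icc (X / 2) X) (cc_cont hχ.smooth k).continuousOn
      exact ⟨M, (norm_nonneg _).trans (hM X ⟨by linarith only [hX], le_rfl⟩), hM⟩
    choose M hM0 hM using h1
    refine ⟨M 0 + M 1 + M 2 + M 3, by linarith only [hM0 0, hM0 1, hM0 2, hM0 3], ?_⟩
    intro k hk4 x hx
    refine (hM k x hx).trans ?_
    interval_cases k
    · linarith only [hM0 1, hM0 2, hM0 3]
    · linarith only [hM0 0, hM0 2, hM0 3]
    · linarith only [hM0 0, hM0 1, hM0 3]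
    · linarith only [hM0 0, hM0 1, hM0 2]
  obtain ⟨ME, hME0, hME⟩ := hME
  set K₁ : ℝ := exp (-2 * log (X / 2)) * Kρ * exp (-(2 * ν) * log (X / 2)) *
      (2 / X * (1 + C)) ^ 4 * (80 * ME ^ 2 * ((2 / X) ^ 2 + CR ^ 2 + 1)) / Rmin ^ 2 with hK₁
  have hK₁0 : 0 ≤ K₁ := by (clear * - hKρ0 hX hC hRm; positivity)
  refine ⟨K₁ * (2 / X) * (1 + 2 * C), by (clear * - hKρ0 hX hC hRm; positivity), ?_⟩
  intro T hT hT1 U₀ U φ h hφ0 a b ha haX hXb hb hO s₀ σ hs₀ hσ hz₀
  have hab : a ≤ b := by linarith only [ha, haX, hXb]
  have hab01 : ∀ x ∈ Icc a b, x ∈ Ioo (0 : ℝ) 1 := fun x hx =>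
    ⟨lt_of_lt_of_le ha hx.1, lt_of_le_of_lt hx.2 hb⟩
  have habc : Icc a b ⊆ Icc (0 : ℝ) 1 := fun x hx => Ioo_subset_Icc_self (hab01 x hx)
  have hXab : Icc (X / 2) X ⊆ Icc a b := Icc_subset_Icc haX hXb
  have hs : ∀ s, s₀ ≤ s → exp (-s) ≤ T := fun s hs => by
    rw [← hs₀]; exact exp_le_exp.2 (by linarith only [hs])
  -- the third order term
  set Q : ℝ → ℝ := fun t => ∫ x in a..b, jt T φ 3 t x ^ 2 with hQ
  have hQc : ContinuousOn Q (Icc 0 T) := by
    apply P264.Cal.continuousOn_integral isCompact_Icc hab (f := fun t x => jt T φ 3 t x ^ 2)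
    exact ((jt_cont2 h hT 3).mono (prod_mono_right habc)).pow 2
  have hQ0 : ∀ t, 0 ≤ Q t := fun t =>
    intervalIntegral.integral_nonneg hab (fun x _ => sq_nonneg _)
  have hQint : ∫ t in (0 : ℝ)..T, Q t ≤ C := by
    refine le_trans (le_of_eq ?_) hO.h3
    apply intervalIntegral.integral_congr
    intro t ht
    rw [uIcc_of_le hT.le] at ht
    simp only [hQ]
    apply intervalIntegral.integral_congr
    intro x hx
    rw [uIcc_of_le hab] at hx
    simp only
    rw [iter_jt h hT ht 3 (hab01 x hx)]
  have hTq : T ^ (1 / 4 : ℝ) ≤ 1 := rpow_le_one hT.le hT1 (by norm_num)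
  -- bound on `φ`
  have hJb : ∀ t ∈ Icc 0 T, ∀ x ∈ Icc (X / 2) X, jt T φ 0 t x ∈ Icc 0 (1 + C) := by
    intro t ht x hx
    have e : jt T φ 0 t x = φ t x := rfl
    rw [e]
    refine ⟨((h.profile t ht).pos x (hab01 x (hXab hx))).le, ?_⟩
    have h1 := (abs_le.1 (hO.sup t ht x (hXab hx))).2
    have h2 := hφ0 x hx
    linarith only [mul_nonneg (sub_nonneg.2 hC) (sub_nonneg.2 hTq), mul_nonneg (mul_self_nonneg (1 : ℝ)) (sub_nonneg.2 h2), mul_nonneg (mul_self_nonneg (1 : ℝ)) (sub_nonneg.2 h1)]
  -- space integral
  have hJc : ∀ k, ∀ t ∈ Icc 0 T, ContinuousOn (fun x => jt T φ k t x) (Icc a b) :=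
    fun k t ht => (jt_cont1 h hT k ht).mono habc
  have hsp : ∀ t ∈ Icc 0 T, ∫ x in (X / 2)..X, Jd T φ t x ≤ 1 + C + Q t := by
    intro t ht
    have c0 := hJc 0 t ht
    have c1 := hJc 1 t ht
    have c2 := hJc 2 t ht
    have c3 := hJc 3 t ht
    have cA : ContinuousOn (fun x => jt T φ 0 t x ^ 2 + jt T φ 1 t x ^ 2 + jt T φ 2 t x ^ 2)
        (Icc a b) := ((c0.pow 2).add (c1.pow 2)).add (c2.pow 2)
    have cB : ContinuousOn (fun x => jt T φ 3 t x ^ 2) (Icc a b) := c3.pow 2
    have iA : IntervalIntegrable
        (fun x => jt T φ 0 t x ^ 2 + jt T φ 1 t x ^ 2 + jt T φ 2 t x ^ 2) volume a b := by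
      apply ContinuousOn.intervalIntegrable
      rw [uIcc_of_le hab]
      exact cA
    have iB : IntervalIntegrable (fun x => jt T φ 3 t x ^ 2) volume a b := by
      apply ContinuousOn.intervalIntegrable
      rw [uIcc_of_le hab]
      exact cB
    have iA' : IntervalIntegrable
        (fun x => jt T φ 0 t x ^ 2 + jt T φ 1 t x ^ 2 + jt T φ 2 t x ^ 2) volume (X / 2) X := by
      apply ContinuousOn.intervalIntegrable
      rw [uIcc_of_le (by linarith only [ha, haX])]
      exact cA.mono hXab
    have iB' : IntervalIntegrable (fun x => jt T φ 3 t x ^ 2) volume (X / 2) X := by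
      apply ContinuousOn.intervalIntegrable
      rw [uIcc_of_le (by linarith only [ha, haX])]
      exact cB.mono hXab
    have i1 : IntervalIntegrable (fun _ : ℝ => (1 : ℝ)) volume (X / 2) X :=
      intervalIntegrable_const
    have hA : ∫ x in (X / 2)..X, (jt T φ 0 t x ^ 2 + jt T φ 1 t x ^ 2 + jt T φ 2 t x ^ 2) ≤ C := by
      refine (intervalIntegral.integral_mono_interval haX (by linarith only [ha, haX]) hXb ?_ iA).trans ?_
      · exact Eventually.of_forall fun x => by (clear * -; positivity)
      · refine le_trans (le_of_eq ?_) (hO.h2 t ht)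
        apply intervalIntegral.integral_congr
        intro x hx
        rw [uIcc_of_le hab] at hx
        have e1 := iter_jt h hT ht 1 (hab01 x hx)
        have e2 := iter_jt h hT ht 2 (hab01 x hx)
        rw [iteratedDeriv_one] at e1
        simp only
        rw [e1, e2]
        rfl
    have hB : ∫ x in (X / 2)..X, jt T φ 3 t x ^ 2 ≤ Q t := by
      refine intervalIntegral.integral_mono_interval haX (by linarith only [ha, haX]) hXb ?_ iB
      exact Eventually.of_forall fun x => sq_nonneg _
    unfold Jd
    rw [intervalIntegral.integral_add (i1.add iA') iB', intervalIntegral.integral_add i1 iA']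
    have h1 : ∫ _ in (X / 2)..X, (1 : ℝ) = X / 2 := by
      rw [intervalIntegral.integral_const]
      simp
      ring
    rw [h1]
    linarith only [hB, hA, hX1]
  have hJd0 : ∀ t x, 0 ≤ Jd T φ t x := fun t x => by unfold Jd; (clear * -; positivity)
  have hJdc : ∀ t ∈ Icc 0 T, ContinuousOn (fun x => Jd T φ t x) (Icc (X / 2) X) := by
    intro t ht
    have c : ∀ k, ContinuousOn (fun x => jt T φ k t x) (Icc (X / 2) X) :=
      fun k => (hJc k t ht).mono hXab
    exact (continuousOn_const.add ((((c 0).pow 2).add ((c 1).pow 2)).add ((c 2).pow 2))).add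
      ((c 3).pow 2)
  -- continuity of `ecut2`
  have hPc := Ph_cont (σ := σ) hρ.smooth.continuous hR hχ h hT hs₀.le
  have hEc : ContinuousOn (fun s => ecut2 χ R ρ φ T s) (Icc s₀ σ) := by
    have h1 : ContinuousOn (fun s => ∫ u in (log (X / 2))..(log X), Ph χ R ρ T φ s u)
        (Icc s₀ σ) :=
      P264.Cal.continuousOn_integral isCompact_Icc hAB (f := fun s u => Ph χ R ρ T φ s u) hPc
    exact h1.congr fun s hs' => ecut2_eq hR hχ h (hs s hs'.1)
  -- pointwise bound
  have hpt : ∀ s ∈ Icc s₀ σ, ecut2 χ R ρ φ T s ≤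
      K₁ * (2 / X) * exp (-ν * s₀) * ((1 + C + Q (tt T s)) * exp (-s)) := by
    intro s hs'
    have hsT := hs s hs'.1
    have ht : tt T s ∈ Icc 0 T := tmem hsT
    rw [ecut2_eq hR hχ h hsT]
    have hzs : 0 ≤ log (X / 2) + s / 2 := by linarith only [hz₀, hs'.1]
    have hmem : ∀ u ∈ Icc (log (X / 2)) (log X), exp u ∈ Icc (X / 2) X := by
      intro u hu
      exact ⟨by rw [← log_le_iff_le_exp hX2]; exact hu.1,
        by rw [← le_log_iff_exp_le hX]; exact hu.2⟩
    have h1 : ∫ u in (log (X / 2))..(log X), Ph χ R ρ T φ s u ≤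
        ∫ u in (log (X / 2))..(log X),
          K₁ * (exp (-ν * s) * exp (-s)) * Jd T φ (tt T s) (exp u) := by
      apply intervalIntegral.integral_mono_on hAB
      · apply ContinuousOn.intervalIntegrable
        rw [uIcc_of_le hAB]
        exact hPc.comp (f := fun u : ℝ => ((s, u) : ℝ × ℝ)) (by fun_prop)
          (fun u hu => ⟨hs', hu⟩)
      · apply ContinuousOn.intervalIntegrable
        rw [uIcc_of_le hAB]
        exact continuousOn_const.mul
          ((hJdc _ ht).comp continuous_exp.continuousOn hmem)
      · intro u hu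
        exact Ph_le hR hν hρ.pos hKρ0 (fun z => (hKρ z).1) hCR hME hX hX1
          hC hzs hu (hJb _ ht _ (hmem u hu))
    rw [intervalIntegral.integral_const_mul] at h1
    have h2 := log_subst hX (hJdc _ ht) (fun x _ => hJd0 _ x)
    have h3 := hsp _ ht
    have h4 : ∫ u in (log (X / 2))..(log X), Jd T φ (tt T s) (exp u) ≤
        2 / X * (1 + C + Q (tt T s)) := h2.trans (by (clear * - h3 hX; gcongr))
    have h5 : exp (-ν * s) ≤ exp (-ν * s₀) := exp_le_exp.2 (by linarith only [mul_nonneg (le_of_lt (sub_pos.2 hν)) (sub_nonneg.2 hs'.1)])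
    have h6 := hQ0 (tt T s)
    calc _ ≤ _ := h1
      _ ≤ K₁ * (exp (-ν * s) * exp (-s)) * (2 / X * (1 + C + Q (tt T s))) := by (clear * - h4 hKρ0 hX hC hRm; gcongr)
      _ ≤ K₁ * (exp (-ν * s₀) * exp (-s)) * (2 / X * (1 + C + Q (tt T s))) := by (clear * - h5 hKρ0 hX hC hRm h6; gcongr)
      _ = _ := by ring
  have httc : Continuous (tt T) := by unfold tt; fun_prop
  have hmaps : MapsTo (tt T) (Icc s₀ σ) (Icc 0 T) := fun s hs' => tmem (hs s hs'.1)
  have hBc : ContinuousOn (fun s => (1 + C + Q (tt T s)) * exp (-s)) (Icc s₀ σ) :=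
    (continuousOn_const.add (hQc.comp httc.continuousOn hmaps)).mul (by fun_prop)
  have hEi : IntervalIntegrable (fun s => ecut2 χ R ρ φ T s) volume s₀ σ := by
    apply ContinuousOn.intervalIntegrable
    rw [uIcc_of_le hσ]
    exact hEc
  refine ⟨hEi, ?_⟩
  have hg : ContinuousOn (fun t => 1 + C + Q t) (Icc 0 T) := continuousOn_const.add hQc
  have hsub : ∫ s in s₀..σ, (1 + C + Q (tt T s)) * exp (-s) =
      ∫ t in (tt T s₀)..(tt T σ), (1 + C + Q t) := by
    have hder : ∀ s, HasDerivAt (tt T) (exp (-s)) s := by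
      intro s
      have h1 := ((hasDerivAt_id s).neg.exp).const_sub T
      unfold tt
      simpa only [Pi.neg_apply, id_eq, mul_neg, mul_one, neg_neg] using h1
    have := intervalIntegral.integral_comp_mul_deriv'' (f := tt T) (f' := fun s => exp (-s))
      (g := fun t => 1 + C + Q t) (a := s₀) (b := σ) httc.continuousOn
      (fun x _ => (hder x).hasDerivWithinAt) (by fun_prop)
      (hg.mono (by
        rintro _ ⟨u, hu, rfl⟩
        rw [uIcc_of_le hσ] at hu
        exact hmaps hu))
    exact this
  have htt0 : tt T s₀ = 0 := by unfold tt; rw [hs₀]; ring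
  have httσ : tt T σ ∈ Icc 0 T := hmaps ⟨hσ, le_rfl⟩
  have hgi : IntervalIntegrable (fun t => 1 + C + Q t) volume 0 T := by
    apply ContinuousOn.intervalIntegrable
    rw [uIcc_of_le hT.le]
    exact hg
  have hQi : IntervalIntegrable Q volume 0 T := by
    apply ContinuousOn.intervalIntegrable
    rw [uIcc_of_le hT.le]
    exact hQc
  have hlast : ∫ s in s₀..σ, (1 + C + Q (tt T s)) * exp (-s) ≤ 1 + 2 * C := by
    rw [hsub, htt0]
    have h1 : ∫ t in (0 : ℝ)..(tt T σ), (1 + C + Q t) ≤ ∫ t in (0 : ℝ)..T, (1 + C + Q t) := by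
      refine intervalIntegral.integral_mono_interval le_rfl httσ.1 httσ.2 ?_ hgi
      exact Eventually.of_forall fun t => by
        have := hQ0 t
        show 0 ≤ 1 + C + Q t
        linarith only [hC, this]
    refine h1.trans ?_
    rw [intervalIntegral.integral_add intervalIntegrable_const hQi,
      intervalIntegral.integral_const]
    simp only [sub_zero, smul_eq_mul]
    linarith only [mul_nonneg (sub_nonneg.2 hT1) (sub_nonneg.2 hC), hQint, hT1]
  calc ∫ s in s₀..σ, ecut2 χ R ρ φ T s
      ≤ ∫ s in s₀..σ, K₁ * (2 / X) * exp (-ν * s₀) * ((1 + C + Q (tt T s)) * exp (-s)) := by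
        apply intervalIntegral.integral_mono_on hσ hEi _ hpt
        apply ContinuousOn.intervalIntegrable
        rw [uIcc_of_le hσ]
        exact continuousOn_const.mul hBc
    _ = K₁ * (2 / X) * exp (-ν * s₀) * ∫ s in s₀..σ, (1 + C + Q (tt T s)) * exp (-s) := by
        rw [intervalIntegral.integral_const_mul]
    _ ≤ K₁ * (2 / X) * exp (-ν * s₀) * (1 + 2 * C) := by (clear * - hlast hKρ0 hX hC hRm; gcongr)
    _ = _ := by ring

end P264.B
end
end

section

section

/-!
# P264 / B / Far / OuterSup : (D11), the outer sup bound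
-/

open MeasureTheory Set Filter Real
open scoped ContDiff Topology

namespace P264.B

variable {R ρ χ : ℝ → ℝ} {Rmin α z₀ rf E₃ : ℝ}

/-- (D11) Outer sup bound. -/
theorem outer_sup (hR : Profile R Rmin α) {CR : ℝ}
    (hCR : ∀ z, 0 ≤ z → |R z - α| ≤ CR * exp (-2 * z)) {U₀ : ℝ → ℝ} {U φ : ℝ → ℝ → ℝ}
    {T a b C s₀ : ℝ} (hφ : IsFlowU 8 T U₀ U φ) (hs₀ : exp (-s₀) = T) (ha : √T ≤ a)
    (hb : b ≤ 1 / 4) (hO : OuterCtl T a b C φ)
    (hinit : ∀ x ∈ Icc a b, φ 0 x = x * R (log (x / √T)))
    {s z : ℝ} (hs : s₀ ≤ s) (hz : xx s z ∈ Icc a b) :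
    |WW R φ T s z| ≤ C * T ^ (1 / 4 : ℝ) / a + 2 * CR * T / a ^ 2 := by
  have hT : 0 < T := hs₀ ▸ exp_pos _
  have hsT : 0 < √T := Real.sqrt_pos.2 hT
  have ha0 : 0 < a := lt_of_lt_of_le hsT ha
  have hes : exp (-s) ≤ T := by rw [← hs₀]; exact exp_le_exp.2 (by linarith only [hs])
  have ht : tt T s ∈ Icc 0 T := ⟨by unfold tt; linarith only [hes], by unfold tt; linarith only [exp_pos (-s)]⟩
  set x := xx s z with hx
  have hx0 : 0 < x := lt_of_lt_of_le ha0 hz.1
  have hCR0 : 0 ≤ CR := by
    have := (abs_nonneg _).trans (hCR 0 le_rfl)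
    simpa only [ge_iff_le, mul_zero, exp_zero, mul_one] using this
  have h1 := hO.sup _ ht x hz
  have hCT : 0 ≤ C * T ^ (1 / 4 : ℝ) := (abs_nonneg _).trans h1
  have e1 : WW R φ T s z = (φ (tt T s) x - φ 0 x) / x
      + ((R (log (x / √T)) - α) - (R z - α)) := by
    have h2 : φ 0 x / x = R (log (x / √T)) := by
      rw [hinit x hz]; (clear * - hx0; field_simp)
    rw [WW, HH, ← hx, ← h2]
    ring
  have h3 : |(φ (tt T s) x - φ 0 x) / x| ≤ C * T ^ (1 / 4 : ℝ) / a := by
    rw [abs_div, abs_of_pos hx0]
    exact div_le_div₀ hCT h1 ha0 hz.1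
  have hxT : √T ≤ x := ha.trans hz.1
  have hxa : T / x ^ 2 ≤ T / a ^ 2 := by
    have := hz.1
    (clear * - hT ha0 this; gcongr)
  have h4 : |R (log (x / √T)) - α| ≤ CR * (T / a ^ 2) := by
    have h5 : 0 ≤ log (x / √T) := Real.log_nonneg ((one_le_div hsT).2 hxT)
    have h6 : exp (-2 * log (x / √T)) = T / x ^ 2 := by
      have hpos : 0 < x / √T := div_pos hx0 hsT
      rw [show -2 * log (x / √T) = -(log (x / √T) + log (x / √T)) by ring, exp_neg, exp_add,
        exp_log hpos]
      have : √T * √T = T := Real.mul_self_sqrt hT.le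
      field_simp
      nlinarith only [this]
    refine (hCR _ h5).trans ?_
    rw [h6]
    (clear * - hxa hCR0; gcongr)
  have h7 : |R z - α| ≤ CR * (T / a ^ 2) := by
    have hxz : x = exp (z - s / 2) := rfl
    have h8 : 0 ≤ z := by
      by_contra hneg
      push Not at hneg
      have h9 : x < √T := by
        calc x = exp (z - s / 2) := rfl
          _ < exp (-s / 2) := exp_lt_exp.2 (by linarith only [hneg])
          _ = √(exp (-s)) := by
            rw [Real.sqrt_eq_rpow, ← Real.exp_mul]; congr 1; ring
          _ ≤ √T := Real.sqrt_le_sqrt hes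
      linarith only [hxT, h9]
    have h10 : exp (-2 * z) = exp (-s) / x ^ 2 := by
      rw [hxz, ← exp_nat_mul, ← exp_sub]
      congr 1
      push_cast
      ring
    refine (hCR _ h8).trans ?_
    rw [h10]
    have h11 : exp (-s) / x ^ 2 ≤ T / x ^ 2 := by (clear * - hes hx0; gcongr)
    exact mul_le_mul_of_nonneg_left (h11.trans hxa) hCR0
  rw [e1]
  calc |(φ (tt T s) x - φ 0 x) / x + ((R (log (x / √T)) - α) - (R z - α))|
      ≤ |(φ (tt T s) x - φ 0 x) / x| + (|R (log (x / √T)) - α| + |R z - α|) :=
        (abs_add_le _ _).trans (by gcongr; exact abs_sub _ _)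
    _ ≤ C * T ^ (1 / 4 : ℝ) / a + (CR * (T / a ^ 2) + CR * (T / a ^ 2)) := by (clear * - h3 h4 h7; gcongr)
    _ = C * T ^ (1 / 4 : ℝ) / a + 2 * CR * T / a ^ 2 := by ring

end P264.B
end
end

section

section

/-!
# P264 / LC / Glue : continuity and right derivatives of piecewise polynomial functions (helper259)

`pwc M l k y` : cells `l`; the first cell is used to the left of its right end, the last cell is used
to the right of its left end (no tail function).
-/

open Set Filter
open scoped Topology

namespace P264.LC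

open P264.Prof

/-- piecewise polynomial function given by the cells `l` (last cell extended to the right). -/
noncomputable def pwc (M : ℕ) : List Cell → ℕ → ℝ → ℝ
  | [], _, _ => 0
  | [s], k, y => s.val M k y
  | s :: s' :: l, k, y => if 16 * y < ((s.C + s.H : ℤ) : ℝ) then s.val M k y
      else pwc M (s' :: l) k y

/-- continuity of consecutive cells. -/
def match0B : List Cell → Bool
  | [] => true
  | [_] => true
  | s :: s' :: l => decide (evI s.c 1 = evI s'.c (-1)) && match0B (s' :: l)

/-! ## right derivatives -/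

/-- `pwc` has right derivatives everywhere. -/
theorem pwc_right_deriv {M : ℕ} (l : List Cell) (r : ℤ) (h : Chain l r) (k : ℕ) (y : ℝ) :
    HasDerivWithinAt (pwc M l k) (pwc M l (k + 1) y) (Ici y) y := by
  induction l generalizing r with
  | nil =>
    simp only [pwc]
    exact hasDerivWithinAt_const _ _ _
  | cons s l ih =>
    obtain ⟨h1, h2, h3⟩ := h
    cases l with
    | nil =>
      have e : ∀ j, pwc M [s] j = s.val M j := by intro j; funext z; simp [pwc]
      rw [e, e]
      exact (s.hasDerivAt M h2 k y).hasDerivWithinAt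
    | cons s' l =>
      by_cases hc : 16 * y < ((s.C + s.H : ℤ) : ℝ)
      · have e : pwc M (s :: s' :: l) (k + 1) y = s.val M (k + 1) y := by rw [pwc, if_pos hc]
        rw [e]
        have hd := s.hasDerivAt M h2 k y
        refine (hd.congr_of_eventuallyEq ?_).hasDerivWithinAt
        have ho : IsOpen {z : ℝ | 16 * z < ((s.C + s.H : ℤ) : ℝ)} :=
          isOpen_lt (by fun_prop) continuous_const
        filter_upwards [ho.mem_nhds hc] with z hz
        rw [pwc, if_pos hz]
      · have hc' : ((s.C + s.H : ℤ) : ℝ) ≤ 16 * y := not_lt.1 hc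
        have e : ∀ j, ∀ z ∈ Ici y, pwc M (s :: s' :: l) j z = pwc M (s' :: l) j z := by
          intro j z hz
          have : y ≤ z := hz
          rw [pwc, if_neg (by push Not; linarith)]
        rw [e (k + 1) y self_mem_Ici]
        exact (ih (s.C + s.H) h3).congr (fun z hz => e k z hz) (e k y self_mem_Ici)

/-! ## continuity -/

/-- gluing two continuous functions -/
theorem continuous_glue {f g : ℝ → ℝ} {c : ℝ} (hf : Continuous f) (hg : Continuous g)
    (h : f (c / 16) = g (c / 16)) : Continuous fun y => if 16 * y < c then f y else g y := by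
  have e : (fun y : ℝ => if 16 * y < c then f y else g y)
      = fun y => if c / 16 ≤ y then g y else f y := by
    funext y
    by_cases hy : 16 * y < c
    · rw [if_pos hy, if_neg (by push Not; linarith)]
    · rw [if_neg hy, if_pos (by push Not at hy; linarith)]
  rw [e]
  refine Continuous.if_le hg hf continuous_const continuous_id fun y hy => ?_
  have : y = c / 16 := hy.symm
  rw [this, h]

theorem val_right (M : ℕ) (s : Cell) (hH : 0 < s.H) :
    s.val M 0 (((s.C + s.H : ℤ) : ℝ) / 16) = (evI s.c 1 : ℝ) / 2 ^ M := by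
  have hH' : (s.H : ℝ) ≠ 0 := by exact_mod_cast hH.ne'
  have e1 : ((16 : ℝ) * (((s.C + s.H : ℤ) : ℝ) / 16) - s.C) / s.H = ((1 : ℤ) : ℝ) := by
    push_cast; field_simp; ring
  simp only [Cell.val, pow_zero, one_mul, pderk]
  rw [e1, ev_intCast]

theorem val_left (M : ℕ) (s : Cell) (hH : 0 < s.H) :
    s.val M 0 (((s.C - s.H : ℤ) : ℝ) / 16) = (evI s.c (-1) : ℝ) / 2 ^ M := by
  have hH' : (s.H : ℝ) ≠ 0 := by exact_mod_cast hH.ne'
  have e1 : ((16 : ℝ) * (((s.C - s.H : ℤ) : ℝ) / 16) - s.C) / s.H = ((-1 : ℤ) : ℝ) := by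
    push_cast; field_simp; ring
  simp only [Cell.val, pow_zero, one_mul, pderk]
  rw [e1, ev_intCast]

theorem pwc_cons_left (M : ℕ) (s : Cell) (l : List Cell) (hH : 0 < s.H) (k : ℕ) :
    pwc M (s :: l) k (((s.C - s.H : ℤ) : ℝ) / 16) = s.val M k (((s.C - s.H : ℤ) : ℝ) / 16) := by
  cases l with
  | nil => simp [pwc]
  | cons s' l =>
    rw [pwc, if_pos]
    have : (0 : ℝ) < s.H := by exact_mod_cast hH
    push_cast
    linarith only [this]

/-- `pwc M l 0` is continuous if consecutive cells match. -/
theorem pwc_continuous {M : ℕ} (l : List Cell) (r : ℤ) (h : Chain l r)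
    (hm : match0B l = true) : Continuous (pwc M l 0) := by
  induction l generalizing r with
  | nil =>
    have : pwc M [] 0 = fun _ => 0 := by funext z; simp [pwc]
    rw [this]
    exact continuous_const
  | cons s l ih =>
    obtain ⟨h1, h2, h3⟩ := h
    have hs : Continuous (s.val M 0) :=
      continuous_iff_continuousAt.2 fun y => (s.hasDerivAt M h2 0 y).continuousAt
    cases l with
    | nil =>
      have e : pwc M [s] 0 = s.val M 0 := by funext z; simp [pwc]
      rw [e]
      exact hs
    | cons s' l =>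
      simp only [match0B, Bool.and_eq_true, decide_eq_true_eq] at hm
      obtain ⟨h4, h5, h6⟩ := h3
      have e : pwc M (s :: s' :: l) 0 = fun y => if 16 * y < ((s.C + s.H : ℤ) : ℝ)
          then s.val M 0 y else pwc M (s' :: l) 0 y := by
        funext y; rw [pwc]
      rw [e]
      refine continuous_glue hs (ih (s.C + s.H) ⟨h4, h5, h6⟩ hm.2) ?_
      rw [val_right M s h2, ← h4, pwc_cons_left M s' l h5, val_left M s' h5, hm.1]

/-! ## locating the cell -/

/-- every point of the chain lies in a cell -/
theorem exists_index (l : List Cell) (r : ℤ) (h : Chain l r) (y : ℝ) (hy : (r : ℝ) ≤ 16 * y)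
    (hy2 : 16 * y < ((rend l r : ℤ) : ℝ)) :
    ∃ (n : ℕ) (s : Cell), l[n]? = some s ∧ 0 < s.H ∧ ((s.C - s.H : ℤ) : ℝ) ≤ 16 * y ∧
      16 * y < ((s.C + s.H : ℤ) : ℝ) := by
  induction l generalizing r with
  | nil =>
    simp only [rend] at hy2
    exact absurd hy (not_le.2 hy2)
  | cons s l ih =>
    obtain ⟨h1, h2, h3⟩ := h
    by_cases hc : 16 * y < ((s.C + s.H : ℤ) : ℝ)
    · exact ⟨0, s, by simp, h2, by rw [h1]; exact hy, hc⟩
    · obtain ⟨n, s', e1, e0, e2, e3⟩ := ih (s.C + s.H) h3 (not_lt.1 hc) hy2
      exact ⟨n + 1, s', by simpa only [List.getElem?_cons_succ] using e1, e0, e2, e3⟩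

theorem chain_le {l : List Cell} {r : ℤ} (h : Chain l r) {n : ℕ} {s : Cell}
    (hs : l[n]? = some s) : r ≤ s.C - s.H ∧ 0 < s.H := by
  induction l generalizing r n with
  | nil => simp at hs
  | cons s' l ih =>
    obtain ⟨h1, h2, h3⟩ := h
    cases n with
    | zero =>
      have : s' = s := by simpa using hs
      subst this
      exact ⟨h1.ge, h2⟩
    | succ n =>
      have := ih h3 (n := n) (by simpa only [List.getElem?_cons_succ] using hs)
      exact ⟨by omega, this.2⟩

/-- the value of `pw` at a point of the `n`-th cell -/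
theorem pw_at {M : ℕ} {T : ℕ → ℝ → ℝ} {l : List Cell} {r : ℤ} (h : Chain l r) {n : ℕ} {s : Cell}
    (hs : l[n]? = some s) {y : ℝ} (h1 : ((s.C - s.H : ℤ) : ℝ) ≤ 16 * y)
    (h2 : 16 * y < ((s.C + s.H : ℤ) : ℝ)) (k : ℕ) : pw M T l k y = s.val M k y := by
  induction l generalizing r n with
  | nil => simp at hs
  | cons s' l ih =>
    obtain ⟨e1, e2, e3⟩ := h
    cases n with
    | zero =>
      have : s' = s := by simpa using hs
      subst this
      rw [pw, if_pos h2]
    | succ n =>
      have hs' : l[n]? = some s := by simpa only [List.getElem?_cons_succ] using hs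
      have := (chain_le e3 hs').1
      have h3 : ((s'.C + s'.H : ℤ) : ℝ) ≤ 16 * y := le_trans (by exact_mod_cast this) h1
      rw [pw, if_neg (not_lt.2 h3)]
      exact ih e3 hs'

/-- the value of `pwc` at a point of the `n`-th cell -/
theorem pwc_at {M : ℕ} {l : List Cell} {r : ℤ} (h : Chain l r) {n : ℕ} {s : Cell}
    (hs : l[n]? = some s) {y : ℝ} (h1 : ((s.C - s.H : ℤ) : ℝ) ≤ 16 * y)
    (h2 : 16 * y < ((s.C + s.H : ℤ) : ℝ)) (k : ℕ) : pwc M l k y = s.val M k y := by
  induction l generalizing r n with
  | nil => simp at hs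
  | cons s' l ih =>
    obtain ⟨e1, e2, e3⟩ := h
    cases l with
    | nil =>
      cases n with
      | zero =>
        have : s' = s := by simpa using hs
        subst this
        simp [pwc]
      | succ n => simp at hs
    | cons s'' l =>
      cases n with
      | zero =>
        have : s' = s := by simpa only [List.length_cons, lt_add_iff_pos_left, add_pos_iff, Order.lt_two_iff, zero_le, or_true,     getElem?_pos, List.getElem_cons_zero, Option.some.injEq] using hs
        subst this
        rw [pwc, if_pos h2]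
      | succ n =>
        have hs' : (s'' :: l)[n]? = some s := by simpa only [List.getElem?_cons_succ] using hs
        have := (chain_le e3 hs').1
        have h3 : ((s'.C + s'.H : ℤ) : ℝ) ≤ 16 * y := le_trans (by exact_mod_cast this) h1
        rw [pwc, if_neg (not_lt.2 h3)]
        exact ih e3 hs'

/-- the value of `pwc` at the right end of the chain -/
theorem pwc_end {M : ℕ} {l : List Cell} {r : ℤ} (h : Chain l r) (hne : l ≠ []) (k : ℕ) :
    pwc M l k (((rend l r : ℤ) : ℝ) / 16) = (l.getLast hne).val M k (((rend l r : ℤ) : ℝ) / 16) := by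
  induction l generalizing r with
  | nil => exact absurd rfl hne
  | cons s l ih =>
    obtain ⟨e1, e2, e3⟩ := h
    cases l with
    | nil => simp [pwc]
    | cons s' l =>
      have hle : s.C + s.H ≤ rend (s' :: l) (s.C + s.H) := le_rend _ _ e3
      have h3 : ((s.C + s.H : ℤ) : ℝ) ≤ 16 * (((rend (s :: s' :: l) r : ℤ) : ℝ) / 16) := by
        have : ((s.C + s.H : ℤ) : ℝ) ≤ ((rend (s' :: l) (s.C + s.H) : ℤ) : ℝ) := by
          exact_mod_cast hle
        simp only [rend] at this ⊢
        linarith only [this]
      rw [pwc, if_neg (not_lt.2 h3)]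
      have := ih e3 (by simp)
      simp only [rend] at this ⊢
      rw [this]
      simp

/-- the cell variable lies in `[-1,1]` -/
theorem cellvar_le {s : Cell} (hH : 0 < s.H) {y : ℝ} (h1 : ((s.C - s.H : ℤ) : ℝ) ≤ 16 * y)
    (h2 : 16 * y ≤ ((s.C + s.H : ℤ) : ℝ)) : |(16 * y - s.C) / s.H| ≤ 1 := by
  have hH' : (0 : ℝ) < s.H := by exact_mod_cast hH
  push_cast at h1 h2
  rw [abs_le]
  constructor
  · rw [le_div_iff₀ hH']; linarith
  · rw [div_le_iff₀ hH']; linarith

end P264.LC
end
end

section

section

/-!
# P264 / B / Far / FarSup : sup bound in the far region from the block energies (D6)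
-/

open MeasureTheory Set Filter Real
open scoped ContDiff Topology

namespace P264.B

/-- `L¹` bound on an interval of length `2/3` from the weighted block energy. -/
theorem block_L1 {g : ℝ → ℝ} (hg : Continuous g) {M a : ℝ} (hM : 0 ≤ M)
    (hb : ∫ u in (-1 : ℝ)..1, (1 - u ^ 2) ^ 4 * g (a + 1 / 3 + u) ^ 2 ≤ M) :
    ∫ x in a..(a + 2 / 3), |g x| ≤ 517 / 500 * √M := by
  set I := ∫ x in a..(a + 2 / 3), |g x| with hI
  have hcabs : Continuous fun x => |g x| := hg.abs
  have hI0 : 0 ≤ I := intervalIntegral.integral_nonneg (by linarith only []) fun x _ => abs_nonneg _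
  -- the square
  have hsq : ∫ x in a..(a + 2 / 3), g x ^ 2 ≤ 6561 / 4096 * M := by
    have h1 : ∫ x in a..(a + 2 / 3), g x ^ 2
        = ∫ u in (-(1 / 3) : ℝ)..(1 / 3), g (a + 1 / 3 + u) ^ 2 := by
      rw [intervalIntegral.integral_comp_add_left (fun x => g x ^ 2) (a + 1 / 3)]
      congr 1 <;> ring
    rw [h1]
    have hc2 : Continuous fun u : ℝ => g (a + 1 / 3 + u) ^ 2 := by fun_prop
    have hc3 : Continuous fun u : ℝ => (1 - u ^ 2) ^ 4 * g (a + 1 / 3 + u) ^ 2 := by fun_prop
    have h2 : ∫ u in (-(1 / 3) : ℝ)..(1 / 3), g (a + 1 / 3 + u) ^ 2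
        ≤ ∫ u in (-(1 / 3) : ℝ)..(1 / 3), 6561 / 4096 * ((1 - u ^ 2) ^ 4 * g (a + 1 / 3 + u) ^ 2) := by
      apply intervalIntegral.integral_mono_on (by norm_num) (hc2.intervalIntegrable _ _)
        ((hc3.const_mul _).intervalIntegrable _ _)
      intro u hu
      have hu2 : u ^ 2 ≤ 1 / 9 := by
        have := hu.1; have := hu.2
        (clear g hg M a hM hb I hI hcabs hI0 h1 hc2 hc3; nlinarith)
      have hp : (8 / 9 : ℝ) ^ 4 ≤ (1 - u ^ 2) ^ 4 := by
        gcongr
        linarith only [hu2]
      have hp2 : 1 ≤ 6561 / 4096 * (1 - u ^ 2) ^ 4 := by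
        have : (8 / 9 : ℝ) ^ 4 = 4096 / 6561 := by norm_num
        rw [this] at hp
        linarith only [hp]
      have hg2 : 0 ≤ g (a + 1 / 3 + u) ^ 2 := sq_nonneg _
      calc g (a + 1 / 3 + u) ^ 2 = 1 * g (a + 1 / 3 + u) ^ 2 := by ring
        _ ≤ (6561 / 4096 * (1 - u ^ 2) ^ 4) * g (a + 1 / 3 + u) ^ 2 :=
            mul_le_mul_of_nonneg_right hp2 hg2
        _ = _ := by ring
    have h3 : ∫ u in (-(1 / 3) : ℝ)..(1 / 3), (1 - u ^ 2) ^ 4 * g (a + 1 / 3 + u) ^ 2
        ≤ ∫ u in (-1 : ℝ)..1, (1 - u ^ 2) ^ 4 * g (a + 1 / 3 + u) ^ 2 := by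
      apply intervalIntegral.integral_mono_interval (by norm_num) (by norm_num) (by norm_num)
      · refine Eventually.of_forall fun u => ?_
        show (0 : ℝ) ≤ (1 - u ^ 2) ^ 4 * g (a + 1 / 3 + u) ^ 2
        have : 0 ≤ (1 - u ^ 2) ^ 4 := by (clear * -; positivity)
        (clear * -; positivity)
      · exact hc3.intervalIntegrable _ _
    rw [intervalIntegral.integral_const_mul] at h2
    linarith only [hb, h2, h3]
  -- Cauchy-Schwarz
  have hcs : I ^ 2 ≤ 2 / 3 * ∫ x in a..(a + 2 / 3), g x ^ 2 := by
    have h0 : 0 ≤ ∫ x in a..(a + 2 / 3), (|g x| - 3 / 2 * I) ^ 2 :=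
      intervalIntegral.integral_nonneg (by linarith only []) fun x _ => sq_nonneg _
    have h1 : ∫ x in a..(a + 2 / 3), (|g x| - 3 / 2 * I) ^ 2
        = (∫ x in a..(a + 2 / 3), g x ^ 2) - 3 / 2 * I ^ 2 := by
      have he : ∀ x, (|g x| - 3 / 2 * I) ^ 2 = g x ^ 2 - 3 * I * |g x| + 9 / 4 * I ^ 2 := by
        intro x
        rw [← sq_abs (g x)]
        ring
      simp only [he]
      have hi1 : IntervalIntegrable (fun x => g x ^ 2) volume a (a + 2 / 3) :=
        (hg.pow 2).intervalIntegrable _ _
      have hi2 : IntervalIntegrable (fun x => 3 * I * |g x|) volume a (a + 2 / 3) :=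
        (hcabs.const_mul _).intervalIntegrable _ _
      rw [intervalIntegral.integral_add (hi1.sub hi2) intervalIntegrable_const,
        intervalIntegral.integral_sub hi1 hi2, intervalIntegral.integral_const_mul,
        intervalIntegral.integral_const, ← hI, smul_eq_mul]
      ring
    rw [h1] at h0
    linarith only [h0]
  have hfin : I ^ 2 ≤ (517 / 500 * √M) ^ 2 := by
    rw [mul_pow, Real.sq_sqrt hM]
    have : 2 / 3 * (6561 / 4096 * M) ≤ (517 / 500) ^ 2 * M := by nlinarith only [hM]
    linarith only [hM, hsq, hcs]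
  exact abs_le_of_sq_le_sq' hfin (by (clear * -; positivity)) |>.2

/-- Local Green formula for `(D-1)(D-2)`. -/
theorem green_local {G : ℝ → ℝ} (hG : ContDiff ℝ 4 G) (z b : ℝ) :
    G z = (∫ t in z..b, (exp (z - t) - exp (2 * (z - t))) * om G t)
      - ((exp (z - b) - exp (2 * (z - b))) * iteratedDeriv 1 G b
        + (-2 * exp (z - b) + exp (2 * (z - b))) * G b) := by
  have hder : ∀ t ∈ uIcc z b, HasDerivAt (fun t => (exp (z - t) - exp (2 * (z - t))) *
      iteratedDeriv 1 G t + (-2 * exp (z - t) + exp (2 * (z - t))) * G t)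
      ((exp (z - t) - exp (2 * (z - t))) * om G t) t := by
    intro t _
    have e1 : HasDerivAt (fun t => exp (z - t)) (-exp (z - t)) t := by
      have := ((hasDerivAt_id t).const_sub z).exp
      simpa using this
    have e2 : HasDerivAt (fun t => exp (2 * (z - t))) (-2 * exp (2 * (z - t))) t := by
      have := (((hasDerivAt_id t).const_sub z).const_mul 2).exp
      refine this.congr_deriv ?_
      simp only [id]
      ring
    have g1 := hasDerivAt_iter (n := 4) hG (k := 1) (by norm_num) t
    have g0 := hasDerivAt_iter (n := 4) hG (k := 0) (by norm_num) t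
    rw [iteratedDeriv_zero] at g0
    have := ((e1.sub e2).mul g1).add (((e1.const_mul (-2)).add e2).mul g0)
    refine this.congr_deriv ?_
    simp only [om, Nat.reduceAdd, zero_add, Pi.add_apply, Pi.sub_apply]
    ring
  have hcont : Continuous (om G) := (om_contDiff hG).continuous
  have hint : IntervalIntegrable (fun t => (exp (z - t) - exp (2 * (z - t))) * om G t)
      volume z b := by
    apply Continuous.intervalIntegrable
    fun_prop
  have h := intervalIntegral.integral_eq_sub_of_hasDerivAt hder hint
  rw [h]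
  simp only [sub_self, mul_zero, exp_zero, zero_mul]
  ring

/-- The abstract form of (D6). -/
theorem far_sup_abs {G : ℝ → ℝ} (hG : ContDiff ℝ 4 G) {z Z₁ M ηo : ℝ} (hM : 0 ≤ M)
    (hηo : 0 ≤ ηo) (hz : z ≤ Z₁)
    (hblock : ∀ a, z ≤ a → a ≤ Z₁ + 1 →
      ∫ u in (-1 : ℝ)..1, (1 - u ^ 2) ^ 4 * om G (a + u) ^ 2 ≤ M)
    (hout : ∀ a, Z₁ ≤ a → a ≤ Z₁ + 1 → |G a| ≤ ηo) :
    |G z| ≤ 22 / 10 * √M + 100 * ηo := by
  have hcont : Continuous (om G) := (om_contDiff hG).continuous
  -- a good right end
  obtain ⟨b, hb, hslope⟩ : ∃ b ∈ Ioo Z₁ (Z₁ + 2 / 3),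
      deriv G b = (G (Z₁ + 2 / 3) - G Z₁) / (Z₁ + 2 / 3 - Z₁) :=
    exists_deriv_eq_slope G (by linarith only []) hG.continuous.continuousOn
      ((hG.differentiable (by norm_num)).differentiableOn)
  have hbz : z ≤ b := hz.trans hb.1.le
  have hd : |iteratedDeriv 1 G b| ≤ 3 * ηo := by
    rw [iteratedDeriv_one, hslope]
    have h1 := hout Z₁ le_rfl (by linarith only [])
    have h2 := hout (Z₁ + 2 / 3) (by linarith only []) (by linarith only [])
    have h3 : (G (Z₁ + 2 / 3) - G Z₁) / (Z₁ + 2 / 3 - Z₁)
        = 3 / 2 * (G (Z₁ + 2 / 3) - G Z₁) := by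
      rw [show Z₁ + 2 / 3 - Z₁ = 2 / 3 by ring]; ring
    rw [h3, abs_mul, abs_of_pos (by norm_num : (0 : ℝ) < 3 / 2)]
    have h4 : |G (Z₁ + 2 / 3) - G Z₁| ≤ |G (Z₁ + 2 / 3)| + |G Z₁| := abs_sub _ _
    linarith only [h1, h2, h4]
  have hGb : |G b| ≤ ηo := hout b hb.1.le (by linarith only [hb.2])
  -- the tail integral
  have hJ : ∀ n : ℕ, ∀ a, z ≤ a → b - a ≤ 2 / 3 * n →
      ∫ t in a..b, exp (a - t) * |om G t| ≤ 22 / 10 * √M := by
    intro n
    induction n with
    | zero =>
      intro a _ h
      have hab : b ≤ a := by simpa only [CharP.cast_eq_zero, mul_zero, tsub_le_iff_right, zero_add] using h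
      rw [intervalIntegral.integral_symm]
      have : 0 ≤ ∫ t in b..a, exp (a - t) * |om G t| :=
        intervalIntegral.integral_nonneg hab fun t _ => by (clear * -; positivity)
      have : 0 ≤ √M := Real.sqrt_nonneg _
      (clear hG Z₁ ηo hM hηo hz hblock hout hcont hb hslope hbz hd hGb; linarith)
    | succ n ih =>
      intro a hza h
      rcases le_total b a with hab | hab
      · rw [intervalIntegral.integral_symm]
        have : 0 ≤ ∫ t in b..a, exp (a - t) * |om G t| :=
          intervalIntegral.integral_nonneg hab fun t _ => by (clear * -; positivity)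
        have : 0 ≤ √M := Real.sqrt_nonneg _
        (clear hG z Z₁ ηo hM hηo hz hblock hout hcont hb hslope hbz hd hGb n ih hza h; linarith)
      have hci : ∀ c d : ℝ, IntervalIntegrable (fun t => exp (a - t) * |om G t|) volume c d := by
        intro c d
        apply Continuous.intervalIntegrable
        fun_prop
      rw [← intervalIntegral.integral_add_adjacent_intervals (hci a (a + 2 / 3))
        (hci (a + 2 / 3) b)]
      have h1 : ∫ t in a..(a + 2 / 3), exp (a - t) * |om G t|
          ≤ ∫ t in a..(a + 2 / 3), |om G t| := by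
        apply intervalIntegral.integral_mono_on (by linarith only []) (hci _ _)
          (hcont.abs.intervalIntegrable _ _)
        intro t ht
        have : exp (a - t) ≤ 1 := exp_le_one_iff.2 (by linarith only [ht.1])
        have h0 : 0 ≤ |om G t| := abs_nonneg _
        linarith only [mul_nonneg (sub_nonneg.2 this) (sub_nonneg.2 h0)]
      have h2 : ∫ t in a..(a + 2 / 3), |om G t| ≤ 517 / 500 * √M := by
        refine block_L1 hcont hM ?_
        exact hblock (a + 1 / 3) (by linarith only [hza]) (by linarith only [hab, hb.2])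
      have h3 : ∫ t in (a + 2 / 3)..b, exp (a - t) * |om G t|
          = exp (-(2 / 3)) * ∫ t in (a + 2 / 3)..b, exp (a + 2 / 3 - t) * |om G t| := by
        rw [← intervalIntegral.integral_const_mul]
        congr 1
        ext t
        rw [← mul_assoc, ← exp_add]
        congr 2
        ring
      have h4 := ih (a + 2 / 3) (by linarith only [hza]) (by push_cast at h; linarith only [h])
      have h5 : exp (-(2 / 3) : ℝ) ≤ 9 / 17 := by
        rw [exp_neg]
        have := quadratic_le_exp_of_nonneg (x := 2 / 3) (by norm_num)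
        rw [inv_le_comm₀ (exp_pos _) (by norm_num)]
        norm_num at this ⊢
        linarith only [this]
      have h6 : 0 < exp (-(2 / 3) : ℝ) := exp_pos _
      have hsM : 0 ≤ √M := Real.sqrt_nonneg _
      rw [h3]
      have h7 : exp (-(2 / 3)) * ∫ t in (a + 2 / 3)..b, exp (a + 2 / 3 - t) * |om G t|
          ≤ 9 / 17 * (22 / 10 * √M) := by
        calc exp (-(2 / 3)) * ∫ t in (a + 2 / 3)..b, exp (a + 2 / 3 - t) * |om G t|
            ≤ exp (-(2 / 3)) * (22 / 10 * √M) := mul_le_mul_of_nonneg_left h4 h6.le
          _ ≤ 9 / 17 * (22 / 10 * √M) := mul_le_mul_of_nonneg_right h5 (by (clear * -; positivity))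
      linarith only [h7, hsM, h2, h1]
  obtain ⟨n, hn⟩ := exists_nat_ge ((b - z) * (3 / 2))
  have hJz := hJ n z le_rfl (by linarith only [hn])
  -- Green formula
  rw [green_local hG z b]
  have hE1 : exp (z - b) ≤ 1 := exp_le_one_iff.2 (by linarith only [hbz])
  have hE0 : 0 < exp (z - b) := exp_pos _
  have hE2 : exp (2 * (z - b)) = exp (z - b) ^ 2 := by
    rw [← exp_nat_mul]; push_cast; rfl
  have hmain : |∫ t in z..b, (exp (z - t) - exp (2 * (z - t))) * om G t|
      ≤ ∫ t in z..b, exp (z - t) * |om G t| := by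
    refine (intervalIntegral.abs_integral_le_integral_abs hbz).trans ?_
    apply intervalIntegral.integral_mono_on hbz
    · apply Continuous.intervalIntegrable
      fun_prop
    · apply Continuous.intervalIntegrable
      fun_prop
    · intro t ht
      rw [abs_mul]
      have h1 : exp (z - t) ≤ 1 := exp_le_one_iff.2 (by linarith only [ht.1])
      have h0 : 0 < exp (z - t) := exp_pos _
      have h2 : exp (2 * (z - t)) = exp (z - t) ^ 2 := by
        rw [← exp_nat_mul]; push_cast; rfl
      have h3 : |exp (z - t) - exp (2 * (z - t))| ≤ exp (z - t) := by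
        rw [h2, abs_le]
        constructor <;> nlinarith only [h0, h1]
      exact mul_le_mul_of_nonneg_right h3 (abs_nonneg _)
  have hbd : |(exp (z - b) - exp (2 * (z - b))) * iteratedDeriv 1 G b
        + (-2 * exp (z - b) + exp (2 * (z - b))) * G b| ≤ 4 * ηo := by
    refine (abs_add_le _ _).trans ?_
    rw [abs_mul, abs_mul, hE2]
    have h1 : |exp (z - b) - exp (z - b) ^ 2| ≤ 1 := by
      rw [abs_le]; constructor <;> nlinarith only [hE1, hE0]
    have h2 : |-2 * exp (z - b) + exp (z - b) ^ 2| ≤ 1 := by
      rw [abs_le]; constructor <;> nlinarith only [hE0, hE1]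
    have h3 : |exp (z - b) - exp (z - b) ^ 2| * |iteratedDeriv 1 G b| ≤ 1 * (3 * ηo) :=
      mul_le_mul h1 hd (abs_nonneg _) (by norm_num)
    have h4 : |-2 * exp (z - b) + exp (z - b) ^ 2| * |G b| ≤ 1 * ηo :=
      mul_le_mul h2 hGb (abs_nonneg _) (by norm_num)
    linarith only [h3, h4]
  refine (abs_sub _ _).trans ?_
  linarith only [hbd, hmain, hJz, hηo]

/-- `G` is `C⁴`. -/
theorem GG_contDiff_far {R χ : ℝ → ℝ} {Rmin α : ℝ} (hR : Profile R Rmin α) {U₀ : ℝ → ℝ}
    {U φ : ℝ → ℝ → ℝ} {T X s : ℝ}
    (hφ : IsFlowU 8 T U₀ U φ) (hχ : Cutoff χ X) (hs : exp (-s) ≤ T) :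
    ContDiff ℝ 4 (GG χ R φ T s) := by
  have ht : tt T s ∈ Icc (0 : ℝ) T := by
    unfold tt
    constructor
    · linarith
    · have := exp_pos (-s); linarith only [this]
  have hprof := (hφ.profile _ ht).smooth
  have hxx : ContDiff ℝ 4 (fun z => xx s z) := by
    unfold xx
    exact (contDiff_id.sub contDiff_const).exp
  have hχ4 : ContDiff ℝ 4 χ := hχ.smooth.of_le (WithTop.coe_le_coe.2 le_top : ((4 : ℕ∞) : ℕ∞ω) ≤ ∞)
  rw [contDiff_iff_contDiffAt]
  intro z
  rcases lt_or_ge (xx s z) 1 with h1 | h1
  · have hx0 : 0 < xx s z := exp_pos _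
    have hφx : ContDiffAt ℝ 4 (φ (tt T s)) (xx s z) :=
      (hprof.contDiffAt (Icc_mem_nhds hx0 h1)).of_le (WithTop.coe_le_coe.2 le_top : ((4 : ℕ∞) : ℕ∞ω) ≤ ∞)
    have hcomp : ContDiffAt ℝ 4 (fun z => φ (tt T s) (xx s z)) z :=
      ContDiffAt.comp z hφx hxx.contDiffAt
    have hχc : ContDiffAt ℝ 4 (fun z => χ (xx s z)) z := (hχ4.comp hxx).contDiffAt
    have hH : ContDiffAt ℝ 4 (fun z => φ (tt T s) (xx s z) / xx s z) z :=
      hcomp.div hxx.contDiffAt hx0.ne'
    exact hχc.mul (hH.sub hR.smooth.contDiffAt)
  · have hX : X < xx s z := lt_of_lt_of_le hχ.X_lt h1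
    have hev : (fun z => GG χ R φ T s z) =ᶠ[𝓝 z] fun _ => 0 := by
      have hopen : ∀ᶠ y in 𝓝 z, X < xx s y :=
        (hxx.continuous.tendsto z).eventually (lt_mem_nhds hX)
      filter_upwards [hopen] with y hy
      simp [GG, hχ.zero _ hy.le]
    exact (contDiffAt_const (c := (0 : ℝ))).congr_of_eventuallyEq hev

variable {R χ : ℝ → ℝ} {Rmin α : ℝ}

/-- (D6) Sup bound in the far region from the block energies and the outer sup bound. -/
theorem far_sup (hR : Profile R Rmin α) {U₀ : ℝ → ℝ} {U φ : ℝ → ℝ → ℝ} {T X c₁ s M ηo : ℝ}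
    (hφ : IsFlowU 8 T U₀ U φ) (hχ : Cutoff χ X) (hs : exp (-s) ≤ T)
    (hc₁ : exp (c₁ + 1) ≤ X / 2) (hM : 0 ≤ M) (hηo : 0 ≤ ηo)
    {z : ℝ} (hz : z ≤ c₁ - 1 + s / 2)
    (hblock : ∀ c, z - s / 2 ≤ c → c ≤ c₁ → blockE χ R φ T c s ≤ M)
    (hout : ∀ z', c₁ - 1 + s / 2 ≤ z' → z' ≤ c₁ + s / 2 → |WW R φ T s z'| ≤ ηo) :
    |WW R φ T s z| ≤ 22 / 10 * √M + 100 * ηo := by
  have hGW : ∀ z' ≤ c₁ + s / 2, GG χ R φ T s z' = WW R φ T s z' := by
    intro z' hz'
    have : xx s z' ≤ X / 2 := by
      unfold xx
      refine le_trans (exp_le_exp.2 ?_) hc₁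
      linarith only [hz']
    simp [GG, hχ.one _ this]
  rw [← hGW z (by linarith only [hz])]
  refine far_sup_abs (GG_contDiff_far hR hφ hχ hs) (Z₁ := c₁ - 1 + s / 2) hM hηo hz ?_ ?_
  · intro a ha1 ha2
    have := hblock (a - s / 2) (by linarith only [ha1]) (by linarith only [ha2])
    unfold blockE at this
    simpa only [sub_add_cancel] using this
  · intro a ha1 ha2
    rw [hGW a (by linarith only [ha2])]
    exact hout a ha1 (by linarith only [ha2])

end P264.B
end
end

section

section

section

section

open scoped ENNReal Topology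
open MeasureTheory Filter

noncomputable section

namespace Vale.Agent.P264

set_option linter.unusedSectionVars false
set_option linter.unusedVariables false

section Coeff

variable {n : ℕ} {Γ : Type*} [AddCommGroup Γ] [Countable Γ] (q : Γ →+ Cn n)

/-- small initial data in a good weight -/
structure Small (w : Γ → ℝ≥0∞) (a0 : Γ → ℂ) : Prop where
  good : Good q w
  small : ∑' ξ, w ξ * ‖a0 ξ‖ₑ ≤ ENNReal.ofReal (1 / 200)

variable {q}

end Coeff

end Vale.Agent.P264
end
end
end
end
end

section

section

section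

section

open scoped ENNReal ContDiff Topology
open MeasureTheory Set Filter

noncomputable section

namespace Vale.Agent.P264

set_option linter.unusedSectionVars false
set_option linter.unusedVariables false

section Sg

variable {Γ : Type*}
variable {F G H : Type*} [NormedAddCommGroup F] [NormedSpace ℝ F] [NormedAddCommGroup G]
  [NormedSpace ℝ G] [NormedAddCommGroup H] [NormedSpace ℝ H]

end Sg

section Deriv

variable {Γ : Type*} [AddCommGroup Γ]
variable {F G H : Type*} [NormedAddCommGroup F] [NormedSpace ℝ F] [NormedAddCommGroup G]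
  [NormedSpace ℝ G] [NormedAddCommGroup H] [NormedSpace ℝ H] [CompleteSpace F]
  {W : ℕ → Γ → ℝ}

end Deriv

section CL

variable {n : ℕ} {Γ : Type*} [AddCommGroup Γ] {q : Γ →+ Cn n} {p : Γ → ℝ} {W : ℕ → Γ → ℝ}

end CL

end Vale.Agent.P264
end
end
end
end
end

section

section

section

section

open scoped ENNReal ContDiff Topology ComplexOrder
open MeasureTheory Set Filter

noncomputable section

namespace Vale.Agent.P264

set_option linter.unusedSectionVars false
set_option linter.unusedVariables false

section Sums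

end Sums

section Latt

variable {n : ℕ} {ι : Type} [Fintype ι] (b : Module.Basis ι ℝ (Cn n))

end Latt

end Vale.Agent.P264
end
end
end
end
end

section

section

section

section

open scoped ENNReal ContDiff Topology ComplexOrder
open MeasureTheory Set Filter

noncomputable section

namespace Vale.Agent.P264

set_option linter.unusedSectionVars false
set_option linter.unusedVariables false

section Four

variable {n : ℕ} {ι : Type} [Fintype ι] {b : Module.Basis ι ℝ (Cn n)}

end Four

end Vale.Agent.P264
end
end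
end
end
end

section

section

/-! # P264 / Geo / PosC : complex conjugation -/

open scoped ContDiff ComplexOrder
open TopologicalSpace (Opens)
open MeasureTheory Set

noncomputable section

namespace P264.Geo

variable {m : ℕ}

theorem posC_smooth (F : SA m) :
    ContDiffOn ℝ ∞ (fun Z => (starRingEnd ℂ) (Sm.fn F Z)) (Om m) :=
  Complex.conjCLE.contDiff.comp_contDiffOn (Sm.fn_smooth F)

/-- complex conjugation of smooth functions -/
def posCj (F : SA m) : SA m := Sm.mk (fun Z => (starRingEnd ℂ) (Sm.fn F Z)) (posC_smooth F)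

theorem posCj_fn (F : SA m) {Z : Cm m} (hZ : Z ∈ Om m) :
    Sm.fn (posCj F) Z = (starRingEnd ℂ) (Sm.fn F Z) := Sm.mk_fn _ _ hZ

theorem posCj_add (F G : SA m) : posCj (F + G) = posCj F + posCj G := by
  apply Sm.ext'
  intro Z hZ
  rw [Sm.fn_add _ _ hZ, posCj_fn _ hZ, posCj_fn _ hZ, posCj_fn _ hZ, Sm.fn_add _ _ hZ, map_add]

theorem posCj_sub (F G : SA m) : posCj (F - G) = posCj F - posCj G := by
  apply Sm.ext'
  intro Z hZ
  rw [Sm.fn_sub _ _ hZ, posCj_fn _ hZ, posCj_fn _ hZ, posCj_fn _ hZ, Sm.fn_sub _ _ hZ, map_sub]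

theorem posCj_mul (F G : SA m) : posCj (F * G) = posCj F * posCj G := by
  apply Sm.ext'
  intro Z hZ
  rw [Sm.fn_mul _ _ hZ, posCj_fn _ hZ, posCj_fn _ hZ, posCj_fn _ hZ, Sm.fn_mul _ _ hZ, map_mul]

theorem posCj_smul (c : ℂ) (F : SA m) : posCj (c • F) = (starRingEnd ℂ) c • posCj F := by
  apply Sm.ext'
  intro Z hZ
  rw [Sm.fn_smul _ _ hZ, posCj_fn _ hZ, posCj_fn _ hZ, Sm.fn_smul _ _ hZ, map_mul]

theorem posCj_one : posCj (1 : SA m) = 1 := by
  apply Sm.ext'
  intro Z hZ
  rw [posCj_fn _ hZ, Sm.fn_one hZ, map_one]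

theorem posCj_zero : posCj (0 : SA m) = 0 := by
  apply Sm.ext'
  intro Z hZ
  rw [posCj_fn _ hZ, Sm.fn_zero hZ, map_zero]

/-- complex conjugation as a ring homomorphism -/
def posCh : SA m →+* SA m where
  toFun := posCj
  map_one' := posCj_one
  map_mul' := posCj_mul
  map_zero' := posCj_zero
  map_add' := posCj_add

theorem posCj_D (v : Cm m) (F : SA m) : Sm.D v (posCj F) = posCj (Sm.D v F) := by
  apply Sm.ext'
  intro Z hZ
  rw [posCj, Sm.D_mk v _ _ hZ, posCj_fn _ hZ, Sm.D_fn v F hZ]
  have h2 := Complex.conjCLE.hasFDerivAt.comp Z (Sm.differentiableAt F hZ).hasFDerivAt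
  have h3 : HasFDerivAt (fun Z => (starRingEnd ℂ) (Sm.fn F Z))
      ((Complex.conjCLE : ℂ →L[ℝ] ℂ).comp (fderiv ℝ (Sm.fn F) Z)) Z := h2
  rw [h3.fderiv]
  rfl

theorem posCj_dA (a : Fin m) (F : SA m) : dA a (posCj F) = posCj (dbA a F) := by
  simp only [dA, dbA, Derivation.smul_apply, Derivation.sub_apply, Derivation.add_apply,
    posCj_D, posCj_smul, posCj_add]
  simp only [map_div₀, map_one, map_ofNat, Complex.conj_I, neg_smul, ← sub_eq_add_neg]

theorem posCj_dbA (a : Fin m) (F : SA m) : dbA a (posCj F) = posCj (dA a F) := by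
  simp only [dA, dbA, Derivation.smul_apply, Derivation.sub_apply, Derivation.add_apply,
    posCj_D, posCj_smul, posCj_sub]
  simp only [map_div₀, map_one, map_ofNat, Complex.conj_I, neg_smul, sub_neg_eq_add]

theorem posCj_ofR (f : Cm m → ℝ) (hf : ContDiffOn ℝ ∞ f (Om m)) :
    posCj (Sm.ofR f hf) = Sm.ofR f hf := by
  apply Sm.ext'
  intro Z hZ
  rw [posCj_fn _ hZ, Sm.ofR_fn _ _ hZ, Complex.conj_ofReal]

theorem posCj_HA {h : Cm m → ℝ} (hh : IsCone m h) (a b : Fin m) :
    posCj (HA hh a b) = HA hh b a := by
  simp only [HA, Matrix.of_apply]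
  rw [← posCj_dbA, ← posCj_dA, hA, posCj_ofR, dbA_dA_comm]

theorem posCj_inv {h : Cm m → ℝ} (hh : IsCone m h) (a b : Fin m) :
    posCj ((HA hh)⁻¹ a b) = (HA hh)⁻¹ b a := by
  have h1 : HA hh * (HA hh)⁻¹ = 1 := Matrix.mul_nonsing_inv _ (isUnit_det_HA hh)
  have h2 : (HA hh).map posCh * ((HA hh)⁻¹).map posCh = 1 := by
    rw [← Matrix.map_mul, h1]
    exact Matrix.map_one _ (map_zero _) (map_one _)
  have h3 : (HA hh).map posCh = (HA hh).transpose := by
    ext1 i j
    exact posCj_HA hh i j
  rw [h3] at h2
  have h4 := Matrix.inv_eq_right_inv h2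
  rw [← Matrix.transpose_nonsing_inv] at h4
  exact (congrFun (congrFun h4 a) b).symm

/-- Complex conjugation: for real `f`, `∂_a (Σ P_{bc} f_b)` is the conjugate of
`∂̄_a (Σ P_{cb} f_{b̄})`. -/
theorem conj_B {h : Cm m → ℝ} (hh : IsCone m h) (f : Cm m → ℝ) (hf : ContDiffOn ℝ ∞ f (Om m))
    (a c : Fin m) {Z : Cm m} (hZ : Z ≠ 0) :
    Sm.fn (dA a (∑ b, (coneOf hh).P b c * dA b (Sm.ofR f hf))) Z =
      (starRingEnd ℂ) (Sm.fn (dbA a (∑ b, (coneOf hh).P c b * dbA b (Sm.ofR f hf))) Z) := by
  have h1 : ∑ b, (coneOf hh).P b c * dA b (Sm.ofR f hf)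
      = posCj (∑ b, (coneOf hh).P c b * dbA b (Sm.ofR f hf)) := by
    have h2 : posCj (∑ b, (coneOf hh).P c b * dbA b (Sm.ofR f hf))
        = ∑ b, posCj ((coneOf hh).P c b * dbA b (Sm.ofR f hf)) :=
      map_sum (posCh (m := m)) _ _
    rw [h2]
    refine Finset.sum_congr rfl fun b _ => ?_
    rw [posCj_mul, ← posCj_dA, posCj_ofR]
    congr 1
    exact (posCj_inv hh b c).symm
  rw [h1, posCj_dA, posCj_fn _ hZ]

end P264.Geo

end
end
end

section

section

/-! # P264 / Geo / Pos : pointwise positivity of the Bochner term -/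

open scoped ContDiff ComplexOrder
open TopologicalSpace (Opens)
open MeasureTheory Set

noncomputable section

namespace P264.Geo

variable {m : ℕ}

/-- `B2 v ≥ 0` pointwise for real `v` of degree `0`. -/
theorem B2_nonneg {h : Cm m → ℝ} (hh : IsCone m h) (w : Cm m → ℝ) (hw : ContDiffOn ℝ ∞ w (Om m))
    (hE : (coneOf hh).E (Sm.ofR w hw) = 0) (hEb : (coneOf hh).Eb (Sm.ofR w hw) = 0) {Z : Cm m}
    (hZ : Z ≠ 0) : 0 ≤ Sm.fn ((coneOf hh).B2 (Sm.ofR w hw)) Z := by
  have hZ' : Z ∈ Om m := hZ
  have hf : ContDiffOn ℝ ∞ (fun Z => h Z * w Z) (Om m) := hh.smooth.mul hw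
  have e1 : (coneOf hh).h * Sm.ofR w hw = Sm.ofR (fun Z => h Z * w Z) hf := by
    apply Sm.ext'
    intro x hx
    have e2 : (coneOf hh).h = Sm.ofR h hh.smooth := rfl
    rw [e2, Sm.fn_mul _ _ hx, Sm.ofR_fn _ _ hx, Sm.ofR_fn _ _ hx, Sm.ofR_fn _ _ hx]
    push_cast
    ring
  set F : SA m := Sm.ofR (fun Z => h Z * w Z) hf with hF
  let B : Matrix (Fin m) (Fin m) ℂ := Matrix.of fun a c =>
    Sm.fn (dbA c (∑ b, (coneOf hh).P a b * dbA b F)) Z
  have key : Sm.fn ((coneOf hh).B2 (Sm.ofR w hw)) Z =
      ∑ a, ∑ c, B a c * (starRingEnd ℂ) (B c a) := by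
    rw [B2_eq (coneOf hh) _ hE hEb, e1, Sm.fn_sum _ _ hZ']
    refine Finset.sum_congr rfl fun a _ => ?_
    rw [Sm.fn_sum _ _ hZ']
    refine Finset.sum_congr rfl fun c _ => ?_
    rw [Sm.fn_mul _ _ hZ']
    have e3 := conj_B hh (fun Z => h Z * w Z) hf a c hZ
    exact congrArg (fun t => B a c * t) e3
  rw [key]
  refine trace_nonneg (cHess h Z) B (hh.posDef Z hZ) ?_
  have e4 : ∀ e c, ((cHess h Z).transpose * B) e c =
      Sm.fn (∑ a, (coneOf hh).hs (coneOf hh).h a e *
        (coneOf hh).db c (∑ b, (coneOf hh).P a b * (coneOf hh).db b F)) Z := by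
    intro e c
    rw [Matrix.mul_apply, Sm.fn_sum _ _ hZ']
    refine Finset.sum_congr rfl fun a _ => ?_
    rw [Sm.fn_mul _ _ hZ', Matrix.transpose_apply, ← fn_HA hh a e hZ]
    rfl
  ext e c
  rw [Matrix.transpose_apply, e4, e4, B_symm]

end P264.Geo

end
end
end

section

section

/-! # P264 / Geo / AlgJ3 : Bochner formula -/

noncomputable section

namespace P264.Geo.Cone

variable {m : ℕ} {A : Type} [CommRing A] [Algebra ℂ A] (C : Cone m A)

theorem algJ3_sum_hb_omb (v : A) (hv : C.E v = 0) :
    ∑ c, C.db c C.h * C.omb v c = 0 := by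
  have h1 : ∑ c, C.db c C.h * C.omb v c
      = C.h * ∑ b, (∑ c, C.db c C.h * C.P b c) * C.d b v := by
    simp only [omb, Finset.mul_sum, Finset.sum_mul]
    rw [Finset.sum_comm]
    refine Finset.sum_congr rfl fun b _ => Finset.sum_congr rfl fun c _ => ?_
    ring
  rw [h1]
  simp only [C.hbP]
  rw [← C.E_apply, hv, mul_zero]

theorem algJ3_sum_hb_domb (v : A) (hv : C.E v = 0) (a : Fin m) :
    ∑ c, C.db c C.h * C.d a (C.omb v c) = -(C.h * C.d a v) := by
  have h1 : ∑ c, C.db c C.h * C.d a (C.omb v c)
      = C.d a (∑ c, C.db c C.h * C.omb v c)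
        - ∑ c, C.d a (C.db c C.h) * C.omb v c := by
    rw [map_sum, ← Finset.sum_sub_distrib]
    refine Finset.sum_congr rfl fun c _ => ?_
    rw [Derivation.leibniz]
    simp only [smul_eq_mul]
    ring
  have h2 : ∑ c, C.d a (C.db c C.h) * C.omb v c
      = C.h * ∑ b, (∑ c, C.d a (C.db c C.h) * C.P b c) * C.d b v := by
    simp only [omb, Finset.mul_sum, Finset.sum_mul]
    rw [Finset.sum_comm]
    refine Finset.sum_congr rfl fun b _ => Finset.sum_congr rfl fun c _ => ?_
    ring
  rw [h1, h2, C.algJ3_sum_hb_omb v hv, map_zero]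
  simp only [C.PH1]
  simp only [ite_mul, one_mul, zero_mul, Finset.sum_ite_eq, Finset.mem_univ, ↓reduceIte, zero_sub]

theorem algJ3_om_d (v G : A) :
    ∑ a, C.om v a * C.d a G = C.h * C.ip G v := by
  simp only [om, ip, Finset.mul_sum, Finset.sum_mul]
  refine Finset.sum_congr rfl fun b _ => Finset.sum_congr rfl fun c _ => ?_
  ring

theorem algJ3_div_omb (v : A) (hv : C.E v = 0) :
    ∑ c, (C.db c (C.omb v c) + C.omb v c * C.db c C.L) = C.h * C.lap v := by
  have h1 : ∀ c, C.db c (C.omb v c) = (∑ b, C.db c C.h * C.P b c * C.d b v)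
      + C.h * (∑ b, C.db c (C.P b c) * C.d b v) + C.h * ∑ b, C.P b c * C.hs v b c := by
    intro c
    rw [omb, Derivation.leibniz, map_sum]
    simp only [smul_eq_mul, Derivation.leibniz, C.dbc, Finset.mul_sum, Finset.sum_mul,
      ← Finset.sum_add_distrib, hs]
    refine Finset.sum_congr rfl fun b _ => ?_
    ring
  have h2 : ∑ c, ∑ b, C.db c C.h * C.P b c * C.d b v = 0 := by
    rw [Finset.sum_comm]
    simp only [← Finset.sum_mul, C.hbP]
    rw [← C.E_apply, hv]
  have h3 : ∑ c, ∑ b, C.db c (C.P b c) * C.d b v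
      = -∑ c, ∑ b, C.P b c * C.db c C.L * C.d b v := by
    rw [Finset.sum_comm, Finset.sum_comm (f := fun c b => C.P b c * C.db c C.L * C.d b v)]
    simp only [← Finset.sum_mul, C.piolab]
    simp only [neg_mul, Finset.sum_neg_distrib]
  have h4 : ∑ c, ∑ b, C.P b c * C.hs v b c = C.lap v := by
    rw [lap, Finset.sum_comm]
  have h5 : ∑ c, C.omb v c * C.db c C.L
      = C.h * ∑ c, ∑ b, C.P b c * C.db c C.L * C.d b v := by
    simp only [omb, Finset.mul_sum, Finset.sum_mul]
    refine Finset.sum_congr rfl fun b _ => Finset.sum_congr rfl fun c _ => ?_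
    ring
  rw [Finset.sum_add_distrib, h5]
  simp only [h1, Finset.sum_add_distrib, ← Finset.mul_sum]
  rw [h2, h3, h4]
  ring

theorem algJ3_LT (v : A) :
    ∑ a, ∑ c, C.om v a * (C.omb v c * C.d a (C.db c C.L))
      = C.h ^ 2 * (∑ c, ∑ e, C.T c e * (C.d c v * C.db e v)) := by
  have h1 : C.h ^ 2 * (∑ c, ∑ e, C.T c e * (C.d c v * C.db e v))
      = ∑ c, ∑ e, ∑ a, ∑ b, C.h ^ 2 * (C.P a e * C.P c b * C.hs C.L a b
          * (C.d c v * C.db e v)) := by
    simp only [T, Finset.sum_mul, Finset.mul_sum]
  have h2 : ∑ a, ∑ c, C.om v a * (C.omb v c * C.d a (C.db c C.L))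
      = ∑ a, ∑ b, ∑ c, ∑ e, C.h ^ 2 * (C.P a e * C.P c b * C.hs C.L a b
          * (C.d c v * C.db e v)) := by
    simp only [om, omb, hs, Finset.mul_sum, Finset.sum_mul]
    refine Finset.sum_congr rfl fun a _ => Finset.sum_congr rfl fun b _ => ?_
    refine Finset.sum_congr rfl fun c _ => Finset.sum_congr rfl fun e _ => ?_
    ring
  rw [h1, h2]
  calc ∑ a, ∑ b, ∑ c, ∑ e, C.h ^ 2 * (C.P a e * C.P c b * C.hs C.L a b
          * (C.d c v * C.db e v))
      = ∑ a, ∑ c, ∑ b, ∑ e, C.h ^ 2 * (C.P a e * C.P c b * C.hs C.L a b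
          * (C.d c v * C.db e v)) := by
        refine Finset.sum_congr rfl fun a _ => ?_
        rw [Finset.sum_comm]
    _ = ∑ c, ∑ a, ∑ b, ∑ e, C.h ^ 2 * (C.P a e * C.P c b * C.hs C.L a b
          * (C.d c v * C.db e v)) := by
        rw [Finset.sum_comm]
    _ = ∑ c, ∑ a, ∑ e, ∑ b, C.h ^ 2 * (C.P a e * C.P c b * C.hs C.L a b
          * (C.d c v * C.db e v)) := by
        refine Finset.sum_congr rfl fun c _ => Finset.sum_congr rfl fun a _ => ?_
        rw [Finset.sum_comm]
    _ = ∑ c, ∑ e, ∑ a, ∑ b, C.h ^ 2 * (C.P a e * C.P c b * C.hs C.L a b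
          * (C.d c v * C.db e v)) := by
        refine Finset.sum_congr rfl fun c _ => ?_
        rw [Finset.sum_comm]

theorem algJ3_E_hip (v : A) (hv : C.E v = 0) : C.E (C.h * C.ip v v) = 0 := by
  have hh : C.E C.h = C.h := by rw [C.E_apply, C.Eh]
  have h1 : ∀ a b, C.E (C.P a b * (C.d a v * C.db b v))
      = -(C.P a b * (C.d a v * C.db b v)) := by
    intro a b
    rw [Derivation.leibniz, Derivation.leibniz, C.E_P, C.E_d, C.E_db, hv]
    simp only [map_zero, smul_eq_mul]
    ring
  have h2 : C.E (C.ip v v) = -C.ip v v := by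
    rw [ip, map_sum]
    simp only [map_sum, h1, Finset.sum_neg_distrib]
  rw [Derivation.leibniz, hh, h2]
  simp only [smul_eq_mul]
  ring

/-- Bochner formula. -/
theorem J0_B2 (J : C.Func) (v : A) (hv : C.E v = 0) (hv' : C.Eb v = 0) :
    J.J0 (C.B2 v * C.μ) = J.J0 ((C.h * C.lap v) ^ 2 * C.μ)
      + J.J0 (C.h ^ 2 * (∑ c, ∑ e, C.T c e * (C.d c v * C.db e v)) * C.μ)
      - (m : ℂ) * J.J0 (C.h * C.ip v v * C.μ) := by
  have hB : C.B2 v * C.μ = (∑ a, ∑ c, C.db c (C.om v a * C.d a (C.omb v c) * C.μ))
      - ∑ a, C.om v a * (∑ c, C.db c (C.d a (C.omb v c) * C.μ)) := by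
    rw [← Finset.sum_sub_distrib, B2, Finset.sum_mul]
    refine Finset.sum_congr rfl fun a _ => ?_
    rw [Finset.mul_sum, ← Finset.sum_sub_distrib, Finset.sum_mul]
    refine Finset.sum_congr rfl fun c _ => ?_
    rw [mul_assoc (C.om v a), Derivation.leibniz (C.db c) (C.om v a)]
    simp only [smul_eq_mul]
    ring
  have hb : J.J0 (∑ a, ∑ c, C.db c (C.om v a * C.d a (C.omb v c) * C.μ))
      = -((m : ℂ) * J.J0 (C.h * C.ip v v * C.μ)) := by
    have e1 : J.J0 (∑ a, ∑ c, C.db c (C.om v a * C.d a (C.omb v c) * C.μ))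
        = -J.J1 (∑ a, ∑ c, C.db c C.h * (C.om v a * C.d a (C.omb v c) * C.μ)) := by
      simp only [map_sum, J.ibpb, Finset.sum_neg_distrib]
    have e2 : ∑ a, ∑ c, C.db c C.h * (C.om v a * C.d a (C.omb v c) * C.μ)
        = -(C.h * (C.h * C.ip v v) * C.μ) := by
      have e3 : ∀ a, ∑ c, C.db c C.h * (C.om v a * C.d a (C.omb v c) * C.μ)
          = C.om v a * C.μ * ∑ c, C.db c C.h * C.d a (C.omb v c) := by
        intro a
        rw [Finset.mul_sum]
        refine Finset.sum_congr rfl fun c _ => ?_
        ring
      simp only [e3, C.algJ3_sum_hb_domb v hv]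
      rw [← C.algJ3_om_d v v, Finset.mul_sum, Finset.sum_mul, ← Finset.sum_neg_distrib]
      refine Finset.sum_congr rfl fun c _ => ?_
      ring
    rw [e1, e2, map_neg, neg_neg, C.J1_h J _ (C.algJ3_E_hip v hv)]
    ring
  have hm : ∑ a, C.om v a * (∑ c, C.db c (C.d a (C.omb v c) * C.μ))
      = C.h * C.ip (C.h * C.lap v) v * C.μ
        - C.h ^ 2 * (∑ c, ∑ e, C.T c e * (C.d c v * C.db e v)) * C.μ := by
    have e1 : ∀ a, ∑ c, C.db c (C.d a (C.omb v c) * C.μ)
        = C.μ * C.d a (C.h * C.lap v)
          - C.μ * ∑ c, C.omb v c * C.d a (C.db c C.L) := by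
      intro a
      rw [← C.algJ3_div_omb v hv, map_sum, Finset.mul_sum, Finset.mul_sum,
        ← Finset.sum_sub_distrib]
      refine Finset.sum_congr rfl fun c _ => ?_
      rw [Derivation.leibniz, map_add, Derivation.leibniz (C.d a) (C.omb v c), C.bμ, C.dbc]
      simp only [smul_eq_mul]
      ring
    simp only [e1]
    rw [← C.algJ3_om_d v, ← C.algJ3_LT v, Finset.sum_mul, Finset.sum_mul,
      ← Finset.sum_sub_distrib]
    refine Finset.sum_congr rfl fun a _ => ?_
    rw [mul_sub, ← Finset.mul_sum]
    ring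
  have hl := C.J0_lap' J (C.h * C.lap v) v hv'
  have hl' : J.J0 (C.h * C.ip (C.h * C.lap v) v * C.μ)
      = -J.J0 ((C.h * C.lap v) ^ 2 * C.μ) := by
    rw [pow_two, hl, neg_neg]
  rw [hB, map_sub, hb, hm, map_sub, hl']
  ring

end P264.Geo.Cone

end
end
end

section

section

/-!
# P264 / Geo / R / H0 : the Hermitian metric `h₀` with given symplectic potential
-/

set_option linter.all false

open Set Filter Topology
open scoped ContDiff

noncomputable section

namespace P264.Geo.R

/-- `F((A,B),x) = e^{-U} (A e^{x U'} + B e^{-(1-x) U'})`. -/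
def F (U : ℝ → ℝ) (q : (ℝ × ℝ) × ℝ) : ℝ :=
  Real.exp (-U q.2) * (q.1.1 * Real.exp (q.2 * deriv U q.2)
    + q.1.2 * Real.exp (-(1 - q.2) * deriv U q.2))

/-- `(|Z_0|², Σ_{i ≥ 1} |Z_i|²)`. -/
def AB {n : ℕ} (Z : Cm (n + 1)) : ℝ × ℝ := (‖Z 0‖ ^ 2, ∑ i : Fin n, ‖Z i.succ‖ ^ 2)

/-- The metric. -/
def h0 (U : ℝ → ℝ) {n : ℕ} (Z : Cm (n + 1)) : ℝ := F U (AB Z, xs U (AB Z))

variable {U : ℝ → ℝ} {n : ℕ}

lemma contDiff_F (hU : ContDiff ℝ ∞ U) : ContDiff ℝ ∞ (F U) := by
  have h1 := contDiff_deriv hU
  unfold F
  have h2 : ContDiff ℝ ∞ fun p : (ℝ × ℝ) × ℝ => deriv U p.2 := h1.comp contDiff_snd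
  have h3 : ContDiff ℝ ∞ fun p : (ℝ × ℝ) × ℝ => U p.2 := hU.comp contDiff_snd
  fun_prop

lemma contDiff_AB : ContDiff ℝ ∞ (AB : Cm (n + 1) → ℝ × ℝ) := by
  unfold AB
  have h1 : ∀ i : Fin (n + 1), ContDiff ℝ ∞ fun Z : Cm (n + 1) => ‖Z i‖ ^ 2 := fun i =>
    (contDiff_norm_sq ℝ).comp (contDiff_apply ℝ ℂ i)
  exact (h1 0).prodMk (ContDiff.sum fun i _ => h1 i.succ)

lemma AB_mem {Z : Cm (n + 1)} (hZ : Z ≠ 0) : AB Z ∈ Quad := by
  refine ⟨by simp only [AB]; positivity, by simp only [AB]; positivity, ?_⟩
  obtain ⟨i, hi⟩ := Function.ne_iff.1 hZ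
  have hi' : 0 < ‖Z i‖ ^ 2 := by
    have : Z i ≠ 0 := by simpa using hi
    positivity
  have h2 : ‖Z 0‖ ^ 2 + ∑ i : Fin n, ‖Z i.succ‖ ^ 2 = ∑ i : Fin (n + 1), ‖Z i‖ ^ 2 := by
    rw [Fin.sum_univ_succ]
  show 0 < ‖Z 0‖ ^ 2 + ∑ i : Fin n, ‖Z i.succ‖ ^ 2
  rw [h2]
  exact lt_of_lt_of_le hi' (Finset.single_le_sum (f := fun i => ‖Z i‖ ^ 2)
    (fun j _ => by (clear * -; positivity)) (Finset.mem_univ i))

lemma F_pos (U : ℝ → ℝ) {p : ℝ × ℝ} (hp : p ∈ Quad) (x : ℝ) : 0 < F U (p, x) := by
  unfold F
  obtain ⟨h1, h2, h3⟩ := hp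
  refine mul_pos (Real.exp_pos _) ?_
  rcases h1.eq_or_lt with h | h
  · have : 0 < p.2 := by rw [← h] at h3; simpa using h3
    have := mul_pos this (Real.exp_pos (-(1 - x) * deriv U x))
    simp only [← h]
    linarith
  · have := mul_pos h (Real.exp_pos (x * deriv U x))
    have := mul_nonneg h2 (Real.exp_pos (-(1 - x) * deriv U x)).le
    simp only
    (clear h1 h3; linarith)

lemma h0_pos (U : ℝ → ℝ) {Z : Cm (n + 1)} (hZ : Z ≠ 0) : 0 < h0 U Z := F_pos U (AB_mem hZ) _

/-- local smooth representation of `xs ∘ AB`. -/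
lemma xs_AB_smooth (hU : P264.B.IsInit U) {Z : Cm (n + 1)} (hZ : Z ≠ 0) :
    ∃ X : Cm (n + 1) → ℝ, ContDiffAt ℝ ∞ X Z ∧ ∀ᶠ W in 𝓝 Z, W ≠ 0 ∧ xs U (AB W) = X W := by
  obtain ⟨ψ, hψ, hev⟩ := xs_smooth hU (AB_mem hZ)
  refine ⟨fun W => ψ (AB W), hψ.comp Z contDiff_AB.contDiffAt, ?_⟩
  have h1 : ∀ᶠ W in 𝓝 Z, W ≠ 0 := isOpen_ne.mem_nhds hZ
  have h2 := (contDiff_AB (n := n)).continuous.continuousAt (x := Z) |>.eventually hev
  filter_upwards [h1, h2] with W hW hW'
  exact ⟨hW, hW' (AB_mem hW)⟩

lemma xs_AB_contDiffAt (hU : P264.B.IsInit U) {Z : Cm (n + 1)} (hZ : Z ≠ 0) :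
    ContDiffAt ℝ ∞ (fun W : Cm (n + 1) => xs U (AB W)) Z := by
  obtain ⟨X, hX, hev⟩ := xs_AB_smooth hU hZ
  exact hX.congr_of_eventuallyEq (hev.mono fun W hW => hW.2)

lemma h0_contDiffAt (hU : P264.B.IsInit U) {Z : Cm (n + 1)} (hZ : Z ≠ 0) :
    ContDiffAt ℝ ∞ (h0 U : Cm (n + 1) → ℝ) Z := by
  unfold h0
  exact (contDiff_F hU.smooth).contDiffAt.comp Z
    (contDiff_AB.contDiffAt.prodMk (xs_AB_contDiffAt hU hZ))

lemma AB_smul (c : ℂ) (Z : Cm (n + 1)) :
    AB (c • Z) = (‖c‖ ^ 2 * (AB Z).1, ‖c‖ ^ 2 * (AB Z).2) := by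
  simp only [AB, Pi.smul_apply, smul_eq_mul, norm_mul, mul_pow, Finset.mul_sum]

lemma h0_homog (hU : P264.B.IsInit U) (c : ℂ) {Z : Cm (n + 1)} (hZ : Z ≠ 0) (hc : c ≠ 0) :
    h0 U (c • Z) = ‖c‖ ^ 2 * h0 U Z := by
  have hc' : 0 < ‖c‖ ^ 2 := by positivity
  unfold h0
  rw [AB_smul, xs_smul hU (AB_mem hZ) hc']
  simp only [F]
  ring

lemma h0_inv (U : ℝ → ℝ) : Inv (h0 U : Cm (n + 1) → ℝ) := by
  intro Z W _ _ h1 h2
  have : AB Z = AB W := by simp only [AB, h1, h2]
  simp only [h0, this]

end P264.Geo.R
end
end
end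

section

section

/-!
# P264 / Geo / R / Line : first and second derivative of `log F` along a curve
-/

set_option linter.all false

open Set Filter Topology
open scoped ContDiff

noncomputable section

namespace P264.Geo.R

variable {U : ℝ → ℝ}

/-- derivative of `log F` along a solution curve (envelope formula). -/
lemma hasDerivAt_logF (hU : P264.B.IsInit U) {a b X : ℝ → ℝ} {a' b' X' t : ℝ}
    (ha : HasDerivAt a a' t) (hb : HasDerivAt b b' t) (hX : HasDerivAt X X' t)
    (hG : G U ((a t, b t), X t) = 0) (hq : (a t, b t) ∈ Quad) :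
    HasDerivAt (fun t => Real.log (F U ((a t, b t), X t)))
      ((Real.exp (deriv U (X t)) * a' + b') / (Real.exp (deriv U (X t)) * a t + b t)) t := by
  have hU0 : HasDerivAt U (deriv U (X t)) (X t) :=
    (hU.smooth.differentiable (by simp) (X t)).hasDerivAt
  have hU1 : HasDerivAt (deriv U) (deriv (deriv U) (X t)) (X t) :=
    ((contDiff_deriv hU.smooth).differentiable (by simp) (X t)).hasDerivAt
  have h0 : HasDerivAt (fun t => U (X t)) (deriv U (X t) * X') t := hU0.comp t hX
  have h1 : HasDerivAt (fun t => deriv U (X t)) (deriv (deriv U) (X t) * X') t := hU1.comp t hX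
  have hF := F_pos U hq (X t)
  have hm : HasDerivAt (fun t => -(1 - X t)) X' t := ((hX.const_sub 1).neg).congr_deriv (by ring)
  have hXu : HasDerivAt (fun t => Real.exp (X t * deriv U (X t)))
      (Real.exp (X t * deriv U (X t)) * (X' * deriv U (X t) + X t * (deriv (deriv U) (X t) * X'))) t :=
    (hX.mul h1).exp
  have hmu : HasDerivAt (fun t => Real.exp (-(1 - X t) * deriv U (X t)))
      (Real.exp (-(1 - X t) * deriv U (X t)) *
        (X' * deriv U (X t) + -(1 - X t) * (deriv (deriv U) (X t) * X'))) t :=
    (hm.mul h1).exp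
  have h2 : HasDerivAt (fun t => F U ((a t, b t), X t))
      (Real.exp (-U (X t)) * -(deriv U (X t) * X') * (a t * Real.exp (X t * deriv U (X t))
        + b t * Real.exp (-(1 - X t) * deriv U (X t))) + Real.exp (-U (X t)) *
        (a' * Real.exp (X t * deriv U (X t)) + a t * (Real.exp (X t * deriv U (X t)) *
          (X' * deriv U (X t) + X t * (deriv (deriv U) (X t) * X'))) +
        (b' * Real.exp (-(1 - X t) * deriv U (X t)) + b t *
          (Real.exp (-(1 - X t) * deriv U (X t)) *
        (X' * deriv U (X t) + -(1 - X t) * (deriv (deriv U) (X t) * X')))))) t :=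
    (h0.neg.exp).mul ((ha.mul hXu).add (hb.mul hmu))
  have h3 := h2.log hF.ne'
  refine h3.congr_deriv ?_
  have hR := Real.exp_pos (deriv U (X t))
  have hN : 0 < Real.exp (deriv U (X t)) * a t + b t := by
    obtain ⟨q1, q2, q3⟩ := hq
    simp only at q1 q2 q3
    rcases q1.eq_or_lt with h | h
    · rw [← h] at q3 ⊢; simpa using q3
    · have := mul_pos hR h
      linarith
  rw [div_eq_div_iff hF.ne' hN.ne']
  simp only [F, G] at hG ⊢
  have e1 : Real.exp (-(1 - X t) * deriv U (X t))
      = Real.exp (X t * deriv U (X t)) * Real.exp (-deriv U (X t)) := by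
    rw [← Real.exp_add]; congr 1; ring
  have e2 : Real.exp (deriv U (X t)) * Real.exp (-deriv U (X t)) = 1 := by
    rw [← Real.exp_add]; simp
  rw [e1]
  generalize Real.exp (deriv U (X t)) = R at *
  generalize Real.exp (-deriv U (X t)) = S at *
  generalize Real.exp (X t * deriv U (X t)) = P at *
  generalize Real.exp (-U (X t)) = Q at *
  linear_combination Q * P * (a t * b' - a' * b t) * e2 + Q * P * (R * a t + b t) *
    deriv (deriv U) (X t) * X' * (S * hG - a t * X t * e2)

/-- the second derivative, as an expression. `R = e^{U'}`, `q = U''`. -/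
def E2 (A B a1 b1 a2 b2 R q x : ℝ) : ℝ :=
  (R * a2 + b2) / (R * A + B) - (R * a1 + b1) ^ 2 / (R * A + B) ^ 2
    - q * R ^ 2 * (A * b1 - B * a1) ^ 2 /
      (((R * A + B) ^ 2 + A * B * R * q) * (R * A + B) ^ 2)

lemma hasDerivAt_second (hU : P264.B.IsInit U) {a b X a' b' : ℝ → ℝ} {a2 b2 : ℝ}
    (ha : ∀ᶠ t in 𝓝 (0 : ℝ), HasDerivAt a (a' t) t) (hb : ∀ᶠ t in 𝓝 (0 : ℝ), HasDerivAt b (b' t) t)
    (ha2 : HasDerivAt a' a2 0) (hb2 : HasDerivAt b' b2 0) (hX : DifferentiableAt ℝ X 0)
    (hG : ∀ᶠ t in 𝓝 (0 : ℝ), G U ((a t, b t), X t) = 0) (hq : (a 0, b 0) ∈ Quad)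
    (hx : X 0 ∈ Icc (0 : ℝ) 1) :
    0 < (Real.exp (deriv U (X 0)) * a 0 + b 0) ^ 2
      + a 0 * b 0 * Real.exp (deriv U (X 0)) * deriv (deriv U) (X 0) ∧
    HasDerivAt (fun t => (Real.exp (deriv U (X t)) * a' t + b' t) /
      (Real.exp (deriv U (X t)) * a t + b t))
      (E2 (a 0) (b 0) (a' 0) (b' 0) a2 b2 (Real.exp (deriv U (X 0))) (deriv (deriv U) (X 0)) (X 0))
      0 := by
  have ha0 := ha.self_of_nhds
  have hb0 := hb.self_of_nhds
  have hG0 := hG.self_of_nhds
  have hU1 : HasDerivAt (deriv U) (deriv (deriv U) (X 0)) (X 0) :=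
    ((contDiff_deriv hU.smooth).differentiable (by simp) (X 0)).hasDerivAt
  have hX' := hX.hasDerivAt
  set ξ := deriv X 0 with hξ
  have h1 : HasDerivAt (fun t => deriv U (X t)) (deriv (deriv U) (X 0) * ξ) 0 := hU1.comp 0 hX'
  -- differentiate the constraint
  have hXR : HasDerivAt (fun t => X t * Real.exp (deriv U (X t)))
      (ξ * Real.exp (deriv U (X 0)) + X 0 * (Real.exp (deriv U (X 0)) *
        (deriv (deriv U) (X 0) * ξ))) 0 := hX'.mul h1.exp
  have h2 : HasDerivAt (fun t => G U ((a t, b t), X t))
      (a' 0 * (X 0 * Real.exp (deriv U (X 0))) + a 0 * (ξ * Real.exp (deriv U (X 0)) + X 0 *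
        (Real.exp (deriv U (X 0)) * (deriv (deriv U) (X 0) * ξ)))
        - (b' 0 * (1 - X 0) + b 0 * (-ξ))) 0 :=
    (ha0.mul hXR).sub (hb0.mul (hX'.const_sub 1))
  have h3 := h2.unique ((hasDerivAt_const (0 : ℝ) (0 : ℝ)).congr_of_eventuallyEq hG)
  have hR := Real.exp_pos (deriv U (X 0))
  have hN : 0 < Real.exp (deriv U (X 0)) * a 0 + b 0 := by
    obtain ⟨q1, q2, q3⟩ := hq
    simp only at q1 q2 q3
    rcases q1.eq_or_lt with h | h
    · rw [← h] at q3 ⊢; simpa using q3
    · have := mul_pos hR h
      linarith only [q2, this]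
  have hD := dG_pos hU hq.1 hq.2.1 hq.2.2 hx hG0
  have hpos := hU.pos (X 0) hx
  simp only [G] at hG0 h3
  simp only at hD
  have h4 : HasDerivAt (fun t => (Real.exp (deriv U (X t)) * a' t + b' t) /
      (Real.exp (deriv U (X t)) * a t + b t))
      (((Real.exp (deriv U (X 0)) * (deriv (deriv U) (X 0) * ξ) * a' 0 +
        Real.exp (deriv U (X 0)) * a2 + b2) * (Real.exp (deriv U (X 0)) * a 0 + b 0) -
        (Real.exp (deriv U (X 0)) * a' 0 + b' 0) * (Real.exp (deriv U (X 0)) *
          (deriv (deriv U) (X 0) * ξ) * a 0 + Real.exp (deriv U (X 0)) * a' 0 + b' 0)) /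
        (Real.exp (deriv U (X 0)) * a 0 + b 0) ^ 2) 0 :=
    (((h1.exp.mul ha2).add hb2).div ((h1.exp.mul ha0).add hb0) hN.ne')
  generalize hRR : Real.exp (deriv U (X 0)) = R at *
  generalize deriv (deriv U) (X 0) = q at *
  generalize X 0 = x at *
  generalize a 0 = A at *
  generalize b 0 = B at *
  generalize a' 0 = a1 at *
  generalize b' 0 = b1 at *
  -- x N = B, (1-x) N = R A
  have ex : x * (R * A + B) = B := by linear_combination hG0
  have ex' : (1 - x) * (R * A + B) = R * A := by linear_combination -hG0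
  have hK : 0 < (R * A + B) ^ 2 + A * B * R * q := by
    have : (R * A + B) ^ 2 + A * B * R * q = (R * A + B) ^ 2 * (1 + x * (1 - x) * q) := by
      have : A * B * R = (x * (R * A + B)) * ((1 - x) * (R * A + B)) := by rw [ex, ex']; ring
      rw [this]; ring
    rw [this]; (clear * - hN hpos; positivity)
  refine ⟨hK, ?_⟩
  refine h4.congr_deriv ?_
  -- ξ K = R (A b1 - B a1)
  have eξ : ξ * ((R * A + B) ^ 2 + A * B * R * q) = R * (A * b1 - B * a1) := by
    linear_combination (R * A + B) * h3 - A * R * q * ξ * ex - a1 * R * ex + b1 * ex'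
  have eξ' : ξ = R * (A * b1 - B * a1) / ((R * A + B) ^ 2 + A * B * R * q) := by
    rw [eq_div_iff hK.ne', eξ]
  rw [eξ', E2]
  have hN' := hN.ne'
  have hK' := hK.ne'
  field_simp
  ring

end P264.Geo.R
end
end
end

section

section

section

section

open scoped ENNReal Topology
open MeasureTheory Filter

noncomputable section

namespace Vale.Agent.P264

set_option linter.unusedSectionVars false
set_option linter.unusedVariables false

section Fix

variable {n : ℕ} {Γ : Type*} [AddCommGroup Γ] [Countable Γ] {q : Γ →+ Cn n}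

variable {w : Γ → ℝ≥0∞} {a0 : Γ → ℂ}

end Fix

end Vale.Agent.P264
end
end
end
end
end

section

section

section

section

open scoped ENNReal ContDiff Topology
open MeasureTheory Set Filter

noncomputable section

namespace Vale.Agent.P264

set_option linter.unusedSectionVars false
set_option linter.unusedVariables false

section Sol

variable {n : ℕ} {Γ : Type*} [AddCommGroup Γ] [Countable Γ]

/-- data for the coefficient flow -/
structure Dat (q : Γ →+ Cn n) (W : ℕ → Γ → ℝ) (c0 : Γ → ℂ) : Prop where
  fam : WFam (fun ξ => ‖q ξ‖ / 2) W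
  small : ∀ m, Small q (fun ξ => ENNReal.ofReal (W m ξ)) (fun ξ => (lam q ξ : ℂ) * c0 ξ)
  fin : ∀ m, FW (W m) c0
  real : ∀ ξ, c0 (-ξ) = (starRingEnd ℂ) (c0 ξ)

variable (q : Γ →+ Cn n) {W : ℕ → Γ → ℝ} (c0 : Γ → ℂ)

variable {q} {c0}

variable (D : Dat q W c0)
include D

end Sol

end Vale.Agent.P264
end
end
end
end
end

section

section

section

section

open scoped ENNReal ContDiff Topology ComplexOrder
open MeasureTheory Set Filter

noncomputable section

namespace Vale.Agent.P264

set_option linter.unusedSectionVars false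
set_option linter.unusedVariables false

section Gen

variable {n : ℕ} {Γ : Type*} [AddCommGroup Γ] [Countable Γ] {q : Γ →+ Cn n}

variable {W : ℕ → Γ → ℝ} {c0 : Γ → ℂ}

end Gen

section Main

variable {n : ℕ} {ι : Type} [Fintype ι] {b : Module.Basis ι ℝ (Cn n)}

end Main

end Vale.Agent.P264
end
end
end
end
end

section

section

/-!
# P264 / H3 / Bfin : the table of bounds of `bsq` for the weight `rh8` (helper288)
-/

open MeasureTheory Set Filter Real
open P264.Prof

namespace P264.H3

theorem rch8 : Chain rcells8.tail 8 := chain_of_chainB _ _ rchain8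

theorem rh8_tail (k : ℕ) {y : ℝ} (hy : (8 : ℝ) ≤ 16 * y) :
    rh8 k y = pw MR8 (tval MR8 256 [cr8]) rcells8.tail k y := by
  have hfirst : rcells8 = ⟨0, 8, [281474976710656]⟩ :: rcells8.tail := rfl
  have : pw MR8 (tval MR8 256 [cr8]) (⟨0, 8, [281474976710656]⟩ :: rcells8.tail) k y =
      pw MR8 (tval MR8 256 [cr8]) rcells8.tail k y := by
    rw [pw, if_neg]; push_cast; linarith only [hy]
  exact this

theorem rh8_first {y : ℝ} (hy : 16 * y < 8) : rh8 0 y = 1 := by
  have : pw MR8 (tval MR8 256 [cr8]) (⟨0, 8, [281474976710656]⟩ :: rcells8.tail) 0 y = 1 := by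
    rw [pw, if_pos (by push_cast; linarith only [hy])]
    simp only [Cell.val, Int.cast_ofNat, pow_zero, pderk, Int.cast_zero, sub_zero, ev_cons, ev_nil, mul_zero, add_zero, one_mul, MR8]
    norm_num
  exact this

theorem tval0_const (y : ℝ) : tval MR8 256 [cr8] 0 y = (cr8 : ℝ) / 2 ^ MR8 := by
  simp [tval, tlist]

theorem mchk : lowchk cr8 rcells8.tail mtab = true := by (clear * -; decide +kernel)

/-- the lower bounds of `rh8` -/
theorem rh8_low : ∀ p ∈ bl rcells8.tail mtab 8, ∀ y : ℝ, (p.1 : ℝ) ≤ 16 * y →
    (p.2 : ℝ) / 2 ^ 48 ≤ rh8 0 y := by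
  have h := low_all (P := MR8) (T := tval MR8 256 [cr8]) (σ := rh8 0) rcells8.tail mtab 8 mchk rch8
    (fun y _ => by rw [tval0_const]) (fun y hy => rh8_tail 0 (by exact_mod_cast hy))
  exact h

theorem tchk : btchk 48 60 40 rcells8.tail mtab ttab = true := by decide +kernel

/-- `.9999 ≤ rh8` everywhere on `(0,∞)` -/
theorem rh8_low0 (y : ℝ) : 9999 / 10000 ≤ rh8 0 y := by
  by_cases hy : 16 * y < 8
  · rw [rh8_first hy]; norm_num
  · have h := rh8_low (8, mtab.head (by decide)) (by
      have : bl rcells8.tail mtab 8 = (8, mtab.head (by decide)) ::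
        bl rcells8.tail.tail mtab.tail 16 := rfl
      rw [this]; simp) y (by push_cast; linarith only [hy])
    have h2 : (9999 : ℝ) / 10000 ≤ (mtab.head (by decide) : ℤ) / 2 ^ 48 := by
      have : 9999 * 2 ^ 48 ≤ mtab.head (by decide) * 10000 := by (clear * -; decide +kernel)
      have h3 : (9999 : ℝ) * 2 ^ 48 ≤ (mtab.head (by decide) : ℤ) * 10000 := by exact_mod_cast this
      rw [div_le_div_iff₀ (by norm_num) (by positivity)]
      exact h3
    exact h2.trans h

theorem rh8_low256 {y : ℝ} (hy : 256 ≤ y) : 5797 ≤ rh8 0 y := by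
  have hr : ((rend rcells8.tail 8 : ℤ) : ℝ) ≤ 16 * y := by
    rw [rrend8]; push_cast; linarith
  rw [rh8_tail 0 (by linarith only [hy]), pw_eq_tail _ 8 rch8 0 y hr, tval0_const]
  rw [le_div_iff₀ (by positivity)]
  have : 5797 * 2 ^ MR8 ≤ cr8 := by (clear * -; decide +kernel)
  exact_mod_cast this

theorem rh8_eq256 {y : ℝ} (hy : 256 ≤ y) : rh8 0 y = (cr8 : ℝ) / 2 ^ MR8 := by
  have hr : ((rend rcells8.tail 8 : ℤ) : ℝ) ≤ 16 * y := by
    rw [rrend8]; push_cast; linarith
  rw [rh8_tail 0 (by linarith only [hy]), pw_eq_tail _ 8 rch8 0 y hr, tval0_const]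

section

variable {ρ : ℝ → ℝ} (hρ : ∀ z, ρ z = rh8 0 (exp z) * exp (-z))

include hρ

theorem rho_mul_exp (z : ℝ) : ρ z * exp z = rh8 0 (exp z) := by
  rw [hρ, mul_assoc, ← exp_add]; simp

theorem rho_pos (z : ℝ) : 0 < ρ z := by
  rw [hρ]
  exact mul_pos (lt_of_lt_of_le (by norm_num) (rh8_low0 _)) (exp_pos _)

/-- the integrand of `bsq` is integrable -/
theorem bsq_int (hm : Measurable ρ) (z : ℝ) :
    IntegrableOn (fun s => (exp (z - s) - exp (2 * (z - s))) ^ 2 / ρ s) (Ioi z) := by
  have hlim : Tendsto (fun s => -(exp z * Phi (exp (z - s)))) atTop (nhds 0) := by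
    have h1 : Tendsto (fun s => exp (z - s)) atTop (nhds 0) :=
      tendsto_exp_atBot.comp (tendsto_atBot_add_const_left _ z tendsto_neg_atTop_atBot)
    have h2 : Tendsto (fun s => -(exp z * Phi (exp (z - s)))) atTop
        (nhds (-(exp z * (0 - 0 ^ 2 + 0 ^ 3 / 3)))) :=
      ((((h1.sub (h1.pow 2)).add ((h1.pow 3).div_const 3)).const_mul (exp z)).neg)
    simpa using h2
  have hnn : ∀ s ∈ Ioi z, 0 ≤ (exp (z - s) - exp (2 * (z - s))) ^ 2 * exp s :=
    fun s _ => mul_nonneg (sq_nonneg _) (exp_pos s).le
  have hint : IntegrableOn (fun s => (exp (z - s) - exp (2 * (z - s))) ^ 2 * exp s) (Ioi z) :=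
    integrableOn_Ioi_deriv_of_nonneg' (fun s _ => hasDerivAt_Phi_exp z s) hnn hlim
  refine Integrable.mono' (hint.div_const (9999 / 10000)) ?_ ?_
  · refine Measurable.aestronglyMeasurable ?_
    exact ((by fun_prop : Continuous fun s => (exp (z - s) - exp (2 * (z - s))) ^ 2).measurable).div
      hm
  · refine Eventually.of_forall fun s => ?_
    have h1 : 0 < ρ s := rho_pos hρ s
    rw [Real.norm_eq_abs, abs_of_nonneg (div_nonneg (sq_nonneg _) h1.le)]
    have h2 : 9999 / 10000 ≤ ρ s * exp s := by rw [rho_mul_exp hρ]; exact rh8_low0 _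
    rw [div_le_div_iff₀ h1 (by norm_num)]
    have h3 : 0 ≤ (exp (z - s) - exp (2 * (z - s))) ^ 2 := sq_nonneg _
    linarith only [mul_nonneg (sub_nonneg.2 h2) (sub_nonneg.2 h3)]

/-- the table -/
theorem bsq_tab (hm : Measurable ρ) : ∀ p ∈ rcells8.tail.zip ttab, 0 ≤ p.2 ∧ ∀ z,
    ((p.1.C - p.1.H : ℤ) : ℝ) ≤ 16 * exp z → 16 * exp z < ((p.1.C + p.1.H : ℤ) : ℝ) →
      P264.B.bsq ρ z ≤ ((p.2 : ℝ) / 2 ^ 40) ^ 2 :=
  bt_all (rho_pos hρ) (bsq_int hρ hm) rcells8.tail mtab ttab 8 tchk rch8 (fun p hp s hs => by
    rw [rho_mul_exp hρ]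
    exact rh8_low p hp (exp s) hs)

/-- `bsq z ≤ (1/3)(10000/9999) e^z` -/
theorem bsq_crude (z : ℝ) : P264.B.bsq ρ z ≤ exp z * (1 / (3 * (9999 / 10000))) :=
  bsq_le_third (rho_pos hρ) (by norm_num) (fun s _ => by
    rw [rho_mul_exp hρ]; exact rh8_low0 _)

/-- `bsq z ≤ e^z/(3·5797)` for `e^z ≥ 256` -/
theorem bsq_far {z : ℝ} (hz : 256 ≤ exp z) : P264.B.bsq ρ z ≤ exp z * (1 / (3 * 5797)) :=
  bsq_le_third (rho_pos hρ) (by norm_num) (fun s hs => by
    rw [rho_mul_exp hρ]; exact rh8_low256 (hz.trans (exp_le_exp.2 hs)))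

end

end P264.H3
end
end

section

section

/-!
# P264 / H3 / PackB : the cell check with tabulated bounds (helper288)
-/

open P264.Prof

namespace P264.H3

/-- bound of `|N|` belonging to the value `u` of the integrand of (H3r), scaled `2^S` -/
def bnT (M K S T : ℕ) (q : ℤ) (s : Cell) (τ u : ℤ) : ℤ :=
  u * (2 * q * s.H ^ 4 * 2 ^ (2 * M + K) * lowB s.c ^ 2 * 2 ^ T) / (τ * 2 ^ S)

/-- bound of `|P|` belonging to the value `w` of the integrand of (H3p) -/
def bpT (M K S T : ℕ) (s : Cell) (τ w : ℤ) : ℤ :=
  w * (s.H ^ 4 * 2 ^ (M + K) * 2 ^ (2 * T) * lowB s.c) / (256 * τ ^ 2 * 2 ^ S)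

/-- the check for a cell : `u`, `w` bound the integrands of (H3r), (H3p) -/
def rpchk (K M Mk S T : ℕ) (p q : ℤ) (s t : Cell) (τ u w : ℤ) : Bool :=
  decide (0 < τ) && decide (0 ≤ u) && decide (0 ≤ w) &&
  forceI (2 ^ K) fun B => forceI (B + 1) fun B1 => forceI (B - 1) fun Bm =>
  forceI (bnT M Mk S T q s τ u) fun bn => forceI (bpT M Mk S T s τ w) fun bp =>
  cellK B B1 Bm M p q s t fun N P => absK K bn 1 N && absK K bp 1 P

theorem rpchk_spec {K M Mk S T : ℕ} {p q : ℤ} {s t : Cell} {τ u w : ℤ}
    (h : rpchk K M Mk S T p q s t τ u w = true) : 0 < τ ∧ 0 ≤ u ∧ 0 ≤ w ∧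
    absK K (bnT M Mk S T q s τ u) 1 (NK (2 ^ K) M p q s t) = true ∧
    absK K (bpT M Mk S T s τ w) 1 (PK (2 ^ K) s t) = true := by
  rw [rpchk, Bool.and_eq_true, Bool.and_eq_true, Bool.and_eq_true, forceI_eq, forceI_eq, forceI_eq,
    forceI_eq, forceI_eq, cellK_eq, Bool.and_eq_true] at h
  obtain ⟨⟨⟨h1, h2⟩, h3⟩, h4, h5⟩ := h
  exact ⟨of_decide_eq_true h1, of_decide_eq_true h2, of_decide_eq_true h3, h4, h5⟩

theorem r_le {K M Mk S T : ℕ} (hK : 0 < K) {p q : ℤ} (hq : 0 < q) {s t : Cell} (hC : t.C = s.C)
    (hH : t.H = s.H) (hs : 0 < s.H) (hlow : 0 < lowB s.c) {τ u w : ℤ}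
    (h : rpchk K M Mk S T p q s t τ u w = true) {y b : ℝ} (hb0 : 0 ≤ b)
    (hb : b ≤ (τ : ℝ) / 2 ^ T) (hv : |(16 * y - s.C) / s.H| ≤ 1) :
    |(1 / 2) * (y * GZ M Mk s t 1 y)
      - s.val M 0 y ^ 2 * (y ^ 2 * GZ M Mk s t 4 y - 14 * (y * GZ M Mk s t 3 y)
        + 56 * GZ M Mk s t 2 y)
      - (p : ℝ) / q * GZ M Mk s t 0 y| / s.val M 0 y ^ 2 * b ≤ (u : ℝ) / 2 ^ S := by
  obtain ⟨hτ, hu, _, h1, _⟩ := rpchk_spec h
  have hHr : (0 : ℝ) < s.H := by exact_mod_cast hs
  have hqr : (0 : ℝ) < q := by exact_mod_cast hq
  have hl : (0 : ℝ) < (lowB s.c : ℝ) := by exact_mod_cast hlow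
  have hτr : (0 : ℝ) < τ := by exact_mod_cast hτ
  have h2 := abs_of_absK hK (by norm_num) (RH_NK (2 ^ K) M p q s t) h1 hv
  rw [NX_eq (K := Mk) hq hC hH hs y, abs_mul, Int.cast_one, div_one] at h2
  have hpos : (0 : ℝ) < 2 * q * (s.H : ℝ) ^ 4 * 2 ^ (2 * M) * 2 ^ (2 * M + Mk) := by positivity
  rw [abs_of_pos hpos] at h2
  have hX0 := abs_nonneg ((1 / 2) * (y * GZ M Mk s t 1 y)
      - s.val M 0 y ^ 2 * (y ^ 2 * GZ M Mk s t 4 y - 14 * (y * GZ M Mk s t 3 y)
        + 56 * GZ M Mk s t 2 y)
      - (p : ℝ) / q * GZ M Mk s t 0 y)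
  have hR := low_le M s hv
  generalize |(1 / 2) * (y * GZ M Mk s t 1 y)
      - s.val M 0 y ^ 2 * (y ^ 2 * GZ M Mk s t 4 y - 14 * (y * GZ M Mk s t 3 y)
        + 56 * GZ M Mk s t 2 y)
      - (p : ℝ) / q * GZ M Mk s t 0 y| = X at h2 hX0 ⊢
  have hβ : (bnT M Mk S T q s τ u : ℝ) * (τ * 2 ^ S) ≤
      u * (2 * q * (s.H : ℝ) ^ 4 * 2 ^ (2 * M + Mk) * (lowB s.c : ℝ) ^ 2 * 2 ^ T) := by
    have := Int.ediv_mul_le (u * (2 * q * s.H ^ 4 * 2 ^ (2 * M + Mk) * lowB s.c ^ 2 * 2 ^ T))
      (b := τ * 2 ^ S) (by positivity)
    rw [bnT]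
    exact_mod_cast this
  generalize (bnT M Mk S T q s τ u : ℝ) = β at h2 hβ
  have hR0 : 0 < (lowB s.c : ℝ) / 2 ^ M := by positivity
  have h3 : X / s.val M 0 y ^ 2 * b ≤ X / ((lowB s.c : ℝ) / 2 ^ M) ^ 2 * ((τ : ℝ) / 2 ^ T) := by
    (clear * - hX0 hlow hR hb hb0; gcongr)
  refine h3.trans ?_
  have e2 : (2 : ℝ) ^ (2 * M) = 2 ^ M * 2 ^ M := by rw [two_mul, pow_add]
  have e : X / ((lowB s.c : ℝ) / 2 ^ M) ^ 2 * ((τ : ℝ) / 2 ^ T) =
      (X * (2 * q * (s.H : ℝ) ^ 4 * 2 ^ (2 * M) * 2 ^ (2 * M + Mk))) * τ /
        (2 * q * (s.H : ℝ) ^ 4 * 2 ^ (2 * M + Mk) * (lowB s.c : ℝ) ^ 2 * 2 ^ T) := by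
    rw [e2]; field_simp
  rw [e, div_le_div_iff₀ (by (clear * - hq hs hlow; positivity)) (by positivity)]
  calc X * (2 * q * (s.H : ℝ) ^ 4 * 2 ^ (2 * M) * 2 ^ (2 * M + Mk)) * τ * 2 ^ S
      ≤ β * τ * 2 ^ S := by (clear * - h2 hτ; gcongr)
    _ = β * (τ * 2 ^ S) := by ring
    _ ≤ _ := hβ

theorem p_le {K M Mk S T : ℕ} (hK : 0 < K) {p q : ℤ} {s t : Cell} (hC : t.C = s.C)
    (hH : t.H = s.H) (hs : 0 < s.H) (hlow : 0 < lowB s.c) {τ u w : ℤ}
    (h : rpchk K M Mk S T p q s t τ u w = true) {y b : ℝ}
    (hb : b ≤ ((τ : ℝ) / 2 ^ T) ^ 2) (hv : |(16 * y - s.C) / s.H| ≤ 1) :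
    |y ^ 2 * GZ M Mk s t 4 y - 14 * (y * GZ M Mk s t 3 y) + 56 * GZ M Mk s t 2 y|
      * b / s.val M 0 y ≤ (w : ℝ) / 2 ^ S := by
  obtain ⟨hτ, _, hw, _, h1⟩ := rpchk_spec h
  have hHr : (0 : ℝ) < s.H := by exact_mod_cast hs
  have hl : (0 : ℝ) < (lowB s.c : ℝ) := by exact_mod_cast hlow
  have hτr : (0 : ℝ) < τ := by exact_mod_cast hτ
  have h2 := abs_of_absK hK (by norm_num) (RH_PK (2 ^ K) s t) h1 hv
  rw [Int.cast_one, div_one] at h2
  have hE := PX_eq (M := M) (K := Mk) hC hH hs y
  have h256 : 256 * |PX s.C s.H (dl s.c) (dl t.c) ((16 * y - s.C) / s.H)| =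
      |256 * PX s.C s.H (dl s.c) (dl t.c) ((16 * y - s.C) / s.H)| := by rw [abs_mul]; norm_num
  have h2' := mul_le_mul_of_nonneg_left h2 (by norm_num : (0 : ℝ) ≤ 256)
  have hpos : (0 : ℝ) < (s.H : ℝ) ^ 4 * 2 ^ (2 * M + Mk) := by positivity
  rw [h256, hE, abs_mul, abs_of_pos hpos] at h2'
  have hX0 := abs_nonneg (y ^ 2 * GZ M Mk s t 4 y - 14 * (y * GZ M Mk s t 3 y)
    + 56 * GZ M Mk s t 2 y)
  have hR := low_le M s hv
  generalize |y ^ 2 * GZ M Mk s t 4 y - 14 * (y * GZ M Mk s t 3 y) + 56 * GZ M Mk s t 2 y| = X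
    at h2' hX0 ⊢
  have hβ : (bpT M Mk S T s τ w : ℝ) * (256 * τ ^ 2 * 2 ^ S) ≤
      w * ((s.H : ℝ) ^ 4 * 2 ^ (M + Mk) * 2 ^ (2 * T) * (lowB s.c : ℝ)) := by
    have := Int.ediv_mul_le (w * (s.H ^ 4 * 2 ^ (M + Mk) * 2 ^ (2 * T) * lowB s.c))
      (b := 256 * τ ^ 2 * 2 ^ S) (by (clear * - hτ; positivity))
    rw [bpT]
    exact_mod_cast this
  generalize (bpT M Mk S T s τ w : ℝ) = β at h2' hβ
  have hR0 : 0 < (lowB s.c : ℝ) / 2 ^ M := by positivity
  have h3 : X * b / s.val M 0 y ≤ X * ((τ : ℝ) / 2 ^ T) ^ 2 / ((lowB s.c : ℝ) / 2 ^ M) := by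
    gcongr
  refine h3.trans ?_
  have e2 : (2 : ℝ) ^ (2 * M + Mk) = 2 ^ M * 2 ^ M * 2 ^ Mk := by rw [two_mul, pow_add, pow_add]
  have e3 : (2 : ℝ) ^ (2 * T) = 2 ^ T * 2 ^ T := by rw [two_mul, pow_add]
  have e4 : (2 : ℝ) ^ (M + Mk) = 2 ^ M * 2 ^ Mk := by rw [pow_add]
  have e : X * ((τ : ℝ) / 2 ^ T) ^ 2 / ((lowB s.c : ℝ) / 2 ^ M) =
      (X * ((s.H : ℝ) ^ 4 * 2 ^ (2 * M + Mk))) * τ ^ 2 /
        ((s.H : ℝ) ^ 4 * 2 ^ (M + Mk) * 2 ^ (2 * T) * (lowB s.c : ℝ)) := by
    rw [e2, e3, e4]; (clear * - hs hlow hτ; field_simp)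
  rw [e, div_le_div_iff₀ (by positivity) (by positivity)]
  calc X * ((s.H : ℝ) ^ 4 * 2 ^ (2 * M + Mk)) * (τ : ℝ) ^ 2 * 2 ^ S
      ≤ 256 * β * (τ : ℝ) ^ 2 * 2 ^ S := by (clear * - h2' hτ; gcongr)
    _ = β * (256 * τ ^ 2 * 2 ^ S) := by ring
    _ ≤ _ := hβ

end P264.H3
end
end

section

section

/-!
# P264 / H3 / Main : the scalar bounds (H3) of the certificate (helper288)

`R = Rz`, `psi i z = Rz z ^ 2 * kf i 0 (exp z)`, `ρ z = rh8 0 (exp z) * exp (-z)`.
-/

open MeasureTheory Set Filter Real
open P264.Prof P264.B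

namespace P264.H3

/-! ## the function `ψ = R² k` -/

/-- `R² k_i` and its derivatives -/
noncomputable def Gf (i : Fin 2) (k : ℕ) (y : ℝ) : ℝ :=
  Lz (fun j => R8 j y) (fun j => kf i j y) k

theorem Gfam (i : Fin 2) : Fam 4 (Gf i) :=
  Lz_fam (fun k hk y hy => R8_hasDerivAt k hk y hy) (fun k hk y _ => kf_hasDerivAt i k hk y)

theorem Gf_first (i : Fin 2) (k : ℕ) {y : ℝ} (hy : 16 * y < 8) : Gf i k y = 0 := by
  have : (fun j => kf i j y) = fun _ => 0 := funext fun j => kf_first i j (by linarith only [hy])
  rw [Gf, this, Lz_zero]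

theorem Gf_right (i : Fin 2) (k : ℕ) {y : ℝ} (hy : 4096 ≤ 16 * y) : Gf i k y = 0 := by
  have : (fun j => kf i j y) = fun _ => 0 := funext fun j => kf_right i j (by linarith only [hy])
  rw [Gf, this, Lz_zero]

/-! ## the master list -/

/-- `((s, t), (r, τ))` : profile cell, `k_i` cell, weight cell, bound of `√bsq` -/
def master (i : Fin 2) : List ((Cell × Cell) × (Cell × ℤ)) :=
  (cells8.tail.zip (ktail i)).zip (rcells8.tail.zip ttab)

def mchkB (x : (Cell × Cell) × (Cell × ℤ)) : Bool :=
  decide (x.1.2.C = x.1.1.C) && decide (x.1.2.H = x.1.1.H) && decide (x.2.1.C = x.1.1.C) &&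
    decide (x.2.1.H = x.1.1.H) && decide (0 < lowB x.1.1.c)

theorem masterchk0 : (master 0).all mchkB = true := by (clear * -; decide +kernel)

theorem masterchk1 : (master 1).all mchkB = true := by (clear * -; decide +kernel)

theorem masterchk : ∀ i : Fin 2, (master i).all mchkB = true
  | 0 => masterchk0
  | 1 => masterchk1

/-- what a member of the master list gives at a point of the cell -/
structure AtCell (i : Fin 2) (s t r : Cell) (y : ℝ) : Prop where
  tC : t.C = s.C
  tH : t.H = s.H
  rC : r.C = s.C
  rH : r.H = s.H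
  H : 0 < s.H
  low : 0 < lowB s.c
  v : |(16 * y - s.C) / s.H| ≤ 1
  CH : 0 < s.C - s.H
  R : ∀ k, R8 k y = s.val M8 k y
  K : ∀ k, kf i k y = t.val M8 k y
  W : rh8 0 y = r.val MR8 0 y
  G : ∀ k, Gf i k y = GZ M8 M8 s t k y

theorem atCell {i : Fin 2} {x : (Cell × Cell) × (Cell × ℤ)} (hx : x ∈ master i) {y : ℝ}
    (h1 : ((x.1.1.C - x.1.1.H : ℤ) : ℝ) ≤ 16 * y)
    (h2 : 16 * y < ((x.1.1.C + x.1.1.H : ℤ) : ℝ)) : AtCell i x.1.1 x.1.2 x.2.1 y := by
  have hc := List.all_eq_true.1 (masterchk i) x hx
  simp only [mchkB, Bool.and_eq_true, decide_eq_true_eq] at hc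
  obtain ⟨⟨⟨⟨c1, c2⟩, c3⟩, c4⟩, c5⟩ := hc
  have hz := List.of_mem_zip (show (x.1, x.2) ∈ _ from hx)
  have hz1 := List.of_mem_zip (show (x.1.1, x.1.2) ∈ _ from hz.1)
  have hz2 := List.of_mem_zip (show (x.2.1, x.2.2) ∈ _ from hz.2)
  have hH := chain_H chain8 hz1.1
  have hle := chain_le chain8 hz1.1
  have hy8 : (8 : ℝ) ≤ 16 * y := by
    refine le_trans ?_ h1
    exact_mod_cast hle
  have hR : ∀ k, R8 k y = x.1.1.val M8 k y := fun k => by
    rw [R8_tail k (by linarith only [hy8])]
    exact pw_of_mem chain8 hz1.1 k h1 h2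
  have hK : ∀ k, kf i k y = x.1.2.val M8 k y := fun k => by
    rw [kf_tail i k (by linarith only [hy8])]
    exact pw_of_mem (kchain i) hz1.2 k (by rw [c1, c2]; exact h1) (by rw [c1, c2]; exact h2)
  refine ⟨c1, c2, c3, c4, hH, c5, abs_v_le hH h1 h2, by omega, hR, hK, ?_, fun k => ?_⟩
  · rw [rh8_tail 0 (by linarith only [hy8])]
    exact pw_of_mem rch8 hz2.1 0 (by rw [c3, c4]; exact h1) (by rw [c3, c4]; exact h2)
  · rw [Gf, GZ, funext hR, funext hK]

/-- steps from the master list -/
def stp (B : Cell → Cell → Cell → ℤ → ℤ) (x : (Cell × Cell) × (Cell × ℤ)) : Stp :=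
  ⟨x.1.1.C - x.1.1.H, x.1.1.C + x.1.1.H, B x.1.1 x.1.2 x.2.1 x.2.2⟩

theorem SCh_stp (B : Cell → Cell → Cell → ℤ → ℤ) (l : List ((Cell × Cell) × (Cell × ℤ))) (r : ℤ)
    (h : SCh (l.map (stp (fun _ _ _ _ => 0))) r = true) : SCh (l.map (stp B)) r = true := by
  induction l generalizing r with
  | nil => rfl
  | cons x l ih =>
    simp only [List.map_cons, SCh, Bool.and_eq_true, decide_eq_true_eq] at h ⊢
    exact ⟨h.1, ih _ h.2⟩

theorem srend_stp (B : Cell → Cell → Cell → ℤ → ℤ) (l : List ((Cell × Cell) × (Cell × ℤ)))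
    (r : ℤ) : srend (l.map (stp B)) r = srend (l.map (stp (fun _ _ _ _ => 0))) r := by
  induction l generalizing r with
  | nil => rfl
  | cons x l ih =>
    simp only [List.map_cons, srend]
    exact ih _

theorem mSCh0 : SCh ((master 0).map (stp (fun _ _ _ _ => 0))) 8 = true := by (clear * -; decide +kernel)

theorem mSCh1 : SCh ((master 1).map (stp (fun _ _ _ _ => 0))) 8 = true := by (clear * -; decide +kernel)

theorem mSCh : ∀ i : Fin 2, SCh ((master i).map (stp (fun _ _ _ _ => 0))) 8 = true
  | 0 => mSCh0
  | 1 => mSCh1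

theorem msr0 : srend ((master 0).map (stp (fun _ _ _ _ => 0))) 8 = 4096 := by (clear * -; decide +kernel)

theorem msr1 : srend ((master 1).map (stp (fun _ _ _ _ => 0))) 8 = 4096 := by (clear * -; decide +kernel)

theorem msrend : ∀ i : Fin 2, srend ((master i).map (stp (fun _ _ _ _ => 0))) 8 = 4096
  | 0 => msr0
  | 1 => msr1

/-- every `y ∈ [1/2, 256)` lies in a cell of the master list -/
theorem exists_step (L : List Stp) (r : ℤ) (hL : SCh L r = true) {x : ℝ} (h1 : (r : ℝ) ≤ x)
    (h2 : x < ((srend L r : ℤ) : ℝ)) : ∃ p ∈ L, (p.a : ℝ) ≤ x ∧ x < (p.b : ℝ) := by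
  induction L generalizing r with
  | nil => exact absurd h1 (not_le.2 h2)
  | cons p L ih =>
    simp only [SCh, Bool.and_eq_true, decide_eq_true_eq] at hL
    obtain ⟨⟨ha, hab⟩, hL'⟩ := hL
    by_cases h : x < (p.b : ℝ)
    · exact ⟨p, by simp, by rw [ha]; exact h1, h⟩
    · obtain ⟨q, hq, h3⟩ := ih p.b hL' (not_lt.1 h) h2
      exact ⟨q, List.mem_cons_of_mem _ hq, h3⟩

theorem exists_cell (i : Fin 2) {y : ℝ} (h1 : 8 ≤ 16 * y) (h2 : 16 * y < 4096) :
    ∃ x ∈ master i, ((x.1.1.C - x.1.1.H : ℤ) : ℝ) ≤ 16 * y ∧
      16 * y < ((x.1.1.C + x.1.1.H : ℤ) : ℝ) := by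
  obtain ⟨p, hp, h3⟩ := exists_step _ 8 (mSCh i) (x := 16 * y) (by push_cast; exact h1)
    (by rw [msrend]; push_cast; exact h2)
  obtain ⟨x, hx, rfl⟩ := List.mem_map.1 hp
  exact ⟨x, hx, h3⟩

/-- `ψ_i = R² k_i` -/
theorem psi_eq (i : Fin 2) (z : ℝ) : Rz z ^ 2 * kf i 0 (exp z) = Gf i 0 (exp z) := by
  rw [Gf, Lz_v0, Rz]; ring

theorem cdiv_nonneg {x d : ℤ} (hx : 0 ≤ x) (hd : 0 ≤ d) : 0 ≤ cdiv x d := by
  have := Int.ediv_nonneg hx hd
  unfold cdiv; omega

end P264.H3
end
end

section

section

/-!
# P264 / H3 / Int0 : the master list with the tabulated bounds (helper288)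
-/

open P264.Prof

namespace P264.H3

/-- the eigenvalues `lp i / lq i` -/
def lp : Fin 2 → ℤ
  | 0 => 1
  | 1 => 49578

/-- denominators -/
def lq : Fin 2 → ℤ
  | 0 => 1
  | 1 => 100000

theorem lq_pos : ∀ i, 0 < lq i
  | 0 => by decide
  | 1 => by decide

/-- bounds for (H3r) -/
def utab : Fin 2 → List ℤ
  | 0 => utab0
  | 1 => utab1

/-- bounds for (H3p) -/
def wtab : Fin 2 → List ℤ
  | 0 => wtab0
  | 1 => wtab1

/-- entry of the extended master list -/
abbrev Ent := ((Cell × Cell) × (Cell × ℤ)) × (ℤ × ℤ)

/-- the master list with the tabulated bounds -/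
def mrp (i : Fin 2) : List Ent := (master i).zip ((utab i).zip (wtab i))

/-- the check of a cell -/
def rpB (i : Fin 2) (x : Ent) : Bool :=
  rpchk 512 M8 M8 60 40 (lp i) (lq i) x.1.1.1 x.1.1.2 x.1.2.2 x.2.1 x.2.2

/-- steps of the extended master list -/
def stpT (f : ℤ × ℤ → ℤ) (x : Ent) : Stp :=
  ⟨x.1.1.1.C - x.1.1.1.H, x.1.1.1.C + x.1.1.1.H, f x.2⟩

/-- chain, right end and sum of the steps -/
def mrpchk (i : Fin 2) (f : ℤ × ℤ → ℤ) (a b : ℤ) : Bool :=
  SCh ((mrp i).map (stpT f)) 8 && decide (srend ((mrp i).map (stpT f)) 8 = 4096) &&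
    decide (ssum ((mrp i).map (stpT f)) * b ≤ a * 2 ^ 60)

theorem mrpu0 : mrpchk 0 Prod.fst 2 100000 = true := by (clear * -; decide +kernel)

theorem mrpu1 : mrpchk 1 Prod.fst 2 100000 = true := by (clear * -; decide +kernel)

theorem mrpw0 : mrpchk 0 Prod.snd 8 100 = true := by (clear * -; decide +kernel)

theorem mrpw1 : mrpchk 1 Prod.snd 8 100 = true := by (clear * -; decide +kernel)

theorem mrpu : ∀ i : Fin 2, mrpchk i Prod.fst 2 100000 = true
  | 0 => mrpu0
  | 1 => mrpu1

theorem mrpw : ∀ i : Fin 2, mrpchk i Prod.snd 8 100 = true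
  | 0 => mrpw0
  | 1 => mrpw1

end P264.H3
end
end

section

section

/-!
# P264 / H3 / SumR0 : kernel evaluation of the cell checks for (H3r), (H3p), `i = 0` (helper288)
-/

open P264.Prof

namespace P264.H3

theorem rpall0a : ((mrp 0).take 60).all (rpB 0) = true := by (clear * -; decide +kernel)

theorem rpall0b : ((mrp 0).drop 60).all (rpB 0) = true := by (clear * -; decide +kernel)

theorem rpall0 : (mrp 0).all (rpB 0) = true := by
  rw [← List.take_append_drop 60 (mrp 0), List.all_append, rpall0a, rpall0b]; rfl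

end P264.H3
end
end

section

section

/-!
# P264 / H3 / SumR1 : kernel evaluation of the cell checks for (H3r), (H3p), `i = 1` (helper288)
-/

open P264.Prof

namespace P264.H3

theorem rpall1a : ((mrp 1).take 60).all (rpB 1) = true := by (clear * -; decide +kernel)

theorem rpall1b : ((mrp 1).drop 60).all (rpB 1) = true := by (clear * -; decide +kernel)

theorem rpall1 : (mrp 1).all (rpB 1) = true := by
  rw [← List.take_append_drop 60 (mrp 1), List.all_append, rpall1a, rpall1b]; rfl

end P264.H3
end
end

section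

section

/-!
# P264 / H3 / Int : the scalar bounds (H3) (helper288)

For every `ρ` with `ρ z = rh8 0 (e^z) e^{-z}`, `psi i z = Rz z ^ 2 * kf i 0 (exp z)`.
-/

open MeasureTheory Set Filter Real
open P264.Prof P264.B

namespace P264.H3

def fq (s t _r : Cell) (τ : ℤ) : ℤ := Bq M8 M8 60 40 s t τ

def f2 (s _t r : Cell) (τ : ℤ) : ℤ := B2 M8 60 40 MR8 s (highB r.c) τ

theorem sumq0 : ssum ((master 0).map (stp fq)) * 1000 ≤ 85 * 2 ^ 60 := by (clear * -; decide +kernel)

theorem sumq1 : ssum ((master 1).map (stp fq)) * 1000 ≤ 85 * 2 ^ 60 := by (clear * -; decide +kernel)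

theorem sum2 : ssum ((master 0).map (stp f2)) * 10 ≤ 262 * 2 ^ 60 := by (clear * -; decide +kernel)

/-- check for `H3inf` -/
def infB (x : (Cell × Cell) × (Cell × ℤ)) : Bool :=
  decide (x.2.2 * 2 ^ M8 * 10 ≤ 39 * lowB x.1.1.c * 2 ^ 40)

theorem infchk : (master 0).all infB = true := by (clear * -; decide +kernel)

theorem first_G : GP M8 first8 = 0 :: 0 :: 0 :: (GP M8 first8).drop 3 := by (clear * -; decide +kernel)

theorem first_Gs : sabs ((GP M8 first8).drop 3) * 8 ≤ 2 ^ M8 * 8 ^ 4 := by (clear * -; decide +kernel)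

theorem rpall : ∀ i : Fin 2, (mrp i).all (rpB i) = true
  | 0 => rpall0
  | 1 => rpall1

theorem sumq : ∀ i : Fin 2, ssum ((master i).map (stp fq)) * 1000 ≤ 85 * 2 ^ 60
  | 0 => sumq0
  | 1 => sumq1

/-! ## nonnegativity of the bounds -/

theorem master_pos {i : Fin 2} {x : (Cell × Cell) × (Cell × ℤ)} (hx : x ∈ master i) :
    0 < x.1.1.H ∧ 0 < lowB x.1.1.c ∧ 0 < x.1.1.C - x.1.1.H := by
  have hc := List.all_eq_true.1 (masterchk i) x hx
  simp only [mchkB, Bool.and_eq_true, decide_eq_true_eq] at hc
  have hz := List.of_mem_zip (show (x.1, x.2) ∈ _ from hx)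
  have hz1 := List.of_mem_zip (show (x.1.1, x.1.2) ∈ _ from hz.1)
  have hH := chain_H chain8 hz1.1
  have hle := chain_le chain8 hz1.1
  exact ⟨hH, hc.2, by omega⟩

theorem high_nonneg {i : Fin 2} {x : (Cell × Cell) × (Cell × ℤ)} (hx : x ∈ master i) :
    0 ≤ highB x.2.1.c := by
  have hz := List.of_mem_zip (show (x.1, x.2) ∈ _ from hx)
  have hz2 := List.of_mem_zip (show (x.2.1, x.2.2) ∈ _ from hz.2)
  have hall : rcells8.tail.all (fun r => decide (0 ≤ highB r.c)) = true := by (clear * -; decide +kernel)
  simpa only [ge_iff_le, decide_eq_true_eq] using List.all_eq_true.1 hall x.2.1 hz2.1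

theorem deriv_psi (i : Fin 2) (z : ℝ) :
    deriv (fun z => Rz z ^ 2 * kf i 0 (exp z)) z = exp z * Gf i 1 (exp z) := by
  have : (fun z => Rz z ^ 2 * kf i 0 (exp z)) = fun z => Gf i 0 (exp z) := funext (psi_eq i)
  rw [this]
  exact deriv_exp (Gfam i) z

theorem piDadj_psi (i : Fin 2) (z : ℝ) :
    piDadj (fun s => exp (-2 * s) * (Rz s ^ 2 * kf i 0 (exp s))) z =
      exp z ^ 2 * Gf i 4 (exp z) - 14 * (exp z * Gf i 3 (exp z)) + 56 * Gf i 2 (exp z) := by
  have : (fun s => exp (-2 * s) * (Rz s ^ 2 * kf i 0 (exp s))) =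
      fun s => exp (-2 * s) * Gf i 0 (exp s) := by
    funext s; rw [psi_eq]
  rw [this]
  exact piDadj_exp (Gfam i) z

theorem sqrt_le_tab {b : ℝ} {τ : ℤ} (hτ : 0 ≤ τ) (hb : b ≤ ((τ : ℝ) / 2 ^ 40) ^ 2) :
    √b ≤ (τ : ℝ) / 2 ^ 40 := by
  have h0 : (0 : ℝ) ≤ (τ : ℝ) / 2 ^ 40 := by
    have : (0 : ℝ) ≤ (τ : ℝ) := by exact_mod_cast hτ
    positivity
  calc √b ≤ √(((τ : ℝ) / 2 ^ 40) ^ 2) := Real.sqrt_le_sqrt hb
    _ = _ := Real.sqrt_sq h0

/-- generic: a nonnegative function supported in `1/2 ≤ e^z < 256`, with a bound on each cell of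
the master list -/
theorem int_master {F : ℝ → ℝ} (hF : ∀ z, 0 ≤ F z) (i : Fin 2)
    (B : Cell → Cell → Cell → ℤ → ℤ) (hB : ∀ x ∈ master i, 0 ≤ B x.1.1 x.1.2 x.2.1 x.2.2)
    (h1 : ∀ z, 16 * exp z < 8 → F z = 0) (h3 : ∀ z, 4096 ≤ 16 * exp z → F z = 0)
    (h2 : ∀ x ∈ master i, ∀ z, ((x.1.1.C - x.1.1.H : ℤ) : ℝ) ≤ 16 * exp z →
      16 * exp z < ((x.1.1.C + x.1.1.H : ℤ) : ℝ) →
        F z ≤ (B x.1.1 x.1.2 x.2.1 x.2.2 : ℝ) / 2 ^ 60)
    {a b : ℤ} (hb : 0 < b) (hsum : ssum ((master i).map (stp B)) * b ≤ a * 2 ^ 60) :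
    ∫ z, F z ≤ (a : ℝ) / b := by
  have h := integral_le_steps0 (S := 60) hF ((master i).map (stp B)) 8 (by norm_num)
    (SCh_stp B _ 8 (mSCh i))
    (by
      intro p hp
      obtain ⟨x, hx, rfl⟩ := List.mem_map.1 hp
      exact hB x hx)
    (fun z hz => h1 z (by push_cast at hz; exact hz))
    (by
      intro p hp z hz1 hz2
      obtain ⟨x, hx, rfl⟩ := List.mem_map.1 hp
      exact h2 x hx z hz1 hz2)
    (fun z hz => h3 z (by rw [srend_stp, msrend] at hz; push_cast at hz; exact hz))
  refine h.trans ?_
  have hb' : (0 : ℝ) < b := by exact_mod_cast hb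
  rw [div_le_div_iff₀ (by positivity) hb']
  exact_mod_cast hsum

/-- the same with tabulated bounds -/
theorem int_mrp {F : ℝ → ℝ} (hF : ∀ z, 0 ≤ F z) (i : Fin 2) (f : ℤ × ℤ → ℤ) {a b : ℤ}
    (hc : mrpchk i f a b = true) (hB : ∀ x ∈ mrp i, 0 ≤ f x.2)
    (h1 : ∀ z, 16 * exp z < 8 → F z = 0) (h3 : ∀ z, 4096 ≤ 16 * exp z → F z = 0)
    (h2 : ∀ x ∈ mrp i, ∀ z, ((x.1.1.1.C - x.1.1.1.H : ℤ) : ℝ) ≤ 16 * exp z →
      16 * exp z < ((x.1.1.1.C + x.1.1.1.H : ℤ) : ℝ) → F z ≤ (f x.2 : ℝ) / 2 ^ 60)
    (hb : 0 < b) : ∫ z, F z ≤ (a : ℝ) / b := by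
  rw [mrpchk, Bool.and_eq_true, Bool.and_eq_true, decide_eq_true_eq, decide_eq_true_eq] at hc
  obtain ⟨⟨hS, hr⟩, hsum⟩ := hc
  have h := integral_le_steps0 (S := 60) hF ((mrp i).map (stpT f)) 8 (by norm_num) hS
    (by
      intro p hp
      obtain ⟨x, hx, rfl⟩ := List.mem_map.1 hp
      exact hB x hx)
    (fun z hz => h1 z (by push_cast at hz; exact hz))
    (by
      intro p hp z hz1 hz2
      obtain ⟨x, hx, rfl⟩ := List.mem_map.1 hp
      exact h2 x hx z hz1 hz2)
    (fun z hz => h3 z (by rw [hr] at hz; push_cast at hz; exact hz))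
  refine h.trans ?_
  have hb' : (0 : ℝ) < b := by exact_mod_cast hb
  rw [div_le_div_iff₀ (by positivity) hb']
  exact_mod_cast hsum

theorem mrp_mem {i : Fin 2} {x : Ent} (hx : x ∈ mrp i) : x.1 ∈ master i :=
  (List.of_mem_zip (show (x.1, x.2) ∈ _ from hx)).1

section

variable {ρ : ℝ → ℝ} (hρ : ∀ z, ρ z = rh8 0 (exp z) * exp (-z)) (hm : Measurable ρ)

include hρ hm

theorem tab_at {i : Fin 2} {x : (Cell × Cell) × (Cell × ℤ)} (hx : x ∈ master i) {z : ℝ}
    (h1 : ((x.1.1.C - x.1.1.H : ℤ) : ℝ) ≤ 16 * exp z)
    (h2 : 16 * exp z < ((x.1.1.C + x.1.1.H : ℤ) : ℝ)) :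
    0 ≤ x.2.2 ∧ bsq ρ z ≤ ((x.2.2 : ℝ) / 2 ^ 40) ^ 2 := by
  have hc := atCell hx h1 h2
  have hz := List.of_mem_zip (show (x.1, x.2) ∈ _ from hx)
  have ht := bsq_tab hρ hm x.2 hz.2
  refine ⟨ht.1, ht.2 z ?_ ?_⟩
  · rw [hc.rC, hc.rH]; exact h1
  · rw [hc.rC, hc.rH]; exact h2

theorem tab_nonneg {i : Fin 2} {x : (Cell × Cell) × (Cell × ℤ)} (hx : x ∈ master i) :
    0 ≤ x.2.2 := by
  have hz := List.of_mem_zip (show (x.1, x.2) ∈ _ from hx)
  exact (bsq_tab hρ hm x.2 hz.2).1

theorem H3r_main (i : Fin 2) : ∫ z, |(1 / 2) * deriv (fun z => Rz z ^ 2 * kf i 0 (exp z)) z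
      - Rz z ^ 2 * piDadj (fun s => exp (-2 * s) * (Rz s ^ 2 * kf i 0 (exp s))) z
      - (lp i : ℝ) / lq i * (Rz z ^ 2 * kf i 0 (exp z))|
        / Rz z ^ 2 * √(bsq ρ z) ≤ 2 / 10 ^ 5 := by
  have h := int_mrp (F := fun z => |(1 / 2) * deriv (fun z => Rz z ^ 2 * kf i 0 (exp z)) z
      - Rz z ^ 2 * piDadj (fun s => exp (-2 * s) * (Rz s ^ 2 * kf i 0 (exp s))) z
      - (lp i : ℝ) / lq i * (Rz z ^ 2 * kf i 0 (exp z))| / Rz z ^ 2 * √(bsq ρ z))
    (fun z => by positivity) i Prod.fst (mrpu i)
    (fun x hx => (rpchk_spec (List.all_eq_true.1 (rpall i) x hx)).2.1)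
    (fun z hz => by
      simp only [deriv_psi, piDadj_psi]
      simp only [psi_eq]
      rw [Gf_first i 0 hz, Gf_first i 1 hz, Gf_first i 2 hz, Gf_first i 3 hz, Gf_first i 4 hz]
      simp only [one_div, mul_zero, sub_self, add_zero, abs_zero, zero_div, zero_mul])
    (fun z hz => by
      simp only [deriv_psi, piDadj_psi]
      simp only [psi_eq]
      rw [Gf_right i 0 hz, Gf_right i 1 hz, Gf_right i 2 hz, Gf_right i 3 hz, Gf_right i 4 hz]
      simp only [one_div, mul_zero, sub_self, add_zero, abs_zero, zero_div, zero_mul])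
    (fun x hx z h1 h2 => by
      simp only [deriv_psi, piDadj_psi]
      simp only [psi_eq]
      have hc := atCell (mrp_mem hx) h1 h2
      have ht := tab_at hρ hm (mrp_mem hx) h1 h2
      rw [Rz, hc.R, hc.G, hc.G, hc.G, hc.G, hc.G]
      exact r_le (by norm_num) (lq_pos i) hc.tC hc.tH hc.H hc.low
        (List.all_eq_true.1 (rpall i) x hx) (Real.sqrt_nonneg _) (sqrt_le_tab ht.1 ht.2) hc.v)
    (by norm_num)
  refine h.trans (le_of_eq ?_)
  norm_num

theorem H3p_main (i : Fin 2) :
    ∫ z, |piDadj (fun s => exp (-2 * s) * (Rz s ^ 2 * kf i 0 (exp s))) z| * bsq ρ z / Rz z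
      ≤ 8 / 100 := by
  have hb0 := fun z => bsq_nonneg (rho_pos hρ) z
  have hR0 := fun z => (lt_of_lt_of_le (by (clear * -; norm_num)) (Rz_lower z) : 0 < Rz z)
  have h := int_mrp
    (F := fun z => |piDadj (fun s => exp (-2 * s) * (Rz s ^ 2 * kf i 0 (exp s))) z|
      * bsq ρ z / Rz z)
    (fun z => div_nonneg (mul_nonneg (abs_nonneg _) (hb0 z)) (hR0 z).le) i Prod.snd (mrpw i)
    (fun x hx => (rpchk_spec (List.all_eq_true.1 (rpall i) x hx)).2.2.1)
    (fun z hz => by
      simp only [piDadj_psi]
      rw [Gf_first i 2 hz, Gf_first i 3 hz, Gf_first i 4 hz]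
      simp only [mul_zero, sub_self, add_zero, abs_zero, zero_mul, zero_div])
    (fun z hz => by
      simp only [piDadj_psi]
      rw [Gf_right i 2 hz, Gf_right i 3 hz, Gf_right i 4 hz]
      simp only [mul_zero, sub_self, add_zero, abs_zero, zero_mul, zero_div])
    (fun x hx z h1 h2 => by
      simp only [piDadj_psi]
      have hc := atCell (mrp_mem hx) h1 h2
      have ht := tab_at hρ hm (mrp_mem hx) h1 h2
      rw [Rz, hc.R, hc.G, hc.G, hc.G]
      exact p_le (by norm_num) hc.tC hc.tH hc.H hc.low
        (List.all_eq_true.1 (rpall i) x hx) ht.2 hc.v)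
    (by norm_num)
  refine h.trans (le_of_eq ?_)
  norm_num

theorem H3q_main (i : Fin 2) :
    ∫ z, |Rz z ^ 2 * kf i 0 (exp z)| * bsq ρ z / Rz z ^ 3 ≤ 85 / 1000 := by
  have hb0 := fun z => bsq_nonneg (rho_pos hρ) z
  have hR0 := fun z => (lt_of_lt_of_le (by (clear * -; norm_num)) (Rz_lower z) : 0 < Rz z)
  have h := int_master
    (F := fun z => |Rz z ^ 2 * kf i 0 (exp z)| * bsq ρ z / Rz z ^ 3)
    (fun z => div_nonneg (mul_nonneg (abs_nonneg _) (hb0 z)) (pow_pos (hR0 z) 3).le) i fq
    (fun x hx => by
      have h1 := master_pos hx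
      have h2 := tab_nonneg hρ hm hx
      have h6 := h1.2.1
      exact cdiv_nonneg (by (clear * -; positivity)) (by positivity))
    (fun z hz => by
      simp only [psi_eq]
      rw [Gf_first i 0 hz]
      simp)
    (fun z hz => by
      simp only [psi_eq]
      rw [Gf_right i 0 hz]
      simp)
    (fun x hx z h1 h2 => by
      have hc := atCell hx h1 h2
      have ht := tab_at hρ hm hx h1 h2
      simp only [Rz]
      rw [hc.R, hc.K]
      exact Bq_le hc.tC hc.tH hc.low (hb0 z) ht.2 hc.v)
    (a := 85) (b := 1000) (by norm_num) (sumq i)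
  refine h.trans (le_of_eq ?_)
  norm_num

/-! ## (H32) -/

omit hρ hm in
theorem kap_far' {z : ℝ} (hy : 256 ≤ exp z) : |kap Rz z| ≤ 24 := by
  have hy0 := exp_pos z
  have e : (fun k => R8 k (exp z)) = fun k => tval B8 256 b8 k (exp z) := by
    funext k; exact R8_ge256 k hy
  rw [kap_Rz, e]
  have hw1 : (((256 : ℤ) : ℝ) / exp z) ^ 2 ≤ 1 := by
    have : ((256 : ℤ) : ℝ) / exp z ≤ 1 := (div_le_one hy0).2 (by push_cast; exact hy)
    exact pow_le_one₀ (by positivity) this
  have h1 := abs_ev_le_of_bernU' (by norm_num) _ GT_bern (u := (((256 : ℤ) : ℝ) / exp z) ^ 2)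
    (by positivity) hw1
  rw [ev_GT B8 256 b8 hy0, abs_mul, abs_of_pos (by positivity : (0 : ℝ) < 2 ^ B8)] at h1
  push_cast at h1
  have h2 : |Gop (exp z) fun k => tval B8 256 b8 k (exp z)| * 2 ^ B8 ≤ 24 * 2 ^ B8 := by
    simpa only [Nat.ofNat_pos, pow_pos, mul_le_mul_iff_left₀, div_one] using h1
  exact le_of_mul_le_mul_right h2 (by positivity)

omit hρ hm in
theorem kap_first {z : ℝ} (hz : 16 * exp z < 8) : |kap Rz z| ≤ exp z ^ 3 := by
  have hy0 := exp_pos z
  have e : (fun k => R8 k (exp z)) = fun k => first8.val M8 k (exp z) := by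
    funext k; exact R8_first k (exp z) (by linarith)
  rw [kap_Rz, e]
  have hC : first8.C = 0 := by (clear * -; decide +kernel)
  have hH : first8.H = 8 := by decide +kernel
  have hv : ((16 : ℝ) * exp z - first8.C) / first8.H = 2 * exp z := by
    rw [hC, hH]; push_cast; ring
  have h1 := ev_GP M8 first8 (by decide +kernel) (exp z)
  rw [hv, first_G, hH] at h1
  simp only [ev_cons] at h1
  have hv1 : |2 * exp z| ≤ 1 := by rw [abs_of_pos (by linarith only [hy0])]; linarith only [hz]
  have h2 := abs_ev_le ((GP M8 first8).drop 3) hv1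
  have h3 : (sabs ((GP M8 first8).drop 3) : ℝ) * 8 ≤ 2 ^ M8 * 8 ^ 4 := by
    exact_mod_cast first_Gs
  generalize ev ((GP M8 first8).drop 3) (2 * exp z) = E at h1 h2
  generalize (Gop (exp z) fun k => first8.val M8 k (exp z)) = X at h1 ⊢
  push_cast at h1
  have h4 : 8 * exp z ^ 3 * E = X * (8 ^ 4 * 2 ^ M8) := by rw [← h1]; ring
  have hpos : (0 : ℝ) < 8 ^ 4 * 2 ^ M8 := by positivity
  have h5 : |X| * (8 ^ 4 * 2 ^ M8) = 8 * exp z ^ 3 * |E| := by
    have := congrArg abs h4
    rw [abs_mul, abs_mul X, abs_of_pos hpos, abs_of_pos (by positivity)] at this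
    exact this.symm
  refine le_of_mul_le_mul_right ?_ hpos
  rw [h5]
  calc 8 * exp z ^ 3 * |E| ≤ 8 * exp z ^ 3 * (sabs ((GP M8 first8).drop 3) : ℝ) := by gcongr
    _ = exp z ^ 3 * ((sabs ((GP M8 first8).drop 3) : ℝ) * 8) := by ring
    _ ≤ exp z ^ 3 * (2 ^ M8 * 8 ^ 4) := by (clear * - h3; gcongr)
    _ = _ := by ring

omit hρ hm in
theorem exp_m2 (z : ℝ) : exp (-2 * z) = 1 / exp z ^ 2 := by
  rw [one_div, ← exp_nat_mul, ← exp_neg]; congr 1; push_cast; ring

omit hm in
theorem far_bound {z : ℝ} (hz : 256 ≤ exp z) :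
    exp (-2 * z) * kap Rz z ^ 2 * ρ z * bsq ρ z ≤ 193 * exp (-2 * z) := by
  have h1 := kap_far' hz
  have h2 := bsq_far hρ hz
  have h3 : kap Rz z ^ 2 ≤ 24 ^ 2 := by
    rw [← sq_abs]; exact pow_le_pow_left₀ (abs_nonneg _) h1 2
  have h4 : ρ z * bsq ρ z ≤ ρ z * (exp z * (1 / (3 * 5797))) :=
    mul_le_mul_of_nonneg_left h2 (rho_pos hρ z).le
  have h5 : ρ z * (exp z * (1 / (3 * 5797))) = rh8 0 (exp z) / (3 * 5797) := by
    rw [← rho_mul_exp hρ z]; ring
  have h6 : rh8 0 (exp z) ≤ 5798 := by
    rw [rh8_eq256 hz, div_le_iff₀ (by positivity)]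
    have : cr8 ≤ 5798 * 2 ^ MR8 := by (clear * -; decide +kernel)
    exact_mod_cast this
  have h7 : ρ z * bsq ρ z ≤ 5798 / (3 * 5797) := by
    rw [h5] at h4
    refine h4.trans ?_
    gcongr
  have h8 : 0 ≤ ρ z * bsq ρ z := mul_nonneg (rho_pos hρ z).le (bsq_nonneg (rho_pos hρ) z)
  have h9 : kap Rz z ^ 2 * (ρ z * bsq ρ z) ≤ 24 ^ 2 * (5798 / (3 * 5797)) :=
    mul_le_mul h3 h7 h8 (by norm_num)
  calc exp (-2 * z) * kap Rz z ^ 2 * ρ z * bsq ρ z
      = exp (-2 * z) * (kap Rz z ^ 2 * (ρ z * bsq ρ z)) := by ring
    _ ≤ exp (-2 * z) * (24 ^ 2 * (5798 / (3 * 5797))) :=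
        mul_le_mul_of_nonneg_left h9 (exp_pos _).le
    _ ≤ exp (-2 * z) * 193 := mul_le_mul_of_nonneg_left (by norm_num) (exp_pos _).le
    _ = _ := by ring

omit hm in
theorem first_bound {z : ℝ} (hz : 16 * exp z < 8) :
    exp (-2 * z) * kap Rz z ^ 2 * ρ z * bsq ρ z ≤ 1 / 2 * exp (4 * z) := by
  have hy0 := exp_pos z
  have h1 := kap_first hz
  have h2 := bsq_crude hρ z
  have h3 : kap Rz z ^ 2 ≤ (exp z ^ 3) ^ 2 := by
    rw [← sq_abs]; exact pow_le_pow_left₀ (abs_nonneg _) h1 2
  have h5 : ρ z * exp z = 1 := by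
    rw [rho_mul_exp hρ z, rh8_first hz]
  have h4 : ρ z * bsq ρ z ≤ 1 / 2 := by
    have := mul_le_mul_of_nonneg_left h2 (rho_pos hρ z).le
    rw [← mul_assoc, h5] at this
    refine this.trans ?_
    norm_num
  have h8 : 0 ≤ ρ z * bsq ρ z := mul_nonneg (rho_pos hρ z).le (bsq_nonneg (rho_pos hρ) z)
  have h9 : kap Rz z ^ 2 * (ρ z * bsq ρ z) ≤ (exp z ^ 3) ^ 2 * (1 / 2) :=
    mul_le_mul h3 h4 h8 (by positivity)
  have e4 : exp (4 * z) = exp z ^ 4 := by
    rw [← exp_nat_mul]; norm_num
  calc exp (-2 * z) * kap Rz z ^ 2 * ρ z * bsq ρ z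
      = exp (-2 * z) * (kap Rz z ^ 2 * (ρ z * bsq ρ z)) := by ring
    _ ≤ exp (-2 * z) * ((exp z ^ 3) ^ 2 * (1 / 2)) :=
        mul_le_mul_of_nonneg_left h9 (exp_pos _).le
    _ = 1 / 2 * exp (4 * z) := by
        rw [exp_m2, e4]; field_simp

theorem H32_main : ∫ z, exp (-2 * z) * kap Rz z ^ 2 * ρ z * bsq ρ z ≤ 27 := by
  have hb0 := fun z => bsq_nonneg (rho_pos hρ) z
  have hρ0 := fun z => rho_pos hρ z
  obtain ⟨hl1, hl2⟩ := integral_exp_left (1 / 2) (p := 4) (by norm_num) (log (((8 : ℤ) : ℝ) / 16))
  obtain ⟨hr1, hr2⟩ := integral_exp_right 193 (p := 2) (by norm_num)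
    (log (((4096 : ℤ) : ℝ) / 16))
  have hsr : srend ((master 0).map (stp f2)) 8 = 4096 := by rw [srend_stp, msrend]
  have h := integral_le_steps (S := 60)
    (F := fun z => exp (-2 * z) * kap Rz z ^ 2 * ρ z * bsq ρ z)
    (gl := fun z => 1 / 2 * exp (4 * z)) (gr := fun z => 193 * exp (-2 * z))
    (fun z => by
      have := hb0 z
      have := (hρ0 z).le
      (clear hm hl1 hl2 hr1 hr2 hsr; positivity))
    ((master 0).map (stp f2)) 8 (by norm_num) (SCh_stp f2 _ 8 (mSCh 0))
    (by
      intro p hp
      obtain ⟨x, hx, rfl⟩ := List.mem_map.1 hp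
      have h1 := master_pos hx
      have h2 := tab_nonneg hρ hm hx
      have h3 := high_nonneg hx
      have h5 := h1.1
      have h6 := h1.2.2
      exact cdiv_nonneg (by (clear * - h3; positivity)) (by (clear * - h5 h6; positivity)))
    hl1 (by rw [hsr]; exact hr1)
    (fun z hz => first_bound hρ (by push_cast at hz; exact hz))
    (by
      intro p hp z hz1 hz2
      obtain ⟨x, hx, rfl⟩ := List.mem_map.1 hp
      have hc := atCell hx hz1 hz2
      have ht := tab_at hρ hm hx hz1 hz2
      have hy0 := exp_pos z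
      have e1 : exp (-2 * z) * kap Rz z ^ 2 * ρ z * bsq ρ z =
          Gop (exp z) (fun k => x.1.1.val M8 k (exp z)) ^ 2 * rh8 0 (exp z) / exp z ^ 3 *
            bsq ρ z := by
        have e : (fun k => R8 k (exp z)) = fun k => x.1.1.val M8 k (exp z) := funext hc.R
        rw [kap_Rz, e, exp_m2, hρ, exp_neg]
        (clear * -; field_simp)
      rw [e1]
      have hσ0 : 0 ≤ rh8 0 (exp z) := (by norm_num : (0 : ℝ) ≤ 9999 / 10000).trans (rh8_low0 _)
      have hσ : rh8 0 (exp z) ≤ (highB x.2.1.c : ℝ) / 2 ^ MR8 := by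
        rw [hc.W]
        have hv : |(16 * exp z - x.2.1.C) / x.2.1.H| ≤ 1 := by rw [hc.rC, hc.rH]; exact hc.v
        have := le_highB x.2.1.c hv
        simp only [Cell.val, pow_zero, one_mul, pderk]
        (clear * - this; gcongr)
      exact B2_le hc.H hc.CH (hb0 z) ht.2 hσ0 hσ hz1 hc.v)
    (fun z hz => by
      rw [hsr] at hz
      push_cast at hz
      exact far_bound hρ (by linarith only [hz]))
  rw [hsr, hl2, hr2] at h
  have e1 : exp (4 * log (((8 : ℤ) : ℝ) / 16)) = (1 / 2) ^ 4 := by
    have : (4 : ℝ) * log (((8 : ℤ) : ℝ) / 16) = ((4 : ℕ) : ℝ) * log (((8 : ℤ) : ℝ) / 16) := by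
      norm_num
    rw [this, exp_nat_mul, exp_log (by norm_num)]; norm_num
  have e2 : exp (-2 * log (((4096 : ℤ) : ℝ) / 16)) = 1 / 256 ^ 2 := by
    rw [exp_m2, exp_log (by norm_num)]; norm_num
  rw [e1, e2] at h
  have h3 : ((ssum ((master 0).map (stp f2)) : ℤ) : ℝ) / 2 ^ 60 ≤ 262 / 10 := by
    have h4 : (ssum ((master 0).map (stp f2)) : ℝ) * 10 ≤ 262 * 2 ^ 60 := by
      exact_mod_cast sum2
    rw [div_le_div_iff₀ (by positivity) (by norm_num)]
    exact h4
  refine h.trans ?_
  linarith only [h3]

omit hm in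
theorem H32f_main :
    ∫ z in Ioi (12 : ℝ), exp (-2 * z) * kap Rz z ^ 2 * ρ z * bsq ρ z ≤ 1 / 1000000 := by
  have hb0 := fun z => bsq_nonneg (rho_pos hρ) z
  have hρ0 := fun z => rho_pos hρ z
  obtain ⟨hr1, hr2⟩ := integral_exp_right 193 (p := 2) (by norm_num) 12
  have hr1' : IntegrableOn (fun z : ℝ => 193 * exp (-2 * z)) (Ioi 12) :=
    hr1.mono_set Ioi_subset_Ici_self
  have h : ∫ z in Ioi (12 : ℝ), exp (-2 * z) * kap Rz z ^ 2 * ρ z * bsq ρ z ≤
      ∫ z in Ioi (12 : ℝ), 193 * exp (-2 * z) := by
    refine integral_mono_of_nonneg ?_ hr1' ?_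
    · refine Eventually.of_forall fun z => ?_
      have := hb0 z
      have := (hρ0 z).le
      (clear hr1 hr2 hr1'; positivity)
    · rw [EventuallyLE, ae_restrict_iff' measurableSet_Ioi]
      refine Eventually.of_forall fun z hz => ?_
      exact far_bound hρ (exp6 (by have : (12 : ℝ) < z := hz; linarith only [this]))
  rw [← integral_Ici_eq_integral_Ioi (x := (12 : ℝ)) (f := fun z : ℝ => 193 * exp (-2 * z)),
    hr2] at h
  refine h.trans ?_
  have h1 : (2.7182818283 : ℝ) < exp 1 := Real.exp_one_gt_d9
  have h2 : exp 24 = exp 1 ^ 24 := by rw [← Real.exp_nat_mul]; norm_num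
  have h4 : (2.7 : ℝ) ^ 24 ≤ exp 1 ^ 24 := pow_le_pow_left₀ (by norm_num) (by linarith only [h1]) 24
  have h5 : exp (-2 * (12 : ℝ)) = (exp 24)⁻¹ := by rw [← exp_neg]; norm_num
  have h6 : (10 : ℝ) ^ 8 ≤ exp 24 := by
    rw [h2]; refine le_trans ?_ h4; norm_num
  have h7 : (exp 24)⁻¹ ≤ ((10 : ℝ) ^ 8)⁻¹ := inv_anti₀ (by norm_num) h6
  rw [h5]
  have : (193 : ℝ) * ((exp 24)⁻¹ / 2) ≤ 193 * (((10 : ℝ) ^ 8)⁻¹ / 2) := by gcongr
  refine this.trans ?_
  norm_num

theorem H3inf_main : ∀ z ≤ (12 : ℝ), √(bsq ρ z) ≤ 39 / 10 * Rz z := by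
  intro z hz
  have hy0 := exp_pos z
  by_cases h1 : 16 * exp z < 8
  · have h2 := bsq_crude hρ z
    have h3 : bsq ρ z ≤ (41 / 100) ^ 2 := by
      refine h2.trans ?_
      have : exp z ≤ 1 / 2 := by linarith only [h1]
      calc exp z * (1 / (3 * (9999 / 10000))) ≤ 1 / 2 * (1 / (3 * (9999 / 10000))) := by (clear * - this; gcongr)
        _ ≤ _ := by norm_num
    have h4 : √(bsq ρ z) ≤ 41 / 100 := by
      rw [Real.sqrt_le_left (by norm_num)]; exact h3
    have h5 := Rz_lower z
    linarith only [h4, h5]
  · by_cases h2 : 16 * exp z < 4096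
    · obtain ⟨x, hx, h3, h4⟩ := exists_cell 0 (not_lt.1 h1) h2
      have hc := atCell hx h3 h4
      have ht := tab_at hρ hm hx h3 h4
      refine (sqrt_le_tab ht.1 ht.2).trans ?_
      have hi := List.all_eq_true.1 infchk x hx
      simp only [infB, decide_eq_true_eq] at hi
      have hi' : (x.2.2 : ℝ) * 2 ^ M8 * 10 ≤ 39 * (lowB x.1.1.c : ℝ) * 2 ^ 40 := by
        exact_mod_cast hi
      have hR := low_le M8 x.1.1 hc.v
      rw [← hc.R] at hR
      have h5 : (x.2.2 : ℝ) / 2 ^ 40 ≤ 39 / 10 * ((lowB x.1.1.c : ℝ) / 2 ^ M8) := by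
        rw [div_le_iff₀ (by positivity)]
        have e : 39 / 10 * ((lowB x.1.1.c : ℝ) / 2 ^ M8) * 2 ^ 40 =
          (39 * (lowB x.1.1.c : ℝ) * 2 ^ 40) / (10 * 2 ^ M8) := by
          field_simp
        rw [e, le_div_iff₀ (by positivity)]
        linarith only [hi']
      refine h5.trans ?_
      have : (lowB x.1.1.c : ℝ) / 2 ^ M8 ≤ Rz z := hR
      linarith only [this]
    · have hy : 256 ≤ exp z := by linarith only [h2]
      have h3 := bsq_far hρ hy
      have h4 : exp z ≤ 162800 := by
        have h5 : exp z ≤ exp 12 := exp_le_exp.2 hz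
        have h6 : exp 12 = exp 1 ^ 12 := by rw [← Real.exp_nat_mul]; norm_num
        have h7 : exp 1 ^ 12 ≤ (2.7182818286 : ℝ) ^ 12 :=
          pow_le_pow_left₀ (exp_pos 1).le Real.exp_one_lt_d9.le 12
        refine h5.trans ?_
        rw [h6]
        refine h7.trans ?_
        norm_num
      have h5 : bsq ρ z ≤ (31 / 10) ^ 2 := by
        refine h3.trans ?_
        calc exp z * (1 / (3 * 5797)) ≤ 162800 * (1 / (3 * 5797)) := by (clear * - h4; gcongr)
          _ ≤ _ := by norm_num
      have h6 : √(bsq ρ z) ≤ 31 / 10 := by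
        rw [Real.sqrt_le_left (by norm_num)]; exact h5
      have h7 := (tail_range8 hy).1
      have h8 : Rz z = tval B8 256 b8 0 (exp z) := R8_ge256 0 hy
      rw [h8]
      linarith only [h6, h7]

end

end P264.H3
end
end

section

section

/-!
# P264 / B / Far / AaCont : modules D18 `aa_lip` and D18' `aa_cont`
-/

open MeasureTheory Set Filter Real
open scoped ContDiff Topology

namespace P264.B

end P264.B
end
end
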